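import Vale.Agent.P226.CertBox
import Vale.Agent.P226.CertSound

/-! Part 0 of the cover (P226). -/

namespace Vale.Agent.P226.Cert

set_option maxHeartbeats 4000000 in
/-- One subtree of the cover. -/
theorem sub00_good : BoxGood
    (((((((root.setHiD (qm 2048)).setHiD (qm 1024)).setHiU (qm 512)).setHiA (qm 2048)).setHiD (qm
    512)).setHiU (qm 256)).setHiA (qm 1024)) :=
    (good_splitD (qm 256)
    (good_splitU (qm 128)
    (good_splitW (qm 64)
    (good_splitU (qm 64)
    (good_splitD (qm 128)
    (good_splitU (qm 32)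
    (good_splitD (qm 64)
    (good_of_check
    (R .u3 2111203 11143120 5931640 5526869 14262944 1209373 0 11863286 0 0 0 0 0 0 0 0 1482913
    10911593)
    ((((((((((((((root.setHiD (qm 2048)).setHiD (qm 1024)).setHiU (qm 512)).setHiA (qm
    2048)).setHiD (qm 512)).setHiU (qm 256)).setHiA (qm 1024)).setHiD (qm 256)).setHiU (qm
    128)).setHiW (qm 64)).setHiU (qm 64)).setHiD (qm 128)).setHiU (qm 32)).setHiD (qm 64))
    (by decide +kernel))
    (good_of_check
    (R .u3 2293540 9108877 5931640 5439488 14087131 957548 0 11863286 0 0 0 0 0 0 0 0 1482913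
    8986016)
    ((((((((((((((root.setHiD (qm 2048)).setHiD (qm 1024)).setHiU (qm 512)).setHiA (qm
    2048)).setHiD (qm 512)).setHiU (qm 256)).setHiA (qm 1024)).setHiD (qm 256)).setHiU (qm
    128)).setHiW (qm 64)).setHiU (qm 64)).setHiD (qm 128)).setHiU (qm 32)).setLoD (qm 64))
    (by decide +kernel)))
    (good_splitU (qm 48)
    (good_splitD (qm 64)
    (good_of_check
    (R .t4n 2139766 11493733 5931640 5494101 14300682 1161898 1387133 11851695 (-5130683) 139207
    1387133 1738869 0 0 0 0 1816189 13532832)
    (((((((((((((((root.setHiD (qm 2048)).setHiD (qm 1024)).setHiU (qm 512)).setHiA (qm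
    2048)).setHiD (qm 512)).setHiU (qm 256)).setHiA (qm 1024)).setHiD (qm 256)).setHiU (qm
    128)).setHiW (qm 64)).setHiU (qm 64)).setHiD (qm 128)).setLoU (qm 32)).setHiU (qm 48)).setHiD
    (qm 64))
    (by decide +kernel))
    (good_of_check
    (R .u5 1761584 10813855 5931640 5406720 14139424 958903 1482908 11863286 16720 (-88) 1482908
    1816189 5573 42 0 1816189 1816189 7464525)
    (((((((((((((((root.setHiD (qm 2048)).setHiD (qm 1024)).setHiU (qm 512)).setHiA (qm
    2048)).setHiD (qm 512)).setHiU (qm 256)).setHiA (qm 1024)).setHiD (qm 256)).setHiU (qm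
    128)).setHiW (qm 64)).setHiU (qm 64)).setHiD (qm 128)).setLoU (qm 32)).setHiU (qm 48)).setLoD
    (qm 64))
    (by decide +kernel)))
    (good_splitD (qm 64)
    (good_of_check
    (R .t4n 2249894 11100055 5931640 5472256 14232360 1009879 1738864 11851695 (-2906650) 113144
    1738864 2030561 0 0 0 0 2097154 14201818)
    (((((((((((((((root.setHiD (qm 2048)).setHiD (qm 1024)).setHiU (qm 512)).setHiA (qm
    2048)).setHiD (qm 512)).setHiU (qm 256)).setHiA (qm 1024)).setHiD (qm 256)).setHiU (qm
    128)).setHiW (qm 64)).setHiU (qm 64)).setHiD (qm 128)).setLoU (qm 32)).setLoU (qm 48)).setHiD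
    (qm 64))
    (by decide +kernel))
    (good_of_check
    (R .u5 1829632 10581605 5931640 5384875 14077179 847020 1816184 11863286 1438511 (-16815)
    1816184 2097154 359628 43 0 2097154 2097154 8739609)
    (((((((((((((((root.setHiD (qm 2048)).setHiD (qm 1024)).setHiU (qm 512)).setHiA (qm
    2048)).setHiD (qm 512)).setHiU (qm 256)).setHiA (qm 1024)).setHiD (qm 256)).setHiU (qm
    128)).setHiW (qm 64)).setHiU (qm 64)).setHiD (qm 128)).setLoU (qm 32)).setLoU (qm 48)).setLoD
    (qm 64))
    (by decide +kernel)))))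
    (good_splitU (qm 32)
    (good_splitD (qm 192)
    (good_of_check
    (R .u3 2458659 7617527 5931640 5352107 13859664 775260 0 11863286 0 0 0 0 0 0 0 0 1482913
    7596880)
    ((((((((((((((root.setHiD (qm 2048)).setHiD (qm 1024)).setHiU (qm 512)).setHiA (qm
    2048)).setHiD (qm 512)).setHiU (qm 256)).setHiA (qm 1024)).setHiD (qm 256)).setHiU (qm
    128)).setHiW (qm 64)).setHiU (qm 64)).setLoD (qm 128)).setHiU (qm 32)).setHiD (qm 192))
    (by decide +kernel))
    (good_of_check
    (R .u5 1862364 8095020 5931640 5264725 13925654 797173 0 11863286 0 42 0 1482913 0 42 0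
    1482913 1482913 3970480)
    ((((((((((((((root.setHiD (qm 2048)).setHiD (qm 1024)).setHiU (qm 512)).setHiA (qm
    2048)).setHiD (qm 512)).setHiU (qm 256)).setHiA (qm 1024)).setHiD (qm 256)).setHiU (qm
    128)).setHiW (qm 64)).setHiU (qm 64)).setLoD (qm 128)).setHiU (qm 32)).setLoD (qm 192))
    (by decide +kernel)))
    (good_splitW (qm 32)
    (good_of_check
    (R .u4 2143939 8538295 5931640 5264725 14022073 690203 1482908 11863286 0 202 1482908 2097154
    0 0 0 0 1482913 4956194)
    ((((((((((((((root.setHiD (qm 2048)).setHiD (qm 1024)).setHiU (qm 512)).setHiA (qm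
    2048)).setHiD (qm 512)).setHiU (qm 256)).setHiA (qm 1024)).setHiD (qm 256)).setHiU (qm
    128)).setHiW (qm 64)).setHiU (qm 64)).setLoD (qm 128)).setLoU (qm 32)).setHiW (qm 32))
    (by decide +kernel))
    (good_splitD (qm 192)
    (good_of_check
    (R .u5 1875850 9116448 5931640 5308416 14000551 758824 1482908 11863286 409480 (-3157) 1482908
    2097154 409480 (-3157) 1482908 2097154 2097154 8156731)
    (((((((((((((((root.setHiD (qm 2048)).setHiD (qm 1024)).setHiU (qm 512)).setHiA (qm
    2048)).setHiD (qm 512)).setHiU (qm 256)).setHiA (qm 1024)).setHiD (qm 256)).setHiU (qm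
    128)).setHiW (qm 64)).setHiU (qm 64)).setLoD (qm 128)).setLoU (qm 32)).setLoW (qm 32)).setHiD
    (qm 192))
    (by decide +kernel))
    (good_of_check
    (R .u5 1937168 8334766 5931640 5221035 13932258 658352 1482908 11863286 155867 (-1175) 1482908
    2097154 155867 (-1175) 1482908 2097154 2097154 7450998)
    (((((((((((((((root.setHiD (qm 2048)).setHiD (qm 1024)).setHiU (qm 512)).setHiA (qm
    2048)).setHiD (qm 512)).setHiU (qm 256)).setHiA (qm 1024)).setHiD (qm 256)).setHiU (qm
    128)).setHiW (qm 64)).setHiU (qm 64)).setLoD (qm 128)).setLoU (qm 32)).setLoW (qm 32)).setLoD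
    (qm 192))
    (by decide +kernel))))))
    (good_splitD (qm 128)
    (good_splitU (qm 96)
    (good_of_check
    (R .u4 2089364 10760570 5931640 5395797 14121043 787071 2097150 11863286 5486887 (-85529)
    2097150 2568479 0 0 0 0 2097154 9967625)
    (((((((((((((root.setHiD (qm 2048)).setHiD (qm 1024)).setHiU (qm 512)).setHiA (qm
    2048)).setHiD (qm 512)).setHiU (qm 256)).setHiA (qm 1024)).setHiD (qm 256)).setHiU (qm
    128)).setHiW (qm 64)).setLoU (qm 64)).setHiD (qm 128)).setHiU (qm 96))
    (by decide +kernel))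
    (good_of_check
    (R .t4n 2489812 10184178 5931640 5352107 14141409 670203 2459126 11840093 4443356 7680 2459126
    2871646 0 0 0 0 2097154 11531584)
    (((((((((((((root.setHiD (qm 2048)).setHiD (qm 1024)).setHiU (qm 512)).setHiA (qm
    2048)).setHiD (qm 512)).setHiU (qm 256)).setHiA (qm 1024)).setHiD (qm 256)).setHiU (qm
    128)).setHiW (qm 64)).setLoU (qm 64)).setHiD (qm 128)).setLoU (qm 96))
    (by decide +kernel)))
    (good_splitD (qm 192)
    (good_of_check
    (R .u5 1985964 8998194 5931640 5242880 13939735 575726 2097150 11863286 8346612 (-129962)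
    2097150 2965823 26317 42 0 2097154 2097154 6934948)
    (((((((((((((root.setHiD (qm 2048)).setHiD (qm 1024)).setHiU (qm 512)).setHiA (qm
    2048)).setHiD (qm 512)).setHiU (qm 256)).setHiA (qm 1024)).setHiD (qm 256)).setHiU (qm
    128)).setHiW (qm 64)).setLoU (qm 64)).setLoD (qm 128)).setHiD (qm 192))
    (by decide +kernel))
    (good_of_check
    (R .u5 2040568 8271897 5931640 5155499 13880972 487050 2097150 11863286 7081587 (-110553)
    2097150 2965823 3491 42 0 2097154 2097154 6404353)
    (((((((((((((root.setHiD (qm 2048)).setHiD (qm 1024)).setHiU (qm 512)).setHiA (qm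
    2048)).setHiD (qm 512)).setHiU (qm 256)).setHiA (qm 1024)).setHiD (qm 256)).setHiU (qm
    128)).setHiW (qm 64)).setLoU (qm 64)).setLoD (qm 128)).setLoD (qm 192))
    (by decide +kernel)))))
    (good_splitD (qm 160)
    (good_of_check
    (R .u5 1886768 10507169 5931640 5308416 14101234 733116 2097150 11863286 10903885 (-167578)
    2097150 2965823 10903885 (-167578) 2097150 2965823 2568479 11065059)
    (((((((((((root.setHiD (qm 2048)).setHiD (qm 1024)).setHiU (qm 512)).setHiA (qm 2048)).setHiD
    (qm 512)).setHiU (qm 256)).setHiA (qm 1024)).setHiD (qm 256)).setHiU (qm 128)).setLoW (qm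
    64)).setHiD (qm 160))
    (by decide +kernel))
    (good_splitU (qm 96)
    (good_of_check
    (R .u5 1990134 8940782 5931640 5199189 13975453 556273 2097150 11863286 4675739 (-72649)
    2097150 2568479 4675739 (-72649) 2097150 2568479 2568479 9722099)
    ((((((((((((root.setHiD (qm 2048)).setHiD (qm 1024)).setHiU (qm 512)).setHiA (qm 2048)).setHiD
    (qm 512)).setHiU (qm 256)).setHiA (qm 1024)).setHiD (qm 256)).setHiU (qm 128)).setLoW (qm
    64)).setLoD (qm 160)).setHiU (qm 96))
    (by decide +kernel))
    (good_of_check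
    (R .u5 2111185 8518449 5931640 5155499 13833018 380785 2568474 11863286 8875336 (-189506)
    2568474 2965823 5619544 (-87763) 2097150 2965823 2965823 10312513)
    ((((((((((((root.setHiD (qm 2048)).setHiD (qm 1024)).setHiU (qm 512)).setHiA (qm 2048)).setHiD
    (qm 512)).setHiU (qm 256)).setHiA (qm 1024)).setHiD (qm 256)).setHiU (qm 128)).setLoW (qm
    64)).setLoD (qm 160)).setLoU (qm 96))
    (by decide +kernel)))))
    (good_splitW (qm 128)
    (good_splitD (qm 128)
    (good_of_check
    (R .t4n 2764621 8480890 5931640 5242880 13881921 336841 2871641 11840093 13353682 (-317549)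
    2871641 4128250 0 0 0 0 2965823 13141073)
    (((((((((((root.setHiD (qm 2048)).setHiD (qm 1024)).setHiU (qm 512)).setHiA (qm 2048)).setHiD
    (qm 512)).setHiU (qm 256)).setHiA (qm 1024)).setHiD (qm 256)).setLoU (qm 128)).setHiW (qm
    128)).setHiD (qm 128))
    (by decide +kernel))
    (good_splitU (qm 192)
    (good_of_check
    (R .u4 2551107 7420786 5931640 5111808 13625427 153462 2965818 11863286 10767894 (-312078)
    2965818 3632376 0 0 0 0 2965823 10063334)
    ((((((((((((root.setHiD (qm 2048)).setHiD (qm 1024)).setHiU (qm 512)).setHiA (qm 2048)).setHiD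
    (qm 512)).setHiU (qm 256)).setHiA (qm 1024)).setHiD (qm 256)).setLoU (qm 128)).setHiW (qm
    128)).setLoD (qm 128)).setHiU (qm 192))
    (by decide +kernel))
    (good_of_check
    (R .t4n 3103761 6617306 5931640 5024427 13498817 (-12176) 3477731 11816854 10416751 (-289949)
    3477731 4061120 0 0 0 0 2965823 10548777)
    ((((((((((((root.setHiD (qm 2048)).setHiD (qm 1024)).setHiU (qm 512)).setHiA (qm 2048)).setHiD
    (qm 512)).setHiU (qm 256)).setHiA (qm 1024)).setHiD (qm 256)).setLoU (qm 128)).setHiW (qm
    128)).setLoD (qm 128)).setLoU (qm 192))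
    (by decide +kernel))))
    (good_of_check
    (R .t5n 2544369 7062688 5931640 5068117 13600976 171939 2905897 11848447 12288316 (-305216)
    2905897 4152152 12288316 (-305216) 2905897 4152152 2965823 10125020)
    ((((((((((root.setHiD (qm 2048)).setHiD (qm 1024)).setHiU (qm 512)).setHiA (qm 2048)).setHiD
    (qm 512)).setHiU (qm 256)).setHiA (qm 1024)).setHiD (qm 256)).setLoU (qm 128)).setLoW (qm
    128))
    (by decide +kernel))))
    (good_splitU (qm 128)
    (good_splitW (qm 64)
    (good_splitW (qm 32)
    (good_splitD (qm 384)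
    (good_splitU (qm 64)
    (good_of_check
    (R .u5 1939743 7277252 5931640 5111808 13848447 675628 0 11863286 74254 42 0 2097154 0 42 0
    1482913 1482913 3438496)
    (((((((((((((root.setHiD (qm 2048)).setHiD (qm 1024)).setHiU (qm 512)).setHiA (qm
    2048)).setHiD (qm 512)).setHiU (qm 256)).setHiA (qm 1024)).setLoD (qm 256)).setHiU (qm
    128)).setHiW (qm 64)).setHiW (qm 32)).setHiD (qm 384)).setHiU (qm 64))
    (by decide +kernel))
    (good_of_check
    (R .u5 2049886 8155805 5931640 5024427 13981937 438818 2097150 11863286 6876980 (-107378)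
    2097150 2965823 0 42 0 1482913 1482913 2815080)
    (((((((((((((root.setHiD (qm 2048)).setHiD (qm 1024)).setHiU (qm 512)).setHiA (qm
    2048)).setHiD (qm 512)).setHiU (qm 256)).setHiA (qm 1024)).setLoD (qm 256)).setHiU (qm
    128)).setHiW (qm 64)).setHiW (qm 32)).setHiD (qm 384)).setLoU (qm 64))
    (by decide +kernel)))
    (good_of_check
    (R .u5 2058220 5880674 5931640 4893355 13727347 500332 0 11863286 3349025 43 0 2965823 0 42 0
    1482913 1482913 2774765)
    ((((((((((((root.setHiD (qm 2048)).setHiD (qm 1024)).setHiU (qm 512)).setHiA (qm 2048)).setHiD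
    (qm 512)).setHiU (qm 256)).setHiA (qm 1024)).setLoD (qm 256)).setHiU (qm 128)).setHiW (qm
    64)).setHiW (qm 32)).setLoD (qm 384))
    (by decide +kernel)))
    (good_splitD (qm 384)
    (good_splitD (qm 320)
    (good_of_check
    (R .u5 2040568 7183099 5931640 5089963 13755856 520116 1482908 11863286 4723385 (-36859)
    1482908 2965823 6983 (-12) 1482908 2097154 2097154 6404353)
    (((((((((((((root.setHiD (qm 2048)).setHiD (qm 1024)).setHiU (qm 512)).setHiA (qm
    2048)).setHiD (qm 512)).setHiU (qm 256)).setHiA (qm 1024)).setLoD (qm 256)).setHiU (qm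
    128)).setHiW (qm 64)).setLoW (qm 32)).setHiD (qm 384)).setHiD (qm 320))
    (by decide +kernel))
    (good_of_check
    (R .u5 2093532 6663381 5931640 5002581 13664055 455100 1482908 11863286 3976950 (-31027)
    1482908 2965823 2 42 1482908 2097154 2097154 5930910)
    (((((((((((((root.setHiD (qm 2048)).setHiD (qm 1024)).setHiU (qm 512)).setHiA (qm
    2048)).setHiD (qm 512)).setHiU (qm 256)).setHiA (qm 1024)).setLoD (qm 256)).setHiU (qm
    128)).setHiW (qm 64)).setLoW (qm 32)).setHiD (qm 384)).setLoD (qm 320))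
    (by decide +kernel)))
    (good_of_check
    (R .u5 2179245 5549331 5931640 4871509 13561425 337146 1482908 11863286 2938771 (-22916)
    1482908 2965823 0 42 1482908 2097154 2097154 5244991)
    ((((((((((((root.setHiD (qm 2048)).setHiD (qm 1024)).setHiU (qm 512)).setHiA (qm 2048)).setHiD
    (qm 512)).setHiU (qm 256)).setHiA (qm 1024)).setLoD (qm 256)).setHiU (qm 128)).setHiW (qm
    64)).setLoW (qm 32)).setLoD (qm 384))
    (by decide +kernel))))
    (good_splitW (qm 96)
    (good_splitD (qm 384)
    (good_of_check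
    (R .u5 2117945 7357913 5931640 5024427 13771439 377825 2097150 11863286 5490615 (-85748)
    2097150 2965823 2262022 (-35301) 2097150 2568479 2568479 8297039)
    ((((((((((((root.setHiD (qm 2048)).setHiD (qm 1024)).setHiU (qm 512)).setHiA (qm 2048)).setHiD
    (qm 512)).setHiU (qm 256)).setHiA (qm 1024)).setLoD (qm 256)).setHiU (qm 128)).setLoW (qm
    64)).setHiW (qm 96)).setHiD (qm 384))
    (by decide +kernel))
    (good_of_check
    (R .u5 2214562 6327381 5931640 4849664 13609764 260485 2097150 11863286 3852883 (-60159)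
    2097150 2965823 1107304 (-17259) 2097150 2568479 2568479 7367887)
    ((((((((((((root.setHiD (qm 2048)).setHiD (qm 1024)).setHiU (qm 512)).setHiA (qm 2048)).setHiD
    (qm 512)).setHiU (qm 256)).setHiA (qm 1024)).setLoD (qm 256)).setHiU (qm 128)).setLoW (qm
    64)).setHiW (qm 96)).setLoD (qm 384))
    (by decide +kernel)))
    (good_of_check
    (R .u5 2228051 7145383 5931640 4915200 13708922 205644 2568474 11863286 6320158 (-140377)
    2568474 2965823 6320158 (-140377) 2568474 2965823 2965823 9081734)
    (((((((((((root.setHiD (qm 2048)).setHiD (qm 1024)).setHiU (qm 512)).setHiA (qm 2048)).setHiD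
    (qm 512)).setHiU (qm 256)).setHiA (qm 1024)).setLoD (qm 256)).setHiU (qm 128)).setLoW (qm
    64)).setLoW (qm 96))
    (by decide +kernel))))
    (good_splitW (qm 128)
    (good_splitD (qm 384)
    (good_splitU (qm 192)
    (good_of_check
    (R .u4 2643568 6552782 5931640 4937045 13516573 44067 2965818 11863286 9053041 (-269769)
    2965818 3632376 0 0 0 0 2965823 9259034)
    ((((((((((((root.setHiD (qm 2048)).setHiD (qm 1024)).setHiU (qm 512)).setHiA (qm 2048)).setHiD
    (qm 512)).setHiU (qm 256)).setHiA (qm 1024)).setLoD (qm 256)).setLoU (qm 128)).setHiW (qm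
    128)).setHiD (qm 384)).setHiU (qm 192))
    (by decide +kernel))
    (good_of_check
    (R .t4n 3158313 5481721 5931640 4849664 13400834 (-47008) 3397772 11793569 7768352 (-104524)
    3397772 3992861 0 0 0 0 2965823 10191678)
    ((((((((((((root.setHiD (qm 2048)).setHiD (qm 1024)).setHiU (qm 512)).setHiA (qm 2048)).setHiD
    (qm 512)).setHiU (qm 256)).setHiA (qm 1024)).setLoD (qm 256)).setLoU (qm 128)).setHiW (qm
    128)).setHiD (qm 384)).setLoU (qm 192))
    (by decide +kernel)))
    (good_of_check
    (R .u5 2432673 5681868 5931640 4718592 13397180 (-41554) 2965818 11863286 11164815 (-326918)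
    2965818 4194306 702057 43 0 2965823 2965823 7284107)
    (((((((((((root.setHiD (qm 2048)).setHiD (qm 1024)).setHiU (qm 512)).setHiA (qm 2048)).setHiD
    (qm 512)).setHiU (qm 256)).setHiA (qm 1024)).setLoD (qm 256)).setLoU (qm 128)).setHiW (qm
    128)).setLoD (qm 384))
    (by decide +kernel)))
    (good_splitU (qm 192)
    (good_of_check
    (R .u5 2348534 6676432 5931640 4849664 13533483 54687 2965818 11863286 10313379 (-288452)
    2965818 3632376 10313379 (-288452) 2965818 3632376 3632376 10411202)
    (((((((((((root.setHiD (qm 2048)).setHiD (qm 1024)).setHiU (qm 512)).setHiA (qm 2048)).setHiD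
    (qm 512)).setHiU (qm 256)).setHiA (qm 1024)).setLoD (qm 256)).setLoU (qm 128)).setLoW (qm
    128)).setHiU (qm 192))
    (by decide +kernel))
    (good_of_check
    (R .u5 2483058 6451037 5931640 4762283 13399147 (-124470) 3632371 11863286 12785924 (-458015)
    3632371 4194306 10390444 (-308298) 2965818 4194306 4194306 10776928)
    (((((((((((root.setHiD (qm 2048)).setHiD (qm 1024)).setHiU (qm 512)).setHiA (qm 2048)).setHiD
    (qm 512)).setHiU (qm 256)).setHiA (qm 1024)).setLoD (qm 256)).setLoU (qm 128)).setLoW (qm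
    128)).setLoU (qm 192))
    (by decide +kernel))))))

end Vale.Agent.P226.Cert
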