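import Vale.Agent.P226.CertBox
import Vale.Agent.P226.CertSound

/-! Part 1 of the cover (P226). -/

namespace Vale.Agent.P226.Cert

set_option maxHeartbeats 4000000 in
/-- One subtree of the cover. -/
theorem sub01_good : BoxGood
    ((((((((((root.setHiD (qm 2048)).setHiD (qm 1024)).setHiU (qm 512)).setHiA (qm 2048)).setHiD
    (qm 512)).setHiU (qm 256)).setLoA (qm 1024)).setHiD (qm 256)).setHiU (qm 128)).setHiW (qm 64)) :=
    (good_splitU (qm 64)
    (good_splitD (qm 128)
    (good_splitA (qm 1536)
    (good_splitU (qm 32)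
    (good_of_check
    (T 3523215 176143267 14529497 7264746 2293535 4035461 4035461 993098 2835913 2835913 1105299
    1482913 1482913 63244891 14930786 14930786 24276292 16777216)
    ((((((((((((((root.setHiD (qm 2048)).setHiD (qm 1024)).setHiU (qm 512)).setHiA (qm
    2048)).setHiD (qm 512)).setHiU (qm 256)).setLoA (qm 1024)).setHiD (qm 256)).setHiU (qm
    128)).setHiW (qm 64)).setHiU (qm 64)).setHiD (qm 128)).setHiA (qm 1536)).setHiU (qm 32))
    (by decide +kernel))
    (good_splitA (qm 1280)
    (good_splitU (qm 48)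
    (good_of_check
    (T 2181038 177116434 14529497 7264746 2536826 4922556 4922556 599075 2134909 2134909 1159247
    1816189 1816189 110752894 26643320 26643320 24185539 16562855)
    ((((((((((((((((root.setHiD (qm 2048)).setHiD (qm 1024)).setHiU (qm 512)).setHiA (qm
    2048)).setHiD (qm 512)).setHiU (qm 256)).setLoA (qm 1024)).setHiD (qm 256)).setHiU (qm
    128)).setHiW (qm 64)).setHiU (qm 64)).setHiD (qm 128)).setHiA (qm 1536)).setLoU (qm
    32)).setHiA (qm 1280)).setHiU (qm 48))
    (by decide +kernel))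
    (good_splitD (qm 64)
    (good_of_check
    (T 2013266 174228666 14529497 7264746 1814884 4908435 4908435 591766 2198622 2198622 988609
    2097154 2097154 112120821 27152139 27152139 24185539 16596013)
    (((((((((((((((((root.setHiD (qm 2048)).setHiD (qm 1024)).setHiU (qm 512)).setHiA (qm
    2048)).setHiD (qm 512)).setHiU (qm 256)).setLoA (qm 1024)).setHiD (qm 256)).setHiU (qm
    128)).setHiW (qm 64)).setHiU (qm 64)).setHiD (qm 128)).setHiA (qm 1536)).setLoU (qm
    32)).setHiA (qm 1280)).setLoU (qm 48)).setHiD (qm 64))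
    (by decide +kernel))
    (good_splitW (qm 32)
    (good_of_check
    (R .u5 1851455 10226423 5679113 5384875 14031567 813681 1816184 11863286 1117400 (-13052)
    1816184 2097154 0 42 0 1482913 1482913 4053395)
    ((((((((((((((((((root.setHiD (qm 2048)).setHiD (qm 1024)).setHiU (qm 512)).setHiA (qm
    2048)).setHiD (qm 512)).setHiU (qm 256)).setLoA (qm 1024)).setHiD (qm 256)).setHiU (qm
    128)).setHiW (qm 64)).setHiU (qm 64)).setHiD (qm 128)).setHiA (qm 1536)).setLoU (qm
    32)).setHiA (qm 1280)).setLoU (qm 48)).setLoD (qm 64)).setHiW (qm 32))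
    (by decide +kernel))
    (good_of_check
    (R .u5 1851454 10226423 5679113 5384875 14031569 813683 1816184 11863286 1117418 (-13052)
    1816184 2097154 558709 (-4322) 1482908 2097154 2097154 8459047)
    ((((((((((((((((((root.setHiD (qm 2048)).setHiD (qm 1024)).setHiU (qm 512)).setHiA (qm
    2048)).setHiD (qm 512)).setHiU (qm 256)).setLoA (qm 1024)).setHiD (qm 256)).setHiU (qm
    128)).setHiW (qm 64)).setHiU (qm 64)).setHiD (qm 128)).setHiA (qm 1536)).setLoU (qm
    32)).setHiA (qm 1280)).setLoU (qm 48)).setLoD (qm 64)).setLoW (qm 32))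
    (by decide +kernel)))))
    (good_of_check
    (T 2181038 139665183 13910934 8122233 2182271 4690628 4690628 652621 2582984 2582984 1210794
    2097154 2097154 101665911 21537212 21537212 24276292 16546250)
    (((((((((((((((root.setHiD (qm 2048)).setHiD (qm 1024)).setHiU (qm 512)).setHiA (qm
    2048)).setHiD (qm 512)).setHiU (qm 256)).setLoA (qm 1024)).setHiD (qm 256)).setHiU (qm
    128)).setHiW (qm 64)).setHiU (qm 64)).setHiD (qm 128)).setHiA (qm 1536)).setLoU (qm
    32)).setLoA (qm 1280))
    (by decide +kernel))))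
    (good_of_check
    (T 3187671 113932408 13263555 8897461 1780196 3977969 3977969 1027873 3248984 3248984 1210794
    2097154 2097154 61996318 15049363 15049363 24456787 16777216)
    (((((((((((((root.setHiD (qm 2048)).setHiD (qm 1024)).setHiU (qm 512)).setHiA (qm
    2048)).setHiD (qm 512)).setHiU (qm 256)).setLoA (qm 1024)).setHiD (qm 256)).setHiU (qm
    128)).setHiW (qm 64)).setHiU (qm 64)).setHiD (qm 128)).setLoA (qm 1536))
    (by decide +kernel)))
    (good_splitU (qm 32)
    (good_splitA (qm 1536)
    (good_splitU (qm 16)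
    (good_splitD (qm 192)
    (good_of_check
    (T 4026532 179095389 14529497 7264746 3031565 3952082 3952082 1037076 2765092 2765092 1260234
    1048578 1048578 61876483 11866479 11866479 24276292 16429550)
    ((((((((((((((((root.setHiD (qm 2048)).setHiD (qm 1024)).setHiU (qm 512)).setHiA (qm
    2048)).setHiD (qm 512)).setHiU (qm 256)).setLoA (qm 1024)).setHiD (qm 256)).setHiU (qm
    128)).setHiW (qm 64)).setHiU (qm 64)).setLoD (qm 128)).setHiU (qm 32)).setHiA (qm
    1536)).setHiU (qm 16)).setHiD (qm 192))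
    (by decide +kernel))
    (good_of_check
    (R .u5 1829632 8468638 5414822 5275648 14000830 837583 0 11863286 0 42 0 1048578 0 42 0
    1048578 1048578 1619202)
    ((((((((((((((((root.setHiD (qm 2048)).setHiD (qm 1024)).setHiU (qm 512)).setHiA (qm
    2048)).setHiD (qm 512)).setHiU (qm 256)).setLoA (qm 1024)).setHiD (qm 256)).setHiU (qm
    128)).setHiW (qm 64)).setHiU (qm 64)).setLoD (qm 128)).setHiU (qm 32)).setHiA (qm
    1536)).setHiU (qm 16)).setLoD (qm 192))
    (by decide +kernel)))
    (good_splitD (qm 192)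
    (good_splitA (qm 1280)
    (good_of_check
    (R .u3 2529285 7501413 5679113 5341184 13807298 687854 1048574 11863286 0 0 0 0 0 0 0 0
    1482913 7085793)
    (((((((((((((((((root.setHiD (qm 2048)).setHiD (qm 1024)).setHiU (qm 512)).setHiA (qm
    2048)).setHiD (qm 512)).setHiU (qm 256)).setLoA (qm 1024)).setHiD (qm 256)).setHiU (qm
    128)).setHiW (qm 64)).setHiU (qm 64)).setLoD (qm 128)).setHiU (qm 32)).setHiA (qm
    1536)).setLoU (qm 16)).setHiD (qm 192)).setHiA (qm 1280))
    (by decide +kernel))
    (good_of_check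
    (T 3523215 141234455 13910934 8122233 2574589 3971293 3971293 1010793 3015870 3015870 1307807
    1482913 1482913 64253173 13410078 13410078 24276292 16396054)
    (((((((((((((((((root.setHiD (qm 2048)).setHiD (qm 1024)).setHiU (qm 512)).setHiA (qm
    2048)).setHiD (qm 512)).setHiU (qm 256)).setLoA (qm 1024)).setHiD (qm 256)).setHiU (qm
    128)).setHiW (qm 64)).setHiU (qm 64)).setLoD (qm 128)).setHiU (qm 32)).setHiA (qm
    1536)).setLoU (qm 16)).setHiD (qm 192)).setLoA (qm 1280))
    (by decide +kernel)))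
    (good_of_check
    (R .u3 2636825 6672599 5414822 5253803 13647839 584848 1048574 11863286 0 0 0 0 0 0 0 0
    1482913 6391473)
    ((((((((((((((((root.setHiD (qm 2048)).setHiD (qm 1024)).setHiU (qm 512)).setHiA (qm
    2048)).setHiD (qm 512)).setHiU (qm 256)).setLoA (qm 1024)).setHiD (qm 256)).setHiU (qm
    128)).setHiW (qm 64)).setHiU (qm 64)).setLoD (qm 128)).setHiU (qm 32)).setHiA (qm
    1536)).setLoU (qm 16)).setLoD (qm 192))
    (by decide +kernel))))
    (good_of_check
    (T 3523215 117861112 13263555 8897461 2762372 3927931 3927931 1024490 3155134 3155134 1482913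
    1482913 1482913 64336568 12381669 12381669 24456787 16345682)
    ((((((((((((((root.setHiD (qm 2048)).setHiD (qm 1024)).setHiU (qm 512)).setHiA (qm
    2048)).setHiD (qm 512)).setHiU (qm 256)).setLoA (qm 1024)).setHiD (qm 256)).setHiU (qm
    128)).setHiW (qm 64)).setHiU (qm 64)).setLoD (qm 128)).setHiU (qm 32)).setLoA (qm 1536))
    (by decide +kernel)))
    (good_splitD (qm 192)
    (good_splitA (qm 1536)
    (good_splitU (qm 48)
    (good_splitA (qm 1280)
    (good_splitD (qm 160)
    (good_of_check
    (R .u3 2582269 7533504 5679113 5341184 13781030 618921 1482908 11863286 0 0 0 0 0 0 0 0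
    1816189 8938512)
    ((((((((((((((((((root.setHiD (qm 2048)).setHiD (qm 1024)).setHiU (qm 512)).setHiA (qm
    2048)).setHiD (qm 512)).setHiU (qm 256)).setLoA (qm 1024)).setHiD (qm 256)).setHiU (qm
    128)).setHiW (qm 64)).setHiU (qm 64)).setLoD (qm 128)).setLoU (qm 32)).setHiD (qm 192)).setHiA
    (qm 1536)).setHiU (qm 48)).setHiA (qm 1280)).setHiD (qm 160))
    (by decide +kernel))
    (good_of_check
    (R .u5 1926257 8466545 5679113 5297493 13884537 694568 1482908 11863286 0 42 1482908 1816189 0
    42 0 1816189 1816189 5680854)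
    ((((((((((((((((((root.setHiD (qm 2048)).setHiD (qm 1024)).setHiU (qm 512)).setHiA (qm
    2048)).setHiD (qm 512)).setHiU (qm 256)).setLoA (qm 1024)).setHiD (qm 256)).setHiU (qm
    128)).setHiW (qm 64)).setHiU (qm 64)).setLoD (qm 128)).setLoU (qm 32)).setHiD (qm 192)).setHiA
    (qm 1536)).setHiU (qm 48)).setHiA (qm 1280)).setLoD (qm 160))
    (by decide +kernel)))
    (good_splitA (qm 1408)
    (good_of_check
    (T 2516582 142032389 13910934 8122233 2774073 4732243 4732243 704207 2449003 2449003 1353708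
    1816189 1816189 94218390 21669376 21669376 24230958 16362490)
    ((((((((((((((((((root.setHiD (qm 2048)).setHiD (qm 1024)).setHiU (qm 512)).setHiA (qm
    2048)).setHiD (qm 512)).setHiU (qm 256)).setLoA (qm 1024)).setHiD (qm 256)).setHiU (qm
    128)).setHiW (qm 64)).setHiU (qm 64)).setLoD (qm 128)).setLoU (qm 32)).setHiD (qm 192)).setHiA
    (qm 1536)).setHiU (qm 48)).setLoA (qm 1280)).setHiA (qm 1408))
    (by decide +kernel))
    (good_of_check
    (T 2852127 127774653 13591100 8518670 2495601 4299651 4299651 842396 2938801 2938801 1353708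
    1816189 1816189 78726243 16180054 16180054 24276292 16362490)
    ((((((((((((((((((root.setHiD (qm 2048)).setHiD (qm 1024)).setHiU (qm 512)).setHiA (qm
    2048)).setHiD (qm 512)).setHiU (qm 256)).setLoA (qm 1024)).setHiD (qm 256)).setHiU (qm
    128)).setHiW (qm 64)).setHiU (qm 64)).setLoD (qm 128)).setLoU (qm 32)).setHiD (qm 192)).setHiA
    (qm 1536)).setHiU (qm 48)).setLoA (qm 1280)).setLoA (qm 1408))
    (by decide +kernel))))
    (good_splitW (qm 32)
    (good_of_check
    (R .u5 1948077 8822619 5414822 5297493 13904298 652717 1816184 11863286 252549 (-2917) 1816184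
    2097154 0 42 0 1482913 1482913 3386544)
    (((((((((((((((((root.setHiD (qm 2048)).setHiD (qm 1024)).setHiU (qm 512)).setHiA (qm
    2048)).setHiD (qm 512)).setHiU (qm 256)).setLoA (qm 1024)).setHiD (qm 256)).setHiU (qm
    128)).setHiW (qm 64)).setHiU (qm 64)).setLoD (qm 128)).setLoU (qm 32)).setHiD (qm 192)).setHiA
    (qm 1536)).setLoU (qm 48)).setHiW (qm 32))
    (by decide +kernel))
    (good_splitD (qm 160)
    (good_splitW (qm 48)
    (good_of_check
    (R .u5 1922089 9177229 5414822 5319339 13945562 692227 1816184 11863286 407700 (-4735) 1816184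
    2097154 0 42 1482908 1816189 1816189 5719302)
    (((((((((((((((((((root.setHiD (qm 2048)).setHiD (qm 1024)).setHiU (qm 512)).setHiA (qm
    2048)).setHiD (qm 512)).setHiU (qm 256)).setLoA (qm 1024)).setHiD (qm 256)).setHiU (qm
    128)).setHiW (qm 64)).setHiU (qm 64)).setLoD (qm 128)).setLoU (qm 32)).setHiD (qm 192)).setHiA
    (qm 1536)).setLoU (qm 48)).setLoW (qm 32)).setHiD (qm 160)).setHiW (qm 48))
    (by decide +kernel))
    (good_of_check
    (R .u5 1922089 9177229 5414822 5319339 13945562 692227 1816184 11863286 407700 (-4735) 1816184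
    2097154 407700 (-4735) 1816184 2097154 2097154 7618386)
    (((((((((((((((((((root.setHiD (qm 2048)).setHiD (qm 1024)).setHiU (qm 512)).setHiA (qm
    2048)).setHiD (qm 512)).setHiU (qm 256)).setLoA (qm 1024)).setHiD (qm 256)).setHiU (qm
    128)).setHiW (qm 64)).setHiU (qm 64)).setLoD (qm 128)).setLoU (qm 32)).setHiD (qm 192)).setHiA
    (qm 1536)).setLoU (qm 48)).setLoW (qm 32)).setHiD (qm 160)).setLoW (qm 48))
    (by decide +kernel)))
    (good_splitW (qm 48)
    (good_of_check
    (R .u5 1957401 8699728 5414822 5275648 13903200 634499 1816184 11863286 208299 (-2399) 1816184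
    2097154 0 42 1482908 1816189 1816189 5400004)
    (((((((((((((((((((root.setHiD (qm 2048)).setHiD (qm 1024)).setHiU (qm 512)).setHiA (qm
    2048)).setHiD (qm 512)).setHiU (qm 256)).setLoA (qm 1024)).setHiD (qm 256)).setHiU (qm
    128)).setHiW (qm 64)).setHiU (qm 64)).setLoD (qm 128)).setLoU (qm 32)).setHiD (qm 192)).setHiA
    (qm 1536)).setLoU (qm 48)).setLoW (qm 32)).setLoD (qm 160)).setHiW (qm 48))
    (by decide +kernel))
    (good_of_check
    (R .u5 1957401 8699728 5414822 5275648 13903200 634499 1816184 11863286 208299 (-2399) 1816184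
    2097154 208299 (-2399) 1816184 2097154 2097154 7230543)
    (((((((((((((((((((root.setHiD (qm 2048)).setHiD (qm 1024)).setHiU (qm 512)).setHiA (qm
    2048)).setHiD (qm 512)).setHiU (qm 256)).setLoA (qm 1024)).setHiD (qm 256)).setHiU (qm
    128)).setHiW (qm 64)).setHiU (qm 64)).setLoD (qm 128)).setLoU (qm 32)).setHiD (qm 192)).setHiA
    (qm 1536)).setLoU (qm 48)).setLoW (qm 32)).setLoD (qm 160)).setLoW (qm 48))
    (by decide +kernel))))))
    (good_splitA (qm 1792)
    (good_of_check
    (T 2516582 116521781 13263555 8897461 2427540 4569487 4569487 762537 2765250 2765250 1398104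
    2097154 2097154 87011274 19425474 19425474 24366707 16345682)
    ((((((((((((((((root.setHiD (qm 2048)).setHiD (qm 1024)).setHiU (qm 512)).setHiA (qm
    2048)).setHiD (qm 512)).setHiU (qm 256)).setLoA (qm 1024)).setHiD (qm 256)).setHiU (qm
    128)).setHiW (qm 64)).setHiU (qm 64)).setLoD (qm 128)).setLoU (qm 32)).setHiD (qm 192)).setLoA
    (qm 1536)).setHiA (qm 1792))
    (by decide +kernel))
    (good_of_check
    (T 3187671 97612899 12582913 9610356 2033605 3916572 3916572 1038001 3390875 3390875 1398104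
    2097154 2097154 62962810 14029829 14029829 24456787 16345682)
    ((((((((((((((((root.setHiD (qm 2048)).setHiD (qm 1024)).setHiU (qm 512)).setHiA (qm
    2048)).setHiD (qm 512)).setHiU (qm 256)).setLoA (qm 1024)).setHiD (qm 256)).setHiU (qm
    128)).setHiW (qm 64)).setHiU (qm 64)).setLoD (qm 128)).setLoU (qm 32)).setHiD (qm 192)).setLoA
    (qm 1536)).setLoA (qm 1792))
    (by decide +kernel))))
    (good_splitW (qm 32)
    (good_splitD (qm 224)
    (good_splitA (qm 1536)
    (good_of_check
    (R .u5 1933002 8384592 5414822 5242880 13921813 669674 1482908 11863286 168280 (-1272) 1482908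
    2097154 0 42 0 1482913 1482913 3481182)
    (((((((((((((((((root.setHiD (qm 2048)).setHiD (qm 1024)).setHiU (qm 512)).setHiA (qm
    2048)).setHiD (qm 512)).setHiU (qm 256)).setLoA (qm 1024)).setHiD (qm 256)).setHiU (qm
    128)).setHiW (qm 64)).setHiU (qm 64)).setLoD (qm 128)).setLoU (qm 32)).setLoD (qm 192)).setHiW
    (qm 32)).setHiD (qm 224)).setHiA (qm 1536))
    (by decide +kernel))
    (good_of_check
    (T 2852127 117861112 13263555 8897461 2762372 4981145 3871760 829349 2117032 3360400 1482913
    2097154 1482913 80001687 28595909 11062233 24456787 16244470)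
    (((((((((((((((((root.setHiD (qm 2048)).setHiD (qm 1024)).setHiU (qm 512)).setHiA (qm
    2048)).setHiD (qm 512)).setHiU (qm 256)).setLoA (qm 1024)).setHiD (qm 256)).setHiU (qm
    128)).setHiW (qm 64)).setHiU (qm 64)).setLoD (qm 128)).setLoU (qm 32)).setLoD (qm 192)).setHiW
    (qm 32)).setHiD (qm 224)).setLoA (qm 1536))
    (by decide +kernel)))
    (good_of_check
    (R .u5 2012001 7481584 4843164 5199189 13744166 575484 1482908 11863286 23715 (-143) 1482908
    2097154 0 42 0 1482913 1482913 3014763)
    ((((((((((((((((root.setHiD (qm 2048)).setHiD (qm 1024)).setHiU (qm 512)).setHiA (qm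
    2048)).setHiD (qm 512)).setHiU (qm 256)).setLoA (qm 1024)).setHiD (qm 256)).setHiU (qm
    128)).setHiW (qm 64)).setHiU (qm 64)).setLoD (qm 128)).setLoU (qm 32)).setLoD (qm 192)).setHiW
    (qm 32)).setLoD (qm 224))
    (by decide +kernel)))
    (good_splitW (qm 48)
    (good_splitA (qm 1536)
    (good_splitD (qm 224)
    (good_of_check
    (R .u5 1965735 7996650 5414822 5242880 13833247 634335 1482908 11863286 86694 (-635) 1482908
    2097154 0 42 1482908 1816189 1816189 5327663)
    ((((((((((((((((((root.setHiD (qm 2048)).setHiD (qm 1024)).setHiU (qm 512)).setHiA (qm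
    2048)).setHiD (qm 512)).setHiU (qm 256)).setLoA (qm 1024)).setHiD (qm 256)).setHiU (qm
    128)).setHiW (qm 64)).setHiU (qm 64)).setLoD (qm 128)).setLoU (qm 32)).setLoD (qm 192)).setLoW
    (qm 32)).setHiW (qm 48)).setHiA (qm 1536)).setHiD (qm 224))
    (by decide +kernel))
    (good_of_check
    (R .u5 1990130 7719257 5414822 5199189 13806182 596771 1482908 11863286 46960 (-324) 1482908
    2097154 0 42 1482908 1816189 1816189 5120814)
    ((((((((((((((((((root.setHiD (qm 2048)).setHiD (qm 1024)).setHiU (qm 512)).setHiA (qm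
    2048)).setHiD (qm 512)).setHiU (qm 256)).setLoA (qm 1024)).setHiD (qm 256)).setHiU (qm
    128)).setHiW (qm 64)).setHiU (qm 64)).setLoD (qm 128)).setLoU (qm 32)).setLoD (qm 192)).setLoW
    (qm 32)).setHiW (qm 48)).setHiA (qm 1536)).setLoD (qm 224))
    (by decide +kernel)))
    (good_splitA (qm 1792)
    (good_splitD (qm 224)
    (good_splitA (qm 1664)
    (good_of_check
    (T 2516582 117861112 13263555 8897461 2762372 4928939 4387298 731778 2253149 2957445 1482913
    2097154 1816189 90668638 26242090 16011640 24321541 16244470)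
    ((((((((((((((((((((root.setHiD (qm 2048)).setHiD (qm 1024)).setHiU (qm 512)).setHiA (qm
    2048)).setHiD (qm 512)).setHiU (qm 256)).setLoA (qm 1024)).setHiD (qm 256)).setHiU (qm
    128)).setHiW (qm 64)).setHiU (qm 64)).setLoD (qm 128)).setLoU (qm 32)).setLoD (qm 192)).setLoW
    (qm 32)).setHiW (qm 48)).setLoA (qm 1536)).setHiA (qm 1792)).setHiD (qm 224)).setHiA (qm
    1664))
    (by decide +kernel))
    (good_of_check
    (T 2852127 107578603 12927715 9260771 2521376 4546578 4040278 868597 2766443 3284974 1482913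
    2097154 1816189 76386752 19412616 13417952 24366707 16244470)
    ((((((((((((((((((((root.setHiD (qm 2048)).setHiD (qm 1024)).setHiU (qm 512)).setHiA (qm
    2048)).setHiD (qm 512)).setHiU (qm 256)).setLoA (qm 1024)).setHiD (qm 256)).setHiU (qm
    128)).setHiW (qm 64)).setHiU (qm 64)).setLoD (qm 128)).setLoU (qm 32)).setLoD (qm 192)).setLoW
    (qm 32)).setHiW (qm 48)).setLoA (qm 1536)).setHiA (qm 1792)).setHiD (qm 224)).setLoA (qm
    1664))
    (by decide +kernel)))
    (good_splitA (qm 1664)
    (good_of_check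
    (R .u5 1990135 7719257 5277715 5199189 13806177 596763 1482908 11863286 46954 (-324) 1482908
    2097154 0 42 1482908 1816189 1816189 5120738)
    ((((((((((((((((((((root.setHiD (qm 2048)).setHiD (qm 1024)).setHiU (qm 512)).setHiA (qm
    2048)).setHiD (qm 512)).setHiU (qm 256)).setLoA (qm 1024)).setHiD (qm 256)).setHiU (qm
    128)).setHiW (qm 64)).setHiU (qm 64)).setLoD (qm 128)).setLoU (qm 32)).setLoD (qm 192)).setLoW
    (qm 32)).setHiW (qm 48)).setLoA (qm 1536)).setHiA (qm 1792)).setLoD (qm 224)).setHiA (qm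
    1664))
    (by decide +kernel))
    (good_of_check
    (T 2684355 108829517 12927715 9260771 2834105 4858466 4352376 785000 2367509 3001919 1563127
    2097154 1816189 84521341 24464211 15619781 24366707 16176643)
    ((((((((((((((((((((root.setHiD (qm 2048)).setHiD (qm 1024)).setHiU (qm 512)).setHiA (qm
    2048)).setHiD (qm 512)).setHiU (qm 256)).setLoA (qm 1024)).setHiD (qm 256)).setHiU (qm
    128)).setHiW (qm 64)).setHiU (qm 64)).setLoD (qm 128)).setLoU (qm 32)).setLoD (qm 192)).setLoW
    (qm 32)).setHiW (qm 48)).setLoA (qm 1536)).setHiA (qm 1792)).setLoD (qm 224)).setLoA (qm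
    1664))
    (by decide +kernel))))
    (good_of_check
    (T 3187671 99882966 12582913 9610356 2601121 4527878 4046190 975145 2756208 3241748 1563127
    2097154 1816189 68004752 19523318 13724406 24456787 16210592)
    ((((((((((((((((((root.setHiD (qm 2048)).setHiD (qm 1024)).setHiU (qm 512)).setHiA (qm
    2048)).setHiD (qm 512)).setHiU (qm 256)).setLoA (qm 1024)).setHiD (qm 256)).setHiU (qm
    128)).setHiW (qm 64)).setHiU (qm 64)).setLoD (qm 128)).setLoU (qm 32)).setLoD (qm 192)).setLoW
    (qm 32)).setHiW (qm 48)).setLoA (qm 1536)).setLoA (qm 1792))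
    (by decide +kernel))))
    (good_splitA (qm 1536)
    (good_of_check
    (R .u5 2007826 8069680 5414822 5210112 13833229 558543 1816184 11863286 54728 (-599) 1816184
    2097154 54728 (-599) 1816184 2097154 2097154 6716934)
    (((((((((((((((((root.setHiD (qm 2048)).setHiD (qm 1024)).setHiU (qm 512)).setHiA (qm
    2048)).setHiD (qm 512)).setHiU (qm 256)).setLoA (qm 1024)).setHiD (qm 256)).setHiU (qm
    128)).setHiW (qm 64)).setHiU (qm 64)).setLoD (qm 128)).setLoU (qm 32)).setLoD (qm 192)).setLoW
    (qm 32)).setLoW (qm 48)).setHiA (qm 1536))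
    (by decide +kernel))
    (good_splitD (qm 224)
    (good_splitA (qm 1792)
    (good_splitA (qm 1664)
    (good_of_check
    (R .u5 2007826 8069680 5277715 5231957 13812214 565083 1816184 11863286 54728 (-599) 1816184
    2097154 54728 (-599) 1816184 2097154 2097154 6716934)
    ((((((((((((((((((((root.setHiD (qm 2048)).setHiD (qm 1024)).setHiU (qm 512)).setHiA (qm
    2048)).setHiD (qm 512)).setHiU (qm 256)).setLoA (qm 1024)).setHiD (qm 256)).setHiU (qm
    128)).setHiW (qm 64)).setHiU (qm 64)).setLoD (qm 128)).setLoU (qm 32)).setLoD (qm 192)).setLoW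
    (qm 32)).setLoW (qm 48)).setLoA (qm 1536)).setHiD (qm 224)).setHiA (qm 1792)).setHiA (qm
    1664))
    (by decide +kernel))
    (good_of_check
    (T 2516582 107578603 12927715 9260771 2521376 4498926 4498926 766408 2890114 2890114 1482913
    2097154 2097154 86571773 18141268 18141268 24366707 16227539)
    ((((((((((((((((((((root.setHiD (qm 2048)).setHiD (qm 1024)).setHiU (qm 512)).setHiA (qm
    2048)).setHiD (qm 512)).setHiU (qm 256)).setLoA (qm 1024)).setHiD (qm 256)).setHiU (qm
    128)).setHiW (qm 64)).setHiU (qm 64)).setLoD (qm 128)).setLoU (qm 32)).setLoD (qm 192)).setLoW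
    (qm 32)).setLoW (qm 48)).setLoA (qm 1536)).setHiD (qm 224)).setHiA (qm 1792)).setLoA (qm
    1664))
    (by decide +kernel)))
    (good_of_check
    (T 2852127 98734886 12582913 9610356 2314101 4172818 4172818 902460 3222278 3222278 1482913
    2097154 2097154 73514791 15252860 15252860 24456787 16227539)
    (((((((((((((((((((root.setHiD (qm 2048)).setHiD (qm 1024)).setHiU (qm 512)).setHiA (qm
    2048)).setHiD (qm 512)).setHiU (qm 256)).setLoA (qm 1024)).setHiD (qm 256)).setHiU (qm
    128)).setHiW (qm 64)).setHiU (qm 64)).setLoD (qm 128)).setLoU (qm 32)).setLoD (qm 192)).setLoW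
    (qm 32)).setLoW (qm 48)).setLoA (qm 1536)).setHiD (qm 224)).setLoA (qm 1792))
    (by decide +kernel)))
    (good_splitU (qm 56)
    (good_of_check
    (R .u5 2060797 7463851 4843164 5193728 13698457 501674 1816184 11863286 0 42 1816184 1961709 0
    42 1816184 1961709 1961709 5420613)
    (((((((((((((((((((root.setHiD (qm 2048)).setHiD (qm 1024)).setHiU (qm 512)).setHiA (qm
    2048)).setHiD (qm 512)).setHiU (qm 256)).setLoA (qm 1024)).setHiD (qm 256)).setHiU (qm
    128)).setHiW (qm 64)).setHiU (qm 64)).setLoD (qm 128)).setLoU (qm 32)).setLoD (qm 192)).setLoW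
    (qm 32)).setLoW (qm 48)).setLoA (qm 1536)).setLoD (qm 224)).setHiU (qm 56))
    (by decide +kernel))
    (good_splitD (qm 240)
    (good_of_check
    (R .u5 2089364 7409828 4843164 5193728 13660717 462193 1961704 11863286 73 41 1961704 2097154
    37 42 1816184 2097154 2097154 5965661)
    ((((((((((((((((((((root.setHiD (qm 2048)).setHiD (qm 1024)).setHiU (qm 512)).setHiA (qm
    2048)).setHiD (qm 512)).setHiU (qm 256)).setLoA (qm 1024)).setHiD (qm 256)).setHiU (qm
    128)).setHiW (qm 64)).setHiU (qm 64)).setLoD (qm 128)).setLoU (qm 32)).setLoD (qm 192)).setLoW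
    (qm 32)).setLoW (qm 48)).setLoA (qm 1536)).setLoD (qm 224)).setLoU (qm 56)).setHiD (qm 240))
    (by decide +kernel))
    (good_of_check
    (R .u5 2097700 7320304 4843164 5171883 13655779 448650 1961704 11863286 0 42 1961704 2097154 0
    42 1816184 2097154 2097154 5894305)
    ((((((((((((((((((((root.setHiD (qm 2048)).setHiD (qm 1024)).setHiU (qm 512)).setHiA (qm
    2048)).setHiD (qm 512)).setHiU (qm 256)).setLoA (qm 1024)).setHiD (qm 256)).setHiU (qm
    128)).setHiW (qm 64)).setHiU (qm 64)).setLoD (qm 128)).setLoU (qm 32)).setLoD (qm 192)).setLoW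
    (qm 32)).setLoW (qm 48)).setLoA (qm 1536)).setLoD (qm 224)).setLoU (qm 56)).setLoD (qm 240))
    (by decide +kernel)))))))))))
    (good_splitD (qm 128)
    (good_splitD (qm 64)
    (good_splitU (qm 96)
    (good_splitA (qm 1536)
    (good_of_check
    (R .t4n 2432673 9707915 5414822 5439488 14049080 772744 2030556 11851695 (-1327136) 88464
    2030556 2514399 0 0 0 0 2097154 12107734)
    (((((((((((((((root.setHiD (qm 2048)).setHiD (qm 1024)).setHiU (qm 512)).setHiA (qm
    2048)).setHiD (qm 512)).setHiU (qm 256)).setLoA (qm 1024)).setHiD (qm 256)).setHiU (qm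
    128)).setHiW (qm 64)).setLoU (qm 64)).setHiD (qm 128)).setHiD (qm 64)).setHiU (qm 96)).setHiA
    (qm 1536))
    (by decide +kernel))
    (good_of_check
    (T 2516582 112680404 13263555 8897461 1467195 4574194 3538528 830597 2806162 3777034 1105299
    2568479 2097154 78545703 20927762 11705109 24456787 16546250)
    (((((((((((((((root.setHiD (qm 2048)).setHiD (qm 1024)).setHiU (qm 512)).setHiA (qm
    2048)).setHiD (qm 512)).setHiU (qm 256)).setLoA (qm 1024)).setHiD (qm 256)).setHiU (qm
    128)).setHiW (qm 64)).setLoU (qm 64)).setHiD (qm 128)).setHiD (qm 64)).setHiU (qm 96)).setLoA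
    (qm 1536))
    (by decide +kernel)))
    (good_splitD (qm 32)
    (good_of_check
    (R .t4n 2661223 8892264 4843164 5417643 13833005 500496 2541578 11857492 2971391 (-42561)
    2541578 2942562 0 0 0 0 1482913 6245143)
    (((((((((((((((root.setHiD (qm 2048)).setHiD (qm 1024)).setHiU (qm 512)).setHiA (qm
    2048)).setHiD (qm 512)).setHiU (qm 256)).setLoA (qm 1024)).setHiD (qm 256)).setHiU (qm
    128)).setHiW (qm 64)).setLoU (qm 64)).setHiD (qm 128)).setHiD (qm 64)).setLoU (qm 96)).setHiD
    (qm 32))
    (by decide +kernel))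
    (good_of_check
    (R .t4n 2689834 8338152 4843164 5373952 13793934 466404 2514394 11851695 1335046 23413 2514394
    2919115 0 0 0 0 2097154 9761205)
    (((((((((((((((root.setHiD (qm 2048)).setHiD (qm 1024)).setHiU (qm 512)).setHiA (qm
    2048)).setHiD (qm 512)).setHiU (qm 256)).setLoA (qm 1024)).setHiD (qm 256)).setHiU (qm
    128)).setHiW (qm 64)).setLoU (qm 64)).setHiD (qm 128)).setHiD (qm 64)).setLoU (qm 96)).setLoD
    (qm 32))
    (by decide +kernel))))
    (good_splitU (qm 96)
    (good_splitA (qm 1536)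
    (good_splitU (qm 80)
    (good_splitD (qm 96)
    (good_splitA (qm 1280)
    (good_of_check
    (R .t4n 2461236 9065836 5679113 5384875 14026840 729419 1996427 11845895 (-3031736) 150677
    1996427 2255050 0 0 0 0 2097154 11813543)
    ((((((((((((((((((root.setHiD (qm 2048)).setHiD (qm 1024)).setHiU (qm 512)).setHiA (qm
    2048)).setHiD (qm 512)).setHiU (qm 256)).setLoA (qm 1024)).setHiD (qm 256)).setHiU (qm
    128)).setHiW (qm 64)).setLoU (qm 64)).setHiD (qm 128)).setLoD (qm 64)).setHiU (qm 96)).setHiA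
    (qm 1536)).setHiU (qm 80)).setHiD (qm 96)).setHiA (qm 1280))
    (by decide +kernel))
    (good_of_check
    (T 2013266 138893552 13910934 8122233 1989363 5072053 4455515 613190 2026730 2907873 1159247
    2344690 2097154 108203500 31305130 17968289 24276292 16462977)
    ((((((((((((((((((root.setHiD (qm 2048)).setHiD (qm 1024)).setHiU (qm 512)).setHiA (qm
    2048)).setHiD (qm 512)).setHiU (qm 256)).setLoA (qm 1024)).setHiD (qm 256)).setHiU (qm
    128)).setHiW (qm 64)).setLoU (qm 64)).setHiD (qm 128)).setLoD (qm 64)).setHiU (qm 96)).setHiA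
    (qm 1536)).setHiU (qm 80)).setHiD (qm 96)).setLoA (qm 1280))
    (by decide +kernel)))
    (good_splitD (qm 112)
    (good_of_check
    (R .u4 2228048 8833579 5414822 5352107 13891337 596314 2097150 11863286 373904 (-5640) 2097150
    2344690 0 0 0 0 2097154 8442548)
    ((((((((((((((((((root.setHiD (qm 2048)).setHiD (qm 1024)).setHiU (qm 512)).setHiA (qm
    2048)).setHiD (qm 512)).setHiU (qm 256)).setLoA (qm 1024)).setHiD (qm 256)).setHiU (qm
    128)).setHiW (qm 64)).setLoU (qm 64)).setHiD (qm 128)).setLoD (qm 64)).setHiU (qm 96)).setHiA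
    (qm 1536)).setHiU (qm 80)).setLoD (qm 96)).setHiD (qm 112))
    (by decide +kernel))
    (good_of_check
    (R .u4 2254037 8521855 5414822 5330261 13855233 561399 2097150 11863286 199357 (-2913) 2097150
    2344690 0 0 0 0 2097154 8187917)
    ((((((((((((((((((root.setHiD (qm 2048)).setHiD (qm 1024)).setHiU (qm 512)).setHiA (qm
    2048)).setHiD (qm 512)).setHiU (qm 256)).setLoA (qm 1024)).setHiD (qm 256)).setHiU (qm
    128)).setHiW (qm 64)).setLoU (qm 64)).setHiD (qm 128)).setLoD (qm 64)).setHiU (qm 96)).setHiA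
    (qm 1536)).setHiU (qm 80)).setLoD (qm 96)).setLoD (qm 112))
    (by decide +kernel))))
    (good_of_check
    (R .u4 2274290 8957242 5414822 5341184 13870676 529684 2344685 11863286 3163766 (-61176)
    2344685 2568479 0 0 0 0 2097154 7995678)
    ((((((((((((((((root.setHiD (qm 2048)).setHiD (qm 1024)).setHiU (qm 512)).setHiA (qm
    2048)).setHiD (qm 512)).setHiU (qm 256)).setLoA (qm 1024)).setHiD (qm 256)).setHiU (qm
    128)).setHiW (qm 64)).setLoU (qm 64)).setHiD (qm 128)).setLoD (qm 64)).setHiU (qm 96)).setHiA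
    (qm 1536)).setLoU (qm 80))
    (by decide +kernel)))
    (good_splitU (qm 80)
    (good_of_check
    (T 2684355 114568902 13263555 8897461 1939320 4603220 4070441 854032 2714582 3278023 1260234
    2344690 2097154 77307225 21099585 14832399 24456787 16429550)
    ((((((((((((((((root.setHiD (qm 2048)).setHiD (qm 1024)).setHiU (qm 512)).setHiA (qm
    2048)).setHiD (qm 512)).setHiU (qm 256)).setLoA (qm 1024)).setHiD (qm 256)).setHiU (qm
    128)).setHiW (qm 64)).setLoU (qm 64)).setHiD (qm 128)).setLoD (qm 64)).setHiU (qm 96)).setLoA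
    (qm 1536)).setHiU (qm 80))
    (by decide +kernel))
    (good_splitA (qm 1792)
    (good_splitD (qm 96)
    (good_of_check
    (T 2181038 113932408 13263555 8897461 1780196 4849498 3826398 703280 2472658 3620771 1210794
    2568479 2097154 94342661 24881688 12574631 24366707 16429550)
    ((((((((((((((((((root.setHiD (qm 2048)).setHiD (qm 1024)).setHiU (qm 512)).setHiA (qm
    2048)).setHiD (qm 512)).setHiU (qm 256)).setLoA (qm 1024)).setHiD (qm 256)).setHiU (qm
    128)).setHiW (qm 64)).setLoU (qm 64)).setHiD (qm 128)).setLoD (qm 64)).setHiU (qm 96)).setLoA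
    (qm 1536)).setLoU (qm 80)).setHiA (qm 1792)).setHiD (qm 96))
    (by decide +kernel))
    (good_splitA (qm 1664)
    (good_of_check
    (R .u4 2293540 8715375 5277715 5319339 13850537 501467 2344685 11863286 2715539 (-52649)
    2344685 2568479 0 0 0 0 2097154 7817821)
    (((((((((((((((((((root.setHiD (qm 2048)).setHiD (qm 1024)).setHiU (qm 512)).setHiA (qm
    2048)).setHiD (qm 512)).setHiU (qm 256)).setLoA (qm 1024)).setHiD (qm 256)).setHiU (qm
    128)).setHiW (qm 64)).setLoU (qm 64)).setHiD (qm 128)).setLoD (qm 64)).setHiU (qm 96)).setLoA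
    (qm 1536)).setLoU (qm 80)).setHiA (qm 1792)).setLoD (qm 96)).setHiA (qm 1664))
    (by decide +kernel))
    (good_of_check
    (T 2516582 105161107 12927715 9260771 1917002 4816667 3850113 815826 2500544 3569237 1307807
    2568479 2097154 81285191 24513989 12881551 24366707 16362490)
    (((((((((((((((((((root.setHiD (qm 2048)).setHiD (qm 1024)).setHiU (qm 512)).setHiA (qm
    2048)).setHiD (qm 512)).setHiU (qm 256)).setLoA (qm 1024)).setHiD (qm 256)).setHiU (qm
    128)).setHiW (qm 64)).setLoU (qm 64)).setHiD (qm 128)).setLoD (qm 64)).setHiU (qm 96)).setLoA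
    (qm 1536)).setLoU (qm 80)).setHiA (qm 1792)).setLoD (qm 96)).setLoA (qm 1664))
    (by decide +kernel))))
    (good_of_check
    (T 2852127 96516125 12582913 9610356 1759411 4484831 3576359 951728 2924377 3763413 1307807
    2568479 2097154 68856662 19732206 11777437 24456787 16396054)
    (((((((((((((((((root.setHiD (qm 2048)).setHiD (qm 1024)).setHiU (qm 512)).setHiA (qm
    2048)).setHiD (qm 512)).setHiU (qm 256)).setLoA (qm 1024)).setHiD (qm 256)).setHiU (qm
    128)).setHiW (qm 64)).setLoU (qm 64)).setHiD (qm 128)).setLoD (qm 64)).setHiU (qm 96)).setLoA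
    (qm 1536)).setLoU (qm 80)).setLoA (qm 1792))
    (by decide +kernel)))))
    (good_splitD (qm 96)
    (good_splitD (qm 80)
    (good_of_check
    (R .t4n 2725142 7867429 4843164 5341184 13736385 431201 2500692 11848795 231263 63323 2500692
    2907320 0 0 0 0 2097154 9484365)
    ((((((((((((((((root.setHiD (qm 2048)).setHiD (qm 1024)).setHiU (qm 512)).setHiA (qm
    2048)).setHiD (qm 512)).setHiU (qm 256)).setLoA (qm 1024)).setHiD (qm 256)).setHiU (qm
    128)).setHiW (qm 64)).setLoU (qm 64)).setHiD (qm 128)).setLoD (qm 64)).setLoU (qm 96)).setHiD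
    (qm 96)).setHiD (qm 80))
    (by decide +kernel))
    (good_splitU (qm 112)
    (good_of_check
    (R .t4n 2714233 7864042 4843164 5330261 13752801 441714 2486914 11845895 (-1667119) 122013
    2486914 2698940 0 0 0 0 2097154 9568239)
    (((((((((((((((((root.setHiD (qm 2048)).setHiD (qm 1024)).setHiU (qm 512)).setHiA (qm
    2048)).setHiD (qm 512)).setHiU (qm 256)).setLoA (qm 1024)).setHiD (qm 256)).setHiU (qm
    128)).setHiW (qm 64)).setLoU (qm 64)).setHiD (qm 128)).setLoD (qm 64)).setLoU (qm 96)).setHiD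
    (qm 96)).setLoD (qm 80)).setHiU (qm 112))
    (by decide +kernel))
    (good_of_check
    (R .t4n 2768788 7973434 4843164 5308416 13749983 366690 2698935 11845895 91691 73920 2698935
    2895478 0 0 0 0 2097154 9154365)
    (((((((((((((((((root.setHiD (qm 2048)).setHiD (qm 1024)).setHiU (qm 512)).setHiA (qm
    2048)).setHiD (qm 512)).setHiU (qm 256)).setLoA (qm 1024)).setHiD (qm 256)).setHiU (qm
    128)).setHiW (qm 64)).setLoU (qm 64)).setHiD (qm 128)).setLoD (qm 64)).setLoU (qm 96)).setHiD
    (qm 96)).setLoD (qm 80)).setLoU (qm 112))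
    (by decide +kernel))))
    (good_splitU (qm 112)
    (good_splitD (qm 112)
    (good_splitD (qm 104)
    (good_of_check
    (R .t4n 2729311 7665248 4843164 5313877 13726615 427786 2479996 11844445 (-1820034) 132755
    2479996 2692567 0 0 0 0 2097154 9452539)
    ((((((((((((((((((root.setHiD (qm 2048)).setHiD (qm 1024)).setHiU (qm 512)).setHiA (qm
    2048)).setHiD (qm 512)).setHiU (qm 256)).setLoA (qm 1024)).setHiD (qm 256)).setHiU (qm
    128)).setHiW (qm 64)).setLoU (qm 64)).setHiD (qm 128)).setLoD (qm 64)).setLoU (qm 96)).setLoD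
    (qm 96)).setHiU (qm 112)).setHiD (qm 112)).setHiD (qm 104))
    (by decide +kernel))
    (good_of_check
    (R .t4n 2753704 7386612 4843164 5302955 13673245 409459 2473059 11842994 (-1975298) 143594
    2473059 2686179 0 0 0 0 2097154 9266208)
    ((((((((((((((((((root.setHiD (qm 2048)).setHiD (qm 1024)).setHiU (qm 512)).setHiA (qm
    2048)).setHiD (qm 512)).setHiU (qm 256)).setLoA (qm 1024)).setHiD (qm 256)).setHiU (qm
    128)).setHiW (qm 64)).setLoU (qm 64)).setHiD (qm 128)).setLoD (qm 64)).setLoU (qm 96)).setLoD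
    (qm 96)).setHiU (qm 112)).setHiD (qm 112)).setLoD (qm 104))
    (by decide +kernel)))
    (good_splitU (qm 104)
    (good_splitD (qm 120)
    (good_of_check
    (R .t4n 2746962 7395479 4843164 5297493 13683659 415872 2466102 11841543 (-2265670) 157640
    2466102 2575159 0 0 0 0 2097154 9316694)
    (((((((((((((((((((root.setHiD (qm 2048)).setHiD (qm 1024)).setHiU (qm 512)).setHiA (qm
    2048)).setHiD (qm 512)).setHiU (qm 256)).setLoA (qm 1024)).setHiD (qm 256)).setHiU (qm
    128)).setHiW (qm 64)).setLoU (qm 64)).setHiD (qm 128)).setLoD (qm 64)).setLoU (qm 96)).setLoD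
    (qm 96)).setHiU (qm 112)).setLoD (qm 112)).setHiU (qm 104)).setHiD (qm 120))
    (by decide +kernel))
    (good_of_check
    (R .u4 2414991 7910473 4843164 5286571 13670019 355278 2568474 11863286 3166805 (-71493)
    2568474 2673357 0 0 0 0 2097154 6796495)
    (((((((((((((((((((root.setHiD (qm 2048)).setHiD (qm 1024)).setHiU (qm 512)).setHiA (qm
    2048)).setHiD (qm 512)).setHiU (qm 256)).setLoA (qm 1024)).setHiD (qm 256)).setHiU (qm
    128)).setHiW (qm 64)).setLoU (qm 64)).setHiD (qm 128)).setLoD (qm 64)).setLoU (qm 96)).setLoD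
    (qm 96)).setHiU (qm 112)).setLoD (qm 112)).setHiU (qm 104)).setLoD (qm 120))
    (by decide +kernel)))
    (good_of_check
    (R .t4n 2771365 7420786 4843164 5281109 13685506 381135 2568474 11840093 (-2149634) 161643
    2568474 2673357 0 0 0 0 2097154 9135336)
    ((((((((((((((((((root.setHiD (qm 2048)).setHiD (qm 1024)).setHiU (qm 512)).setHiA (qm
    2048)).setHiD (qm 512)).setHiU (qm 256)).setLoA (qm 1024)).setHiD (qm 256)).setHiU (qm
    128)).setHiW (qm 64)).setLoU (qm 64)).setHiD (qm 128)).setLoD (qm 64)).setLoU (qm 96)).setLoD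
    (qm 96)).setHiU (qm 112)).setLoD (qm 112)).setLoU (qm 104))
    (by decide +kernel))))
    (good_of_check
    (R .t4n 2778121 7669433 4843164 5275648 13726523 359735 2673352 11840093 (-1037849) 131243
    2673352 2871646 0 0 0 0 2097154 9085713)
    ((((((((((((((((root.setHiD (qm 2048)).setHiD (qm 1024)).setHiU (qm 512)).setHiA (qm
    2048)).setHiD (qm 512)).setHiU (qm 256)).setLoA (qm 1024)).setHiD (qm 256)).setHiU (qm
    128)).setHiW (qm 64)).setLoU (qm 64)).setHiD (qm 128)).setLoD (qm 64)).setLoU (qm 96)).setLoD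
    (qm 96)).setLoU (qm 112))
    (by decide +kernel))))))
    (good_splitU (qm 96)
    (good_splitD (qm 192)
    (good_splitW (qm 32)
    (good_splitD (qm 160)
    (good_splitD (qm 144)
    (good_splitU (qm 80)
    (good_of_check
    (R .u4 2307025 7924822 4843164 5308416 13751516 502338 2097150 11863286 22238 (-146) 2097150
    2344690 0 0 0 0 1482913 3945529)
    ((((((((((((((((((root.setHiD (qm 2048)).setHiD (qm 1024)).setHiU (qm 512)).setHiA (qm
    2048)).setHiD (qm 512)).setHiU (qm 256)).setLoA (qm 1024)).setHiD (qm 256)).setHiU (qm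
    128)).setHiW (qm 64)).setLoU (qm 64)).setLoD (qm 128)).setHiU (qm 96)).setHiD (qm 192)).setHiW
    (qm 32)).setHiD (qm 160)).setHiD (qm 144)).setHiU (qm 80))
    (by decide +kernel))
    (good_of_check
    (R .u5 2064964 8572474 4843164 5286571 13759235 485442 2344685 11863286 4962674 (-91735)
    2344685 2568479 0 42 0 1482913 1482913 2740732)
    ((((((((((((((((((root.setHiD (qm 2048)).setHiD (qm 1024)).setHiU (qm 512)).setHiA (qm
    2048)).setHiD (qm 512)).setHiU (qm 256)).setLoA (qm 1024)).setHiD (qm 256)).setHiU (qm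
    128)).setHiW (qm 64)).setLoU (qm 64)).setLoD (qm 128)).setHiU (qm 96)).setHiD (qm 192)).setHiW
    (qm 32)).setHiD (qm 160)).setHiD (qm 144)).setLoU (qm 80))
    (by decide +kernel)))
    (good_of_check
    (R .u4 2307030 7924822 4843164 5275648 13782468 492567 2097150 11863286 1219118 (-18847)
    2097150 2568479 0 0 0 0 1482913 3945502)
    (((((((((((((((((root.setHiD (qm 2048)).setHiD (qm 1024)).setHiU (qm 512)).setHiA (qm
    2048)).setHiD (qm 512)).setHiU (qm 256)).setLoA (qm 1024)).setHiD (qm 256)).setHiU (qm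
    128)).setHiW (qm 64)).setLoU (qm 64)).setLoD (qm 128)).setHiU (qm 96)).setHiD (qm 192)).setHiW
    (qm 32)).setHiD (qm 160)).setLoD (qm 144))
    (by decide +kernel)))
    (good_of_check
    (R .u5 2040568 8271877 4843164 5242880 13794804 513753 2097150 11863286 3603489 (-56207)
    2097150 2568479 0 42 0 1482913 1482913 2863529)
    ((((((((((((((((root.setHiD (qm 2048)).setHiD (qm 1024)).setHiU (qm 512)).setHiA (qm
    2048)).setHiD (qm 512)).setHiU (qm 256)).setLoA (qm 1024)).setHiD (qm 256)).setHiU (qm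
    128)).setHiW (qm 64)).setLoU (qm 64)).setLoD (qm 128)).setHiU (qm 96)).setHiD (qm 192)).setHiW
    (qm 32)).setLoD (qm 160))
    (by decide +kernel)))
    (good_splitA (qm 1536)
    (good_splitD (qm 160)
    (good_of_check
    (R .u5 1990134 8940782 5414822 5286571 13882319 585378 2097150 11863286 4675739 (-72649)
    2097150 2568479 46955 (-324) 1482908 2097154 2097154 6892269)
    (((((((((((((((((root.setHiD (qm 2048)).setHiD (qm 1024)).setHiU (qm 512)).setHiA (qm
    2048)).setHiD (qm 512)).setHiU (qm 256)).setLoA (qm 1024)).setHiD (qm 256)).setHiU (qm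
    128)).setHiW (qm 64)).setLoU (qm 64)).setLoD (qm 128)).setHiU (qm 96)).setHiD (qm 192)).setLoW
    (qm 32)).setHiA (qm 1536)).setHiD (qm 160))
    (by decide +kernel))
    (good_of_check
    (R .u5 2029655 8411195 5414822 5242880 13824250 525615 2097150 11863286 3822894 (-59598)
    2097150 2568479 11837 (-50) 1482908 2097154 2097154 6506182)
    (((((((((((((((((root.setHiD (qm 2048)).setHiD (qm 1024)).setHiU (qm 512)).setHiA (qm
    2048)).setHiD (qm 512)).setHiU (qm 256)).setLoA (qm 1024)).setHiD (qm 256)).setHiU (qm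
    128)).setHiW (qm 64)).setLoU (qm 64)).setLoD (qm 128)).setHiU (qm 96)).setHiD (qm 192)).setLoW
    (qm 32)).setHiA (qm 1536)).setLoD (qm 160))
    (by decide +kernel)))
    (good_splitD (qm 160)
    (good_splitA (qm 1792)
    (good_splitU (qm 80)
    (good_of_check
    (T 2181038 115863466 13263555 8897461 2262961 4864065 4343845 672743 2429500 3100797 1353708
    2344690 2097154 98625036 24681230 16229074 24366707 16328857)
    (((((((((((((((((((root.setHiD (qm 2048)).setHiD (qm 1024)).setHiU (qm 512)).setHiA (qm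
    2048)).setHiD (qm 512)).setHiU (qm 256)).setLoA (qm 1024)).setHiD (qm 256)).setHiU (qm
    128)).setHiW (qm 64)).setLoU (qm 64)).setLoD (qm 128)).setHiU (qm 96)).setHiD (qm 192)).setLoW
    (qm 32)).setLoA (qm 1536)).setHiD (qm 160)).setHiA (qm 1792)).setHiU (qm 80))
    (by decide +kernel))
    (good_of_check
    (R .u5 2064964 8572474 5136951 5275648 13770398 481928 2344685 11863286 4962693 (-91735)
    2344685 2568479 1289 32 1482908 2097154 2097154 6180153)
    (((((((((((((((((((root.setHiD (qm 2048)).setHiD (qm 1024)).setHiU (qm 512)).setHiA (qm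
    2048)).setHiD (qm 512)).setHiU (qm 256)).setLoA (qm 1024)).setHiD (qm 256)).setHiU (qm
    128)).setHiW (qm 64)).setLoU (qm 64)).setLoD (qm 128)).setHiU (qm 96)).setHiD (qm 192)).setLoW
    (qm 32)).setLoA (qm 1536)).setHiD (qm 160)).setHiA (qm 1792)).setLoU (qm 80))
    (by decide +kernel)))
    (good_of_check
    (T 2684355 97612899 12582913 9610356 2033605 4757182 3849324 874106 2589921 3573620 1398104
    2568479 2097154 75861055 23383978 12855036 24456787 16312014)
    ((((((((((((((((((root.setHiD (qm 2048)).setHiD (qm 1024)).setHiU (qm 512)).setHiA (qm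
    2048)).setHiD (qm 512)).setHiU (qm 256)).setLoA (qm 1024)).setHiD (qm 256)).setHiU (qm
    128)).setHiW (qm 64)).setLoU (qm 64)).setLoD (qm 128)).setHiU (qm 96)).setHiD (qm 192)).setLoW
    (qm 32)).setLoA (qm 1536)).setHiD (qm 160)).setLoA (qm 1792))
    (by decide +kernel)))
    (good_splitU (qm 80)
    (good_splitA (qm 1792)
    (good_splitA (qm 1664)
    (good_of_check
    (R .u5 2036397 8325101 5277715 5253803 13795229 521654 2097150 11863286 1742152 (-27111)
    2097150 2344690 8639 (-25) 1482908 2097154 2097154 6441936)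
    ((((((((((((((((((((root.setHiD (qm 2048)).setHiD (qm 1024)).setHiU (qm 512)).setHiA (qm
    2048)).setHiD (qm 512)).setHiU (qm 256)).setLoA (qm 1024)).setHiD (qm 256)).setHiU (qm
    128)).setHiW (qm 64)).setLoU (qm 64)).setLoD (qm 128)).setHiU (qm 96)).setHiD (qm 192)).setLoW
    (qm 32)).setLoA (qm 1536)).setLoD (qm 160)).setHiU (qm 80)).setHiA (qm 1792)).setHiA (qm
    1664))
    (by decide +kernel))
    (good_of_check
    (T 2516582 106963868 12927715 9260771 2367692 4825504 4333942 780110 2466265 3083862 1441132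
    2344690 2097154 85051233 24174855 16372075 24366707 16261382)
    ((((((((((((((((((((root.setHiD (qm 2048)).setHiD (qm 1024)).setHiU (qm 512)).setHiA (qm
    2048)).setHiD (qm 512)).setHiU (qm 256)).setLoA (qm 1024)).setHiD (qm 256)).setHiU (qm
    128)).setHiW (qm 64)).setLoU (qm 64)).setLoD (qm 128)).setHiU (qm 96)).setHiD (qm 192)).setLoW
    (qm 32)).setLoA (qm 1536)).setLoD (qm 160)).setHiU (qm 80)).setHiA (qm 1792)).setLoA (qm
    1664))
    (by decide +kernel)))
    (good_of_check
    (T 2852127 98170687 12582913 9610356 2173052 4483170 4021147 916032 2901563 3373269 1441132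
    2344690 2097154 72349572 19127833 14150937 24456787 16261382)
    (((((((((((((((((((root.setHiD (qm 2048)).setHiD (qm 1024)).setHiU (qm 512)).setHiA (qm
    2048)).setHiD (qm 512)).setHiU (qm 256)).setLoA (qm 1024)).setHiD (qm 256)).setHiU (qm
    128)).setHiW (qm 64)).setLoU (qm 64)).setLoD (qm 128)).setHiU (qm 96)).setHiD (qm 192)).setLoW
    (qm 32)).setLoA (qm 1536)).setLoD (qm 160)).setHiU (qm 80)).setLoA (qm 1792))
    (by decide +kernel)))
    (good_splitW (qm 48)
    (good_of_check
    (R .u5 2111184 7987700 4843164 5231957 13690990 418223 2344685 11863286 3956739 (-74227)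
    2344685 2568479 0 42 1482908 1816189 1816189 4220041)
    (((((((((((((((((((root.setHiD (qm 2048)).setHiD (qm 1024)).setHiU (qm 512)).setHiA (qm
    2048)).setHiD (qm 512)).setHiU (qm 256)).setLoA (qm 1024)).setHiD (qm 256)).setHiU (qm
    128)).setHiW (qm 64)).setLoU (qm 64)).setLoD (qm 128)).setHiU (qm 96)).setHiD (qm 192)).setLoW
    (qm 32)).setLoA (qm 1536)).setLoD (qm 160)).setLoU (qm 80)).setHiW (qm 48))
    (by decide +kernel))
    (good_splitD (qm 176)
    (good_of_check
    (R .u5 2111184 7987700 4843164 5242880 13680590 421470 2344685 11863286 3956739 (-74227)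
    2344685 2568479 0 42 1816184 2097154 2097154 5782288)
    ((((((((((((((((((((root.setHiD (qm 2048)).setHiD (qm 1024)).setHiU (qm 512)).setHiA (qm
    2048)).setHiD (qm 512)).setHiU (qm 256)).setLoA (qm 1024)).setHiD (qm 256)).setHiU (qm
    128)).setHiW (qm 64)).setLoU (qm 64)).setLoD (qm 128)).setHiU (qm 96)).setHiD (qm 192)).setLoW
    (qm 32)).setLoA (qm 1536)).setLoD (qm 160)).setLoU (qm 80)).setLoW (qm 48)).setHiD (qm 176))
    (by decide +kernel))
    (good_of_check
    (R .u5 2111199 7987700 4843164 5221035 13701374 414962 2344685 11863286 3956431 (-74221)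
    2344685 2568479 0 42 1816184 2097154 2097154 5782078)
    ((((((((((((((((((((root.setHiD (qm 2048)).setHiD (qm 1024)).setHiU (qm 512)).setHiA (qm
    2048)).setHiD (qm 512)).setHiU (qm 256)).setLoA (qm 1024)).setHiD (qm 256)).setHiU (qm
    128)).setHiW (qm 64)).setLoU (qm 64)).setLoD (qm 128)).setHiU (qm 96)).setHiD (qm 192)).setLoW
    (qm 32)).setLoA (qm 1536)).setLoD (qm 160)).setLoU (qm 80)).setLoW (qm 48)).setLoD (qm 176))
    (by decide +kernel))))))))
    (good_splitW (qm 32)
    (good_of_check
    (R .u5 2082616 7760205 4843164 5177344 13739922 451490 2097150 11863286 2826668 (-44123)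
    2097150 2568479 0 42 0 1482913 1482913 2655796)
    (((((((((((((((root.setHiD (qm 2048)).setHiD (qm 1024)).setHiU (qm 512)).setHiA (qm
    2048)).setHiD (qm 512)).setHiU (qm 256)).setLoA (qm 1024)).setHiD (qm 256)).setHiU (qm
    128)).setHiW (qm 64)).setLoU (qm 64)).setLoD (qm 128)).setHiU (qm 96)).setLoD (qm 192)).setHiW
    (qm 32))
    (by decide +kernel))
    (good_splitW (qm 48)
    (good_splitD (qm 224)
    (good_of_check
    (R .u5 2082622 7760205 4843164 5199189 13719706 457731 2097150 11863286 2826556 (-44121)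
    2097150 2568479 0 42 1482908 1816189 1816189 4416174)
    (((((((((((((((((root.setHiD (qm 2048)).setHiD (qm 1024)).setHiU (qm 512)).setHiA (qm
    2048)).setHiD (qm 512)).setHiU (qm 256)).setLoA (qm 1024)).setHiD (qm 256)).setHiU (qm
    128)).setHiW (qm 64)).setLoU (qm 64)).setLoD (qm 128)).setHiU (qm 96)).setLoD (qm 192)).setLoW
    (qm 32)).setHiW (qm 48)).setHiD (qm 224))
    (by decide +kernel))
    (good_of_check
    (R .u5 2086791 7711673 4843164 5155499 13748019 441290 2097150 11863286 2755671 (-43014)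
    2097150 2568479 0 42 1482908 1816189 1816189 4386422)
    (((((((((((((((((root.setHiD (qm 2048)).setHiD (qm 1024)).setHiU (qm 512)).setHiA (qm
    2048)).setHiD (qm 512)).setHiU (qm 256)).setLoA (qm 1024)).setHiD (qm 256)).setHiU (qm
    128)).setHiW (qm 64)).setLoU (qm 64)).setLoD (qm 128)).setHiU (qm 96)).setLoD (qm 192)).setLoW
    (qm 32)).setHiW (qm 48)).setLoD (qm 224))
    (by decide +kernel)))
    (good_splitD (qm 224)
    (good_splitU (qm 80)
    (good_splitD (qm 208)
    (good_splitU (qm 72)
    (good_of_check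
    (R .u5 2082616 7760205 4843164 5226496 13694452 465588 2097150 11863286 386239 (-5992) 2097150
    2224368 238 40 1816184 2097154 2097154 6025337)
    ((((((((((((((((((((root.setHiD (qm 2048)).setHiD (qm 1024)).setHiU (qm 512)).setHiA (qm
    2048)).setHiD (qm 512)).setHiU (qm 256)).setLoA (qm 1024)).setHiD (qm 256)).setHiU (qm
    128)).setHiW (qm 64)).setLoU (qm 64)).setLoD (qm 128)).setHiU (qm 96)).setLoD (qm 192)).setLoW
    (qm 32)).setLoW (qm 48)).setHiD (qm 224)).setHiU (qm 80)).setHiD (qm 208)).setHiU (qm 72))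
    (by decide +kernel))
    (good_of_check
    (R .u5 2089366 7969154 4843164 5215573 13727874 444966 2224363 11863286 1676228 (-28770)
    2224363 2344690 37 42 1816184 2097154 2097154 5965632)
    ((((((((((((((((((((root.setHiD (qm 2048)).setHiD (qm 1024)).setHiU (qm 512)).setHiA (qm
    2048)).setHiD (qm 512)).setHiU (qm 256)).setLoA (qm 1024)).setHiD (qm 256)).setHiU (qm
    128)).setHiW (qm 64)).setLoU (qm 64)).setLoD (qm 128)).setHiU (qm 96)).setLoD (qm 192)).setLoW
    (qm 32)).setLoW (qm 48)).setHiD (qm 224)).setHiU (qm 80)).setHiD (qm 208)).setLoU (qm 72))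
    (by decide +kernel)))
    (good_of_check
    (R .u5 2086788 7711673 4843164 5199189 13707856 453690 2097150 11863286 1035645 (-16139)
    2097150 2344690 86 41 1816184 2097154 2097154 5988107)
    (((((((((((((((((((root.setHiD (qm 2048)).setHiD (qm 1024)).setHiU (qm 512)).setHiA (qm
    2048)).setHiD (qm 512)).setHiU (qm 256)).setLoA (qm 1024)).setHiD (qm 256)).setHiU (qm
    128)).setHiW (qm 64)).setLoU (qm 64)).setLoD (qm 128)).setHiU (qm 96)).setLoD (qm 192)).setLoW
    (qm 32)).setLoW (qm 48)).setHiD (qm 224)).setHiU (qm 80)).setLoD (qm 208))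
    (by decide +kernel)))
    (good_of_check
    (R .u5 2115370 7935782 4843164 5188267 13720742 401137 2344685 11863286 3870448 (-72699)
    2344685 2568479 0 42 1816184 2097154 2097154 5746327)
    ((((((((((((((((((root.setHiD (qm 2048)).setHiD (qm 1024)).setHiU (qm 512)).setHiA (qm
    2048)).setHiD (qm 512)).setHiU (qm 256)).setLoA (qm 1024)).setHiD (qm 256)).setHiU (qm
    128)).setHiW (qm 64)).setLoU (qm 64)).setLoD (qm 128)).setHiU (qm 96)).setLoD (qm 192)).setLoW
    (qm 32)).setLoW (qm 48)).setHiD (qm 224)).setLoU (qm 80))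
    (by decide +kernel)))
    (good_of_check
    (R .u5 2107018 7479491 4843164 5155499 13688691 422550 2097150 11863286 2427933 (-37894)
    2097150 2568479 0 42 1816184 2097154 2097154 5816136)
    (((((((((((((((((root.setHiD (qm 2048)).setHiD (qm 1024)).setHiU (qm 512)).setHiA (qm
    2048)).setHiD (qm 512)).setHiU (qm 256)).setLoA (qm 1024)).setHiD (qm 256)).setHiU (qm
    128)).setHiW (qm 64)).setLoU (qm 64)).setLoD (qm 128)).setHiU (qm 96)).setLoD (qm 192)).setLoW
    (qm 32)).setLoW (qm 48)).setLoD (qm 224))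
    (by decide +kernel))))))
    (good_splitD (qm 192)
    (good_splitD (qm 160)
    (good_splitU (qm 112)
    (good_splitD (qm 144)
    (good_of_check
    (R .u4 2415021 7908381 4843164 5264725 13690441 348764 2568474 11863286 4144987 (-94420)
    2568474 2774274 0 0 0 0 2097154 6796263)
    (((((((((((((((((root.setHiD (qm 2048)).setHiD (qm 1024)).setHiU (qm 512)).setHiA (qm
    2048)).setHiD (qm 512)).setHiU (qm 256)).setLoA (qm 1024)).setHiD (qm 256)).setHiU (qm
    128)).setHiW (qm 64)).setLoU (qm 64)).setLoD (qm 128)).setLoU (qm 96)).setHiD (qm 192)).setHiD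
    (qm 160)).setHiU (qm 112)).setHiD (qm 144))
    (by decide +kernel))
    (good_of_check
    (R .u4 2441006 7626361 4843164 5242880 13646057 319343 2568474 11863286 3568837 (-81852)
    2568474 2774274 0 0 0 0 2097154 6598532)
    (((((((((((((((((root.setHiD (qm 2048)).setHiD (qm 1024)).setHiU (qm 512)).setHiA (qm
    2048)).setHiD (qm 512)).setHiU (qm 256)).setLoA (qm 1024)).setHiD (qm 256)).setHiU (qm
    128)).setHiW (qm 64)).setLoU (qm 64)).setLoD (qm 128)).setLoU (qm 96)).setHiD (qm 192)).setHiD
    (qm 160)).setHiU (qm 112)).setLoD (qm 144))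
    (by decide +kernel)))
    (good_of_check
    (R .t4n 2804110 7224050 4843164 5231957 13669014 340800 2647522 11834287 (-2164349) 189005
    2647522 2847615 0 0 0 0 2097154 8900250)
    ((((((((((((((((root.setHiD (qm 2048)).setHiD (qm 1024)).setHiU (qm 512)).setHiA (qm
    2048)).setHiD (qm 512)).setHiU (qm 256)).setLoA (qm 1024)).setHiD (qm 256)).setHiU (qm
    128)).setHiW (qm 64)).setLoU (qm 64)).setLoD (qm 128)).setLoU (qm 96)).setHiD (qm 192)).setHiD
    (qm 160)).setLoU (qm 112))
    (by decide +kernel)))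
    (good_of_check
    (R .u4 2461236 7415307 4843164 5199189 13633382 290195 2568474 11863286 4911152 (-113870)
    2568474 2965823 0 0 0 0 2097154 6449251)
    (((((((((((((((root.setHiD (qm 2048)).setHiD (qm 1024)).setHiU (qm 512)).setHiA (qm
    2048)).setHiD (qm 512)).setHiU (qm 256)).setLoA (qm 1024)).setHiD (qm 256)).setHiU (qm
    128)).setHiW (qm 64)).setLoU (qm 64)).setLoD (qm 128)).setLoU (qm 96)).setHiD (qm 192)).setLoD
    (qm 160))
    (by decide +kernel)))
    (good_of_check
    (R .u4 2489812 7125558 4843164 5133653 13613610 250537 2568474 11863286 4303350 (-100181)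
    2568474 2965823 0 0 0 0 2097154 6245076)
    ((((((((((((((root.setHiD (qm 2048)).setHiD (qm 1024)).setHiU (qm 512)).setHiA (qm
    2048)).setHiD (qm 512)).setHiU (qm 256)).setLoA (qm 1024)).setHiD (qm 256)).setHiU (qm
    128)).setHiW (qm 64)).setLoU (qm 64)).setLoD (qm 128)).setLoU (qm 96)).setLoD (qm 192))
    (by decide +kernel))))))

end Vale.Agent.P226.Cert
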