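import Vale.Agent.P226.CertBox
import Vale.Agent.P226.CertSound

/-! Part 2 of the cover (P226). -/

namespace Vale.Agent.P226.Cert

set_option maxHeartbeats 4000000 in
/-- One subtree of the cover. -/
theorem sub02_good : BoxGood
    ((((((((((root.setHiD (qm 2048)).setHiD (qm 1024)).setHiU (qm 512)).setHiA (qm 2048)).setHiD
    (qm 512)).setHiU (qm 256)).setLoA (qm 1024)).setHiD (qm 256)).setHiU (qm 128)).setLoW (qm 64)) :=
    (good_splitW (qm 96)
    (good_splitD (qm 160)
    (good_splitA (qm 1536)
    (good_splitU (qm 96)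
    (good_splitD (qm 112)
    (good_of_check
    (R .u5 1939743 9669060 5414822 5363029 13918211 677543 2097150 11863286 5887786 (-90794)
    2097150 2568479 5887786 (-90794) 2097150 2568479 1816189 5558643)
    (((((((((((((((root.setHiD (qm 2048)).setHiD (qm 1024)).setHiU (qm 512)).setHiA (qm
    2048)).setHiD (qm 512)).setHiU (qm 256)).setLoA (qm 1024)).setHiD (qm 256)).setHiU (qm
    128)).setLoW (qm 64)).setHiW (qm 96)).setHiD (qm 160)).setHiA (qm 1536)).setHiU (qm
    96)).setHiD (qm 112))
    (by decide +kernel))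
    (good_of_check
    (R .u5 1983389 9033662 5414822 5297493 13887488 597313 2097150 11863286 4830110 (-74988)
    2097150 2568479 4830110 (-74988) 2097150 2568479 2568479 9804442)
    (((((((((((((((root.setHiD (qm 2048)).setHiD (qm 1024)).setHiU (qm 512)).setHiA (qm
    2048)).setHiD (qm 512)).setHiU (qm 256)).setLoA (qm 1024)).setHiD (qm 256)).setHiU (qm
    128)).setLoW (qm 64)).setHiW (qm 96)).setHiD (qm 160)).setHiA (qm 1536)).setHiU (qm
    96)).setLoD (qm 112))
    (by decide +kernel)))
    (good_of_check
    (R .u5 2060797 9191575 5414822 5286571 13822424 483253 2568474 11863286 10067640 (-210779)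
    2568474 2965823 3215923 (-50192) 2097150 2568479 2568479 8904510)
    ((((((((((((((root.setHiD (qm 2048)).setHiD (qm 1024)).setHiU (qm 512)).setHiA (qm
    2048)).setHiD (qm 512)).setHiU (qm 256)).setLoA (qm 1024)).setHiD (qm 256)).setHiU (qm
    128)).setLoW (qm 64)).setHiW (qm 96)).setHiD (qm 160)).setHiA (qm 1536)).setLoU (qm 96))
    (by decide +kernel)))
    (good_splitU (qm 96)
    (good_splitW (qm 80)
    (good_splitA (qm 1792)
    (good_splitD (qm 112)
    (good_splitU (qm 80)
    (good_of_check
    (T 2516582 113932408 13263555 8897461 1780196 4398131 4398131 811478 2996077 2996077 1210794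
    2344690 2344690 81430671 18226980 18226980 24366707 16446272)
    ((((((((((((((((((root.setHiD (qm 2048)).setHiD (qm 1024)).setHiU (qm 512)).setHiA (qm
    2048)).setHiD (qm 512)).setHiU (qm 256)).setLoA (qm 1024)).setHiD (qm 256)).setHiU (qm
    128)).setLoW (qm 64)).setHiW (qm 96)).setHiD (qm 160)).setLoA (qm 1536)).setHiU (qm
    96)).setHiW (qm 80)).setHiA (qm 1792)).setHiD (qm 112)).setHiU (qm 80))
    (by decide +kernel))
    (good_of_check
    (R .t5n 2218729 9418301 5136951 5352107 13952352 602085 2316378 11857723 3320741 (-35079)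
    2316378 2542664 (-645757) 42392 2065453 2316383 1816189 6653841)
    ((((((((((((((((((root.setHiD (qm 2048)).setHiD (qm 1024)).setHiU (qm 512)).setHiA (qm
    2048)).setHiD (qm 512)).setHiU (qm 256)).setLoA (qm 1024)).setHiD (qm 256)).setHiU (qm
    128)).setLoW (qm 64)).setHiW (qm 96)).setHiD (qm 160)).setLoA (qm 1536)).setHiU (qm
    96)).setHiW (qm 80)).setHiA (qm 1792)).setHiD (qm 112)).setLoU (qm 80))
    (by decide +kernel)))
    (good_splitD (qm 136)
    (good_splitA (qm 1664)
    (good_of_check
    (R .u5 1979222 9093154 5277715 5313877 13880144 608090 2097150 11863286 4926707 (-76447)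
    2097150 2568479 2787122 (-43016) 2097150 2344690 2224368 7804040)
    (((((((((((((((((((root.setHiD (qm 2048)).setHiD (qm 1024)).setHiU (qm 512)).setHiA (qm
    2048)).setHiD (qm 512)).setHiU (qm 256)).setLoA (qm 1024)).setHiD (qm 256)).setHiU (qm
    128)).setLoW (qm 64)).setHiW (qm 96)).setHiD (qm 160)).setLoA (qm 1536)).setHiU (qm
    96)).setHiW (qm 80)).setHiA (qm 1792)).setLoD (qm 112)).setHiD (qm 136)).setHiA (qm 1664))
    (by decide +kernel))
    (good_of_check
    (T 2181038 105457335 12927715 9260771 1991059 4832046 4358548 702343 2532190 3151557 1330955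
    2568479 2344690 94468518 24105577 16868308 24366707 16354088)
    (((((((((((((((((((root.setHiD (qm 2048)).setHiD (qm 1024)).setHiU (qm 512)).setHiA (qm
    2048)).setHiD (qm 512)).setHiU (qm 256)).setLoA (qm 1024)).setHiD (qm 256)).setHiU (qm
    128)).setLoW (qm 64)).setHiW (qm 96)).setHiD (qm 160)).setLoA (qm 1536)).setHiU (qm
    96)).setHiW (qm 80)).setHiA (qm 1792)).setLoD (qm 112)).setHiD (qm 136)).setLoA (qm 1664))
    (by decide +kernel)))
    (good_splitU (qm 80)
    (good_of_check
    (R .u5 1996876 8847925 5136951 5292032 13859481 579073 2097150 11863286 2438191 (-37752)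
    2097150 2344690 2438191 (-37752) 2097150 2344690 2344690 8343903)
    (((((((((((((((((((root.setHiD (qm 2048)).setHiD (qm 1024)).setHiU (qm 512)).setHiA (qm
    2048)).setHiD (qm 512)).setHiU (qm 256)).setLoA (qm 1024)).setHiD (qm 256)).setHiU (qm
    128)).setLoW (qm 64)).setHiW (qm 96)).setHiD (qm 160)).setLoA (qm 1536)).setHiU (qm
    96)).setHiW (qm 80)).setHiA (qm 1792)).setLoD (qm 112)).setLoD (qm 136)).setHiU (qm 80))
    (by decide +kernel))
    (good_of_check
    (R .u5 2064964 8572474 5136951 5270187 13775979 480174 2344685 11863286 4962693 (-91735)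
    2344685 2568479 1315819 (-20507) 2097150 2344690 2344690 7616839)
    (((((((((((((((((((root.setHiD (qm 2048)).setHiD (qm 1024)).setHiU (qm 512)).setHiA (qm
    2048)).setHiD (qm 512)).setHiU (qm 256)).setLoA (qm 1024)).setHiD (qm 256)).setHiU (qm
    128)).setLoW (qm 64)).setHiW (qm 96)).setHiD (qm 160)).setLoA (qm 1536)).setHiU (qm
    96)).setHiW (qm 80)).setHiA (qm 1792)).setLoD (qm 112)).setLoD (qm 136)).setLoU (qm 80))
    (by decide +kernel)))))
    (good_of_check
    (T 2516582 97612899 12582913 9610356 2033605 4725140 4276551 819474 2666413 3212202 1398104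
    2568479 2344690 80965675 22472341 16376398 24456787 16379281)
    ((((((((((((((((root.setHiD (qm 2048)).setHiD (qm 1024)).setHiU (qm 512)).setHiA (qm
    2048)).setHiD (qm 512)).setHiU (qm 256)).setLoA (qm 1024)).setHiD (qm 256)).setHiU (qm
    128)).setLoW (qm 64)).setHiW (qm 96)).setHiD (qm 160)).setLoA (qm 1536)).setHiU (qm
    96)).setHiW (qm 80)).setLoA (qm 1792))
    (by decide +kernel)))
    (good_splitD (qm 120)
    (good_splitA (qm 1792)
    (good_of_check
    (R .u5 2036397 8957222 5136951 5335723 13778505 535955 2344685 11863286 5630851 (-103062)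
    2344685 2568479 5630851 (-103062) 2344685 2568479 1657947 3834779)
    (((((((((((((((((root.setHiD (qm 2048)).setHiD (qm 1024)).setHiU (qm 512)).setHiA (qm
    2048)).setHiD (qm 512)).setHiU (qm 256)).setLoA (qm 1024)).setHiD (qm 256)).setHiU (qm
    128)).setLoW (qm 64)).setHiW (qm 96)).setHiD (qm 160)).setLoA (qm 1536)).setHiU (qm
    96)).setLoW (qm 80)).setHiD (qm 120)).setHiA (qm 1792))
    (by decide +kernel))
    (good_of_check
    (T 2516582 96245772 12582913 9610356 1691823 4345661 4345661 844411 3159845 3159845 1284241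
    2568479 2568479 78354894 17615379 17615379 24456787 16387670)
    (((((((((((((((((root.setHiD (qm 2048)).setHiD (qm 1024)).setHiU (qm 512)).setHiA (qm
    2048)).setHiD (qm 512)).setHiU (qm 256)).setLoA (qm 1024)).setHiD (qm 256)).setHiU (qm
    128)).setLoW (qm 64)).setHiW (qm 96)).setHiD (qm 160)).setLoA (qm 1536)).setHiU (qm
    96)).setLoW (qm 80)).setHiD (qm 120)).setLoA (qm 1792))
    (by decide +kernel)))
    (good_splitD (qm 140)
    (good_of_check
    (R .u5 2064964 8572474 4843164 5294763 13750865 488081 2344685 11863286 4962693 (-91735)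
    2344685 2568479 4962693 (-91735) 2344685 2568479 2030561 5788762)
    (((((((((((((((((root.setHiD (qm 2048)).setHiD (qm 1024)).setHiU (qm 512)).setHiA (qm
    2048)).setHiD (qm 512)).setHiU (qm 256)).setLoA (qm 1024)).setHiD (qm 256)).setHiU (qm
    128)).setLoW (qm 64)).setHiW (qm 96)).setHiD (qm 160)).setLoA (qm 1536)).setHiU (qm
    96)).setLoW (qm 80)).setLoD (qm 120)).setHiD (qm 140))
    (by decide +kernel))
    (good_of_check
    (R .u5 2086788 8291721 4843164 5267456 13721969 454901 2344685 11863286 4475769 (-83329)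
    2344685 2568479 4475769 (-83329) 2344685 2568479 2344690 7399523)
    (((((((((((((((((root.setHiD (qm 2048)).setHiD (qm 1024)).setHiU (qm 512)).setHiA (qm
    2048)).setHiD (qm 512)).setHiU (qm 256)).setLoA (qm 1024)).setHiD (qm 256)).setHiU (qm
    128)).setLoW (qm 64)).setHiW (qm 96)).setHiD (qm 160)).setLoA (qm 1536)).setHiU (qm
    96)).setLoW (qm 80)).setLoD (qm 120)).setLoD (qm 140))
    (by decide +kernel)))))
    (good_splitD (qm 112)
    (good_splitD (qm 88)
    (good_of_check
    (R .t5n 2346511 8592299 4843164 5335723 13767307 441752 2555599 11860505 7126494 (-148352)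
    2555599 2954681 (-248792) 20016 2081361 2445681 1284241 2702150)
    ((((((((((((((((root.setHiD (qm 2048)).setHiD (qm 1024)).setHiU (qm 512)).setHiA (qm
    2048)).setHiD (qm 512)).setHiU (qm 256)).setLoA (qm 1024)).setHiD (qm 256)).setHiU (qm
    128)).setLoW (qm 64)).setHiW (qm 96)).setHiD (qm 160)).setLoA (qm 1536)).setLoU (qm
    96)).setHiD (qm 112)).setHiD (qm 88))
    (by decide +kernel))
    (good_of_check
    (R .t5n 2342343 8529410 4843164 5302955 13797010 438482 2542659 11857723 6778534 (-127612)
    2542659 2943496 (-133399) 34386 2065453 2542664 1816189 5693690)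
    ((((((((((((((((root.setHiD (qm 2048)).setHiD (qm 1024)).setHiU (qm 512)).setHiA (qm
    2048)).setHiD (qm 512)).setHiU (qm 256)).setLoA (qm 1024)).setHiD (qm 256)).setHiU (qm
    128)).setLoW (qm 64)).setHiW (qm 96)).setHiD (qm 160)).setLoA (qm 1536)).setLoU (qm
    96)).setHiD (qm 112)).setLoD (qm 88))
    (by decide +kernel)))
    (good_splitD (qm 136)
    (good_splitD (qm 124)
    (good_of_check
    (R .u5 2124688 8347023 4843164 5278379 13674145 404268 2568474 11863286 8564423 (-183784)
    2568474 2965823 2163452 (-33761) 2097150 2568479 2030561 5301467)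
    (((((((((((((((((root.setHiD (qm 2048)).setHiD (qm 1024)).setHiU (qm 512)).setHiA (qm
    2048)).setHiD (qm 512)).setHiU (qm 256)).setLoA (qm 1024)).setHiD (qm 256)).setHiU (qm
    128)).setLoW (qm 64)).setHiW (qm 96)).setHiD (qm 160)).setLoA (qm 1536)).setLoU (qm
    96)).setLoD (qm 112)).setHiD (qm 136)).setHiD (qm 124))
    (by decide +kernel))
    (good_of_check
    (R .u5 2133022 8243180 4843164 5261995 13669029 389946 2568474 11863286 8374454 (-180253)
    2568474 2965823 2045581 (-31920) 2097150 2568479 2224368 6302703)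
    (((((((((((((((((root.setHiD (qm 2048)).setHiD (qm 1024)).setHiU (qm 512)).setHiA (qm
    2048)).setHiD (qm 512)).setHiU (qm 256)).setLoA (qm 1024)).setHiD (qm 256)).setHiU (qm
    128)).setLoW (qm 64)).setHiW (qm 96)).setHiD (qm 160)).setLoA (qm 1536)).setLoU (qm
    96)).setLoD (qm 112)).setHiD (qm 136)).setLoD (qm 124))
    (by decide +kernel)))
    (good_splitW (qm 80)
    (good_splitU (qm 112)
    (good_of_check
    (R .u5 2133024 8243180 4843164 5248341 13682443 385741 2568474 11863286 6927019 (-146329)
    2568474 2774274 575482 (-8949) 2097150 2344690 2344690 6957633)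
    ((((((((((((((((((root.setHiD (qm 2048)).setHiD (qm 1024)).setHiU (qm 512)).setHiA (qm
    2048)).setHiD (qm 512)).setHiU (qm 256)).setLoA (qm 1024)).setHiD (qm 256)).setHiU (qm
    128)).setLoW (qm 64)).setHiW (qm 96)).setHiD (qm 160)).setLoA (qm 1536)).setLoU (qm
    96)).setLoD (qm 112)).setLoD (qm 136)).setHiW (qm 80)).setHiU (qm 112))
    (by decide +kernel))
    (good_of_check
    (R .u5 2192732 7973339 4843164 5226496 13601550 304479 2774269 11863286 8496466 (-199998)
    2774269 2965823 214318 (-3306) 2097150 2344690 2344690 6432164)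
    ((((((((((((((((((root.setHiD (qm 2048)).setHiD (qm 1024)).setHiU (qm 512)).setHiA (qm
    2048)).setHiD (qm 512)).setHiU (qm 256)).setLoA (qm 1024)).setHiD (qm 256)).setHiU (qm
    128)).setLoW (qm 64)).setHiW (qm 96)).setHiD (qm 160)).setLoA (qm 1536)).setLoU (qm
    96)).setLoD (qm 112)).setLoD (qm 136)).setHiW (qm 80)).setLoU (qm 112))
    (by decide +kernel)))
    (good_of_check
    (R .u5 2133024 8243180 4843164 5237419 13693176 382387 2568474 11863286 8374404 (-180252)
    2568474 2965823 3515620 (-66374) 2344685 2568479 2344690 6957633)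
    (((((((((((((((((root.setHiD (qm 2048)).setHiD (qm 1024)).setHiU (qm 512)).setHiA (qm
    2048)).setHiD (qm 512)).setHiU (qm 256)).setLoA (qm 1024)).setHiD (qm 256)).setHiU (qm
    128)).setLoW (qm 64)).setHiW (qm 96)).setHiD (qm 160)).setLoA (qm 1536)).setLoU (qm
    96)).setLoD (qm 112)).setLoD (qm 136)).setLoW (qm 80))
    (by decide +kernel)))))))
    (good_splitU (qm 96)
    (good_splitW (qm 80)
    (good_splitD (qm 208)
    (good_splitA (qm 1536)
    (good_of_check
    (R .u5 2022912 8500713 5414822 5231957 13853480 529631 2097150 11863286 3962013 (-61741)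
    2097150 2568479 1966102 (-30555) 2097150 2344690 2344690 8057136)
    ((((((((((((((((root.setHiD (qm 2048)).setHiD (qm 1024)).setHiU (qm 512)).setHiA (qm
    2048)).setHiD (qm 512)).setHiU (qm 256)).setLoA (qm 1024)).setHiD (qm 256)).setHiU (qm
    128)).setLoW (qm 64)).setHiW (qm 96)).setLoD (qm 160)).setHiU (qm 96)).setHiW (qm 80)).setHiD
    (qm 208)).setHiA (qm 1536))
    (by decide +kernel))
    (good_splitU (qm 80)
    (good_splitW (qm 72)
    (good_splitA (qm 1792)
    (good_of_check
    (R .u5 2036397 8325101 5136951 5242880 13806069 518263 2097150 11863286 1742152 (-27111)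
    2097150 2344690 862414 (-13365) 2097150 2224368 2224368 7205296)
    (((((((((((((((((((root.setHiD (qm 2048)).setHiD (qm 1024)).setHiU (qm 512)).setHiA (qm
    2048)).setHiD (qm 512)).setHiU (qm 256)).setLoA (qm 1024)).setHiD (qm 256)).setHiU (qm
    128)).setLoW (qm 64)).setHiW (qm 96)).setLoD (qm 160)).setHiU (qm 96)).setHiW (qm 80)).setHiD
    (qm 208)).setLoA (qm 1536)).setHiU (qm 80)).setHiW (qm 72)).setHiA (qm 1792))
    (by decide +kernel))
    (good_splitA (qm 1920)
    (good_of_check
    (T 2516582 98734886 12582913 9610356 2314101 4582828 4355955 796287 2840688 3108463 1482913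
    2344690 2224368 83323364 19740857 16734324 24411789 16244470)
    ((((((((((((((((((((root.setHiD (qm 2048)).setHiD (qm 1024)).setHiU (qm 512)).setHiA (qm
    2048)).setHiD (qm 512)).setHiU (qm 256)).setLoA (qm 1024)).setHiD (qm 256)).setHiU (qm
    128)).setLoW (qm 64)).setHiW (qm 96)).setLoD (qm 160)).setHiU (qm 96)).setHiW (qm 80)).setHiD
    (qm 208)).setLoA (qm 1536)).setHiU (qm 80)).setHiW (qm 72)).setLoA (qm 1792)).setHiA (qm
    1920))
    (by decide +kernel))
    (good_of_check
    (T 2852127 91039833 12228394 9947664 2133749 4276067 4061835 932260 3173513 3384678 1482913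
    2344690 2224368 71117368 16687873 14609136 24456787 16244470)
    ((((((((((((((((((((root.setHiD (qm 2048)).setHiD (qm 1024)).setHiU (qm 512)).setHiA (qm
    2048)).setHiD (qm 512)).setHiU (qm 256)).setLoA (qm 1024)).setHiD (qm 256)).setHiU (qm
    128)).setLoW (qm 64)).setHiW (qm 96)).setLoD (qm 160)).setHiU (qm 96)).setHiW (qm 80)).setHiD
    (qm 208)).setLoA (qm 1536)).setHiU (qm 80)).setHiW (qm 72)).setLoA (qm 1792)).setLoA (qm
    1920))
    (by decide +kernel))))
    (good_splitD (qm 184)
    (good_splitA (qm 1792)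
    (good_of_check
    (R .u5 2049886 8466493 5136951 5253803 13797627 498622 2224363 11863286 2362952 (-40090)
    2224363 2344690 2362952 (-40090) 2224363 2344690 2344690 7771391)
    ((((((((((((((((((((root.setHiD (qm 2048)).setHiD (qm 1024)).setHiU (qm 512)).setHiA (qm
    2048)).setHiD (qm 512)).setHiU (qm 256)).setLoA (qm 1024)).setHiD (qm 256)).setHiU (qm
    128)).setLoW (qm 64)).setHiW (qm 96)).setLoD (qm 160)).setHiU (qm 96)).setHiW (qm 80)).setHiD
    (qm 208)).setLoA (qm 1536)).setHiU (qm 80)).setLoW (qm 72)).setHiD (qm 184)).setHiA (qm 1792))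
    (by decide +kernel))
    (good_of_check
    (T 2516582 97890998 12582913 9610356 2103129 4352465 4352465 813962 3125687 3125687 1419781
    2344690 2344690 81514025 17084406 17084406 24456787 16261382)
    ((((((((((((((((((((root.setHiD (qm 2048)).setHiD (qm 1024)).setHiU (qm 512)).setHiA (qm
    2048)).setHiD (qm 512)).setHiU (qm 256)).setLoA (qm 1024)).setHiD (qm 256)).setHiU (qm
    128)).setLoW (qm 64)).setHiW (qm 96)).setLoD (qm 160)).setHiU (qm 96)).setHiW (qm 80)).setHiD
    (qm 208)).setLoA (qm 1536)).setHiU (qm 80)).setLoW (qm 72)).setHiD (qm 184)).setLoA (qm 1792))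
    (by decide +kernel)))
    (good_of_check
    (R .u5 2082622 8051949 4843164 5221035 13741341 453479 2224363 11863286 1785832 (-30594)
    2224363 2344690 1785832 (-30594) 2224363 2344690 2344690 7440300)
    (((((((((((((((((((root.setHiD (qm 2048)).setHiD (qm 1024)).setHiU (qm 512)).setHiA (qm
    2048)).setHiD (qm 512)).setHiU (qm 256)).setLoA (qm 1024)).setHiD (qm 256)).setHiU (qm
    128)).setLoW (qm 64)).setHiW (qm 96)).setLoD (qm 160)).setHiU (qm 96)).setHiW (qm 80)).setHiD
    (qm 208)).setLoA (qm 1536)).setHiU (qm 80)).setLoW (qm 72)).setLoD (qm 184))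
    (by decide +kernel))))
    (good_splitD (qm 184)
    (good_splitU (qm 88)
    (good_of_check
    (R .u5 2111184 7987700 4843164 5242880 13680590 421470 2344685 11863286 3045489 (-56429)
    2344685 2459131 770791 (-12001) 2097150 2344690 2344690 7162451)
    (((((((((((((((((((root.setHiD (qm 2048)).setHiD (qm 1024)).setHiU (qm 512)).setHiA (qm
    2048)).setHiD (qm 512)).setHiU (qm 256)).setLoA (qm 1024)).setHiD (qm 256)).setHiU (qm
    128)).setLoW (qm 64)).setHiW (qm 96)).setLoD (qm 160)).setHiU (qm 96)).setHiW (qm 80)).setHiD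
    (qm 208)).setLoA (qm 1536)).setLoU (qm 80)).setHiD (qm 184)).setHiU (qm 88))
    (by decide +kernel))
    (good_of_check
    (R .u5 2128855 8039687 4843164 5231957 13678188 391847 2459126 11863286 4485518 (-88650)
    2459126 2568479 609886 (-9487) 2097150 2344690 2344690 6996058)
    (((((((((((((((((((root.setHiD (qm 2048)).setHiD (qm 1024)).setHiU (qm 512)).setHiA (qm
    2048)).setHiD (qm 512)).setHiU (qm 256)).setLoA (qm 1024)).setHiD (qm 256)).setHiU (qm
    128)).setLoW (qm 64)).setHiW (qm 96)).setLoD (qm 160)).setHiU (qm 96)).setHiW (qm 80)).setHiD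
    (qm 208)).setLoA (qm 1536)).setLoU (qm 80)).setHiD (qm 184)).setLoU (qm 88))
    (by decide +kernel)))
    (good_of_check
    (R .u5 2111203 7987696 4843164 5204651 13716966 410110 2344685 11863286 3956341 (-74220)
    2344685 2568479 770602 (-11998) 2097150 2344690 2344690 7162177)
    ((((((((((((((((((root.setHiD (qm 2048)).setHiD (qm 1024)).setHiU (qm 512)).setHiA (qm
    2048)).setHiD (qm 512)).setHiU (qm 256)).setLoA (qm 1024)).setHiD (qm 256)).setHiU (qm
    128)).setLoW (qm 64)).setHiW (qm 96)).setLoD (qm 160)).setHiU (qm 96)).setHiW (qm 80)).setHiD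
    (qm 208)).setLoA (qm 1536)).setLoU (qm 80)).setLoD (qm 184))
    (by decide +kernel)))))
    (good_splitW (qm 72)
    (good_splitD (qm 232)
    (good_splitU (qm 80)
    (good_of_check
    (R .u5 2086788 7711673 4843164 5193728 13712877 452135 2097150 11863286 1035645 (-16139)
    2097150 2344690 353554 (-5481) 2097150 2224368 2224368 6718673)
    ((((((((((((((((((root.setHiD (qm 2048)).setHiD (qm 1024)).setHiU (qm 512)).setHiA (qm
    2048)).setHiD (qm 512)).setHiU (qm 256)).setLoA (qm 1024)).setHiD (qm 256)).setHiU (qm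
    128)).setLoW (qm 64)).setHiW (qm 96)).setLoD (qm 160)).setHiU (qm 96)).setHiW (qm 80)).setLoD
    (qm 208)).setHiW (qm 72)).setHiD (qm 232)).setHiU (qm 80))
    (by decide +kernel))
    (good_of_check
    (R .u5 2124688 7824367 4843164 5171883 13709867 387187 2344685 11863286 3681306 (-69336)
    2344685 2568479 135112 (-2069) 2097150 2224368 2224368 6374499)
    ((((((((((((((((((root.setHiD (qm 2048)).setHiD (qm 1024)).setHiU (qm 512)).setHiA (qm
    2048)).setHiD (qm 512)).setHiU (qm 256)).setLoA (qm 1024)).setHiD (qm 256)).setHiU (qm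
    128)).setLoW (qm 64)).setHiW (qm 96)).setLoD (qm 160)).setHiU (qm 96)).setHiW (qm 80)).setLoD
    (qm 208)).setHiW (qm 72)).setHiD (qm 232)).setLoU (qm 80))
    (by decide +kernel)))
    (good_of_check
    (R .u5 2111184 7433038 4843164 5150037 13681254 417290 2097150 11863286 2363765 (-36891)
    2097150 2568479 197497 (-3043) 2097150 2224368 2224368 6495076)
    (((((((((((((((((root.setHiD (qm 2048)).setHiD (qm 1024)).setHiU (qm 512)).setHiA (qm
    2048)).setHiD (qm 512)).setHiU (qm 256)).setLoA (qm 1024)).setHiD (qm 256)).setHiU (qm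
    128)).setLoW (qm 64)).setHiW (qm 96)).setLoD (qm 160)).setHiU (qm 96)).setHiW (qm 80)).setLoD
    (qm 208)).setHiW (qm 72)).setLoD (qm 232))
    (by decide +kernel)))
    (good_of_check
    (R .u5 2122113 7581223 4843164 5160960 13685007 397613 2224363 11863286 2885739 (-50399)
    2224363 2568479 1190883 (-20606) 2224363 2344690 2344690 7060128)
    ((((((((((((((((root.setHiD (qm 2048)).setHiD (qm 1024)).setHiU (qm 512)).setHiA (qm
    2048)).setHiD (qm 512)).setHiU (qm 256)).setLoA (qm 1024)).setHiD (qm 256)).setHiU (qm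
    128)).setLoW (qm 64)).setHiW (qm 96)).setLoD (qm 160)).setHiU (qm 96)).setHiW (qm 80)).setLoD
    (qm 208)).setLoW (qm 72))
    (by decide +kernel))))
    (good_splitD (qm 208)
    (good_splitD (qm 184)
    (good_splitU (qm 88)
    (good_of_check
    (R .u5 2111184 7987700 4843164 5242880 13680590 421470 2344685 11863286 3045489 (-56429)
    2344685 2459131 3045489 (-56429) 2344685 2459131 2459131 7785919)
    (((((((((((((((((root.setHiD (qm 2048)).setHiD (qm 1024)).setHiU (qm 512)).setHiA (qm
    2048)).setHiD (qm 512)).setHiU (qm 256)).setLoA (qm 1024)).setHiD (qm 256)).setHiU (qm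
    128)).setLoW (qm 64)).setHiW (qm 96)).setLoD (qm 160)).setHiU (qm 96)).setLoW (qm 80)).setHiD
    (qm 208)).setHiD (qm 184)).setHiU (qm 88))
    (by decide +kernel))
    (good_of_check
    (R .u5 2135599 7958994 4843164 5231957 13660068 384856 2459126 11863286 4342877 (-86041)
    2459126 2568479 3465110 (-65468) 2344685 2568479 2568479 8118429)
    (((((((((((((((((root.setHiD (qm 2048)).setHiD (qm 1024)).setHiU (qm 512)).setHiA (qm
    2048)).setHiD (qm 512)).setHiU (qm 256)).setLoA (qm 1024)).setHiD (qm 256)).setHiU (qm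
    128)).setLoW (qm 64)).setHiW (qm 96)).setLoD (qm 160)).setHiU (qm 96)).setLoW (qm 80)).setHiD
    (qm 208)).setHiD (qm 184)).setLoU (qm 88))
    (by decide +kernel)))
    (good_of_check
    (R .u5 2115370 7935782 4843164 5204651 13705243 405937 2344685 11863286 3870448 (-72699)
    2344685 2568479 3870448 (-72699) 2344685 2568479 2568479 8322402)
    ((((((((((((((((root.setHiD (qm 2048)).setHiD (qm 1024)).setHiU (qm 512)).setHiA (qm
    2048)).setHiD (qm 512)).setHiU (qm 256)).setLoA (qm 1024)).setHiD (qm 256)).setHiU (qm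
    128)).setLoW (qm 64)).setHiW (qm 96)).setLoD (qm 160)).setHiU (qm 96)).setLoW (qm 80)).setHiD
    (qm 208)).setLoD (qm 184))
    (by decide +kernel)))
    (good_of_check
    (R .u5 2153251 7491744 4843164 5155499 13642362 355724 2344685 11863286 3127657 (-59378)
    2344685 2568479 3127657 (-59378) 2344685 2568479 2568479 7943596)
    (((((((((((((((root.setHiD (qm 2048)).setHiD (qm 1024)).setHiU (qm 512)).setHiA (qm
    2048)).setHiD (qm 512)).setHiU (qm 256)).setLoA (qm 1024)).setHiD (qm 256)).setHiU (qm
    128)).setLoW (qm 64)).setHiW (qm 96)).setLoD (qm 160)).setHiU (qm 96)).setLoW (qm 80)).setLoD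
    (qm 208))
    (by decide +kernel))))
    (good_splitD (qm 208)
    (good_splitW (qm 80)
    (good_splitU (qm 112)
    (good_of_check
    (R .u5 2168335 7815501 4843164 5199189 13634724 334418 2568474 11863286 6141955 (-131465)
    2568474 2774274 334123 (-5178) 2097150 2344690 2344690 6641910)
    ((((((((((((((((root.setHiD (qm 2048)).setHiD (qm 1024)).setHiU (qm 512)).setHiA (qm
    2048)).setHiD (qm 512)).setHiU (qm 256)).setLoA (qm 1024)).setHiD (qm 256)).setHiU (qm
    128)).setLoW (qm 64)).setHiW (qm 96)).setLoD (qm 160)).setLoU (qm 96)).setHiD (qm 208)).setHiW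
    (qm 80)).setHiU (qm 112))
    (by decide +kernel))
    (good_of_check
    (R .u5 2207818 7797770 4843164 5177344 13607417 274813 2774269 11863286 8171458 (-193516)
    2774269 2965823 156870 (-2409) 2097150 2344690 2344690 6305394)
    ((((((((((((((((root.setHiD (qm 2048)).setHiD (qm 1024)).setHiU (qm 512)).setHiA (qm
    2048)).setHiD (qm 512)).setHiU (qm 256)).setLoA (qm 1024)).setHiD (qm 256)).setHiU (qm
    128)).setLoW (qm 64)).setHiW (qm 96)).setLoD (qm 160)).setLoU (qm 96)).setHiD (qm 208)).setHiW
    (qm 80)).setLoU (qm 112))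
    (by decide +kernel)))
    (good_of_check
    (R .u5 2175077 7736992 4843164 5188267 13626240 324643 2568474 11863286 7439076 (-162477)
    2568474 2965823 2732039 (-52156) 2344685 2568479 2568479 7733483)
    (((((((((((((((root.setHiD (qm 2048)).setHiD (qm 1024)).setHiU (qm 512)).setHiA (qm
    2048)).setHiD (qm 512)).setHiU (qm 256)).setLoA (qm 1024)).setHiD (qm 256)).setHiU (qm
    128)).setLoW (qm 64)).setHiW (qm 96)).setLoD (qm 160)).setLoU (qm 96)).setHiD (qm 208)).setLoW
    (qm 80))
    (by decide +kernel)))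
    (good_of_check
    (R .u5 2207809 7365434 4843164 5122731 13591709 276102 2568474 11863286 6739522 (-148766)
    2568474 2965823 1171110 (-18256) 2097150 2568479 2568479 7429366)
    ((((((((((((((root.setHiD (qm 2048)).setHiD (qm 1024)).setHiU (qm 512)).setHiA (qm
    2048)).setHiD (qm 512)).setHiU (qm 256)).setLoA (qm 1024)).setHiD (qm 256)).setHiU (qm
    128)).setLoW (qm 64)).setHiW (qm 96)).setLoD (qm 160)).setLoU (qm 96)).setLoD (qm 208))
    (by decide +kernel)))))
    (good_splitD (qm 176)
    (good_splitD (qm 136)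
    (good_of_check
    (R .t5n 2394762 7962380 4843164 5281109 13699469 379165 2546980 11858651 5675246 (-108612)
    2546980 2947229 5675246 (-108612) 2546980 2947229 1657947 4445644)
    (((((((((((((root.setHiD (qm 2048)).setHiD (qm 1024)).setHiU (qm 512)).setHiA (qm
    2048)).setHiD (qm 512)).setHiU (qm 256)).setLoA (qm 1024)).setHiD (qm 256)).setHiU (qm
    128)).setLoW (qm 64)).setLoW (qm 96)).setHiD (qm 176)).setHiD (qm 136))
    (by decide +kernel))
    (good_of_check
    (R .u5 2179245 7688427 4843164 5226496 13579575 331478 2568474 11863286 7348576 (-160723)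
    2568474 2965823 7348576 (-160723) 2568474 2965823 2344690 6547173)
    (((((((((((((root.setHiD (qm 2048)).setHiD (qm 1024)).setHiU (qm 512)).setHiA (qm
    2048)).setHiD (qm 512)).setHiU (qm 256)).setLoA (qm 1024)).setHiD (qm 256)).setHiU (qm
    128)).setLoW (qm 64)).setLoW (qm 96)).setHiD (qm 176)).setLoD (qm 136))
    (by decide +kernel)))
    (good_splitD (qm 216)
    (good_of_check
    (R .u5 2179245 7688427 4843164 5171883 13629630 315966 2568474 11863286 7348576 (-160723)
    2568474 2965823 7348576 (-160723) 2568474 2965823 2871646 9151311)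
    (((((((((((((root.setHiD (qm 2048)).setHiD (qm 1024)).setHiU (qm 512)).setHiA (qm
    2048)).setHiD (qm 512)).setHiU (qm 256)).setLoA (qm 1024)).setHiD (qm 256)).setHiU (qm
    128)).setLoW (qm 64)).setLoW (qm 96)).setLoD (qm 176)).setHiD (qm 216))
    (by decide +kernel))
    (good_of_check
    (R .u5 2221305 7218438 4843164 5117269 13556892 262835 2568474 11863286 6458771 (-143164)
    2568474 2965823 6458771 (-143164) 2568474 2965823 2965823 9148171)
    (((((((((((((root.setHiD (qm 2048)).setHiD (qm 1024)).setHiU (qm 512)).setHiA (qm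
    2048)).setHiD (qm 512)).setHiU (qm 256)).setLoA (qm 1024)).setHiD (qm 256)).setHiU (qm
    128)).setLoW (qm 64)).setLoW (qm 96)).setLoD (qm 176)).setLoD (qm 216))
    (by decide +kernel)))))

set_option maxHeartbeats 4000000 in
/-- One subtree of the cover. -/
theorem sub03_good : BoxGood
    (((((((((root.setHiD (qm 2048)).setHiD (qm 1024)).setHiU (qm 512)).setHiA (qm 2048)).setHiD
    (qm 512)).setHiU (qm 256)).setLoA (qm 1024)).setHiD (qm 256)).setLoU (qm 128)) :=
    (good_splitW (qm 128)
    (good_splitD (qm 128)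
    (good_splitU (qm 192)
    (good_splitU (qm 160)
    (good_splitD (qm 64)
    (good_of_check
    (R .t4n 2821770 8287536 4843164 5352107 13709772 308220 2919110 11851695 6932385 (-166266)
    2919110 3274180 0 0 0 0 2097154 8774976)
    ((((((((((((((root.setHiD (qm 2048)).setHiD (qm 1024)).setHiU (qm 512)).setHiA (qm
    2048)).setHiD (qm 512)).setHiU (qm 256)).setLoA (qm 1024)).setHiD (qm 256)).setLoU (qm
    128)).setHiW (qm 128)).setHiD (qm 128)).setHiU (qm 192)).setHiU (qm 160)).setHiD (qm 64))
    (by decide +kernel))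
    (good_splitD (qm 96)
    (good_of_check
    (R .t4n 2843590 7864042 4843164 5286571 13699774 277717 2895473 11845895 5478133 (-99019)
    2895473 3253124 0 0 0 0 2568479 10883378)
    (((((((((((((((root.setHiD (qm 2048)).setHiD (qm 1024)).setHiU (qm 512)).setHiA (qm
    2048)).setHiD (qm 512)).setHiU (qm 256)).setLoA (qm 1024)).setHiD (qm 256)).setLoU (qm
    128)).setHiW (qm 128)).setHiD (qm 128)).setHiU (qm 192)).setHiU (qm 160)).setLoD (qm
    64)).setHiD (qm 96))
    (by decide +kernel))
    (good_of_check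
    (R .t4n 2867987 7429651 4843164 5242880 13652876 256845 2871641 11840093 3879333 (-25460)
    2871641 3231931 0 0 0 0 2965823 12277959)
    (((((((((((((((root.setHiD (qm 2048)).setHiD (qm 1024)).setHiU (qm 512)).setHiA (qm
    2048)).setHiD (qm 512)).setHiU (qm 256)).setLoA (qm 1024)).setHiD (qm 256)).setLoU (qm
    128)).setHiW (qm 128)).setHiD (qm 128)).setHiU (qm 192)).setHiU (qm 160)).setLoD (qm
    64)).setLoD (qm 96))
    (by decide +kernel))))
    (good_of_check
    (R .t4n 2978118 7445312 4843164 5264725 13553328 137657 3231926 11840093 8473400 (-225967)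
    3231926 3555897 0 0 0 0 2965823 11431419)
    (((((((((((((root.setHiD (qm 2048)).setHiD (qm 1024)).setHiU (qm 512)).setHiA (qm
    2048)).setHiD (qm 512)).setHiU (qm 256)).setLoA (qm 1024)).setHiD (qm 256)).setLoU (qm
    128)).setHiW (qm 128)).setHiD (qm 128)).setHiU (qm 192)).setLoU (qm 160))
    (by decide +kernel)))
    (good_of_check
    (R .t4n 3136491 6862574 4843164 5199189 13390643 (-26068) 3555892 11840093 11396620 (-407405)
    3555892 4128250 0 0 0 0 2965823 10332949)
    ((((((((((((root.setHiD (qm 2048)).setHiD (qm 1024)).setHiU (qm 512)).setHiA (qm 2048)).setHiD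
    (qm 512)).setHiU (qm 256)).setLoA (qm 1024)).setHiD (qm 256)).setLoU (qm 128)).setHiW (qm
    128)).setHiD (qm 128)).setLoU (qm 192))
    (by decide +kernel)))
    (good_splitU (qm 192)
    (good_splitW (qm 64)
    (good_splitD (qm 192)
    (good_of_check
    (R .u4 2575508 7180853 4843164 5155499 13524241 145696 2965818 11863286 10310774 (-301180)
    2965818 3632376 0 0 0 0 2097154 5676780)
    ((((((((((((((root.setHiD (qm 2048)).setHiD (qm 1024)).setHiU (qm 512)).setHiA (qm
    2048)).setHiD (qm 512)).setHiU (qm 256)).setLoA (qm 1024)).setHiD (qm 256)).setLoU (qm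
    128)).setHiW (qm 128)).setLoD (qm 128)).setHiU (qm 192)).setHiW (qm 64)).setHiD (qm 192))
    (by decide +kernel))
    (good_of_check
    (R .u5 2300284 7158934 4843164 5068117 13501038 145599 2965818 11863286 11186555 (-307359)
    2965818 3632376 0 42 0 2097154 2097154 4420709)
    ((((((((((((((root.setHiD (qm 2048)).setHiD (qm 1024)).setHiU (qm 512)).setHiA (qm
    2048)).setHiD (qm 512)).setHiU (qm 256)).setLoA (qm 1024)).setHiD (qm 256)).setLoU (qm
    128)).setHiW (qm 128)).setLoD (qm 128)).setHiU (qm 192)).setHiW (qm 64)).setLoD (qm 192))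
    (by decide +kernel)))
    (good_splitD (qm 192)
    (good_splitW (qm 96)
    (good_splitD (qm 160)
    (good_splitU (qm 160)
    (good_of_check
    (R .t4n 2878898 7137812 4843164 5199189 13629448 249142 2847610 11834287 2640269 38196 2847610
    3210598 0 0 0 0 2568479 10611557)
    (((((((((((((((((root.setHiD (qm 2048)).setHiD (qm 1024)).setHiU (qm 512)).setHiA (qm
    2048)).setHiD (qm 512)).setHiU (qm 256)).setLoA (qm 1024)).setHiD (qm 256)).setLoU (qm
    128)).setHiW (qm 128)).setLoD (qm 128)).setHiU (qm 192)).setLoW (qm 64)).setHiD (qm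
    192)).setHiW (qm 96)).setHiD (qm 160)).setHiU (qm 160))
    (by decide +kernel))
    (good_of_check
    (R .t4n 3037275 6787446 4843164 5155499 13484773 78006 3210593 11834287 6560941 (-139868)
    3210593 3536518 0 0 0 0 2568479 9493077)
    (((((((((((((((((root.setHiD (qm 2048)).setHiD (qm 1024)).setHiU (qm 512)).setHiA (qm
    2048)).setHiD (qm 512)).setHiU (qm 256)).setLoA (qm 1024)).setHiD (qm 256)).setLoU (qm
    128)).setHiW (qm 128)).setLoD (qm 128)).setHiU (qm 192)).setLoW (qm 64)).setHiD (qm
    192)).setHiW (qm 96)).setHiD (qm 160)).setLoU (qm 160))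
    (by decide +kernel)))
    (good_of_check
    (R .u5 2267529 7508181 4843164 5133653 13536797 192344 2965818 11863286 11789830 (-319814)
    2965818 3632376 684476 (-10652) 2097150 2568479 2568479 6906782)
    ((((((((((((((((root.setHiD (qm 2048)).setHiD (qm 1024)).setHiU (qm 512)).setHiA (qm
    2048)).setHiD (qm 512)).setHiU (qm 256)).setLoA (qm 1024)).setHiD (qm 256)).setLoU (qm
    128)).setHiW (qm 128)).setLoD (qm 128)).setHiU (qm 192)).setLoW (qm 64)).setHiD (qm
    192)).setHiW (qm 96)).setLoD (qm 160))
    (by decide +kernel)))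
    (good_of_check
    (R .u5 2249870 7701480 4843164 5155499 13565122 215382 2965818 11863286 12118290 (-326382)
    2965818 3632376 5880005 (-131436) 2568474 2965823 2568479 7056211)
    (((((((((((((((root.setHiD (qm 2048)).setHiD (qm 1024)).setHiU (qm 512)).setHiA (qm
    2048)).setHiD (qm 512)).setHiU (qm 256)).setLoA (qm 1024)).setHiD (qm 256)).setLoU (qm
    128)).setHiW (qm 128)).setLoD (qm 128)).setHiU (qm 192)).setLoW (qm 64)).setHiD (qm
    192)).setLoW (qm 96))
    (by decide +kernel)))
    (good_splitW (qm 96)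
    (good_of_check
    (R .u5 2293540 7229395 4843164 5068117 13520580 151412 2965818 11863286 11310085 (-309950)
    2965818 3632376 523252 (-8133) 2097150 2568479 2568479 6692722)
    (((((((((((((((root.setHiD (qm 2048)).setHiD (qm 1024)).setHiU (qm 512)).setHiA (qm
    2048)).setHiD (qm 512)).setHiU (qm 256)).setLoA (qm 1024)).setHiD (qm 256)).setLoU (qm
    128)).setHiW (qm 128)).setLoD (qm 128)).setHiU (qm 192)).setLoW (qm 64)).setLoD (qm
    192)).setHiW (qm 96))
    (by decide +kernel))
    (good_of_check
    (R .u5 2293540 7229395 4843164 5068117 13520580 151412 2965818 11863286 11310085 (-309950)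
    2965818 3632376 5038021 (-113948) 2568474 2965823 2965823 8460205)
    (((((((((((((((root.setHiD (qm 2048)).setHiD (qm 1024)).setHiU (qm 512)).setHiA (qm
    2048)).setHiD (qm 512)).setHiU (qm 256)).setLoA (qm 1024)).setHiD (qm 256)).setLoU (qm
    128)).setHiW (qm 128)).setLoD (qm 128)).setHiU (qm 192)).setLoW (qm 64)).setLoD (qm
    192)).setLoW (qm 96))
    (by decide +kernel)))))
    (good_of_check
    (R .t4n 3171809 6060921 4843164 5024427 13345252 (-53779) 3477731 11816854 9287841 (-250335)
    3477731 4061120 0 0 0 0 2965823 10104906)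
    ((((((((((((root.setHiD (qm 2048)).setHiD (qm 1024)).setHiU (qm 512)).setHiA (qm 2048)).setHiD
    (qm 512)).setHiU (qm 256)).setLoA (qm 1024)).setHiD (qm 256)).setLoU (qm 128)).setHiW (qm
    128)).setLoD (qm 128)).setLoU (qm 192))
    (by decide +kernel))))
    (good_splitU (qm 192)
    (good_splitD (qm 192)
    (good_of_check
    (R .t5n 2593178 6812758 4843164 5155499 13439254 144778 2936010 11855869 9301656 (-245047)
    2936010 3608079 9301656 (-245047) 2936010 3608079 2097154 5567291)
    ((((((((((((root.setHiD (qm 2048)).setHiD (qm 1024)).setHiU (qm 512)).setHiA (qm 2048)).setHiD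
    (qm 512)).setHiU (qm 256)).setLoA (qm 1024)).setHiD (qm 256)).setLoU (qm 128)).setLoW (qm
    128)).setHiU (qm 192)).setHiD (qm 192))
    (by decide +kernel))
    (good_of_check
    (R .u5 2348534 6676432 4843164 5068117 13359602 106082 2965818 11863286 10313379 (-288452)
    2965818 3632376 10313379 (-288452) 2965818 3632376 2965823 7972659)
    ((((((((((((root.setHiD (qm 2048)).setHiD (qm 1024)).setHiU (qm 512)).setHiA (qm 2048)).setHiD
    (qm 512)).setHiU (qm 256)).setLoA (qm 1024)).setHiD (qm 256)).setLoU (qm 128)).setLoW (qm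
    128)).setHiU (qm 192)).setLoD (qm 192))
    (by decide +kernel)))
    (good_of_check
    (R .t5n 2795762 6148314 4843164 5024427 13210666 (-87553) 3583612 11848447 11519800 (-400612)
    3583612 4152152 8237200 (-195450) 2905897 4152152 2965823 8090914)
    (((((((((((root.setHiD (qm 2048)).setHiD (qm 1024)).setHiU (qm 512)).setHiA (qm 2048)).setHiD
    (qm 512)).setHiU (qm 256)).setLoA (qm 1024)).setHiD (qm 256)).setLoU (qm 128)).setLoW (qm
    128)).setLoU (qm 192))
    (by decide +kernel))))

end Vale.Agent.P226.Cert
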