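import Vale.Agent.P226.CertBox
import Vale.Agent.P226.CertSound

/-! Part 3 of the cover (P226). -/

namespace Vale.Agent.P226.Cert

set_option maxHeartbeats 4000000 in
/-- One subtree of the cover. -/
theorem sub04_good : BoxGood
    ((((((((root.setHiD (qm 2048)).setHiD (qm 1024)).setHiU (qm 512)).setHiA (qm 2048)).setHiD (qm
    512)).setHiU (qm 256)).setLoA (qm 1024)).setLoD (qm 256)) :=
    (good_splitU (qm 128)
    (good_splitU (qm 64)
    (good_splitU (qm 32)
    (good_splitU (qm 16)
    (good_of_check
    (R .u3 2936036 2823445 4843164 5057195 13351506 256643 0 11863286 0 0 0 0 0 0 0 0 1048578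
    2715818)
    ((((((((((((root.setHiD (qm 2048)).setHiD (qm 1024)).setHiU (qm 512)).setHiA (qm 2048)).setHiD
    (qm 512)).setHiU (qm 256)).setLoA (qm 1024)).setLoD (qm 256)).setHiU (qm 128)).setHiU (qm
    64)).setHiU (qm 32)).setHiU (qm 16))
    (by decide +kernel))
    (good_splitD (qm 384)
    (good_splitD (qm 320)
    (good_of_check
    (R .u3 2899136 4154347 4843164 5166421 13283842 332206 1048574 11863286 0 0 0 0 0 0 0 0
    1482913 5024377)
    ((((((((((((((root.setHiD (qm 2048)).setHiD (qm 1024)).setHiU (qm 512)).setHiA (qm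
    2048)).setHiD (qm 512)).setHiU (qm 256)).setLoA (qm 1024)).setLoD (qm 256)).setHiU (qm
    128)).setHiU (qm 64)).setHiU (qm 32)).setLoU (qm 16)).setHiD (qm 384)).setHiD (qm 320))
    (by decide +kernel))
    (good_of_check
    (R .u5 2025489 6882047 4843164 5079040 13714220 561032 1048574 11863286 0 42 1048574 1482913 0
    42 0 1482913 1482913 2941257)
    ((((((((((((((root.setHiD (qm 2048)).setHiD (qm 1024)).setHiU (qm 512)).setHiA (qm
    2048)).setHiD (qm 512)).setHiU (qm 256)).setLoA (qm 1024)).setLoD (qm 256)).setHiU (qm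
    128)).setHiU (qm 64)).setHiU (qm 32)).setLoU (qm 16)).setHiD (qm 384)).setLoD (qm 320))
    (by decide +kernel)))
    (good_of_check
    (R .u5 2115370 5583510 4843164 4947968 13652532 419604 1048574 11863286 0 42 1048574 1482913 0
    42 0 1482913 1482913 2507375)
    (((((((((((((root.setHiD (qm 2048)).setHiD (qm 1024)).setHiU (qm 512)).setHiA (qm
    2048)).setHiD (qm 512)).setHiU (qm 256)).setLoA (qm 1024)).setLoD (qm 256)).setHiU (qm
    128)).setHiU (qm 64)).setHiU (qm 32)).setLoU (qm 16)).setLoD (qm 384))
    (by decide +kernel))))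
    (good_splitD (qm 384)
    (good_splitW (qm 32)
    (good_of_check
    (R .u5 2043144 7155548 4843164 5089963 13748409 517774 1482908 11863286 6074 (-5) 1482908
    2097154 0 42 0 1482913 1482913 2850015)
    (((((((((((((root.setHiD (qm 2048)).setHiD (qm 1024)).setHiU (qm 512)).setHiA (qm
    2048)).setHiD (qm 512)).setHiU (qm 256)).setLoA (qm 1024)).setLoD (qm 256)).setHiU (qm
    128)).setHiU (qm 64)).setLoU (qm 32)).setHiD (qm 384)).setHiW (qm 32))
    (by decide +kernel))
    (good_splitW (qm 48)
    (good_splitD (qm 320)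
    (good_splitW (qm 40)
    (good_of_check
    (R .u5 2043143 7157640 4843164 5133653 13710650 529311 1482908 11863286 6074 (-5) 1482908
    2097154 0 42 1482908 1657947 1657947 3792535)
    ((((((((((((((((root.setHiD (qm 2048)).setHiD (qm 1024)).setHiU (qm 512)).setHiA (qm
    2048)).setHiD (qm 512)).setHiU (qm 256)).setLoA (qm 1024)).setLoD (qm 256)).setHiU (qm
    128)).setHiU (qm 64)).setLoU (qm 32)).setHiD (qm 384)).setLoW (qm 32)).setHiW (qm 48)).setHiD
    (qm 320)).setHiW (qm 40))
    (by decide +kernel))
    (good_of_check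
    (R .u5 2075874 7059302 4843164 5128192 13664728 484682 1657942 11863286 497 38 1657942 2097154
    0 42 1657942 1816189 1816189 4463482)
    ((((((((((((((((root.setHiD (qm 2048)).setHiD (qm 1024)).setHiU (qm 512)).setHiA (qm
    2048)).setHiD (qm 512)).setHiU (qm 256)).setLoA (qm 1024)).setLoD (qm 256)).setHiU (qm
    128)).setHiU (qm 64)).setLoU (qm 32)).setHiD (qm 384)).setLoW (qm 32)).setHiW (qm 48)).setHiD
    (qm 320)).setLoW (qm 40))
    (by decide +kernel)))
    (good_of_check
    (R .u5 2097700 6624514 4843164 5046272 13616331 462252 1482908 11863286 0 42 1482908 2097154 0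
    42 1482908 1816189 1816189 4310789)
    (((((((((((((((root.setHiD (qm 2048)).setHiD (qm 1024)).setHiU (qm 512)).setHiA (qm
    2048)).setHiD (qm 512)).setHiU (qm 256)).setLoA (qm 1024)).setLoD (qm 256)).setHiU (qm
    128)).setHiU (qm 64)).setLoU (qm 32)).setHiD (qm 384)).setLoW (qm 32)).setHiW (qm 48)).setLoD
    (qm 320))
    (by decide +kernel)))
    (good_splitD (qm 320)
    (good_splitU (qm 56)
    (good_of_check
    (R .u5 2093532 7114598 4843164 5128192 13659459 454703 1816184 11863286 0 42 1816184 1961709 0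
    42 1816184 1961709 1961709 5158571)
    ((((((((((((((((root.setHiD (qm 2048)).setHiD (qm 1024)).setHiU (qm 512)).setHiA (qm
    2048)).setHiD (qm 512)).setHiU (qm 256)).setLoA (qm 1024)).setLoD (qm 256)).setHiU (qm
    128)).setHiU (qm 64)).setLoU (qm 32)).setHiD (qm 384)).setLoW (qm 32)).setLoW (qm 48)).setHiD
    (qm 320)).setHiU (qm 56))
    (by decide +kernel))
    (good_of_check
    (R .u5 2111199 7175371 4843164 5117269 13662773 422339 1961704 11863286 0 42 1961704 2097154 0
    42 1816184 2097154 2097154 5782078)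
    ((((((((((((((((root.setHiD (qm 2048)).setHiD (qm 1024)).setHiU (qm 512)).setHiA (qm
    2048)).setHiD (qm 512)).setHiU (qm 256)).setLoA (qm 1024)).setLoD (qm 256)).setHiU (qm
    128)).setHiU (qm 64)).setLoU (qm 32)).setHiD (qm 384)).setLoW (qm 32)).setLoW (qm 48)).setHiD
    (qm 320)).setLoU (qm 56))
    (by decide +kernel)))
    (good_of_check
    (R .u5 2146508 6590341 4843164 5035349 13571926 389197 1816184 11863286 0 42 1816184 2097154 0
    42 1816184 2097154 2097154 5495743)
    (((((((((((((((root.setHiD (qm 2048)).setHiD (qm 1024)).setHiU (qm 512)).setHiA (qm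
    2048)).setHiD (qm 512)).setHiU (qm 256)).setLoA (qm 1024)).setLoD (qm 256)).setHiU (qm
    128)).setHiU (qm 64)).setLoU (qm 32)).setHiD (qm 384)).setLoW (qm 32)).setLoW (qm 48)).setLoD
    (qm 320))
    (by decide +kernel)))))
    (good_of_check
    (R .u5 2282629 4012910 4843164 4915200 13349971 222082 1482908 11863286 0 42 1482908 2097154 0
    42 0 2097154 2097154 4531196)
    ((((((((((((root.setHiD (qm 2048)).setHiD (qm 1024)).setHiU (qm 512)).setHiA (qm 2048)).setHiD
    (qm 512)).setHiU (qm 256)).setLoA (qm 1024)).setLoD (qm 256)).setHiU (qm 128)).setHiU (qm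
    64)).setLoU (qm 32)).setLoD (qm 384))
    (by decide +kernel))))
    (good_splitW (qm 64)
    (good_splitD (qm 384)
    (good_splitW (qm 32)
    (good_of_check
    (R .u5 2128855 7238262 4843164 5024427 13737146 368794 2097150 11863286 5286607 (-82560)
    2097150 2965823 0 42 0 1482913 1482913 2448273)
    (((((((((((((root.setHiD (qm 2048)).setHiD (qm 1024)).setHiU (qm 512)).setHiA (qm
    2048)).setHiD (qm 512)).setHiU (qm 256)).setLoA (qm 1024)).setLoD (qm 256)).setHiU (qm
    128)).setLoU (qm 64)).setHiW (qm 64)).setHiD (qm 384)).setHiW (qm 32))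
    (by decide +kernel))
    (good_splitD (qm 320)
    (good_splitU (qm 96)
    (good_of_check
    (R .u5 2135599 7166506 4843164 5089963 13660103 380121 2097150 11863286 2009998 (-31364)
    2097150 2568479 0 42 1482908 2097154 2097154 5581232)
    (((((((((((((((root.setHiD (qm 2048)).setHiD (qm 1024)).setHiU (qm 512)).setHiA (qm
    2048)).setHiD (qm 512)).setHiU (qm 256)).setLoA (qm 1024)).setLoD (qm 256)).setHiU (qm
    128)).setLoU (qm 64)).setHiW (qm 64)).setHiD (qm 384)).setLoW (qm 32)).setHiD (qm 320)).setHiU
    (qm 96))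
    (by decide +kernel))
    (good_of_check
    (R .u5 2221306 7218438 4843164 5046272 13617984 244329 2568474 11863286 6458743 (-143163)
    2568474 2965823 0 42 1482908 2097154 2097154 4940879)
    (((((((((((((((root.setHiD (qm 2048)).setHiD (qm 1024)).setHiU (qm 512)).setHiA (qm
    2048)).setHiD (qm 512)).setHiU (qm 256)).setLoA (qm 1024)).setLoD (qm 256)).setHiU (qm
    128)).setLoU (qm 64)).setHiW (qm 64)).setHiD (qm 384)).setLoW (qm 32)).setHiD (qm 320)).setLoU
    (qm 96))
    (by decide +kernel)))
    (good_of_check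
    (R .u5 2179245 6717383 4843164 4980736 13613296 318694 2097150 11863286 4408157 (-68835)
    2097150 2965823 0 42 1482908 2097154 2097154 5244991)
    ((((((((((((((root.setHiD (qm 2048)).setHiD (qm 1024)).setHiU (qm 512)).setHiA (qm
    2048)).setHiD (qm 512)).setHiU (qm 256)).setLoA (qm 1024)).setLoD (qm 256)).setHiU (qm
    128)).setLoU (qm 64)).setHiW (qm 64)).setHiD (qm 384)).setLoW (qm 32)).setLoD (qm 320))
    (by decide +kernel))))
    (good_of_check
    (R .u5 2296117 4982230 4843164 4849664 13470552 162098 2097150 11863286 2749419 (-42917)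
    2097150 2965823 0 42 0 2097154 2097154 4446609)
    ((((((((((((root.setHiD (qm 2048)).setHiD (qm 1024)).setHiU (qm 512)).setHiA (qm 2048)).setHiD
    (qm 512)).setHiU (qm 256)).setLoA (qm 1024)).setLoD (qm 256)).setHiU (qm 128)).setLoU (qm
    64)).setHiW (qm 64)).setLoD (qm 384))
    (by decide +kernel)))
    (good_splitW (qm 96)
    (good_splitD (qm 384)
    (good_splitW (qm 80)
    (good_splitD (qm 320)
    (good_splitW (qm 72)
    (good_splitU (qm 96)
    (good_of_check
    (R .u5 2133022 7195217 4843164 5089963 13668063 382287 2097150 11863286 2045581 (-31920)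
    2097150 2568479 104076 (-1584) 2097150 2224368 2224368 6302703)
    (((((((((((((((((root.setHiD (qm 2048)).setHiD (qm 1024)).setHiU (qm 512)).setHiA (qm
    2048)).setHiD (qm 512)).setHiU (qm 256)).setLoA (qm 1024)).setLoD (qm 256)).setHiU (qm
    128)).setLoU (qm 64)).setLoW (qm 64)).setHiW (qm 96)).setHiD (qm 384)).setHiW (qm 80)).setHiD
    (qm 320)).setHiW (qm 72)).setHiU (qm 96))
    (by decide +kernel))
    (good_of_check
    (R .u5 2221305 7218438 4843164 5046272 13617986 244330 2568474 11863286 6458771 (-143164)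
    2568474 2965823 4 42 2097150 2224368 2224368 5585036)
    (((((((((((((((((root.setHiD (qm 2048)).setHiD (qm 1024)).setHiU (qm 512)).setHiA (qm
    2048)).setHiD (qm 512)).setHiU (qm 256)).setLoA (qm 1024)).setLoD (qm 256)).setHiU (qm
    128)).setLoU (qm 64)).setLoW (qm 64)).setHiW (qm 96)).setHiD (qm 384)).setHiW (qm 80)).setHiD
    (qm 320)).setHiW (qm 72)).setLoU (qm 96))
    (by decide +kernel)))
    (good_of_check
    (R .u5 2168334 7070260 4843164 5062656 13631453 331466 2224363 11863286 5241833 (-92052)
    2224363 2965823 644137 (-11233) 2224363 2344690 2344690 6641924)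
    ((((((((((((((((root.setHiD (qm 2048)).setHiD (qm 1024)).setHiU (qm 512)).setHiA (qm
    2048)).setHiD (qm 512)).setHiU (qm 256)).setLoA (qm 1024)).setLoD (qm 256)).setHiU (qm
    128)).setLoU (qm 64)).setLoW (qm 64)).setHiW (qm 96)).setHiD (qm 384)).setHiW (qm 80)).setHiD
    (qm 320)).setLoW (qm 72))
    (by decide +kernel)))
    (good_of_check
    (R .u5 2179245 6717383 4843164 4980736 13613296 318694 2097150 11863286 4408157 (-68835)
    2097150 2965823 276199 (-4273) 2097150 2344690 2344690 6547173)
    (((((((((((((((root.setHiD (qm 2048)).setHiD (qm 1024)).setHiU (qm 512)).setHiA (qm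
    2048)).setHiD (qm 512)).setHiU (qm 256)).setLoA (qm 1024)).setLoD (qm 256)).setHiU (qm
    128)).setLoU (qm 64)).setLoW (qm 64)).setHiW (qm 96)).setHiD (qm 384)).setHiW (qm 80)).setLoD
    (qm 320))
    (by decide +kernel)))
    (good_splitD (qm 320)
    (good_of_check
    (R .u5 2196900 7012861 4843164 5057195 13595853 292591 2344685 11863286 5433580 (-105311)
    2344685 2965823 2361173 (-45304) 2344685 2568479 2568479 7528837)
    (((((((((((((((root.setHiD (qm 2048)).setHiD (qm 1024)).setHiU (qm 512)).setHiA (qm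
    2048)).setHiD (qm 512)).setHiU (qm 256)).setLoA (qm 1024)).setLoD (qm 256)).setHiU (qm
    128)).setLoU (qm 64)).setLoW (qm 64)).setHiW (qm 96)).setHiD (qm 384)).setLoW (qm 80)).setHiD
    (qm 320))
    (by decide +kernel))
    (good_of_check
    (R .u5 2225472 6717385 4843164 4969813 13576548 249561 2344685 11863286 4886804 (-94997)
    2344685 2965823 1914404 (-36942) 2344685 2568479 2568479 7270487)
    (((((((((((((((root.setHiD (qm 2048)).setHiD (qm 1024)).setHiU (qm 512)).setHiA (qm
    2048)).setHiD (qm 512)).setHiU (qm 256)).setLoA (qm 1024)).setLoD (qm 256)).setHiU (qm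
    128)).setLoU (qm 64)).setLoW (qm 64)).setHiW (qm 96)).setHiD (qm 384)).setLoW (qm 80)).setLoD
    (qm 320))
    (by decide +kernel))))
    (good_of_check
    (R .u5 2326711 4553316 4843164 4849664 13402515 131094 2097150 11863286 2396096 (-37396)
    2097150 2965823 356973 (-5535) 2097150 2568479 2568479 6428054)
    (((((((((((((root.setHiD (qm 2048)).setHiD (qm 1024)).setHiU (qm 512)).setHiA (qm
    2048)).setHiD (qm 512)).setHiU (qm 256)).setLoA (qm 1024)).setLoD (qm 256)).setHiU (qm
    128)).setLoU (qm 64)).setLoW (qm 64)).setHiW (qm 96)).setLoD (qm 384))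
    (by decide +kernel)))
    (good_splitD (qm 384)
    (good_splitD (qm 320)
    (good_of_check
    (R .u5 2238961 7030594 4843164 5046272 13563937 229928 2568474 11863286 6098498 (-135892)
    2568474 2965823 6098498 (-135892) 2568474 2965823 2965823 8974067)
    ((((((((((((((root.setHiD (qm 2048)).setHiD (qm 1024)).setHiU (qm 512)).setHiA (qm
    2048)).setHiD (qm 512)).setHiU (qm 256)).setLoA (qm 1024)).setLoD (qm 256)).setHiU (qm
    128)).setLoU (qm 64)).setLoW (qm 64)).setLoW (qm 96)).setHiD (qm 384)).setHiD (qm 320))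
    (by decide +kernel))
    (good_of_check
    (R .u5 2271721 6692072 4843164 4958891 13532628 183607 2568474 11863286 5452059 (-122611)
    2568474 2965823 5452059 (-122611) 2568474 2965823 2965823 8662067)
    ((((((((((((((root.setHiD (qm 2048)).setHiD (qm 1024)).setHiU (qm 512)).setHiA (qm
    2048)).setHiD (qm 512)).setHiU (qm 256)).setLoA (qm 1024)).setLoD (qm 256)).setHiU (qm
    128)).setLoU (qm 64)).setLoW (qm 64)).setLoW (qm 96)).setHiD (qm 384)).setLoD (qm 320))
    (by decide +kernel)))
    (good_of_check
    (R .u5 2344363 5672994 4843164 4827819 13463571 83082 2568474 11863286 4128060 (-94483)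
    2568474 2965823 4128060 (-94483) 2568474 2965823 2965823 8008678)
    (((((((((((((root.setHiD (qm 2048)).setHiD (qm 1024)).setHiU (qm 512)).setHiA (qm
    2048)).setHiD (qm 512)).setHiU (qm 256)).setLoA (qm 1024)).setLoD (qm 256)).setHiU (qm
    128)).setLoU (qm 64)).setLoW (qm 64)).setLoW (qm 96)).setLoD (qm 384))
    (by decide +kernel))))))
    (good_splitW (qm 128)
    (good_splitW (qm 64)
    (good_of_check
    (R .u5 2377106 6293213 4843164 4805973 13500637 17436 2965818 11863286 12036795 (-346713)
    2965818 4194306 0 42 0 2097154 2097154 3972090)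
    (((((((((((root.setHiD (qm 2048)).setHiD (qm 1024)).setHiU (qm 512)).setHiA (qm 2048)).setHiD
    (qm 512)).setHiU (qm 256)).setLoA (qm 1024)).setLoD (qm 256)).setLoU (qm 128)).setHiW (qm
    128)).setHiW (qm 64))
    (by decide +kernel))
    (good_splitD (qm 384)
    (good_splitW (qm 96)
    (good_of_check
    (R .u5 2348534 6676432 4843164 4893355 13498710 64784 2965818 11863286 12491678 (-356523)
    2965818 4194306 269355 (-4166) 2097150 2568479 2568479 6261732)
    (((((((((((((root.setHiD (qm 2048)).setHiD (qm 1024)).setHiU (qm 512)).setHiA (qm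
    2048)).setHiD (qm 512)).setHiU (qm 256)).setLoA (qm 1024)).setLoD (qm 256)).setLoU (qm
    128)).setHiW (qm 128)).setLoW (qm 64)).setHiD (qm 384)).setHiW (qm 96))
    (by decide +kernel))
    (good_of_check
    (R .u5 2348534 6676432 4843164 4893355 13498710 64784 2965818 11863286 12491678 (-356523)
    2965818 4194306 4056909 (-92937) 2568474 2965823 2965823 7972659)
    (((((((((((((root.setHiD (qm 2048)).setHiD (qm 1024)).setHiU (qm 512)).setHiA (qm
    2048)).setHiD (qm 512)).setHiU (qm 256)).setLoA (qm 1024)).setLoD (qm 256)).setLoU (qm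
    128)).setHiW (qm 128)).setLoW (qm 64)).setHiD (qm 384)).setLoW (qm 96))
    (by decide +kernel)))
    (good_of_check
    (R .u5 2458660 4998698 4843164 4718592 13407374 (-87576) 2965818 11863286 10763338 (-317383)
    2965818 4194306 1211407 (-18886) 2097150 2965823 2965823 7085136)
    ((((((((((((root.setHiD (qm 2048)).setHiD (qm 1024)).setHiU (qm 512)).setHiA (qm 2048)).setHiD
    (qm 512)).setHiU (qm 256)).setLoA (qm 1024)).setLoD (qm 256)).setLoU (qm 128)).setHiW (qm
    128)).setLoW (qm 64)).setLoD (qm 384))
    (by decide +kernel))))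
    (good_splitW (qm 192)
    (good_splitD (qm 384)
    (good_splitW (qm 160)
    (good_splitU (qm 192)
    (good_of_check
    (R .u5 2368761 6483117 4843164 4937045 13400578 60416 2965818 11863286 9953306 (-280359)
    2965818 3632376 8324325 (-229453) 2965818 3315891 3315891 9148960)
    ((((((((((((((root.setHiD (qm 2048)).setHiD (qm 1024)).setHiU (qm 512)).setHiA (qm
    2048)).setHiD (qm 512)).setHiU (qm 256)).setLoA (qm 1024)).setLoD (qm 256)).setLoU (qm
    128)).setLoW (qm 128)).setHiW (qm 192)).setHiD (qm 384)).setHiW (qm 160)).setHiU (qm 192))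
    (by decide +kernel))
    (good_of_check
    (R .u5 2493978 6356073 4843164 4849664 13299272 (-113139) 3632371 11863286 12634350 (-454787)
    3632371 4194306 6127109 (-176139) 2965818 3315891 3315891 8099312)
    ((((((((((((((root.setHiD (qm 2048)).setHiD (qm 1024)).setHiU (qm 512)).setHiA (qm
    2048)).setHiD (qm 512)).setHiU (qm 256)).setLoA (qm 1024)).setLoD (qm 256)).setLoU (qm
    128)).setLoW (qm 128)).setHiW (qm 192)).setHiD (qm 384)).setHiW (qm 160)).setLoU (qm 192))
    (by decide +kernel)))
    (good_of_check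
    (R .u5 2476316 6055440 4843164 4871509 13242749 (-67606) 3315886 11863286 11849912 (-395622)
    3315886 4194306 9790486 (-315176) 3315886 3632376 3632376 9283842)
    (((((((((((((root.setHiD (qm 2048)).setHiD (qm 1024)).setHiU (qm 512)).setHiA (qm
    2048)).setHiD (qm 512)).setHiU (qm 256)).setLoA (qm 1024)).setLoD (qm 256)).setLoU (qm
    128)).setLoW (qm 128)).setHiW (qm 192)).setHiD (qm 384)).setLoW (qm 160))
    (by decide +kernel)))
    (good_of_check
    (R .u5 2476316 4733592 4843164 4718592 13369367 (-104839) 2965818 11863286 10493085 (-310820)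
    2965818 4194306 8106544 (-236241) 2965818 3632376 3632376 9283842)
    ((((((((((((root.setHiD (qm 2048)).setHiD (qm 1024)).setHiU (qm 512)).setHiA (qm 2048)).setHiD
    (qm 512)).setHiU (qm 256)).setLoA (qm 1024)).setLoD (qm 256)).setLoU (qm 128)).setLoW (qm
    128)).setHiW (qm 192)).setLoD (qm 384))
    (by decide +kernel)))
    (good_splitD (qm 384)
    (good_of_check
    (R .u5 2557855 5789076 4843164 4849664 13113494 (-158991) 3632371 11863286 11753389 (-434798)
    3632371 4194306 11753389 (-434798) 3632371 4194306 3632376 8631023)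
    ((((((((((((root.setHiD (qm 2048)).setHiD (qm 1024)).setHiU (qm 512)).setHiA (qm 2048)).setHiD
    (qm 512)).setHiU (qm 256)).setLoA (qm 1024)).setLoD (qm 256)).setLoU (qm 128)).setLoW (qm
    128)).setLoW (qm 192)).setHiD (qm 384))
    (by decide +kernel))
    (good_of_check
    (R .u5 2661223 4174172 4843164 4674901 13052188 (-301166) 3632371 11863286 10353148 (-398889)
    3632371 4194306 10353148 (-398889) 3632371 4194306 4194306 9378533)
    ((((((((((((root.setHiD (qm 2048)).setHiD (qm 1024)).setHiU (qm 512)).setHiA (qm 2048)).setHiD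
    (qm 512)).setHiU (qm 256)).setLoA (qm 1024)).setLoD (qm 256)).setLoU (qm 128)).setLoW (qm
    128)).setLoW (qm 192)).setLoD (qm 384))
    (by decide +kernel))))))

set_option maxHeartbeats 4000000 in
/-- One subtree of the cover. -/
theorem sub05_good : BoxGood
    ((((((root.setHiD (qm 2048)).setHiD (qm 1024)).setHiU (qm 512)).setHiA (qm 2048)).setHiD (qm
    512)).setLoU (qm 256)) :=
    (good_splitW (qm 256)
    (good_splitA (qm 1024)
    (good_splitD (qm 256)
    (good_splitU (qm 384)
    (good_of_check
    (R .t4n 3339094 6019962 5931640 4980736 13217584 (-231627) 4061115 11816854 13226577 (-562880)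
    4061115 5028796 0 0 0 0 4194306 12209096)
    ((((((((((root.setHiD (qm 2048)).setHiD (qm 1024)).setHiU (qm 512)).setHiA (qm 2048)).setHiD
    (qm 512)).setLoU (qm 256)).setHiW (qm 256)).setHiA (qm 1024)).setHiD (qm 256)).setHiU (qm
    384))
    (by decide +kernel))
    (good_of_check
    (R .t4n 3746257 4596371 5931640 4805973 12748903 (-588051) 5028791 11816854 13035061 (-785576)
    5028791 5838227 0 0 0 0 4194306 10034705)
    ((((((((((root.setHiD (qm 2048)).setHiD (qm 1024)).setHiU (qm 512)).setHiA (qm 2048)).setHiD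
    (qm 512)).setLoU (qm 256)).setHiW (qm 256)).setHiA (qm 1024)).setHiD (qm 256)).setLoU (qm
    384))
    (by decide +kernel)))
    (good_splitU (qm 384)
    (good_splitW (qm 128)
    (good_of_check
    (R .t4n 3481943 2555781 5931640 4631211 13128663 (-374018) 3923410 11770239 10019069 (-296230)
    3923410 4918260 0 0 0 0 2965823 8347245)
    (((((((((((root.setHiD (qm 2048)).setHiD (qm 1024)).setHiU (qm 512)).setHiA (qm 2048)).setHiD
    (qm 512)).setLoU (qm 256)).setHiW (qm 256)).setHiA (qm 1024)).setLoD (qm 256)).setHiU (qm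
    384)).setHiW (qm 128))
    (by decide +kernel))
    (good_splitD (qm 384)
    (good_of_check
    (R .u5 2643567 5791156 5931640 4718592 13087287 (-284281) 4194302 11863286 13813880 (-606810)
    4194302 5136955 8050564 (-246602) 2965818 4194306 4194306 9508335)
    ((((((((((((root.setHiD (qm 2048)).setHiD (qm 1024)).setHiU (qm 512)).setHiA (qm 2048)).setHiD
    (qm 512)).setLoU (qm 256)).setHiW (qm 256)).setHiA (qm 1024)).setLoD (qm 256)).setHiU (qm
    384)).setLoW (qm 128)).setHiD (qm 384))
    (by decide +kernel))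
    (good_of_check
    (R .u5 2720975 4830626 5931640 4543829 13029454 (-383523) 4194302 11863286 13044822 (-594153)
    4194302 5136955 7005656 (-216705) 2965818 4194306 4194306 8952248)
    ((((((((((((root.setHiD (qm 2048)).setHiD (qm 1024)).setHiU (qm 512)).setHiA (qm 2048)).setHiD
    (qm 512)).setLoU (qm 256)).setHiW (qm 256)).setHiA (qm 1024)).setLoD (qm 256)).setHiU (qm
    384)).setLoW (qm 128)).setLoD (qm 384))
    (by decide +kernel))))
    (good_of_check
    (R .t4n 3836156 1566569 5931640 4456448 12778291 (-689994) 4918255 11770239 11618941 (-627595)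
    4918255 5743290 0 0 0 0 4194306 9617890)
    ((((((((((root.setHiD (qm 2048)).setHiD (qm 1024)).setHiU (qm 512)).setHiA (qm 2048)).setHiD
    (qm 512)).setLoU (qm 256)).setHiW (qm 256)).setHiA (qm 1024)).setLoD (qm 256)).setLoU (qm
    384))
    (by decide +kernel))))
    (good_splitD (qm 256)
    (good_splitU (qm 384)
    (good_splitW (qm 128)
    (good_splitD (qm 128)
    (good_of_check
    (R .t4n 3428966 5805513 4843164 5068117 13045971 (-297054) 4128245 11840093 13035497 (-629640)
    4128245 5083163 0 0 0 0 2965823 8619494)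
    ((((((((((((root.setHiD (qm 2048)).setHiD (qm 1024)).setHiU (qm 512)).setHiA (qm 2048)).setHiD
    (qm 512)).setLoU (qm 256)).setHiW (qm 256)).setLoA (qm 1024)).setHiD (qm 256)).setHiU (qm
    384)).setHiW (qm 128)).setHiD (qm 128))
    (by decide +kernel))
    (good_of_check
    (R .t4n 3442452 4923553 4843164 4893355 13118439 (-331662) 4061115 11816854 12163796 (-530577)
    4061115 5028796 0 0 0 0 2965823 8549336)
    ((((((((((((root.setHiD (qm 2048)).setHiD (qm 1024)).setHiU (qm 512)).setHiA (qm 2048)).setHiD
    (qm 512)).setLoU (qm 256)).setHiW (qm 256)).setLoA (qm 1024)).setHiD (qm 256)).setHiU (qm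
    384)).setHiW (qm 128)).setLoD (qm 128))
    (by decide +kernel)))
    (good_of_check
    (R .t4n 3453381 4814202 4843164 4893355 13099363 (-339513) 4061115 11816854 12049528 (-526736)
    4061115 5028796 0 0 0 0 4194306 11547987)
    (((((((((((root.setHiD (qm 2048)).setHiD (qm 1024)).setHiU (qm 512)).setHiA (qm 2048)).setHiD
    (qm 512)).setLoU (qm 256)).setHiW (qm 256)).setLoA (qm 1024)).setHiD (qm 256)).setHiU (qm
    384)).setLoW (qm 128))
    (by decide +kernel)))
    (good_of_check
    (R .t4n 3789927 3910968 4843164 4805973 12722928 (-632963) 5028791 11816854 12744711 (-780252)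
    5028791 5838227 0 0 0 0 4194306 9829468)
    ((((((((((root.setHiD (qm 2048)).setHiD (qm 1024)).setHiU (qm 512)).setHiA (qm 2048)).setHiD
    (qm 512)).setLoU (qm 256)).setHiW (qm 256)).setLoA (qm 1024)).setHiD (qm 256)).setLoU (qm
    384))
    (by decide +kernel)))
    (good_splitU (qm 384)
    (good_splitW (qm 128)
    (good_of_check
    (R .t4n 3567650 910034 4843164 4631211 13075431 (-463147) 3923410 11770239 9022267 (-251346)
    3923410 4918260 0 0 0 0 2965823 7928523)
    (((((((((((root.setHiD (qm 2048)).setHiD (qm 1024)).setHiU (qm 512)).setHiA (qm 2048)).setHiD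
    (qm 512)).setLoU (qm 256)).setHiW (qm 256)).setLoA (qm 1024)).setLoD (qm 256)).setHiU (qm
    384)).setHiW (qm 128))
    (by decide +kernel))
    (good_splitW (qm 192)
    (good_splitD (qm 384)
    (good_of_check
    (R .t4n 3563482 2434201 4843164 4718592 13010512 (-443915) 3992856 11793569 10016146 (-373266)
    3992856 4973835 0 0 0 0 3632376 9755914)
    (((((((((((((root.setHiD (qm 2048)).setHiD (qm 1024)).setHiU (qm 512)).setHiA (qm
    2048)).setHiD (qm 512)).setLoU (qm 256)).setHiW (qm 256)).setLoA (qm 1024)).setLoD (qm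
    256)).setHiU (qm 384)).setLoW (qm 128)).setHiW (qm 192)).setHiD (qm 384))
    (by decide +kernel))
    (good_of_check
    (R .t4n 3660116 1692 4843164 4543829 12838574 (-504381) 3923410 11770239 7919662 (-197023)
    3923410 4918260 0 0 0 0 3632376 9270467)
    (((((((((((((root.setHiD (qm 2048)).setHiD (qm 1024)).setHiU (qm 512)).setHiA (qm
    2048)).setHiD (qm 512)).setLoU (qm 256)).setHiW (qm 256)).setLoA (qm 1024)).setLoD (qm
    256)).setHiU (qm 384)).setLoW (qm 128)).setHiW (qm 192)).setLoD (qm 384))
    (by decide +kernel)))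
    (good_of_check
    (R .t5n 2986890 4261571 4843164 4631211 13211522 (-353755) 4088099 11826155 12575806 (-508361)
    4088099 5050613 7552686 (-194416) 3509204 4088104 4194306 10721903)
    ((((((((((((root.setHiD (qm 2048)).setHiD (qm 1024)).setHiU (qm 512)).setHiA (qm 2048)).setHiD
    (qm 512)).setLoU (qm 256)).setHiW (qm 256)).setLoA (qm 1024)).setLoD (qm 256)).setHiU (qm
    384)).setLoW (qm 128)).setLoW (qm 192))
    (by decide +kernel))))
    (good_of_check
    (R .t4n 3932765 1692 4843164 4456448 12666709 (-766386) 4918255 11770239 10917443 (-602443)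
    4918255 5743290 0 0 0 0 4194306 9191878)
    ((((((((((root.setHiD (qm 2048)).setHiD (qm 1024)).setHiU (qm 512)).setHiA (qm 2048)).setHiD
    (qm 512)).setLoU (qm 256)).setHiW (qm 256)).setLoA (qm 1024)).setLoD (qm 256)).setLoU (qm
    384))
    (by decide +kernel)))))
    (good_splitA (qm 1024)
    (good_splitU (qm 384)
    (good_of_check
    (R .t5n 3048195 4136600 5931640 4631211 13028340 (-385987) 4109559 11833590 12177469 (-521447)
    4109559 5067999 12177469 (-521447) 4109559 5067999 4194306 10285558)
    (((((((((root.setHiD (qm 2048)).setHiD (qm 1024)).setHiU (qm 512)).setHiA (qm 2048)).setHiD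
    (qm 512)).setLoU (qm 256)).setLoW (qm 256)).setHiA (qm 1024)).setHiU (qm 384))
    (by decide +kernel))
    (good_of_check
    (R .t5n 3297003 3251151 5931640 4456448 12735594 (-629477) 5067994 11833590 12725936 (-724621)
    5067994 5872028 11210215 (-535156) 4109559 5872028 4194306 8710565)
    (((((((((root.setHiD (qm 2048)).setHiD (qm 1024)).setHiU (qm 512)).setHiA (qm 2048)).setHiD
    (qm 512)).setLoU (qm 256)).setLoW (qm 256)).setHiA (qm 1024)).setLoU (qm 384))
    (by decide +kernel)))
    (good_splitU (qm 384)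
    (good_of_check
    (R .t5n 3103761 3061947 4843164 4631211 12994311 (-451939) 4109559 11833590 11623793 (-505921)
    4109559 5067999 11623793 (-505921) 4109559 5067999 4194306 9907443)
    (((((((((root.setHiD (qm 2048)).setHiD (qm 1024)).setHiU (qm 512)).setHiA (qm 2048)).setHiD
    (qm 512)).setLoU (qm 256)).setLoW (qm 256)).setLoA (qm 1024)).setHiU (qm 384))
    (by decide +kernel))
    (good_splitW (qm 384)
    (good_of_check
    (R .t5n 3290260 2917135 4843164 4456448 12815219 (-643069) 5067994 11833590 12771767 (-725179)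
    5067994 5872028 9761716 (-442987) 4109559 5067999 4194306 8749442)
    ((((((((((root.setHiD (qm 2048)).setHiD (qm 1024)).setHiU (qm 512)).setHiA (qm 2048)).setHiD
    (qm 512)).setLoU (qm 256)).setLoW (qm 256)).setLoA (qm 1024)).setLoU (qm 384)).setHiW (qm
    384))
    (by decide +kernel))
    (good_of_check
    (R .t5n 3418057 1752325 4843164 4369067 12614004 (-750189) 5102589 11848447 12119277 (-752494)
    5102589 5901911 12119277 (-752494) 5102589 5901911 2965823 4795248)
    ((((((((((root.setHiD (qm 2048)).setHiD (qm 1024)).setHiU (qm 512)).setHiA (qm 2048)).setHiD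
    (qm 512)).setLoU (qm 256)).setLoW (qm 256)).setLoA (qm 1024)).setLoU (qm 384)).setLoW (qm
    384))
    (by decide +kernel))))))

set_option maxHeartbeats 4000000 in
/-- One subtree of the cover. -/
theorem sub06_good : BoxGood
    (((((root.setHiD (qm 2048)).setHiD (qm 1024)).setHiU (qm 512)).setHiA (qm 2048)).setLoD (qm
    512)) :=
    (good_splitU (qm 256)
    (good_splitA (qm 1024)
    (good_splitD (qm 768)
    (good_splitU (qm 128)
    (good_splitW (qm 64)
    (good_of_check
    (R .u5 2447726 1692 5931640 4631211 13168295 199 0 11863286 645109 43 0 2965823 0 42 0 2097154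
    2097154 3604359)
    ((((((((((root.setHiD (qm 2048)).setHiD (qm 1024)).setHiU (qm 512)).setHiA (qm 2048)).setLoD
    (qm 512)).setHiU (qm 256)).setHiA (qm 1024)).setHiD (qm 768)).setHiU (qm 128)).setHiW (qm 64))
    (by decide +kernel))
    (good_of_check
    (R .u5 2483058 1662846 5931640 4587520 13306722 (-97308) 2097150 11863286 1047096 (-16318)
    2097150 2965823 1047096 (-16318) 2097150 2965823 2965823 6903138)
    ((((((((((root.setHiD (qm 2048)).setHiD (qm 1024)).setHiU (qm 512)).setHiA (qm 2048)).setLoD
    (qm 512)).setHiU (qm 256)).setHiA (qm 1024)).setHiD (qm 768)).setHiU (qm 128)).setLoW (qm 64))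
    (by decide +kernel)))
    (good_splitW (qm 128)
    (good_of_check
    (R .u5 2586436 2596720 5931640 4456448 13331193 (-265876) 2965818 11863286 8858812 (-268782)
    2965818 4194306 256403 43 0 2965823 2965823 6185463)
    ((((((((((root.setHiD (qm 2048)).setHiD (qm 1024)).setHiU (qm 512)).setHiA (qm 2048)).setLoD
    (qm 512)).setHiU (qm 256)).setHiA (qm 1024)).setHiD (qm 768)).setLoU (qm 128)).setHiW (qm
    128))
    (by decide +kernel))
    (good_splitD (qm 640)
    (good_of_check
    (R .u5 2536030 3837922 5931640 4543829 13320614 (-184312) 2965818 11863286 9595277 (-288211)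
    2965818 4194306 9595277 (-288211) 2965818 4194306 4194306 10340768)
    (((((((((((root.setHiD (qm 2048)).setHiD (qm 1024)).setHiU (qm 512)).setHiA (qm 2048)).setLoD
    (qm 512)).setHiU (qm 256)).setHiA (qm 1024)).setHiD (qm 768)).setLoU (qm 128)).setLoW (qm
    128)).setHiD (qm 640))
    (by decide +kernel))
    (good_of_check
    (R .u5 2647734 1187441 5931640 4369067 13292958 (-348222) 2965818 11863286 7992788 (-244984)
    2965818 4194306 7992788 (-244984) 2965818 4194306 4194306 9477741)
    (((((((((((root.setHiD (qm 2048)).setHiD (qm 1024)).setHiU (qm 512)).setHiA (qm 2048)).setLoD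
    (qm 512)).setHiU (qm 256)).setHiA (qm 1024)).setHiD (qm 768)).setLoU (qm 128)).setLoW (qm
    128)).setLoD (qm 640))
    (by decide +kernel)))))
    (good_splitU (qm 128)
    (good_of_check
    (R .u5 2529286 1692 5931640 4281685 12743811 165 0 11863286 388663 43 0 2965823 388663 43 0
    2965823 2965823 6572483)
    (((((((((root.setHiD (qm 2048)).setHiD (qm 1024)).setHiU (qm 512)).setHiA (qm 2048)).setLoD
    (qm 512)).setHiU (qm 256)).setHiA (qm 1024)).setLoD (qm 768)).setHiU (qm 128))
    (by decide +kernel))
    (good_splitW (qm 128)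
    (good_of_check
    (R .u5 2711656 1692 5931640 4106923 13167880 (-408940) 2965818 11863286 7128160 (-220277)
    2965818 4194306 77936 43 0 2965823 2965823 5422846)
    ((((((((((root.setHiD (qm 2048)).setHiD (qm 1024)).setHiU (qm 512)).setHiA (qm 2048)).setLoD
    (qm 512)).setHiU (qm 256)).setHiA (qm 1024)).setLoD (qm 768)).setLoU (qm 128)).setHiW (qm
    128))
    (by decide +kernel))
    (good_of_check
    (R .u5 2714232 1692 5931640 4106923 13152427 (-408529) 2965818 11863286 7094210 (-219289)
    2965818 4194306 7094210 (-219289) 2965818 4194306 4194306 8999571)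
    ((((((((((root.setHiD (qm 2048)).setHiD (qm 1024)).setHiU (qm 512)).setHiA (qm 2048)).setLoD
    (qm 512)).setHiU (qm 256)).setHiA (qm 1024)).setLoD (qm 768)).setLoU (qm 128)).setLoW (qm
    128))
    (by decide +kernel)))))
    (good_splitD (qm 768)
    (good_splitU (qm 128)
    (good_splitW (qm 64)
    (good_of_check
    (R .u5 2447750 1692 4843164 4631211 13168166 199 0 11863286 645020 43 0 2965823 0 42 0 2097154
    2097154 3604128)
    ((((((((((root.setHiD (qm 2048)).setHiD (qm 1024)).setHiU (qm 512)).setHiA (qm 2048)).setLoD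
    (qm 512)).setHiU (qm 256)).setLoA (qm 1024)).setHiD (qm 768)).setHiU (qm 128)).setHiW (qm 64))
    (by decide +kernel))
    (good_of_check
    (R .u5 2599906 1692 4843164 4587520 13038381 (-203537) 2097150 11863286 460640 (-7155) 2097150
    2965823 460640 (-7155) 2097150 2965823 2965823 6098534)
    ((((((((((root.setHiD (qm 2048)).setHiD (qm 1024)).setHiU (qm 512)).setHiA (qm 2048)).setLoD
    (qm 512)).setHiU (qm 256)).setLoA (qm 1024)).setHiD (qm 768)).setHiU (qm 128)).setLoW (qm 64))
    (by decide +kernel)))
    (good_splitW (qm 128)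
    (good_of_check
    (R .u5 2632657 1201795 4843164 4456448 13368509 (-346228) 2965818 11863286 8202608 (-250841)
    2965818 4194306 174342 43 0 2965823 2965823 5892039)
    ((((((((((root.setHiD (qm 2048)).setHiD (qm 1024)).setHiU (qm 512)).setHiA (qm 2048)).setLoD
    (qm 512)).setHiU (qm 256)).setLoA (qm 1024)).setHiD (qm 768)).setLoU (qm 128)).setHiW (qm
    128))
    (by decide +kernel))
    (good_splitU (qm 192)
    (good_of_check
    (R .u5 2597346 2231858 4843164 4500139 13335381 (-283973) 2965818 11863286 6190112 (-186050)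
    2965818 3632376 6190112 (-186050) 2965818 3632376 3632376 8333103)
    (((((((((((root.setHiD (qm 2048)).setHiD (qm 1024)).setHiU (qm 512)).setHiA (qm 2048)).setLoD
    (qm 512)).setHiU (qm 256)).setLoA (qm 1024)).setHiD (qm 768)).setLoU (qm 128)).setLoW (qm
    128)).setHiU (qm 192))
    (by decide +kernel))
    (good_of_check
    (R .u5 2700744 2848748 4843164 4412757 13234212 (-410729) 3632371 11863286 9827982 (-384171)
    3632371 4194306 7272798 (-224472) 2965818 4194306 4194306 9094219)
    (((((((((((root.setHiD (qm 2048)).setHiD (qm 1024)).setHiU (qm 512)).setHiA (qm 2048)).setLoD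
    (qm 512)).setHiU (qm 256)).setLoA (qm 1024)).setHiD (qm 768)).setLoU (qm 128)).setLoW (qm
    128)).setLoU (qm 192))
    (by decide +kernel)))))
    (good_splitU (qm 128)
    (good_of_check
    (R .u5 2529286 1692 4843164 4281685 12743811 165 0 11863286 388663 43 0 2965823 388663 43 0
    2965823 2965823 6572483)
    (((((((((root.setHiD (qm 2048)).setHiD (qm 1024)).setHiU (qm 512)).setHiA (qm 2048)).setLoD
    (qm 512)).setHiU (qm 256)).setLoA (qm 1024)).setLoD (qm 768)).setHiU (qm 128))
    (by decide +kernel))
    (good_splitW (qm 128)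
    (good_of_check
    (R .u5 2714232 0 4843164 4106923 13152746 (-408616) 2965818 11863286 7094210 (-219289) 2965818
    4194306 75607 43 0 2965823 2965823 5408508)
    ((((((((((root.setHiD (qm 2048)).setHiD (qm 1024)).setHiU (qm 512)).setHiA (qm 2048)).setLoD
    (qm 512)).setHiU (qm 256)).setLoA (qm 1024)).setLoD (qm 768)).setLoU (qm 128)).setHiW (qm
    128))
    (by decide +kernel))
    (good_of_check
    (R .u5 2714232 0 4843164 4106923 13152746 (-408616) 2965818 11863286 7094210 (-219289) 2965818
    4194306 7094210 (-219289) 2965818 4194306 4194306 8999571)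
    ((((((((((root.setHiD (qm 2048)).setHiD (qm 1024)).setHiU (qm 512)).setHiA (qm 2048)).setLoD
    (qm 512)).setHiU (qm 256)).setLoA (qm 1024)).setLoD (qm 768)).setLoU (qm 128)).setLoW (qm
    128))
    (by decide +kernel))))))
    (good_splitW (qm 256)
    (good_of_check
    (R .u4 3339054 0 4843164 4019541 12821104 (-713826) 4194302 11863286 11520825 (-632571)
    4194302 5931644 0 0 0 0 4194306 8472524)
    (((((((root.setHiD (qm 2048)).setHiD (qm 1024)).setHiU (qm 512)).setHiA (qm 2048)).setLoD (qm
    512)).setLoU (qm 256)).setHiW (qm 256))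
    (by decide +kernel))
    (good_splitA (qm 1024)
    (good_splitD (qm 768)
    (good_splitU (qm 384)
    (good_of_check
    (R .u5 2881484 1770057 5931640 4281685 12918865 (-583567) 4194302 11863286 11457274 (-557968)
    4194302 5136955 11457274 (-557968) 4194302 5136955 5136955 9742957)
    ((((((((((root.setHiD (qm 2048)).setHiD (qm 1024)).setHiU (qm 512)).setHiA (qm 2048)).setLoD
    (qm 512)).setLoU (qm 256)).setLoW (qm 256)).setHiA (qm 1024)).setHiD (qm 768)).setHiU (qm
    384))
    (by decide +kernel))
    (good_of_check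
    (R .u5 3015452 1832948 5931640 4106923 12763277 (-722047) 5136950 11863286 12532776 (-742262)
    5136950 5931644 11341640 (-593370) 4194302 5931644 5931644 10024675)
    ((((((((((root.setHiD (qm 2048)).setHiD (qm 1024)).setHiU (qm 512)).setHiA (qm 2048)).setLoD
    (qm 512)).setLoU (qm 256)).setLoW (qm 256)).setHiA (qm 1024)).setHiD (qm 768)).setLoU (qm
    384))
    (by decide +kernel)))
    (good_of_check
    (R .u5 2991603 0 5931640 3844779 12680492 (-670067) 4194302 11863286 11540996 (-598868)
    4194302 5931644 11540996 (-598868) 4194302 5931644 5931644 10157638)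
    (((((((((root.setHiD (qm 2048)).setHiD (qm 1024)).setHiU (qm 512)).setHiA (qm 2048)).setLoD
    (qm 512)).setLoU (qm 256)).setLoW (qm 256)).setHiA (qm 1024)).setLoD (qm 768))
    (by decide +kernel)))
    (good_splitD (qm 768)
    (good_splitU (qm 384)
    (good_of_check
    (R .u5 2903307 1089063 4843164 4281685 12934245 (-617335) 4194302 11863286 11242937 (-552112)
    4194302 5136955 11242937 (-552112) 4194302 5136955 5136955 9608249)
    ((((((((((root.setHiD (qm 2048)).setHiD (qm 1024)).setHiU (qm 512)).setHiA (qm 2048)).setLoD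
    (qm 512)).setLoU (qm 256)).setLoW (qm 256)).setLoA (qm 1024)).setHiD (qm 768)).setHiU (qm
    384))
    (by decide +kernel))
    (good_of_check
    (R .u5 3022198 0 4843164 4106923 12773551 (-733168) 5136950 11863286 12485264 (-741765)
    5136950 5931644 11285312 (-591771) 4194302 5931644 5931644 9987400)
    ((((((((((root.setHiD (qm 2048)).setHiD (qm 1024)).setHiU (qm 512)).setHiA (qm 2048)).setLoD
    (qm 512)).setLoU (qm 256)).setLoW (qm 256)).setLoA (qm 1024)).setHiD (qm 768)).setLoU (qm
    384))
    (by decide +kernel)))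
    (good_of_check
    (R .u5 2991603 0 4843164 3844779 12680492 (-670067) 4194302 11863286 11540996 (-598868)
    4194302 5931644 11540996 (-598868) 4194302 5931644 5931644 10157638)
    (((((((((root.setHiD (qm 2048)).setHiD (qm 1024)).setHiU (qm 512)).setHiA (qm 2048)).setLoD
    (qm 512)).setLoU (qm 256)).setLoW (qm 256)).setLoA (qm 1024)).setLoD (qm 768))
    (by decide +kernel))))))

end Vale.Agent.P226.Cert
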