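import Vale.Agent.P226.CertBox
import Vale.Agent.P226.CertSound

/-! Part 4 of the cover (P226). -/

namespace Vale.Agent.P226.Cert

set_option maxHeartbeats 4000000 in
/-- One subtree of the cover. -/
theorem sub07_good : BoxGood
    ((((((((((root.setHiD (qm 2048)).setHiD (qm 1024)).setHiU (qm 512)).setLoA (qm 2048)).setHiD
    (qm 512)).setHiU (qm 256)).setHiA (qm 3072)).setHiD (qm 256)).setHiU (qm 128)).setHiU (qm 64)) :=
    (good_of_check
    (T 3187671 85255447 11863285 10273903 2220196 3864787 3864787 1045342 3509461 3509461 1563127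
    2097154 2097154 63222950 13251045 13251045 24813840 16777216)
    ((((((((((root.setHiD (qm 2048)).setHiD (qm 1024)).setHiU (qm 512)).setLoA (qm 2048)).setHiD
    (qm 512)).setHiU (qm 256)).setHiA (qm 3072)).setHiD (qm 256)).setHiU (qm 128)).setHiU (qm 64))
    (by decide +kernel))

set_option maxHeartbeats 4000000 in
/-- One subtree of the cover. -/
theorem sub08_good : BoxGood
    (((((((((((root.setHiD (qm 2048)).setHiD (qm 1024)).setHiU (qm 512)).setLoA (qm 2048)).setHiD
    (qm 512)).setHiU (qm 256)).setHiA (qm 3072)).setHiD (qm 256)).setHiU (qm 128)).setLoU (qm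
    64)).setHiD (qm 128)) :=
    (good_splitU (qm 96)
    (good_of_check
    (T 3187671 82381668 11863285 10273903 1501752 3885483 3885483 1116081 3552580 3552580 1307807
    2568479 2568479 57025414 14728117 14728117 24813840 16479665)
    ((((((((((((root.setHiD (qm 2048)).setHiD (qm 1024)).setHiU (qm 512)).setLoA (qm 2048)).setHiD
    (qm 512)).setHiU (qm 256)).setHiA (qm 3072)).setHiD (qm 256)).setHiU (qm 128)).setLoU (qm
    64)).setHiD (qm 128)).setHiU (qm 96))
    (by decide +kernel))
    (good_splitA (qm 2560)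
    (good_splitU (qm 112)
    (good_of_check
    (T 2516582 82847101 11863285 10273903 1618110 4283231 4283231 873125 3323326 3323326 1353708
    2774274 2774274 75857185 16965305 16965305 24635960 16429550)
    ((((((((((((((root.setHiD (qm 2048)).setHiD (qm 1024)).setHiU (qm 512)).setLoA (qm
    2048)).setHiD (qm 512)).setHiU (qm 256)).setHiA (qm 3072)).setHiD (qm 256)).setHiU (qm
    128)).setLoU (qm 64)).setHiD (qm 128)).setLoU (qm 96)).setHiA (qm 2560)).setHiU (qm 112))
    (by decide +kernel))
    (good_splitA (qm 2304)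
    (good_splitW (qm 64)
    (good_of_check
    (T 2516582 83317824 11863285 10273903 1735790 4798948 3267370 864638 2646422 4182997 1398104
    2965823 2097154 76711779 23778061 9811293 24546537 16396054)
    ((((((((((((((((root.setHiD (qm 2048)).setHiD (qm 1024)).setHiU (qm 512)).setLoA (qm
    2048)).setHiD (qm 512)).setHiU (qm 256)).setHiA (qm 3072)).setHiD (qm 256)).setHiU (qm
    128)).setLoU (qm 64)).setHiD (qm 128)).setLoU (qm 96)).setHiA (qm 2560)).setLoU (qm
    112)).setHiA (qm 2304)).setHiW (qm 64))
    (by decide +kernel))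
    (good_splitD (qm 96)
    (good_of_check
    (T 2516582 82381668 11863285 10273903 1501752 4530492 3773308 881116 3038869 3825723 1307807
    2965823 2568479 74965336 19814234 13095415 24546537 16362490)
    (((((((((((((((((root.setHiD (qm 2048)).setHiD (qm 1024)).setHiU (qm 512)).setLoA (qm
    2048)).setHiD (qm 512)).setHiU (qm 256)).setHiA (qm 3072)).setHiD (qm 256)).setHiU (qm
    128)).setLoU (qm 64)).setHiD (qm 128)).setLoU (qm 96)).setHiA (qm 2560)).setLoU (qm
    112)).setHiA (qm 2304)).setLoW (qm 64)).setHiD (qm 96))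
    (by decide +kernel))
    (good_splitD (qm 112)
    (good_of_check
    (R .t5n 2436840 7996567 4530365 5286571 13657465 326557 2750387 11857723 6438610 (-138229)
    2750387 2943496 471473 24935 2065453 2750392 1816189 5068828)
    ((((((((((((((((((root.setHiD (qm 2048)).setHiD (qm 1024)).setHiU (qm 512)).setLoA (qm
    2048)).setHiD (qm 512)).setHiU (qm 256)).setHiA (qm 3072)).setHiD (qm 256)).setHiU (qm
    128)).setLoU (qm 64)).setHiD (qm 128)).setLoU (qm 96)).setHiA (qm 2560)).setLoU (qm
    112)).setHiA (qm 2304)).setLoW (qm 64)).setLoD (qm 96)).setHiD (qm 112))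
    (by decide +kernel))
    (good_splitD (qm 120)
    (good_of_check
    (R .t5n 2454493 7774550 4530365 5270187 13626338 306539 2746386 11856796 5899138 (-121599)
    2746386 2939758 862438 24273 2060122 2844718 1961709 5754046)
    (((((((((((((((((((root.setHiD (qm 2048)).setHiD (qm 1024)).setHiU (qm 512)).setLoA (qm
    2048)).setHiD (qm 512)).setHiU (qm 256)).setHiA (qm 3072)).setHiD (qm 256)).setHiU (qm
    128)).setLoU (qm 64)).setHiD (qm 128)).setLoU (qm 96)).setHiA (qm 2560)).setLoU (qm
    112)).setHiA (qm 2304)).setLoW (qm 64)).setLoD (qm 96)).setLoD (qm 112)).setHiD (qm 120))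
    (by decide +kernel))
    (good_of_check
    (R .t5n 2458659 7699420 4530365 5259264 13621601 300959 2742380 11855869 5667570 (-111947)
    2742380 2936015 1404217 21283 2054778 2936015 2097154 6468045)
    (((((((((((((((((((root.setHiD (qm 2048)).setHiD (qm 1024)).setHiU (qm 512)).setLoA (qm
    2048)).setHiD (qm 512)).setHiU (qm 256)).setHiA (qm 3072)).setHiD (qm 256)).setHiU (qm
    128)).setLoU (qm 64)).setHiD (qm 128)).setLoU (qm 96)).setHiA (qm 2560)).setLoU (qm
    112)).setHiA (qm 2304)).setLoW (qm 64)).setLoD (qm 96)).setLoD (qm 112)).setLoD (qm 120))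
    (by decide +kernel))))))
    (good_of_check
    (T 2684355 72079008 11097087 10897120 1501648 4183161 4183161 962496 3481561 3481561 1398104
    2965823 2965823 68502776 16348033 16348033 24635960 16396054)
    (((((((((((((((root.setHiD (qm 2048)).setHiD (qm 1024)).setHiU (qm 512)).setLoA (qm
    2048)).setHiD (qm 512)).setHiU (qm 256)).setHiA (qm 3072)).setHiD (qm 256)).setHiU (qm
    128)).setLoU (qm 64)).setHiD (qm 128)).setLoU (qm 96)).setHiA (qm 2560)).setLoU (qm
    112)).setLoA (qm 2304))
    (by decide +kernel))))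
    (good_of_check
    (T 3187671 62955341 10273906 11486573 1311572 3740407 3740407 1184232 3860838 3860838 1398104
    2965823 2965823 53838934 14008168 14008168 24813840 16412811)
    (((((((((((((root.setHiD (qm 2048)).setHiD (qm 1024)).setHiU (qm 512)).setLoA (qm
    2048)).setHiD (qm 512)).setHiU (qm 256)).setHiA (qm 3072)).setHiD (qm 256)).setHiU (qm
    128)).setLoU (qm 64)).setHiD (qm 128)).setLoU (qm 96)).setLoA (qm 2560))
    (by decide +kernel))))

set_option maxHeartbeats 4000000 in
/-- One subtree of the cover. -/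
theorem sub09_good : BoxGood
    ((((((((((((root.setHiD (qm 2048)).setHiD (qm 1024)).setHiU (qm 512)).setLoA (qm 2048)).setHiD
    (qm 512)).setHiU (qm 256)).setHiA (qm 3072)).setHiD (qm 256)).setHiU (qm 128)).setLoU (qm
    64)).setLoD (qm 128)).setHiU (qm 96)) :=
    (good_splitA (qm 2560)
    (good_splitW (qm 48)
    (good_splitA (qm 2304)
    (good_of_check
    (T 2852127 86258453 11863285 10273903 2470948 4906713 3688832 908856 2373174 3717718 1639422
    2568479 1816189 73003061 26256017 10824951 24546537 16210592)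
    (((((((((((((((root.setHiD (qm 2048)).setHiD (qm 1024)).setHiU (qm 512)).setLoA (qm
    2048)).setHiD (qm 512)).setHiU (qm 256)).setHiA (qm 3072)).setHiD (qm 256)).setHiU (qm
    128)).setLoU (qm 64)).setLoD (qm 128)).setHiU (qm 96)).setHiA (qm 2560)).setHiW (qm
    48)).setHiA (qm 2304))
    (by decide +kernel))
    (good_of_check
    (T 3187671 74622973 11097087 10897120 2137640 4296872 3217257 1077586 3181927 4066388 1639422
    2568479 1816189 61401214 17433162 9229772 24635960 16210592)
    (((((((((((((((root.setHiD (qm 2048)).setHiD (qm 1024)).setHiU (qm 512)).setLoA (qm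
    2048)).setHiD (qm 512)).setHiU (qm 256)).setHiA (qm 3072)).setHiD (qm 256)).setHiU (qm
    128)).setLoU (qm 64)).setLoD (qm 128)).setHiU (qm 96)).setHiA (qm 2560)).setHiW (qm
    48)).setLoA (qm 2304))
    (by decide +kernel)))
    (good_splitD (qm 192)
    (good_splitA (qm 2304)
    (good_of_check
    (T 2684355 84275500 11863285 10273903 1975210 4326650 4326650 902496 3208855 3208855 1482913
    2568479 2568479 73511829 17214455 17214455 24546537 16278277)
    ((((((((((((((((root.setHiD (qm 2048)).setHiD (qm 1024)).setHiU (qm 512)).setLoA (qm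
    2048)).setHiD (qm 512)).setHiU (qm 256)).setHiA (qm 3072)).setHiD (qm 256)).setHiU (qm
    128)).setLoU (qm 64)).setLoD (qm 128)).setHiU (qm 96)).setHiA (qm 2560)).setLoW (qm
    48)).setHiD (qm 192)).setHiA (qm 2304))
    (by decide +kernel))
    (good_of_check
    (T 3187671 72907503 11097087 10897120 1708772 3818367 3818367 1123356 3674752 3674752 1482913
    2568479 2568479 58004297 13964586 13964586 24635960 16278277)
    ((((((((((((((((root.setHiD (qm 2048)).setHiD (qm 1024)).setHiU (qm 512)).setLoA (qm
    2048)).setHiD (qm 512)).setHiU (qm 256)).setHiA (qm 3072)).setHiD (qm 256)).setHiU (qm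
    128)).setLoU (qm 64)).setLoD (qm 128)).setHiU (qm 96)).setHiA (qm 2560)).setLoW (qm
    48)).setHiD (qm 192)).setLoA (qm 2304))
    (by decide +kernel)))
    (good_splitA (qm 2304)
    (good_splitU (qm 80)
    (good_splitA (qm 2176)
    (good_splitA (qm 2112)
    (good_splitA (qm 2080)
    (good_splitA (qm 2064)
    (good_of_check
    (T 2684355 85754017 11863285 10273903 2344839 4338750 4338750 868195 3167761 3167761 1601729
    2344690 2344690 76422091 16734883 16734883 24462406 16159641)
    (((((((((((((((((((((root.setHiD (qm 2048)).setHiD (qm 1024)).setHiU (qm 512)).setLoA (qm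
    2048)).setHiD (qm 512)).setHiU (qm 256)).setHiA (qm 3072)).setHiD (qm 256)).setHiU (qm
    128)).setLoU (qm 64)).setLoD (qm 128)).setHiU (qm 96)).setHiA (qm 2560)).setLoW (qm
    48)).setLoD (qm 192)).setHiA (qm 2304)).setHiU (qm 80)).setHiA (qm 2176)).setHiA (qm
    2112)).setHiA (qm 2080)).setHiA (qm 2064))
    (by decide +kernel))
    (good_of_check
    (T 2684355 84951311 11816853 10313957 2322890 4298137 4298137 871613 3218330 3218330 1601729
    2344690 2344690 76122386 16327807 16327807 24468024 16159641)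
    (((((((((((((((((((((root.setHiD (qm 2048)).setHiD (qm 1024)).setHiU (qm 512)).setLoA (qm
    2048)).setHiD (qm 512)).setHiU (qm 256)).setHiA (qm 3072)).setHiD (qm 256)).setHiU (qm
    128)).setLoU (qm 64)).setLoD (qm 128)).setHiU (qm 96)).setHiA (qm 2560)).setLoW (qm
    48)).setLoD (qm 192)).setHiA (qm 2304)).setHiU (qm 80)).setHiA (qm 2176)).setHiA (qm
    2112)).setHiA (qm 2080)).setLoA (qm 2064))
    (by decide +kernel)))
    (good_of_check
    (T 2684355 84160414 11770238 10353857 2301264 4258121 4258121 874983 3267388 3267388 1601729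
    2344690 2344690 75829190 15945949 15945949 24479256 16159641)
    ((((((((((((((((((((root.setHiD (qm 2048)).setHiD (qm 1024)).setHiU (qm 512)).setLoA (qm
    2048)).setHiD (qm 512)).setHiU (qm 256)).setHiA (qm 3072)).setHiD (qm 256)).setHiU (qm
    128)).setLoU (qm 64)).setLoD (qm 128)).setHiU (qm 96)).setHiA (qm 2560)).setLoW (qm
    48)).setLoD (qm 192)).setHiA (qm 2304)).setHiU (qm 80)).setHiA (qm 2176)).setHiA (qm
    2112)).setLoA (qm 2080))
    (by decide +kernel)))
    (good_of_check
    (T 2852127 82612950 11676450 10433198 2258950 4202970 4202970 936684 3297866 3297866 1601729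
    2344690 2344690 70834254 15714958 15714958 24501703 16159641)
    (((((((((((((((((((root.setHiD (qm 2048)).setHiD (qm 1024)).setHiU (qm 512)).setLoA (qm
    2048)).setHiD (qm 512)).setHiU (qm 256)).setHiA (qm 3072)).setHiD (qm 256)).setHiU (qm
    128)).setLoU (qm 64)).setLoD (qm 128)).setHiU (qm 96)).setHiA (qm 2560)).setLoW (qm
    48)).setLoD (qm 192)).setHiA (qm 2304)).setHiU (qm 80)).setHiA (qm 2176)).setLoA (qm 2112))
    (by decide +kernel)))
    (good_of_check
    (T 2852127 79648088 11486576 10590097 2177880 4052132 4052132 950163 3471236 3471236 1601729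
    2344690 2344690 69829412 14485967 14485967 24546537 16159641)
    ((((((((((((((((((root.setHiD (qm 2048)).setHiD (qm 1024)).setHiU (qm 512)).setLoA (qm
    2048)).setHiD (qm 512)).setHiU (qm 256)).setHiA (qm 3072)).setHiD (qm 256)).setHiU (qm
    128)).setLoU (qm 64)).setLoD (qm 128)).setHiU (qm 96)).setHiA (qm 2560)).setLoW (qm
    48)).setLoD (qm 192)).setHiA (qm 2304)).setHiU (qm 80)).setLoA (qm 2176))
    (by decide +kernel)))
    (good_splitW (qm 72)
    (good_splitD (qm 224)
    (good_of_check
    (T 2684355 85255447 11863285 10273903 2220196 4598978 4004283 880288 2864931 3515056 1563127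
    2568479 2224368 75372288 20321389 13736231 24546537 16159641)
    (((((((((((((((((((root.setHiD (qm 2048)).setHiD (qm 1024)).setHiU (qm 512)).setLoA (qm
    2048)).setHiD (qm 512)).setHiU (qm 256)).setHiA (qm 3072)).setHiD (qm 256)).setHiU (qm
    128)).setLoU (qm 64)).setLoD (qm 128)).setHiU (qm 96)).setHiA (qm 2560)).setLoW (qm
    48)).setLoD (qm 192)).setHiA (qm 2304)).setLoU (qm 80)).setHiW (qm 72)).setHiD (qm 224))
    (by decide +kernel))
    (good_splitA (qm 2176)
    (good_of_check
    (R .u5 2157423 7443999 4689373 5144576 13639792 348983 2344685 11863286 3050163 (-57970)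
    2344685 2568479 13693 (-118) 1816184 2224368 2224368 6094533)
    ((((((((((((((((((((root.setHiD (qm 2048)).setHiD (qm 1024)).setHiU (qm 512)).setLoA (qm
    2048)).setHiD (qm 512)).setHiU (qm 256)).setHiA (qm 3072)).setHiD (qm 256)).setHiU (qm
    128)).setLoU (qm 64)).setLoD (qm 128)).setHiU (qm 96)).setHiA (qm 2560)).setLoW (qm
    48)).setLoD (qm 192)).setHiA (qm 2304)).setLoU (qm 80)).setHiW (qm 72)).setLoD (qm
    224)).setHiA (qm 2176))
    (by decide +kernel))
    (good_of_check
    (T 2852127 80116606 11486576 10590097 2295009 4557340 3991758 937981 2910598 3517190 1639422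
    2568479 2224368 70736261 19866670 13722561 24546537 16091457)
    ((((((((((((((((((((root.setHiD (qm 2048)).setHiD (qm 1024)).setHiU (qm 512)).setLoA (qm
    2048)).setHiD (qm 512)).setHiU (qm 256)).setHiA (qm 3072)).setHiD (qm 256)).setHiU (qm
    128)).setLoU (qm 64)).setLoD (qm 128)).setHiU (qm 96)).setHiA (qm 2560)).setLoW (qm
    48)).setLoD (qm 192)).setHiA (qm 2304)).setLoU (qm 80)).setHiW (qm 72)).setLoD (qm
    224)).setLoA (qm 2176))
    (by decide +kernel))))
    (good_splitD (qm 224)
    (good_splitA (qm 2176)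
    (good_splitU (qm 88)
    (good_of_check
    (T 2684355 85008330 11863285 10273903 2158417 4332647 4332647 886080 3188379 3188379 1543465
    2459131 2459131 74879552 16998548 16998548 24501703 16168144)
    (((((((((((((((((((((root.setHiD (qm 2048)).setHiD (qm 1024)).setHiU (qm 512)).setLoA (qm
    2048)).setHiD (qm 512)).setHiU (qm 256)).setHiA (qm 3072)).setHiD (qm 256)).setHiU (qm
    128)).setLoU (qm 64)).setLoD (qm 128)).setHiU (qm 96)).setHiA (qm 2560)).setLoW (qm
    48)).setLoD (qm 192)).setHiA (qm 2304)).setLoU (qm 80)).setLoW (qm 72)).setHiD (qm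
    224)).setHiA (qm 2176)).setHiU (qm 88))
    (by decide +kernel))
    (good_splitW (qm 84)
    (good_of_check
    (R .u5 2146515 7828552 4689373 5182805 13676247 359533 2459126 11863286 4116021 (-81866)
    2459126 2568479 1245606 (-21727) 2224363 2402592 2402592 7144563)
    ((((((((((((((((((((((root.setHiD (qm 2048)).setHiD (qm 1024)).setHiU (qm 512)).setLoA (qm
    2048)).setHiD (qm 512)).setHiU (qm 256)).setHiA (qm 3072)).setHiD (qm 256)).setHiU (qm
    128)).setLoU (qm 64)).setLoD (qm 128)).setHiU (qm 96)).setHiA (qm 2560)).setLoW (qm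
    48)).setLoD (qm 192)).setHiA (qm 2304)).setLoU (qm 80)).setLoW (qm 72)).setHiD (qm
    224)).setHiA (qm 2176)).setLoU (qm 88)).setHiW (qm 84))
    (by decide +kernel))
    (good_of_check
    (R .u5 2161590 7650868 4689373 5182805 13633616 344989 2459126 11863286 3811010 (-76203)
    2459126 2568479 3387167 (-66269) 2402587 2568479 2568479 7862645)
    ((((((((((((((((((((((root.setHiD (qm 2048)).setHiD (qm 1024)).setHiU (qm 512)).setLoA (qm
    2048)).setHiD (qm 512)).setHiU (qm 256)).setHiA (qm 3072)).setHiD (qm 256)).setHiU (qm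
    128)).setLoU (qm 64)).setLoD (qm 128)).setHiU (qm 96)).setHiA (qm 2560)).setLoW (qm
    48)).setLoD (qm 192)).setHiA (qm 2304)).setLoU (qm 80)).setLoW (qm 72)).setHiD (qm
    224)).setHiA (qm 2176)).setLoU (qm 88)).setLoW (qm 84))
    (by decide +kernel))))
    (good_of_check
    (T 2684355 79185018 11486576 10590097 2062112 4271518 4271518 905141 3299663 3299663 1563127
    2568479 2568479 73302746 16504247 16504247 24546537 16159641)
    ((((((((((((((((((((root.setHiD (qm 2048)).setHiD (qm 1024)).setHiU (qm 512)).setLoA (qm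
    2048)).setHiD (qm 512)).setHiU (qm 256)).setHiA (qm 3072)).setHiD (qm 256)).setHiU (qm
    128)).setLoU (qm 64)).setLoD (qm 128)).setHiU (qm 96)).setHiA (qm 2560)).setLoW (qm
    48)).setLoD (qm 192)).setHiA (qm 2304)).setLoU (qm 80)).setLoW (qm 72)).setHiD (qm
    224)).setLoA (qm 2176))
    (by decide +kernel)))
    (good_splitW (qm 84)
    (good_splitD (qm 240)
    (good_of_check
    (R .u5 2157424 7443999 4530365 5155499 13630098 351957 2344685 11863286 3050147 (-57970)
    2344685 2568479 1104788 (-19297) 2224363 2402592 2402592 7043442)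
    (((((((((((((((((((((root.setHiD (qm 2048)).setHiD (qm 1024)).setHiU (qm 512)).setLoA (qm
    2048)).setHiD (qm 512)).setHiU (qm 256)).setHiA (qm 3072)).setHiD (qm 256)).setHiU (qm
    128)).setLoU (qm 64)).setLoD (qm 128)).setHiU (qm 96)).setHiA (qm 2560)).setLoW (qm
    48)).setLoD (qm 192)).setHiA (qm 2304)).setLoU (qm 80)).setLoW (qm 72)).setLoD (qm
    224)).setHiW (qm 84)).setHiD (qm 240))
    (by decide +kernel))
    (good_of_check
    (R .u5 2161593 7397520 4530365 5133653 13637187 342290 2344685 11863286 2973595 (-56576)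
    2344685 2568479 1053285 (-18406) 2224363 2402592 2402592 7005707)
    (((((((((((((((((((((root.setHiD (qm 2048)).setHiD (qm 1024)).setHiU (qm 512)).setLoA (qm
    2048)).setHiD (qm 512)).setHiU (qm 256)).setHiA (qm 3072)).setHiD (qm 256)).setHiU (qm
    128)).setLoU (qm 64)).setLoD (qm 128)).setHiU (qm 96)).setHiA (qm 2560)).setLoW (qm
    48)).setLoD (qm 192)).setHiA (qm 2304)).setLoU (qm 80)).setLoW (qm 72)).setLoD (qm
    224)).setHiW (qm 84)).setLoD (qm 240))
    (by decide +kernel)))
    (good_of_check
    (R .u5 2175077 7372214 4530365 5141845 13611391 326636 2402587 11863286 3132839 (-61549)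
    2402587 2568479 3132839 (-61549) 2402587 2568479 2568479 7733483)
    ((((((((((((((((((((root.setHiD (qm 2048)).setHiD (qm 1024)).setHiU (qm 512)).setLoA (qm
    2048)).setHiD (qm 512)).setHiU (qm 256)).setHiA (qm 3072)).setHiD (qm 256)).setHiU (qm
    128)).setLoU (qm 64)).setLoD (qm 128)).setHiU (qm 96)).setHiA (qm 2560)).setLoW (qm
    48)).setLoD (qm 192)).setHiA (qm 2304)).setLoU (qm 80)).setLoW (qm 72)).setLoD (qm
    224)).setLoW (qm 84))
    (by decide +kernel))))))
    (good_splitA (qm 2432)
    (good_splitA (qm 2368)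
    (good_splitA (qm 2336)
    (good_splitA (qm 2320)
    (good_splitA (qm 2312)
    (good_splitD (qm 224)
    (good_of_check
    (T 2852127 73755264 11097087 10897120 1920712 4003412 4003412 985666 3577821 3577821 1563127
    2568479 2568479 67257509 14565680 14565680 24549337 16176643)
    ((((((((((((((((((((((root.setHiD (qm 2048)).setHiD (qm 1024)).setHiU (qm 512)).setLoA (qm
    2048)).setHiD (qm 512)).setHiU (qm 256)).setHiA (qm 3072)).setHiD (qm 256)).setHiU (qm
    128)).setLoU (qm 64)).setLoD (qm 128)).setHiU (qm 96)).setHiA (qm 2560)).setLoW (qm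
    48)).setLoD (qm 192)).setLoA (qm 2304)).setHiA (qm 2432)).setHiA (qm 2368)).setHiA (qm
    2336)).setHiA (qm 2320)).setHiA (qm 2312)).setHiD (qm 224))
    (by decide +kernel))
    (good_splitU (qm 80)
    (good_of_check
    (T 3187671 74186582 11097087 10897120 2028542 3817380 3817380 1089909 3643758 3643758 1601729
    2344690 2344690 60556148 13392671 13392671 24549337 16125585)
    (((((((((((((((((((((((root.setHiD (qm 2048)).setHiD (qm 1024)).setHiU (qm 512)).setLoA (qm
    2048)).setHiD (qm 512)).setHiU (qm 256)).setHiA (qm 3072)).setHiD (qm 256)).setHiU (qm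
    128)).setLoU (qm 64)).setLoD (qm 128)).setHiU (qm 96)).setHiA (qm 2560)).setLoW (qm
    48)).setLoD (qm 192)).setLoA (qm 2304)).setHiA (qm 2432)).setHiA (qm 2368)).setHiA (qm
    2336)).setHiA (qm 2320)).setHiA (qm 2312)).setLoD (qm 224)).setHiU (qm 80))
    (by decide +kernel))
    (good_splitA (qm 2308)
    (good_splitD (qm 240)
    (good_of_check
    (T 2852127 74186582 11097087 10897120 2028542 4123422 4123422 975182 3451427 3451427 1601729
    2568479 2568479 68032300 15405014 15405014 24547937 16108530)
    (((((((((((((((((((((((((root.setHiD (qm 2048)).setHiD (qm 1024)).setHiU (qm 512)).setLoA (qm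
    2048)).setHiD (qm 512)).setHiU (qm 256)).setHiA (qm 3072)).setHiD (qm 256)).setHiU (qm
    128)).setLoU (qm 64)).setLoD (qm 128)).setHiU (qm 96)).setHiA (qm 2560)).setLoW (qm
    48)).setLoD (qm 192)).setLoA (qm 2304)).setHiA (qm 2432)).setHiA (qm 2368)).setHiA (qm
    2336)).setHiA (qm 2320)).setHiA (qm 2312)).setLoD (qm 224)).setLoU (qm 80)).setHiA (qm
    2308)).setHiD (qm 240))
    (by decide +kernel))
    (good_splitU (qm 88)
    (good_of_check
    (T 2852127 74404137 11097087 10897120 2082931 4008869 4008869 969738 3557075 3557075 1620685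
    2459131 2459131 68419803 14333963 14333963 24547937 16082914)
    ((((((((((((((((((((((((((root.setHiD (qm 2048)).setHiD (qm 1024)).setHiU (qm 512)).setLoA (qm
    2048)).setHiD (qm 512)).setHiU (qm 256)).setHiA (qm 3072)).setHiD (qm 256)).setHiU (qm
    128)).setLoU (qm 64)).setLoD (qm 128)).setHiU (qm 96)).setHiA (qm 2560)).setLoW (qm
    48)).setLoD (qm 192)).setLoA (qm 2304)).setHiA (qm 2432)).setHiA (qm 2368)).setHiA (qm
    2336)).setHiA (qm 2320)).setHiA (qm 2312)).setLoD (qm 224)).setLoU (qm 80)).setHiA (qm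
    2308)).setLoD (qm 240)).setHiU (qm 88))
    (by decide +kernel))
    (good_splitW (qm 72)
    (good_of_check
    (T 3187671 74622973 11097087 10897120 2137640 4296872 3757065 1077586 3181927 3682439 1639422
    2568479 2224368 61401214 17433162 12719778 24547937 16065813)
    (((((((((((((((((((((((((((root.setHiD (qm 2048)).setHiD (qm 1024)).setHiU (qm 512)).setLoA
    (qm 2048)).setHiD (qm 512)).setHiU (qm 256)).setHiA (qm 3072)).setHiD (qm 256)).setHiU (qm
    128)).setLoU (qm 64)).setLoD (qm 128)).setHiU (qm 96)).setHiA (qm 2560)).setLoW (qm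
    48)).setLoD (qm 192)).setLoA (qm 2304)).setHiA (qm 2432)).setHiA (qm 2368)).setHiA (qm
    2336)).setHiA (qm 2320)).setHiA (qm 2312)).setLoD (qm 224)).setLoU (qm 80)).setHiA (qm
    2308)).setLoD (qm 240)).setLoU (qm 88)).setHiW (qm 72))
    (by decide +kernel))
    (good_of_check
    (R .u5 2190157 7327876 4525306 5128192 13599754 303871 2459126 11863286 3260218 (-65828)
    2459126 2568479 1797108 (-31536) 2224363 2568479 2568479 7591490)
    (((((((((((((((((((((((((((root.setHiD (qm 2048)).setHiD (qm 1024)).setHiU (qm 512)).setLoA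
    (qm 2048)).setHiD (qm 512)).setHiU (qm 256)).setHiA (qm 3072)).setHiD (qm 256)).setHiU (qm
    128)).setLoU (qm 64)).setLoD (qm 128)).setHiU (qm 96)).setHiA (qm 2560)).setLoW (qm
    48)).setLoD (qm 192)).setLoA (qm 2304)).setHiA (qm 2432)).setHiA (qm 2368)).setHiA (qm
    2336)).setHiA (qm 2320)).setHiA (qm 2312)).setLoD (qm 224)).setLoU (qm 80)).setHiA (qm
    2308)).setLoD (qm 240)).setLoU (qm 88)).setLoW (qm 72))
    (by decide +kernel)))))
    (good_of_check
    (T 2684355 74460526 11084695 10906575 2132986 4210570 4210570 908172 3394481 3394481 1639422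
    2568479 2568479 73058063 15805225 15805225 24549337 16091457)
    ((((((((((((((((((((((((root.setHiD (qm 2048)).setHiD (qm 1024)).setHiU (qm 512)).setLoA (qm
    2048)).setHiD (qm 512)).setHiU (qm 256)).setHiA (qm 3072)).setHiD (qm 256)).setHiU (qm
    128)).setLoU (qm 64)).setLoD (qm 128)).setHiU (qm 96)).setHiA (qm 2560)).setLoW (qm
    48)).setLoD (qm 192)).setLoA (qm 2304)).setHiA (qm 2432)).setHiA (qm 2368)).setHiA (qm
    2336)).setHiA (qm 2320)).setHiA (qm 2312)).setLoD (qm 224)).setLoU (qm 80)).setLoA (qm 2308))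
    (by decide +kernel)))))
    (good_of_check
    (T 2684355 74298605 11072289 10916022 2128348 4201414 4201414 908901 3405592 3405592 1639422
    2568479 2568479 72999450 15726014 15726014 24552136 16142622)
    (((((((((((((((((((((root.setHiD (qm 2048)).setHiD (qm 1024)).setHiU (qm 512)).setLoA (qm
    2048)).setHiD (qm 512)).setHiU (qm 256)).setHiA (qm 3072)).setHiD (qm 256)).setHiU (qm
    128)).setLoU (qm 64)).setLoD (qm 128)).setHiU (qm 96)).setHiA (qm 2560)).setLoW (qm
    48)).setLoD (qm 192)).setLoA (qm 2304)).setHiA (qm 2432)).setHiA (qm 2368)).setHiA (qm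
    2336)).setHiA (qm 2320)).setLoA (qm 2312))
    (by decide +kernel)))
    (good_of_check
    (T 2852127 73976324 11047435 10934892 2119116 4208058 4208058 967250 3361043 3361043 1639422
    2568479 2568479 68595798 16046972 16046972 24557733 16142622)
    ((((((((((((((((((((root.setHiD (qm 2048)).setHiD (qm 1024)).setHiU (qm 512)).setLoA (qm
    2048)).setHiD (qm 512)).setHiU (qm 256)).setHiA (qm 3072)).setHiD (qm 256)).setHiU (qm
    128)).setLoU (qm 64)).setLoD (qm 128)).setHiU (qm 96)).setHiA (qm 2560)).setLoW (qm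
    48)).setLoD (qm 192)).setLoA (qm 2304)).setHiA (qm 2432)).setHiA (qm 2368)).setHiA (qm
    2336)).setLoA (qm 2320))
    (by decide +kernel)))
    (good_of_check
    (T 2852127 73337942 10997559 10972533 2100829 4171745 4171745 970308 3404370 3404370 1639422
    2568479 2568479 68379625 15734699 15734699 24568924 16142622)
    (((((((((((((((((((root.setHiD (qm 2048)).setHiD (qm 1024)).setHiU (qm 512)).setLoA (qm
    2048)).setHiD (qm 512)).setHiU (qm 256)).setHiA (qm 3072)).setHiD (qm 256)).setHiU (qm
    128)).setLoU (qm 64)).setLoD (qm 128)).setHiU (qm 96)).setHiA (qm 2560)).setLoW (qm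
    48)).setLoD (qm 192)).setLoA (qm 2304)).setHiA (qm 2432)).setHiA (qm 2368)).setLoA (qm 2336))
    (by decide +kernel)))
    (good_of_check
    (T 2852127 72085276 10897123 11047432 2064945 4100488 4100488 976320 3487793 3487793 1639422
    2568479 2568479 67958577 15156770 15156770 24591289 16142622)
    ((((((((((((((((((root.setHiD (qm 2048)).setHiD (qm 1024)).setHiU (qm 512)).setLoA (qm
    2048)).setHiD (qm 512)).setHiU (qm 256)).setHiA (qm 3072)).setHiD (qm 256)).setHiU (qm
    128)).setLoU (qm 64)).setLoD (qm 128)).setHiU (qm 96)).setHiA (qm 2560)).setLoW (qm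
    48)).setLoD (qm 192)).setLoA (qm 2304)).setHiA (qm 2432)).setLoA (qm 2368))
    (by decide +kernel)))
    (good_of_check
    (T 2852127 69671659 10693420 11195727 1995805 3963192 3963192 987945 3643049 3643049 1639422
    2568479 2568479 67158221 14157310 14157310 24635960 16142622)
    (((((((((((((((((root.setHiD (qm 2048)).setHiD (qm 1024)).setHiU (qm 512)).setLoA (qm
    2048)).setHiD (qm 512)).setHiU (qm 256)).setHiA (qm 3072)).setHiD (qm 256)).setHiU (qm
    128)).setLoU (qm 64)).setLoD (qm 128)).setHiU (qm 96)).setHiA (qm 2560)).setLoW (qm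
    48)).setLoD (qm 192)).setLoA (qm 2304)).setLoA (qm 2432))
    (by decide +kernel))))))
    (good_of_check
    (T 3187671 65177294 10273906 11486573 1867060 3752980 3752980 1128569 3784102 3784102 1639422
    2568479 2568479 58422622 13327294 13327294 24813840 16210592)
    (((((((((((((root.setHiD (qm 2048)).setHiD (qm 1024)).setHiU (qm 512)).setLoA (qm
    2048)).setHiD (qm 512)).setHiU (qm 256)).setHiA (qm 3072)).setHiD (qm 256)).setHiU (qm
    128)).setLoU (qm 64)).setLoD (qm 128)).setHiU (qm 96)).setLoA (qm 2560))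
    (by decide +kernel)))

set_option maxHeartbeats 4000000 in
/-- One subtree of the cover. -/
theorem sub10_good : BoxGood
    (((((((((((((root.setHiD (qm 2048)).setHiD (qm 1024)).setHiU (qm 512)).setLoA (qm
    2048)).setHiD (qm 512)).setHiU (qm 256)).setHiA (qm 3072)).setHiD (qm 256)).setHiU (qm
    128)).setLoU (qm 64)).setLoD (qm 128)).setLoU (qm 96)).setHiW (qm 64)) :=
    (good_splitA (qm 2560)
    (good_splitD (qm 192)
    (good_splitA (qm 2304)
    (good_splitU (qm 112)
    (good_of_check
    (T 2516582 84762641 11863285 10273903 2096995 4823737 3655134 835978 2585538 3867555 1523548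
    2774274 2097154 79367278 24037615 11240164 24546537 16227539)
    (((((((((((((((((root.setHiD (qm 2048)).setHiD (qm 1024)).setHiU (qm 512)).setLoA (qm
    2048)).setHiD (qm 512)).setHiU (qm 256)).setHiA (qm 3072)).setHiD (qm 256)).setHiU (qm
    128)).setLoU (qm 64)).setLoD (qm 128)).setLoU (qm 96)).setHiW (qm 64)).setHiA (qm
    2560)).setHiD (qm 192)).setHiA (qm 2304)).setHiU (qm 112))
    (by decide +kernel))
    (good_splitD (qm 160)
    (good_splitA (qm 2176)
    (good_of_check
    (R .u4 2498145 7528010 4689373 5231957 13586748 247789 2774269 11863286 5863985 (-150413)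
    2774269 2965823 0 0 0 0 2097154 6186972)
    (((((((((((((((((((root.setHiD (qm 2048)).setHiD (qm 1024)).setHiU (qm 512)).setLoA (qm
    2048)).setHiD (qm 512)).setHiU (qm 256)).setHiA (qm 3072)).setHiD (qm 256)).setHiU (qm
    128)).setLoU (qm 64)).setLoD (qm 128)).setLoU (qm 96)).setHiW (qm 64)).setHiA (qm
    2560)).setHiD (qm 192)).setHiA (qm 2304)).setLoU (qm 112)).setHiD (qm 160)).setHiA (qm 2176))
    (by decide +kernel))
    (good_of_check
    (T 2684355 78274845 11486576 10590097 1834569 4746582 3290577 925203 2718949 4157557 1482913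
    2965823 2097154 71675412 22969400 9916563 24546537 16227539)
    (((((((((((((((((((root.setHiD (qm 2048)).setHiD (qm 1024)).setHiU (qm 512)).setLoA (qm
    2048)).setHiD (qm 512)).setHiU (qm 256)).setHiA (qm 3072)).setHiD (qm 256)).setHiU (qm
    128)).setLoU (qm 64)).setLoD (qm 128)).setLoU (qm 96)).setHiW (qm 64)).setHiA (qm
    2560)).setHiD (qm 192)).setHiA (qm 2304)).setLoU (qm 112)).setHiD (qm 160)).setLoA (qm 2176))
    (by decide +kernel)))
    (good_of_check
    (R .u4 2533452 7171984 4530365 5188267 13534974 207034 2774269 11863286 5103764 (-132433)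
    2774269 2965823 0 0 0 0 2097154 5947721)
    ((((((((((((((((((root.setHiD (qm 2048)).setHiD (qm 1024)).setHiU (qm 512)).setLoA (qm
    2048)).setHiD (qm 512)).setHiU (qm 256)).setHiA (qm 3072)).setHiD (qm 256)).setHiU (qm
    128)).setLoU (qm 64)).setLoD (qm 128)).setLoU (qm 96)).setHiW (qm 64)).setHiA (qm
    2560)).setHiD (qm 192)).setHiA (qm 2304)).setLoU (qm 112)).setLoD (qm 160))
    (by decide +kernel))))
    (good_of_check
    (T 2684355 73755264 11097087 10897120 1920712 4664586 3292650 927686 2860615 4191685 1563127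
    2965823 2097154 71521310 21493971 9775710 24635960 16210592)
    ((((((((((((((((root.setHiD (qm 2048)).setHiD (qm 1024)).setHiU (qm 512)).setLoA (qm
    2048)).setHiD (qm 512)).setHiU (qm 256)).setHiA (qm 3072)).setHiD (qm 256)).setHiU (qm
    128)).setLoU (qm 64)).setLoD (qm 128)).setLoU (qm 96)).setHiW (qm 64)).setHiA (qm
    2560)).setHiD (qm 192)).setLoA (qm 2304))
    (by decide +kernel)))
    (good_splitD (qm 224)
    (good_splitU (qm 112)
    (good_splitA (qm 2304)
    (good_of_check
    (R .u4 2507463 6952056 4530365 5166421 13537812 246033 2568474 11863286 2221870 (-51620)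
    2568474 2774274 0 0 0 0 2097154 6122750)
    ((((((((((((((((((root.setHiD (qm 2048)).setHiD (qm 1024)).setHiU (qm 512)).setLoA (qm
    2048)).setHiD (qm 512)).setHiU (qm 256)).setHiA (qm 3072)).setHiD (qm 256)).setHiU (qm
    128)).setLoU (qm 64)).setLoD (qm 128)).setLoU (qm 96)).setHiW (qm 64)).setHiA (qm
    2560)).setLoD (qm 192)).setHiD (qm 224)).setHiU (qm 112)).setHiA (qm 2304))
    (by decide +kernel))
    (good_of_check
    (T 3187671 74186582 11097087 10897120 2028542 4532914 3459613 1089909 2920185 3917458 1601729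
    2774274 2097154 60556148 20411507 10995057 24635960 16125585)
    ((((((((((((((((((root.setHiD (qm 2048)).setHiD (qm 1024)).setHiU (qm 512)).setLoA (qm
    2048)).setHiD (qm 512)).setHiU (qm 256)).setHiA (qm 3072)).setHiD (qm 256)).setHiU (qm
    128)).setLoU (qm 64)).setLoD (qm 128)).setLoU (qm 96)).setHiW (qm 64)).setHiA (qm
    2560)).setLoD (qm 192)).setHiD (qm 224)).setHiU (qm 112)).setLoA (qm 2304))
    (by decide +kernel)))
    (good_of_check
    (R .u4 2579674 6731781 4194303 5144576 13448031 161677 2774269 11863286 4150168 (-109209)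
    2774269 2965823 0 0 0 0 2097154 5650740)
    (((((((((((((((((root.setHiD (qm 2048)).setHiD (qm 1024)).setHiU (qm 512)).setLoA (qm
    2048)).setHiD (qm 512)).setHiU (qm 256)).setHiA (qm 3072)).setHiD (qm 256)).setHiU (qm
    128)).setLoU (qm 64)).setLoD (qm 128)).setLoU (qm 96)).setHiW (qm 64)).setHiA (qm
    2560)).setLoD (qm 192)).setHiD (qm 224)).setLoU (qm 112))
    (by decide +kernel)))
    (good_splitU (qm 112)
    (good_of_check
    (R .u4 2533452 6706426 4194303 5122731 13501892 216764 2568474 11863286 1755545 (-40880)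
    2568474 2774274 0 0 0 0 2097154 5947721)
    (((((((((((((((((root.setHiD (qm 2048)).setHiD (qm 1024)).setHiU (qm 512)).setLoA (qm
    2048)).setHiD (qm 512)).setHiU (qm 256)).setHiA (qm 3072)).setHiD (qm 256)).setHiU (qm
    128)).setLoU (qm 64)).setLoD (qm 128)).setLoU (qm 96)).setHiW (qm 64)).setHiA (qm
    2560)).setLoD (qm 192)).setLoD (qm 224)).setHiU (qm 112))
    (by decide +kernel))
    (good_of_check
    (R .u5 2282632 6981691 4194303 5100885 13462201 186311 2774269 11863286 6624797 (-161430)
    2774269 2965823 0 42 0 2097154 2097154 4531161)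
    (((((((((((((((((root.setHiD (qm 2048)).setHiD (qm 1024)).setHiU (qm 512)).setLoA (qm
    2048)).setHiD (qm 512)).setHiU (qm 256)).setHiA (qm 3072)).setHiD (qm 256)).setHiU (qm
    128)).setLoU (qm 64)).setLoD (qm 128)).setLoU (qm 96)).setHiW (qm 64)).setHiA (qm
    2560)).setLoD (qm 192)).setLoD (qm 224)).setLoU (qm 112))
    (by decide +kernel)))))
    (good_of_check
    (T 2852127 65953214 10273906 11486573 2061040 4544221 3302632 989957 3030483 4195817 1712320
    2965823 2097154 67022376 19889185 9758851 24813840 16142622)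
    ((((((((((((((root.setHiD (qm 2048)).setHiD (qm 1024)).setHiU (qm 512)).setLoA (qm
    2048)).setHiD (qm 512)).setHiU (qm 256)).setHiA (qm 3072)).setHiD (qm 256)).setHiU (qm
    128)).setLoU (qm 64)).setLoD (qm 128)).setLoU (qm 96)).setHiW (qm 64)).setLoA (qm 2560))
    (by decide +kernel)))

end Vale.Agent.P226.Cert
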