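import Vale.Agent.P226.CertBox
import Vale.Agent.P226.CertSound

/-! Part 5 of the cover (P226). -/

namespace Vale.Agent.P226.Cert

set_option maxHeartbeats 4000000 in
/-- One subtree of the cover. -/
theorem sub11_good : BoxGood
    ((((((((((((((root.setHiD (qm 2048)).setHiD (qm 1024)).setHiU (qm 512)).setLoA (qm
    2048)).setHiD (qm 512)).setHiU (qm 256)).setHiA (qm 3072)).setHiD (qm 256)).setHiU (qm
    128)).setLoU (qm 64)).setLoD (qm 128)).setLoU (qm 96)).setLoW (qm 64)).setHiD (qm 192)) :=
    (good_splitA (qm 2560)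
    (good_splitW (qm 96)
    (good_splitA (qm 2304)
    (good_splitD (qm 160)
    (good_splitU (qm 112)
    (good_of_check
    (T 2516582 83793925 11863285 10273903 1854816 4550395 4165313 855635 2987714 3429448 1441132
    2774274 2568479 77543933 19771362 15557794 24546537 16261382)
    (((((((((((((((((((root.setHiD (qm 2048)).setHiD (qm 1024)).setHiU (qm 512)).setLoA (qm
    2048)).setHiD (qm 512)).setHiU (qm 256)).setHiA (qm 3072)).setHiD (qm 256)).setHiU (qm
    128)).setLoU (qm 64)).setLoD (qm 128)).setLoU (qm 96)).setLoW (qm 64)).setHiD (qm 192)).setHiA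
    (qm 2560)).setHiW (qm 96)).setHiA (qm 2304)).setHiD (qm 160)).setHiU (qm 112))
    (by decide +kernel))
    (good_splitW (qm 80)
    (good_splitA (qm 2176)
    (good_splitU (qm 120)
    (good_of_check
    (T 2516582 84034023 11863285 10273903 1914840 4811236 3845771 850931 2616182 3726043 1462172
    2871646 2344690 77972579 23914604 12911837 24501703 16236007)
    ((((((((((((((((((((((root.setHiD (qm 2048)).setHiD (qm 1024)).setHiU (qm 512)).setLoA (qm
    2048)).setHiD (qm 512)).setHiU (qm 256)).setHiA (qm 3072)).setHiD (qm 256)).setHiU (qm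
    128)).setLoU (qm 64)).setLoD (qm 128)).setLoU (qm 96)).setLoW (qm 64)).setHiD (qm 192)).setHiA
    (qm 2560)).setHiW (qm 96)).setHiA (qm 2304)).setHiD (qm 160)).setLoU (qm 112)).setHiW (qm
    80)).setHiA (qm 2176)).setHiU (qm 120))
    (by decide +kernel))
    (good_of_check
    (R .u5 2221305 7840810 4689373 5226496 13551421 269659 2871641 11863286 8537759 (-208132)
    2871641 2965823 115085 (-1756) 2097150 2344690 2344690 6194559)
    ((((((((((((((((((((((root.setHiD (qm 2048)).setHiD (qm 1024)).setHiU (qm 512)).setLoA (qm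
    2048)).setHiD (qm 512)).setHiU (qm 256)).setHiA (qm 3072)).setHiD (qm 256)).setHiU (qm
    128)).setLoU (qm 64)).setLoD (qm 128)).setLoU (qm 96)).setLoW (qm 64)).setHiD (qm 192)).setHiA
    (qm 2560)).setHiW (qm 96)).setHiA (qm 2304)).setHiD (qm 160)).setLoU (qm 112)).setHiW (qm
    80)).setHiA (qm 2176)).setLoU (qm 120))
    (by decide +kernel)))
    (good_of_check
    (T 2516582 78274845 11486576 10590097 1834569 4712323 3633166 867377 2801830 3955509 1482913
    2965823 2344690 76494207 22090167 11693133 24546537 16227539)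
    (((((((((((((((((((((root.setHiD (qm 2048)).setHiD (qm 1024)).setHiU (qm 512)).setLoA (qm
    2048)).setHiD (qm 512)).setHiU (qm 256)).setHiA (qm 3072)).setHiD (qm 256)).setHiU (qm
    128)).setLoU (qm 64)).setLoD (qm 128)).setLoU (qm 96)).setLoW (qm 64)).setHiD (qm 192)).setHiA
    (qm 2560)).setHiW (qm 96)).setHiA (qm 2304)).setHiD (qm 160)).setLoU (qm 112)).setHiW (qm
    80)).setLoA (qm 2176))
    (by decide +kernel)))
    (good_splitD (qm 144)
    (good_of_check
    (R .u5 2192732 7973339 4530365 5242880 13585977 309338 2774269 11863286 8496466 (-199998)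
    2774269 2965823 2430051 (-46582) 2344685 2568479 2097154 5145202)
    (((((((((((((((((((((root.setHiD (qm 2048)).setHiD (qm 1024)).setHiU (qm 512)).setLoA (qm
    2048)).setHiD (qm 512)).setHiU (qm 256)).setHiA (qm 3072)).setHiD (qm 256)).setHiU (qm
    128)).setLoU (qm 64)).setLoD (qm 128)).setLoU (qm 96)).setLoW (qm 64)).setHiD (qm 192)).setHiA
    (qm 2560)).setHiW (qm 96)).setHiA (qm 2304)).setHiD (qm 160)).setLoU (qm 112)).setLoW (qm
    80)).setHiD (qm 144))
    (by decide +kernel))
    (good_of_check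
    (R .u5 2199475 7894835 4530365 5221035 13588999 295884 2774269 11863286 8350680 (-197101)
    2774269 2965823 2319078 (-44521) 2344685 2568479 2344690 6375414)
    (((((((((((((((((((((root.setHiD (qm 2048)).setHiD (qm 1024)).setHiU (qm 512)).setLoA (qm
    2048)).setHiD (qm 512)).setHiU (qm 256)).setHiA (qm 3072)).setHiD (qm 256)).setHiU (qm
    128)).setLoU (qm 64)).setLoD (qm 128)).setLoU (qm 96)).setLoW (qm 64)).setHiD (qm 192)).setHiA
    (qm 2560)).setHiW (qm 96)).setHiA (qm 2304)).setHiD (qm 160)).setLoU (qm 112)).setLoW (qm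
    80)).setLoD (qm 144))
    (by decide +kernel)))))
    (good_splitW (qm 80)
    (good_splitU (qm 112)
    (good_splitD (qm 176)
    (good_of_check
    (T 2516582 84275500 11863285 10273903 1975210 4686281 3911690 846090 2796677 3662538 1482913
    2774274 2344690 78418716 21657309 13280735 24546537 16210592)
    (((((((((((((((((((((root.setHiD (qm 2048)).setHiD (qm 1024)).setHiU (qm 512)).setLoA (qm
    2048)).setHiD (qm 512)).setHiU (qm 256)).setHiA (qm 3072)).setHiD (qm 256)).setHiU (qm
    128)).setLoU (qm 64)).setLoD (qm 128)).setLoU (qm 96)).setLoW (qm 64)).setHiD (qm 192)).setHiA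
    (qm 2560)).setHiW (qm 96)).setHiA (qm 2304)).setLoD (qm 160)).setHiW (qm 80)).setHiU (qm
    112)).setHiD (qm 176))
    (by decide +kernel))
    (good_splitA (qm 2176)
    (good_of_check
    (R .u5 2175077 7736992 4689373 5199189 13616166 327762 2568474 11863286 5996118 (-128657)
    2568474 2774274 297468 (-4605) 2097150 2344690 2344690 6581524)
    ((((((((((((((((((((((root.setHiD (qm 2048)).setHiD (qm 1024)).setHiU (qm 512)).setLoA (qm
    2048)).setHiD (qm 512)).setHiU (qm 256)).setHiA (qm 3072)).setHiD (qm 256)).setHiU (qm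
    128)).setLoU (qm 64)).setLoD (qm 128)).setLoU (qm 96)).setLoW (qm 64)).setHiD (qm 192)).setHiA
    (qm 2560)).setHiW (qm 96)).setHiA (qm 2304)).setLoD (qm 160)).setHiW (qm 80)).setHiU (qm
    112)).setLoD (qm 176)).setHiA (qm 2176))
    (by decide +kernel))
    (good_of_check
    (T 2852127 78727301 11486576 10590097 1947683 4541300 3800267 972658 2956492 3716635 1523548
    2774274 2344690 68125713 20063881 12965569 24546537 16176643)
    ((((((((((((((((((((((root.setHiD (qm 2048)).setHiD (qm 1024)).setHiU (qm 512)).setLoA (qm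
    2048)).setHiD (qm 512)).setHiU (qm 256)).setHiA (qm 3072)).setHiD (qm 256)).setHiU (qm
    128)).setLoU (qm 64)).setLoD (qm 128)).setLoU (qm 96)).setLoW (qm 64)).setHiD (qm 192)).setHiA
    (qm 2560)).setHiW (qm 96)).setHiA (qm 2304)).setLoD (qm 160)).setHiW (qm 80)).setHiU (qm
    112)).setLoD (qm 176)).setLoA (qm 2176))
    (by decide +kernel))))
    (good_splitD (qm 176)
    (good_of_check
    (R .u5 2225472 7597662 4530365 5199189 13539372 263695 2774269 11863286 7796500 (-185925)
    2774269 2965823 103859 (-1580) 2097150 2344690 2344690 6160486)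
    (((((((((((((((((((((root.setHiD (qm 2048)).setHiD (qm 1024)).setHiU (qm 512)).setLoA (qm
    2048)).setHiD (qm 512)).setHiU (qm 256)).setHiA (qm 3072)).setHiD (qm 256)).setHiU (qm
    128)).setLoU (qm 64)).setLoD (qm 128)).setLoU (qm 96)).setLoW (qm 64)).setHiD (qm 192)).setHiA
    (qm 2560)).setHiW (qm 96)).setHiA (qm 2304)).setLoD (qm 160)).setHiW (qm 80)).setLoU (qm
    112)).setHiD (qm 176))
    (by decide +kernel))
    (good_of_check
    (R .u5 2236385 7476105 4530365 5177344 13528960 247232 2774269 11863286 7567721 (-181235)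
    2774269 2965823 77962 (-1176) 2097150 2344690 2344690 6074215)
    (((((((((((((((((((((root.setHiD (qm 2048)).setHiD (qm 1024)).setHiU (qm 512)).setLoA (qm
    2048)).setHiD (qm 512)).setHiU (qm 256)).setHiA (qm 3072)).setHiD (qm 256)).setHiU (qm
    128)).setLoU (qm 64)).setLoD (qm 128)).setLoU (qm 96)).setLoW (qm 64)).setHiD (qm 192)).setHiA
    (qm 2560)).setHiW (qm 96)).setHiA (qm 2304)).setLoD (qm 160)).setHiW (qm 80)).setLoU (qm
    112)).setLoD (qm 176))
    (by decide +kernel))))
    (good_splitU (qm 112)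
    (good_splitA (qm 2176)
    (good_splitD (qm 176)
    (good_of_check
    (R .u5 2172502 7767776 4689373 5221035 13603188 336538 2568474 11863286 6051671 (-129729)
    2568474 2774274 2777451 (-52989) 2344685 2568479 2568479 7757123)
    ((((((((((((((((((((((root.setHiD (qm 2048)).setHiD (qm 1024)).setHiU (qm 512)).setLoA (qm
    2048)).setHiD (qm 512)).setHiU (qm 256)).setHiA (qm 3072)).setHiD (qm 256)).setHiU (qm
    128)).setLoU (qm 64)).setLoD (qm 128)).setLoU (qm 96)).setLoW (qm 64)).setHiD (qm 192)).setHiA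
    (qm 2560)).setHiW (qm 96)).setHiA (qm 2304)).setLoD (qm 160)).setLoW (qm 80)).setHiU (qm
    112)).setHiA (qm 2176)).setHiD (qm 176))
    (by decide +kernel))
    (good_of_check
    (R .u5 2175077 7736992 4689373 5199189 13616166 327762 2568474 11863286 5996118 (-128657)
    2568474 2774274 2732039 (-52156) 2344685 2568479 2568479 7733483)
    ((((((((((((((((((((((root.setHiD (qm 2048)).setHiD (qm 1024)).setHiU (qm 512)).setLoA (qm
    2048)).setHiD (qm 512)).setHiU (qm 256)).setHiA (qm 3072)).setHiD (qm 256)).setHiU (qm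
    128)).setLoU (qm 64)).setLoD (qm 128)).setLoU (qm 96)).setLoW (qm 64)).setHiD (qm 192)).setHiA
    (qm 2560)).setHiW (qm 96)).setHiA (qm 2304)).setLoD (qm 160)).setLoW (qm 80)).setHiU (qm
    112)).setHiA (qm 2176)).setLoD (qm 176))
    (by decide +kernel)))
    (good_of_check
    (T 2684355 78727301 11486576 10590097 1947683 4510423 4144318 915442 3031114 3442504 1523548
    2774274 2568479 72477728 19374328 15466787 24546537 16193626)
    (((((((((((((((((((((root.setHiD (qm 2048)).setHiD (qm 1024)).setHiU (qm 512)).setLoA (qm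
    2048)).setHiD (qm 512)).setHiU (qm 256)).setHiA (qm 3072)).setHiD (qm 256)).setHiU (qm
    128)).setLoU (qm 64)).setLoD (qm 128)).setLoU (qm 96)).setLoW (qm 64)).setHiD (qm 192)).setHiA
    (qm 2560)).setHiW (qm 96)).setHiA (qm 2304)).setLoD (qm 160)).setLoW (qm 80)).setHiU (qm
    112)).setLoA (qm 2176))
    (by decide +kernel)))
    (good_splitD (qm 176)
    (good_of_check
    (R .u5 2225472 7597662 4530365 5199189 13539372 263695 2774269 11863286 7796500 (-185925)
    2774269 2965823 1914404 (-36942) 2344685 2568479 2568479 7270487)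
    (((((((((((((((((((((root.setHiD (qm 2048)).setHiD (qm 1024)).setHiU (qm 512)).setLoA (qm
    2048)).setHiD (qm 512)).setHiU (qm 256)).setHiA (qm 3072)).setHiD (qm 256)).setHiU (qm
    128)).setLoU (qm 64)).setLoD (qm 128)).setLoU (qm 96)).setLoW (qm 64)).setHiD (qm 192)).setHiA
    (qm 2560)).setHiW (qm 96)).setHiA (qm 2304)).setLoD (qm 160)).setLoW (qm 80)).setLoU (qm
    112)).setHiD (qm 176))
    (by decide +kernel))
    (good_of_check
    (R .u5 2236385 7476105 4530365 5177344 13528960 247232 2774269 11863286 7567721 (-181235)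
    2774269 2965823 1755749 (-33945) 2344685 2568479 2568479 7174311)
    (((((((((((((((((((((root.setHiD (qm 2048)).setHiD (qm 1024)).setHiU (qm 512)).setLoA (qm
    2048)).setHiD (qm 512)).setHiU (qm 256)).setHiA (qm 3072)).setHiD (qm 256)).setHiU (qm
    128)).setLoU (qm 64)).setLoD (qm 128)).setLoU (qm 96)).setLoW (qm 64)).setHiD (qm 192)).setHiA
    (qm 2560)).setHiW (qm 96)).setHiA (qm 2304)).setLoD (qm 160)).setLoW (qm 80)).setLoU (qm
    112)).setLoD (qm 176))
    (by decide +kernel))))))
    (good_splitA (qm 2432)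
    (good_splitA (qm 2368)
    (good_splitA (qm 2336)
    (good_splitD (qm 160)
    (good_of_check
    (T 2684355 72907503 11097087 10897120 1708772 4421107 3743024 945984 3194149 3875329 1482913
    2965823 2568479 70048876 18493212 12826376 24557733 16244470)
    (((((((((((((((((((((root.setHiD (qm 2048)).setHiD (qm 1024)).setHiU (qm 512)).setLoA (qm
    2048)).setHiD (qm 512)).setHiU (qm 256)).setHiA (qm 3072)).setHiD (qm 256)).setHiU (qm
    128)).setLoU (qm 64)).setLoD (qm 128)).setLoU (qm 96)).setLoW (qm 64)).setHiD (qm 192)).setHiA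
    (qm 2560)).setHiW (qm 96)).setLoA (qm 2304)).setHiA (qm 2432)).setHiA (qm 2368)).setHiA (qm
    2336)).setHiD (qm 160))
    (by decide +kernel))
    (good_splitU (qm 112)
    (good_of_check
    (T 2852127 73328933 11097087 10897120 1814130 4229901 3884791 995634 3361639 3696666 1523548
    2774274 2568479 66477746 16680459 13833507 24557733 16193626)
    ((((((((((((((((((((((root.setHiD (qm 2048)).setHiD (qm 1024)).setHiU (qm 512)).setLoA (qm
    2048)).setHiD (qm 512)).setHiU (qm 256)).setHiA (qm 3072)).setHiD (qm 256)).setHiU (qm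
    128)).setLoU (qm 64)).setLoD (qm 128)).setLoU (qm 96)).setLoW (qm 64)).setHiD (qm 192)).setHiA
    (qm 2560)).setHiW (qm 96)).setLoA (qm 2304)).setHiA (qm 2432)).setHiA (qm 2368)).setHiA (qm
    2336)).setLoD (qm 160)).setHiU (qm 112))
    (by decide +kernel))
    (good_splitW (qm 80)
    (good_of_check
    (T 2684355 73755264 11097087 10897120 1920712 4664586 3635634 927686 2860615 3940420 1563127
    2965823 2344690 71521310 21493971 11768154 24557733 16159641)
    (((((((((((((((((((((((root.setHiD (qm 2048)).setHiD (qm 1024)).setHiU (qm 512)).setLoA (qm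
    2048)).setHiD (qm 512)).setHiU (qm 256)).setHiA (qm 3072)).setHiD (qm 256)).setHiU (qm
    128)).setLoU (qm 64)).setLoD (qm 128)).setLoU (qm 96)).setLoW (qm 64)).setHiD (qm 192)).setHiA
    (qm 2560)).setHiW (qm 96)).setLoA (qm 2304)).setHiA (qm 2432)).setHiA (qm 2368)).setHiA (qm
    2336)).setLoD (qm 160)).setLoU (qm 112)).setHiW (qm 80))
    (by decide +kernel))
    (good_splitD (qm 176)
    (good_of_check
    (T 2684355 73328933 11097087 10897120 1814130 4542143 3860141 937067 3034084 3763207 1523548
    2965823 2568479 70789714 19856953 13445878 24557733 16176643)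
    ((((((((((((((((((((((((root.setHiD (qm 2048)).setHiD (qm 1024)).setHiU (qm 512)).setLoA (qm
    2048)).setHiD (qm 512)).setHiU (qm 256)).setHiA (qm 3072)).setHiD (qm 256)).setHiU (qm
    128)).setLoU (qm 64)).setLoD (qm 128)).setLoU (qm 96)).setLoW (qm 64)).setHiD (qm 192)).setHiA
    (qm 2560)).setHiW (qm 96)).setLoA (qm 2304)).setHiA (qm 2432)).setHiA (qm 2368)).setHiA (qm
    2336)).setLoD (qm 160)).setLoU (qm 112)).setLoW (qm 80)).setHiD (qm 176))
    (by decide +kernel))
    (good_of_check
    (R .u5 2236385 7476105 4489733 5177344 13528960 247232 2774269 11863286 7567721 (-181235)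
    2774269 2965823 1755749 (-33945) 2344685 2568479 2568479 7174311)
    ((((((((((((((((((((((((root.setHiD (qm 2048)).setHiD (qm 1024)).setHiU (qm 512)).setLoA (qm
    2048)).setHiD (qm 512)).setHiU (qm 256)).setHiA (qm 3072)).setHiD (qm 256)).setHiU (qm
    128)).setLoU (qm 64)).setLoD (qm 128)).setLoU (qm 96)).setLoW (qm 64)).setHiD (qm 192)).setHiA
    (qm 2560)).setHiW (qm 96)).setLoA (qm 2304)).setHiA (qm 2432)).setHiA (qm 2368)).setHiA (qm
    2336)).setLoD (qm 160)).setLoU (qm 112)).setLoW (qm 80)).setLoD (qm 176))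
    (by decide +kernel))))))
    (good_of_check
    (T 2684355 72485175 10997559 10972533 1887637 4584261 3910105 933013 2980433 3720371 1563127
    2965823 2568479 71112962 20344620 13693643 24568924 16210592)
    ((((((((((((((((((((root.setHiD (qm 2048)).setHiD (qm 1024)).setHiU (qm 512)).setLoA (qm
    2048)).setHiD (qm 512)).setHiU (qm 256)).setHiA (qm 3072)).setHiD (qm 256)).setHiU (qm
    128)).setLoU (qm 64)).setLoD (qm 128)).setLoU (qm 96)).setLoW (qm 64)).setHiD (qm 192)).setHiA
    (qm 2560)).setHiW (qm 96)).setLoA (qm 2304)).setHiA (qm 2432)).setHiA (qm 2368)).setLoA (qm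
    2336))
    (by decide +kernel)))
    (good_of_check
    (T 2684355 71247075 10897123 11047432 1855395 4505958 3843318 938229 3092590 3793027 1563127
    2965823 2568479 70717553 19343090 13277089 24591289 16210592)
    (((((((((((((((((((root.setHiD (qm 2048)).setHiD (qm 1024)).setHiU (qm 512)).setLoA (qm
    2048)).setHiD (qm 512)).setHiU (qm 256)).setHiA (qm 3072)).setHiD (qm 256)).setHiU (qm
    128)).setLoU (qm 64)).setLoD (qm 128)).setLoU (qm 96)).setLoW (qm 64)).setHiD (qm 192)).setHiA
    (qm 2560)).setHiW (qm 96)).setLoA (qm 2304)).setHiA (qm 2432)).setLoA (qm 2368))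
    (by decide +kernel)))
    (good_of_check
    (T 2852127 68861523 10693420 11195727 1793271 4385951 3737782 1007615 3222343 3863313 1563127
    2965823 2568479 65734071 18266323 12890828 24635960 16210592)
    ((((((((((((((((((root.setHiD (qm 2048)).setHiD (qm 1024)).setHiU (qm 512)).setLoA (qm
    2048)).setHiD (qm 512)).setHiU (qm 256)).setHiA (qm 3072)).setHiD (qm 256)).setHiU (qm
    128)).setLoU (qm 64)).setLoD (qm 128)).setLoU (qm 96)).setLoW (qm 64)).setHiD (qm 192)).setHiA
    (qm 2560)).setHiW (qm 96)).setLoA (qm 2304)).setLoA (qm 2432))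
    (by decide +kernel))))
    (good_splitD (qm 160)
    (good_splitD (qm 144)
    (good_splitD (qm 136)
    (good_of_check
    (R .t5n 2443584 7435131 4194303 5259264 13597875 329787 2546980 11858651 4567665 (-84205)
    2546980 2947229 4567665 (-84205) 2546980 2947229 1657947 4178033)
    (((((((((((((((((((root.setHiD (qm 2048)).setHiD (qm 1024)).setHiU (qm 512)).setLoA (qm
    2048)).setHiD (qm 512)).setHiU (qm 256)).setHiA (qm 3072)).setHiD (qm 256)).setHiU (qm
    128)).setLoU (qm 64)).setLoD (qm 128)).setLoU (qm 96)).setLoW (qm 64)).setHiD (qm 192)).setHiA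
    (qm 2560)).setLoW (qm 96)).setHiD (qm 160)).setHiD (qm 144)).setHiD (qm 136))
    (by decide +kernel))
    (good_of_check
    (R .t5n 2423349 7615395 4194303 5248341 13653682 345504 2542659 11857723 4869273 (-86477)
    2542659 2943496 4869273 (-86477) 2542659 2943496 1816189 5152881)
    (((((((((((((((((((root.setHiD (qm 2048)).setHiD (qm 1024)).setHiU (qm 512)).setLoA (qm
    2048)).setHiD (qm 512)).setHiU (qm 256)).setHiA (qm 3072)).setHiD (qm 256)).setHiU (qm
    128)).setLoU (qm 64)).setLoD (qm 128)).setLoU (qm 96)).setLoW (qm 64)).setHiD (qm 192)).setHiA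
    (qm 2560)).setLoW (qm 96)).setHiD (qm 160)).setHiD (qm 144)).setLoD (qm 136))
    (by decide +kernel)))
    (good_splitU (qm 112)
    (good_splitA (qm 2304)
    (good_of_check
    (R .u5 2179245 7688427 4530365 5242880 13564559 336163 2568474 11863286 5906631 (-126927)
    2568474 2774274 5906631 (-126927) 2568474 2774274 2097154 5244991)
    ((((((((((((((((((((root.setHiD (qm 2048)).setHiD (qm 1024)).setHiU (qm 512)).setLoA (qm
    2048)).setHiD (qm 512)).setHiU (qm 256)).setHiA (qm 3072)).setHiD (qm 256)).setHiU (qm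
    128)).setLoU (qm 64)).setLoD (qm 128)).setLoU (qm 96)).setLoW (qm 64)).setHiD (qm 192)).setHiA
    (qm 2560)).setLoW (qm 96)).setHiD (qm 160)).setLoD (qm 144)).setHiU (qm 112)).setHiA (qm
    2304))
    (by decide +kernel))
    (good_of_check
    (T 2852127 72490888 11097087 10897120 1604619 3992781 3992781 1014107 3618934 3618934 1441132
    2774274 2774274 64876213 14928287 14928287 24635960 16244470)
    ((((((((((((((((((((root.setHiD (qm 2048)).setHiD (qm 1024)).setHiU (qm 512)).setLoA (qm
    2048)).setHiD (qm 512)).setHiU (qm 256)).setHiA (qm 3072)).setHiD (qm 256)).setHiU (qm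
    128)).setLoU (qm 64)).setLoD (qm 128)).setLoU (qm 96)).setLoW (qm 64)).setHiD (qm 192)).setHiA
    (qm 2560)).setLoW (qm 96)).setHiD (qm 160)).setLoD (qm 144)).setHiU (qm 112)).setLoA (qm
    2304))
    (by decide +kernel)))
    (good_of_check
    (R .t5n 2472148 7557996 4194303 5221035 13622911 278337 2742380 11855869 5364449 (-104867)
    2742380 2936015 3509416 (-46897) 2533996 2936015 2097154 6370374)
    (((((((((((((((((((root.setHiD (qm 2048)).setHiD (qm 1024)).setHiU (qm 512)).setLoA (qm
    2048)).setHiD (qm 512)).setHiU (qm 256)).setHiA (qm 3072)).setHiD (qm 256)).setHiU (qm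
    128)).setLoU (qm 64)).setLoD (qm 128)).setLoU (qm 96)).setLoW (qm 64)).setHiD (qm 192)).setHiA
    (qm 2560)).setLoW (qm 96)).setHiD (qm 160)).setLoD (qm 144)).setLoU (qm 112))
    (by decide +kernel))))
    (good_splitW (qm 112)
    (good_splitA (qm 2304)
    (good_splitD (qm 176)
    (good_of_check
    (R .u5 2179245 7688427 4530365 5210112 13594592 326807 2568474 11863286 7348576 (-160723)
    2568474 2965823 5906631 (-126927) 2568474 2774274 2344690 6547173)
    ((((((((((((((((((((root.setHiD (qm 2048)).setHiD (qm 1024)).setHiU (qm 512)).setLoA (qm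
    2048)).setHiD (qm 512)).setHiU (qm 256)).setHiA (qm 3072)).setHiD (qm 256)).setHiU (qm
    128)).setLoU (qm 64)).setLoD (qm 128)).setLoU (qm 96)).setLoW (qm 64)).setHiD (qm 192)).setHiA
    (qm 2560)).setLoW (qm 96)).setLoD (qm 160)).setHiW (qm 112)).setHiA (qm 2304)).setHiD (qm
    176))
    (by decide +kernel))
    (good_of_check
    (R .u5 2190157 7563487 4530365 5188267 13584097 310165 2568474 11863286 7113569 (-156141)
    2568474 2965823 5674776 (-122419) 2568474 2774274 2568479 7591490)
    ((((((((((((((((((((root.setHiD (qm 2048)).setHiD (qm 1024)).setHiU (qm 512)).setLoA (qm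
    2048)).setHiD (qm 512)).setHiU (qm 256)).setHiA (qm 3072)).setHiD (qm 256)).setHiU (qm
    128)).setLoU (qm 64)).setLoD (qm 128)).setLoU (qm 96)).setLoW (qm 64)).setHiD (qm 192)).setHiA
    (qm 2560)).setLoW (qm 96)).setLoD (qm 160)).setHiW (qm 112)).setHiA (qm 2304)).setLoD (qm
    176))
    (by decide +kernel)))
    (good_splitU (qm 112)
    (good_splitA (qm 2432)
    (good_of_check
    (T 2684355 73328933 11097087 10897120 1814130 4201142 4201142 937067 3432822 3432822 1523548
    2774274 2774274 70789714 16168462 16168462 24591289 16193626)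
    (((((((((((((((((((((root.setHiD (qm 2048)).setHiD (qm 1024)).setHiU (qm 512)).setLoA (qm
    2048)).setHiD (qm 512)).setHiU (qm 256)).setHiA (qm 3072)).setHiD (qm 256)).setHiU (qm
    128)).setLoU (qm 64)).setLoD (qm 128)).setLoU (qm 96)).setLoW (qm 64)).setHiD (qm 192)).setHiA
    (qm 2560)).setLoW (qm 96)).setLoD (qm 160)).setHiW (qm 112)).setLoA (qm 2304)).setHiU (qm
    112)).setHiA (qm 2432))
    (by decide +kernel))
    (good_of_check
    (T 2852127 68463480 10693420 11195727 1693760 3949242 3949242 1016769 3688058 3688058 1523548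
    2774274 2774274 65009183 14501177 14501177 24635960 16193626)
    (((((((((((((((((((((root.setHiD (qm 2048)).setHiD (qm 1024)).setHiU (qm 512)).setLoA (qm
    2048)).setHiD (qm 512)).setHiU (qm 256)).setHiA (qm 3072)).setHiD (qm 256)).setHiU (qm
    128)).setLoU (qm 64)).setLoD (qm 128)).setLoU (qm 96)).setLoW (qm 64)).setHiD (qm 192)).setHiA
    (qm 2560)).setLoW (qm 96)).setLoD (qm 160)).setHiW (qm 112)).setLoA (qm 2304)).setHiU (qm
    112)).setLoA (qm 2432))
    (by decide +kernel)))
    (good_splitD (qm 176)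
    (good_of_check
    (R .t5n 2493970 7275956 4194303 5199189 13576193 257405 2734349 11854014 4605451 (-78276)
    2734349 2928516 933260 22135 2525303 2734354 2344690 7527862)
    (((((((((((((((((((((root.setHiD (qm 2048)).setHiD (qm 1024)).setHiU (qm 512)).setLoA (qm
    2048)).setHiD (qm 512)).setHiU (qm 256)).setHiA (qm 3072)).setHiD (qm 256)).setHiU (qm
    128)).setLoU (qm 64)).setLoD (qm 128)).setLoU (qm 96)).setLoW (qm 64)).setHiD (qm 192)).setHiA
    (qm 2560)).setLoW (qm 96)).setLoD (qm 160)).setHiW (qm 112)).setLoA (qm 2304)).setLoU (qm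
    112)).setHiD (qm 176))
    (by decide +kernel))
    (good_splitD (qm 184)
    (good_of_check
    (R .u5 2243128 7402999 4194303 5182805 13505500 242413 2774269 11863286 7427522 (-178338)
    2774269 2965823 4601830 (-101073) 2568474 2774274 2459131 6583582)
    ((((((((((((((((((((((root.setHiD (qm 2048)).setHiD (qm 1024)).setHiU (qm 512)).setLoA (qm
    2048)).setHiD (qm 512)).setHiU (qm 256)).setHiA (qm 3072)).setHiD (qm 256)).setHiU (qm
    128)).setLoU (qm 64)).setLoD (qm 128)).setLoU (qm 96)).setLoW (qm 64)).setHiD (qm 192)).setHiA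
    (qm 2560)).setLoW (qm 96)).setLoD (qm 160)).setHiW (qm 112)).setLoA (qm 2304)).setLoU (qm
    112)).setLoD (qm 176)).setHiD (qm 184))
    (by decide +kernel))
    (good_of_check
    (R .u5 2254037 7284689 4194303 5171883 13484539 229470 2774269 11863286 7202635 (-173657)
    2774269 2965823 4392162 (-96808) 2568474 2774274 2568479 7020902)
    ((((((((((((((((((((((root.setHiD (qm 2048)).setHiD (qm 1024)).setHiU (qm 512)).setLoA (qm
    2048)).setHiD (qm 512)).setHiU (qm 256)).setHiA (qm 3072)).setHiD (qm 256)).setHiU (qm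
    128)).setLoU (qm 64)).setLoD (qm 128)).setLoU (qm 96)).setLoW (qm 64)).setHiD (qm 192)).setHiA
    (qm 2560)).setLoW (qm 96)).setLoD (qm 160)).setHiW (qm 112)).setLoA (qm 2304)).setLoU (qm
    112)).setLoD (qm 176)).setLoD (qm 184))
    (by decide +kernel))))))
    (good_of_check
    (R .t5n 2498145 7234077 4194303 5188267 13574749 251166 2734349 11854014 4514373 (-76086)
    2734349 2928516 4514373 (-76086) 2734349 2928516 2344690 7494756)
    ((((((((((((((((((root.setHiD (qm 2048)).setHiD (qm 1024)).setHiU (qm 512)).setLoA (qm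
    2048)).setHiD (qm 512)).setHiU (qm 256)).setHiA (qm 3072)).setHiD (qm 256)).setHiU (qm
    128)).setLoU (qm 64)).setLoD (qm 128)).setLoU (qm 96)).setLoW (qm 64)).setHiD (qm 192)).setHiA
    (qm 2560)).setLoW (qm 96)).setLoD (qm 160)).setLoW (qm 112))
    (by decide +kernel)))))
    (good_splitA (qm 2816)
    (good_splitA (qm 2688)
    (good_of_check
    (T 2852127 64419419 10273906 11486573 1677592 4103024 4103024 1027895 3574723 3574723 1563127
    2965823 2965823 64367766 15726104 15726104 24680550 16210592)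
    (((((((((((((((((root.setHiD (qm 2048)).setHiD (qm 1024)).setHiU (qm 512)).setLoA (qm
    2048)).setHiD (qm 512)).setHiU (qm 256)).setHiA (qm 3072)).setHiD (qm 256)).setHiU (qm
    128)).setLoU (qm 64)).setLoD (qm 128)).setLoU (qm 96)).setLoW (qm 64)).setHiD (qm 192)).setLoA
    (qm 2560)).setHiA (qm 2816)).setHiA (qm 2688))
    (by decide +kernel))
    (good_of_check
    (T 2852127 60359829 9836516 11770235 1571873 3844459 3844459 1046770 3867508 3867508 1563127
    2965823 2965823 63130474 13971281 13971281 24725060 16210592)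
    (((((((((((((((((root.setHiD (qm 2048)).setHiD (qm 1024)).setHiU (qm 512)).setLoA (qm
    2048)).setHiD (qm 512)).setHiU (qm 256)).setHiA (qm 3072)).setHiD (qm 256)).setHiU (qm
    128)).setLoU (qm 64)).setLoD (qm 128)).setLoU (qm 96)).setLoW (qm 64)).setHiD (qm 192)).setLoA
    (qm 2560)).setHiA (qm 2816)).setLoA (qm 2688))
    (by decide +kernel)))
    (good_of_check
    (T 3187671 56625180 9378750 12047220 1474617 3659233 3659233 1189678 3976085 3976085 1563127
    2965823 2965823 54730260 13389303 13389303 24813840 16210592)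
    ((((((((((((((((root.setHiD (qm 2048)).setHiD (qm 1024)).setHiU (qm 512)).setLoA (qm
    2048)).setHiD (qm 512)).setHiU (qm 256)).setHiA (qm 3072)).setHiD (qm 256)).setHiU (qm
    128)).setLoU (qm 64)).setLoD (qm 128)).setLoU (qm 96)).setLoW (qm 64)).setHiD (qm 192)).setLoA
    (qm 2560)).setLoA (qm 2816))
    (by decide +kernel))))

end Vale.Agent.P226.Cert
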