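import Vale.Agent.P226.CertBox
import Vale.Agent.P226.CertSound

/-! Part 6 of the cover (P226). -/

namespace Vale.Agent.P226.Cert

set_option maxHeartbeats 4000000 in
/-- One subtree of the cover. -/
theorem sub12_good : BoxGood
    ((((((((((((((root.setHiD (qm 2048)).setHiD (qm 1024)).setHiU (qm 512)).setLoA (qm
    2048)).setHiD (qm 512)).setHiU (qm 256)).setHiA (qm 3072)).setHiD (qm 256)).setHiU (qm
    128)).setLoU (qm 64)).setLoD (qm 128)).setLoU (qm 96)).setLoW (qm 64)).setLoD (qm 192)) :=
    (good_splitW (qm 96)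
    (good_splitA (qm 2560)
    (good_splitD (qm 224)
    (good_splitW (qm 80)
    (good_splitU (qm 112)
    (good_splitA (qm 2304)
    (good_of_check
    (R .u5 2192732 7534782 4530365 5166421 13596561 301660 2568474 11863286 5620581 (-121360)
    2568474 2774274 214318 (-3306) 2097150 2344690 2344690 6432164)
    ((((((((((((((((((((root.setHiD (qm 2048)).setHiD (qm 1024)).setHiU (qm 512)).setLoA (qm
    2048)).setHiD (qm 512)).setHiU (qm 256)).setHiA (qm 3072)).setHiD (qm 256)).setHiU (qm
    128)).setLoU (qm 64)).setLoD (qm 128)).setLoU (qm 96)).setLoW (qm 64)).setLoD (qm 192)).setHiW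
    (qm 96)).setHiA (qm 2560)).setHiD (qm 224)).setHiW (qm 80)).setHiU (qm 112)).setHiA (qm 2304))
    (by decide +kernel))
    (good_of_check
    (T 2852127 74186582 11097087 10897120 2028542 4472568 3774275 975182 3067144 3770125 1601729
    2774274 2344690 68032300 19052940 12664213 24635960 16125585)
    ((((((((((((((((((((root.setHiD (qm 2048)).setHiD (qm 1024)).setHiU (qm 512)).setLoA (qm
    2048)).setHiD (qm 512)).setHiU (qm 256)).setHiA (qm 3072)).setHiD (qm 256)).setHiU (qm
    128)).setLoU (qm 64)).setLoD (qm 128)).setLoU (qm 96)).setLoW (qm 64)).setLoD (qm 192)).setHiW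
    (qm 96)).setHiA (qm 2560)).setHiD (qm 224)).setHiW (qm 80)).setHiU (qm 112)).setLoA (qm 2304))
    (by decide +kernel)))
    (good_splitW (qm 72)
    (good_of_check
    (R .u5 2254037 7284689 4194303 5144576 13508253 222180 2774269 11863286 7202635 (-173657)
    2774269 2965823 0 42 2097150 2224368 2224368 5342870)
    ((((((((((((((((((((root.setHiD (qm 2048)).setHiD (qm 1024)).setHiU (qm 512)).setLoA (qm
    2048)).setHiD (qm 512)).setHiU (qm 256)).setHiA (qm 3072)).setHiD (qm 256)).setHiU (qm
    128)).setLoU (qm 64)).setLoD (qm 128)).setLoU (qm 96)).setLoW (qm 64)).setLoD (qm 192)).setHiW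
    (qm 96)).setHiA (qm 2560)).setHiD (qm 224)).setHiW (qm 80)).setLoU (qm 112)).setHiW (qm 72))
    (by decide +kernel))
    (good_splitD (qm 208)
    (good_of_check
    (R .u5 2249869 7329169 4194303 5155499 13510534 228849 2774269 11863286 7288259 (-175444)
    2774269 2965823 104784 (-1799) 2224363 2344690 2344690 5967414)
    (((((((((((((((((((((root.setHiD (qm 2048)).setHiD (qm 1024)).setHiU (qm 512)).setLoA (qm
    2048)).setHiD (qm 512)).setHiU (qm 256)).setHiA (qm 3072)).setHiD (qm 256)).setHiU (qm
    128)).setLoU (qm 64)).setLoD (qm 128)).setLoU (qm 96)).setLoW (qm 64)).setLoD (qm 192)).setHiW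
    (qm 96)).setHiA (qm 2560)).setHiD (qm 224)).setHiW (qm 80)).setLoU (qm 112)).setLoW (qm
    72)).setHiD (qm 208))
    (by decide +kernel))
    (good_of_check
    (R .u5 2264948 7166506 4194303 5133653 13486145 209739 2774269 11863286 6980131 (-168982)
    2774269 2965823 62424 (-1055) 2224363 2344690 2344690 5851440)
    (((((((((((((((((((((root.setHiD (qm 2048)).setHiD (qm 1024)).setHiU (qm 512)).setLoA (qm
    2048)).setHiD (qm 512)).setHiU (qm 256)).setHiA (qm 3072)).setHiD (qm 256)).setHiU (qm
    128)).setLoU (qm 64)).setLoD (qm 128)).setLoU (qm 96)).setLoW (qm 64)).setLoD (qm 192)).setHiW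
    (qm 96)).setHiA (qm 2560)).setHiD (qm 224)).setHiW (qm 80)).setLoU (qm 112)).setLoW (qm
    72)).setLoD (qm 208))
    (by decide +kernel)))))
    (good_splitU (qm 112)
    (good_splitA (qm 2304)
    (good_splitD (qm 208)
    (good_of_check
    (R .u5 2190157 7563487 4530365 5177344 13593946 307123 2568474 11863286 5674776 (-122419)
    2568474 2774274 2473076 (-47380) 2344685 2568479 2568479 7591490)
    (((((((((((((((((((((root.setHiD (qm 2048)).setHiD (qm 1024)).setHiU (qm 512)).setLoA (qm
    2048)).setHiD (qm 512)).setHiU (qm 256)).setHiA (qm 3072)).setHiD (qm 256)).setHiU (qm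
    128)).setLoU (qm 64)).setLoD (qm 128)).setLoU (qm 96)).setLoW (qm 64)).setLoD (qm 192)).setHiW
    (qm 96)).setHiA (qm 2560)).setHiD (qm 224)).setLoW (qm 80)).setHiU (qm 112)).setHiA (qm
    2304)).setHiD (qm 208))
    (by decide +kernel))
    (good_of_check
    (R .u5 2207809 7365434 4530365 5155499 13562938 284915 2568474 11863286 5307388 (-115200)
    2568474 2774274 2185318 (-42027) 2344685 2568479 2568479 7429366)
    (((((((((((((((((((((root.setHiD (qm 2048)).setHiD (qm 1024)).setHiU (qm 512)).setLoA (qm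
    2048)).setHiD (qm 512)).setHiU (qm 256)).setHiA (qm 3072)).setHiD (qm 256)).setHiU (qm
    128)).setLoU (qm 64)).setLoD (qm 128)).setLoU (qm 96)).setLoW (qm 64)).setLoD (qm 192)).setHiW
    (qm 96)).setHiA (qm 2560)).setHiD (qm 224)).setLoW (qm 80)).setHiU (qm 112)).setHiA (qm
    2304)).setLoD (qm 208))
    (by decide +kernel)))
    (good_splitD (qm 208)
    (good_of_check
    (T 2852127 73755264 11097087 10897120 1920712 4350528 4003412 985666 3219683 3577821 1563127
    2774274 2568479 67257509 17770164 14565680 24635960 16142622)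
    (((((((((((((((((((((root.setHiD (qm 2048)).setHiD (qm 1024)).setHiU (qm 512)).setLoA (qm
    2048)).setHiD (qm 512)).setHiU (qm 256)).setHiA (qm 3072)).setHiD (qm 256)).setHiU (qm
    128)).setLoU (qm 64)).setLoD (qm 128)).setLoU (qm 96)).setLoW (qm 64)).setLoD (qm 192)).setHiW
    (qm 96)).setHiA (qm 2560)).setHiD (qm 224)).setLoW (qm 80)).setHiU (qm 112)).setLoA (qm
    2304)).setHiD (qm 208))
    (by decide +kernel))
    (good_splitA (qm 2432)
    (good_splitA (qm 2368)
    (good_of_check
    (R .u5 2214554 7291596 4448730 5155499 13543505 278875 2568474 11863286 5169566 (-112468)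
    2568474 2774274 2079834 (-40052) 2344685 2568479 2568479 7367993)
    (((((((((((((((((((((((root.setHiD (qm 2048)).setHiD (qm 1024)).setHiU (qm 512)).setLoA (qm
    2048)).setHiD (qm 512)).setHiU (qm 256)).setHiA (qm 3072)).setHiD (qm 256)).setHiU (qm
    128)).setLoU (qm 64)).setLoD (qm 128)).setLoU (qm 96)).setLoW (qm 64)).setLoD (qm 192)).setHiW
    (qm 96)).setHiA (qm 2560)).setHiD (qm 224)).setLoW (qm 80)).setHiU (qm 112)).setLoA (qm
    2304)).setLoD (qm 208)).setHiA (qm 2432)).setHiA (qm 2368))
    (by decide +kernel))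
    (good_of_check
    (T 2852127 71663725 10897123 11047432 1959557 4320469 3983196 986845 3266312 3610892 1601729
    2774274 2568479 67216960 17401710 14356609 24591289 16108530)
    (((((((((((((((((((((((root.setHiD (qm 2048)).setHiD (qm 1024)).setHiU (qm 512)).setLoA (qm
    2048)).setHiD (qm 512)).setHiU (qm 256)).setHiA (qm 3072)).setHiD (qm 256)).setHiU (qm
    128)).setLoU (qm 64)).setLoD (qm 128)).setLoU (qm 96)).setLoW (qm 64)).setLoD (qm 192)).setHiW
    (qm 96)).setHiA (qm 2560)).setHiD (qm 224)).setLoW (qm 80)).setHiU (qm 112)).setLoA (qm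
    2304)).setLoD (qm 208)).setHiA (qm 2432)).setLoA (qm 2368))
    (by decide +kernel)))
    (good_of_check
    (T 2852127 69264222 10693420 11195727 1893946 4175808 3849828 998013 3444700 3756247 1601729
    2774274 2568479 66448599 16085144 13485705 24635960 16108530)
    ((((((((((((((((((((((root.setHiD (qm 2048)).setHiD (qm 1024)).setHiU (qm 512)).setLoA (qm
    2048)).setHiD (qm 512)).setHiU (qm 256)).setHiA (qm 3072)).setHiD (qm 256)).setHiU (qm
    128)).setLoU (qm 64)).setLoD (qm 128)).setLoU (qm 96)).setLoW (qm 64)).setLoD (qm 192)).setHiW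
    (qm 96)).setHiA (qm 2560)).setHiD (qm 224)).setLoW (qm 80)).setHiU (qm 112)).setLoA (qm
    2304)).setLoD (qm 208)).setLoA (qm 2432))
    (by decide +kernel)))))
    (good_splitD (qm 208)
    (good_splitW (qm 88)
    (good_of_check
    (R .u5 2249870 7329169 4194303 5155499 13510533 228847 2774269 11863286 7288242 (-175444)
    2774269 2965823 907629 (-17480) 2344685 2459131 2459131 6528252)
    (((((((((((((((((((((root.setHiD (qm 2048)).setHiD (qm 1024)).setHiU (qm 512)).setLoA (qm
    2048)).setHiD (qm 512)).setHiU (qm 256)).setHiA (qm 3072)).setHiD (qm 256)).setHiU (qm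
    128)).setLoU (qm 64)).setLoD (qm 128)).setLoU (qm 96)).setLoW (qm 64)).setLoD (qm 192)).setHiW
    (qm 96)).setHiA (qm 2560)).setHiD (qm 224)).setLoW (qm 80)).setLoU (qm 112)).setHiD (qm
    208)).setHiW (qm 88))
    (by decide +kernel))
    (good_splitU (qm 120)
    (good_of_check
    (R .u5 2254037 7284689 4194303 5160960 13494025 226549 2774269 11863286 6550645 (-155829)
    2774269 2871646 2165124 (-44611) 2459126 2568479 2568479 7020902)
    ((((((((((((((((((((((root.setHiD (qm 2048)).setHiD (qm 1024)).setHiU (qm 512)).setLoA (qm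
    2048)).setHiD (qm 512)).setHiU (qm 256)).setHiA (qm 3072)).setHiD (qm 256)).setHiU (qm
    128)).setLoU (qm 64)).setLoD (qm 128)).setLoU (qm 96)).setLoW (qm 64)).setLoD (qm 192)).setHiW
    (qm 96)).setHiA (qm 2560)).setHiD (qm 224)).setLoW (qm 80)).setLoU (qm 112)).setHiD (qm
    208)).setLoW (qm 88)).setHiU (qm 120))
    (by decide +kernel))
    (good_of_check
    (R .u5 2267554 7327876 4194303 5150037 13495071 203597 2871641 11863286 7578033 (-188201)
    2871641 2965823 1958968 (-40525) 2459126 2568479 2568479 6906467)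
    ((((((((((((((((((((((root.setHiD (qm 2048)).setHiD (qm 1024)).setHiU (qm 512)).setLoA (qm
    2048)).setHiD (qm 512)).setHiU (qm 256)).setHiA (qm 3072)).setHiD (qm 256)).setHiU (qm
    128)).setLoU (qm 64)).setLoD (qm 128)).setLoU (qm 96)).setLoW (qm 64)).setLoD (qm 192)).setHiW
    (qm 96)).setHiA (qm 2560)).setHiD (qm 224)).setLoW (qm 80)).setLoU (qm 112)).setHiD (qm
    208)).setLoW (qm 88)).setLoU (qm 120))
    (by decide +kernel))))
    (good_of_check
    (R .u5 2271691 7096859 4194303 5133653 13466933 203842 2774269 11863286 6843859 (-166099)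
    2774269 2965823 1289522 (-25050) 2344685 2568479 2568479 6872275)
    ((((((((((((((((((((root.setHiD (qm 2048)).setHiD (qm 1024)).setHiU (qm 512)).setLoA (qm
    2048)).setHiD (qm 512)).setHiU (qm 256)).setHiA (qm 3072)).setHiD (qm 256)).setHiU (qm
    128)).setLoU (qm 64)).setLoD (qm 128)).setLoU (qm 96)).setLoW (qm 64)).setLoD (qm 192)).setHiW
    (qm 96)).setHiA (qm 2560)).setHiD (qm 224)).setLoW (qm 80)).setLoU (qm 112)).setLoD (qm 208))
    (by decide +kernel)))))
    (good_splitW (qm 80)
    (good_splitW (qm 72)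
    (good_of_check
    (R .u5 2221306 7218437 4194303 5111808 13561590 261401 2568474 11863286 6458743 (-143163)
    2568474 2965823 4 42 2097150 2224368 2224368 5585024)
    (((((((((((((((((((root.setHiD (qm 2048)).setHiD (qm 1024)).setHiU (qm 512)).setLoA (qm
    2048)).setHiD (qm 512)).setHiU (qm 256)).setHiA (qm 3072)).setHiD (qm 256)).setHiU (qm
    128)).setLoU (qm 64)).setLoD (qm 128)).setLoU (qm 96)).setLoW (qm 64)).setLoD (qm 192)).setHiW
    (qm 96)).setHiA (qm 2560)).setLoD (qm 224)).setHiW (qm 80)).setHiW (qm 72))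
    (by decide +kernel))
    (good_splitU (qm 112)
    (good_of_check
    (R .u5 2221306 7218437 4194303 5122731 13552191 264268 2568474 11863286 5033029 (-109748)
    2568474 2774274 230159 (-4003) 2224363 2344690 2344690 6194547)
    ((((((((((((((((((((root.setHiD (qm 2048)).setHiD (qm 1024)).setHiU (qm 512)).setLoA (qm
    2048)).setHiD (qm 512)).setHiU (qm 256)).setHiA (qm 3072)).setHiD (qm 256)).setHiU (qm
    128)).setLoU (qm 64)).setLoD (qm 128)).setLoU (qm 96)).setLoW (qm 64)).setLoD (qm 192)).setHiW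
    (qm 96)).setHiA (qm 2560)).setLoD (qm 224)).setHiW (qm 80)).setLoW (qm 72)).setHiU (qm 112))
    (by decide +kernel))
    (good_of_check
    (R .u5 2282629 6981691 4194303 5100885 13462203 186316 2774269 11863286 6624840 (-161431)
    2774269 2965823 29481 (-476) 2224363 2344690 2344690 5718157)
    ((((((((((((((((((((root.setHiD (qm 2048)).setHiD (qm 1024)).setHiU (qm 512)).setLoA (qm
    2048)).setHiD (qm 512)).setHiU (qm 256)).setHiA (qm 3072)).setHiD (qm 256)).setHiU (qm
    128)).setLoU (qm 64)).setLoD (qm 128)).setLoU (qm 96)).setLoW (qm 64)).setLoD (qm 192)).setHiW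
    (qm 96)).setHiA (qm 2560)).setLoD (qm 224)).setHiW (qm 80)).setLoW (qm 72)).setLoU (qm 112))
    (by decide +kernel))))
    (good_splitU (qm 112)
    (good_splitD (qm 240)
    (good_splitW (qm 88)
    (good_of_check
    (R .u5 2221306 7218437 4194303 5133653 13542792 267141 2568474 11863286 5033029 (-109748)
    2568474 2774274 1251595 (-23953) 2344685 2459131 2459131 6768044)
    (((((((((((((((((((((root.setHiD (qm 2048)).setHiD (qm 1024)).setHiU (qm 512)).setLoA (qm
    2048)).setHiD (qm 512)).setHiU (qm 256)).setHiA (qm 3072)).setHiD (qm 256)).setHiU (qm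
    128)).setLoU (qm 64)).setLoD (qm 128)).setLoU (qm 96)).setLoW (qm 64)).setLoD (qm 192)).setHiW
    (qm 96)).setHiA (qm 2560)).setLoD (qm 224)).setLoW (qm 80)).setHiU (qm 112)).setHiD (qm
    240)).setHiW (qm 88))
    (by decide +kernel))
    (good_splitU (qm 104)
    (good_of_check
    (R .u5 2221306 7218437 4194303 5139115 13538093 268580 2568474 11863286 4267051 (-91795)
    2568474 2673357 2701898 (-55112) 2459126 2568479 2568479 7307021)
    ((((((((((((((((((((((root.setHiD (qm 2048)).setHiD (qm 1024)).setHiU (qm 512)).setLoA (qm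
    2048)).setHiD (qm 512)).setHiU (qm 256)).setHiA (qm 3072)).setHiD (qm 256)).setHiU (qm
    128)).setLoU (qm 64)).setLoD (qm 128)).setLoU (qm 96)).setLoW (qm 64)).setLoD (qm 192)).setHiW
    (qm 96)).setHiA (qm 2560)).setLoD (qm 224)).setLoW (qm 80)).setHiU (qm 112)).setHiD (qm
    240)).setLoW (qm 88)).setHiU (qm 104))
    (by decide +kernel))
    (good_of_check
    (R .u5 2254037 7082515 4194303 5128192 13488405 227230 2673352 11863286 5136657 (-117165)
    2673352 2774274 2165124 (-44611) 2459126 2568479 2568479 7020902)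
    ((((((((((((((((((((((root.setHiD (qm 2048)).setHiD (qm 1024)).setHiU (qm 512)).setLoA (qm
    2048)).setHiD (qm 512)).setHiU (qm 256)).setHiA (qm 3072)).setHiD (qm 256)).setHiU (qm
    128)).setLoU (qm 64)).setLoD (qm 128)).setLoU (qm 96)).setLoW (qm 64)).setLoD (qm 192)).setHiW
    (qm 96)).setHiA (qm 2560)).setLoD (qm 224)).setLoW (qm 80)).setHiU (qm 112)).setHiD (qm
    240)).setLoW (qm 88)).setLoU (qm 104))
    (by decide +kernel))))
    (good_of_check
    (R .u5 2228051 7145383 4194303 5111808 13541452 255689 2568474 11863286 4898091 (-107047)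
    2568474 2774274 1876304 (-36224) 2344685 2568479 2568479 7246629)
    ((((((((((((((((((((root.setHiD (qm 2048)).setHiD (qm 1024)).setHiU (qm 512)).setLoA (qm
    2048)).setHiD (qm 512)).setHiU (qm 256)).setHiA (qm 3072)).setHiD (qm 256)).setHiU (qm
    128)).setLoU (qm 64)).setLoD (qm 128)).setLoU (qm 96)).setLoW (qm 64)).setLoD (qm 192)).setHiW
    (qm 96)).setHiA (qm 2560)).setLoD (qm 224)).setLoW (qm 80)).setHiU (qm 112)).setLoD (qm 240))
    (by decide +kernel)))
    (good_of_check
    (R .u5 2282629 6981691 4194303 5100885 13462203 186316 2774269 11863286 6624840 (-161431)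
    2774269 2965823 1160084 (-22558) 2344685 2568479 2568479 6780945)
    (((((((((((((((((((root.setHiD (qm 2048)).setHiD (qm 1024)).setHiU (qm 512)).setLoA (qm
    2048)).setHiD (qm 512)).setHiU (qm 256)).setHiA (qm 3072)).setHiD (qm 256)).setHiU (qm
    128)).setLoU (qm 64)).setLoD (qm 128)).setLoU (qm 96)).setLoW (qm 64)).setLoD (qm 192)).setHiW
    (qm 96)).setHiA (qm 2560)).setLoD (qm 224)).setLoW (qm 80)).setLoU (qm 112))
    (by decide +kernel)))))
    (good_splitA (qm 2816)
    (good_splitD (qm 224)
    (good_of_check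
    (T 2852127 65177294 10273906 11486573 1867060 4321027 3707536 1009772 3320210 3915588 1639422
    2965823 2568479 65691136 17507603 12613702 24725060 16108530)
    ((((((((((((((((((root.setHiD (qm 2048)).setHiD (qm 1024)).setHiU (qm 512)).setLoA (qm
    2048)).setHiD (qm 512)).setHiU (qm 256)).setHiA (qm 3072)).setHiD (qm 256)).setHiU (qm
    128)).setLoU (qm 64)).setLoD (qm 128)).setLoU (qm 96)).setLoW (qm 64)).setLoD (qm 192)).setHiW
    (qm 96)).setLoA (qm 2560)).setHiA (qm 2816)).setHiD (qm 224))
    (by decide +kernel))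
    (good_splitU (qm 112)
    (good_of_check
    (T 2852127 65562959 10273906 11486573 1963477 4123404 3814843 1000085 3522781 3813105 1676267
    2774274 2568479 66343666 15551920 13165111 24725060 16057256)
    (((((((((((((((((((root.setHiD (qm 2048)).setHiD (qm 1024)).setHiU (qm 512)).setLoA (qm
    2048)).setHiD (qm 512)).setHiU (qm 256)).setHiA (qm 3072)).setHiD (qm 256)).setHiU (qm
    128)).setLoU (qm 64)).setLoD (qm 128)).setLoU (qm 96)).setLoW (qm 64)).setLoD (qm 192)).setHiW
    (qm 96)).setLoA (qm 2560)).setHiA (qm 2816)).setLoD (qm 224)).setHiU (qm 112))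
    (by decide +kernel))
    (good_splitA (qm 2688)
    (good_splitW (qm 80)
    (good_of_check
    (T 2852127 65953214 10273906 11486573 2061040 4544221 3613029 989957 3030483 3968558 1712320
    2965823 2344690 67022376 19889185 11628801 24680550 16022982)
    (((((((((((((((((((((root.setHiD (qm 2048)).setHiD (qm 1024)).setHiU (qm 512)).setLoA (qm
    2048)).setHiD (qm 512)).setHiU (qm 256)).setHiA (qm 3072)).setHiD (qm 256)).setHiU (qm
    128)).setLoU (qm 64)).setLoD (qm 128)).setLoU (qm 96)).setLoW (qm 64)).setLoD (qm 192)).setHiW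
    (qm 96)).setLoA (qm 2560)).setHiA (qm 2816)).setLoD (qm 224)).setLoU (qm 112)).setHiA (qm
    2688)).setHiW (qm 80))
    (by decide +kernel))
    (good_splitU (qm 120)
    (good_of_check
    (T 2852127 65757507 10273906 11486573 2012114 4333188 3868974 995077 3291700 3759810 1694389
    2871646 2568479 66677579 17478067 13465296 24680550 16031558)
    ((((((((((((((((((((((root.setHiD (qm 2048)).setHiD (qm 1024)).setHiU (qm 512)).setLoA (qm
    2048)).setHiD (qm 512)).setHiU (qm 256)).setHiA (qm 3072)).setHiD (qm 256)).setHiU (qm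
    128)).setLoU (qm 64)).setLoD (qm 128)).setLoU (qm 96)).setLoW (qm 64)).setLoD (qm 192)).setHiW
    (qm 96)).setLoA (qm 2560)).setHiA (qm 2816)).setLoD (qm 224)).setLoU (qm 112)).setHiA (qm
    2688)).setLoW (qm 80)).setHiU (qm 120))
    (by decide +kernel))
    (good_of_check
    (R .u5 2311192 6874473 4015739 5095424 13415879 151913 2871641 11863286 6708494 (-169420)
    2871641 2965823 856788 (-16683) 2344685 2568479 2568479 6550952)
    ((((((((((((((((((((((root.setHiD (qm 2048)).setHiD (qm 1024)).setHiU (qm 512)).setLoA (qm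
    2048)).setHiD (qm 512)).setHiU (qm 256)).setHiA (qm 3072)).setHiD (qm 256)).setHiU (qm
    128)).setLoU (qm 64)).setLoD (qm 128)).setLoU (qm 96)).setLoW (qm 64)).setLoD (qm 192)).setHiW
    (qm 96)).setLoA (qm 2560)).setHiA (qm 2816)).setLoD (qm 224)).setLoU (qm 112)).setHiA (qm
    2688)).setLoW (qm 80)).setLoU (qm 120))
    (by decide +kernel))))
    (good_of_check
    (T 2852127 61796968 9836516 11770235 1931158 4257854 3676180 1011673 3412205 3966192 1712320
    2965823 2568479 65583758 16833165 12353346 24725060 16022982)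
    ((((((((((((((((((((root.setHiD (qm 2048)).setHiD (qm 1024)).setHiU (qm 512)).setLoA (qm
    2048)).setHiD (qm 512)).setHiU (qm 256)).setHiA (qm 3072)).setHiD (qm 256)).setHiU (qm
    128)).setLoU (qm 64)).setLoD (qm 128)).setLoU (qm 96)).setLoW (qm 64)).setLoD (qm 192)).setHiW
    (qm 96)).setLoA (qm 2560)).setHiA (qm 2816)).setLoD (qm 224)).setLoU (qm 112)).setLoA (qm
    2688))
    (by decide +kernel)))))
    (good_of_check
    (T 3187671 57973399 9378750 12047220 1811671 4048302 3489145 1153169 3585041 4060954 1712320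
    2965823 2568479 57281525 15659235 11885758 24813840 16074366)
    (((((((((((((((((root.setHiD (qm 2048)).setHiD (qm 1024)).setHiU (qm 512)).setLoA (qm
    2048)).setHiD (qm 512)).setHiU (qm 256)).setHiA (qm 3072)).setHiD (qm 256)).setHiU (qm
    128)).setLoU (qm 64)).setLoD (qm 128)).setLoU (qm 96)).setLoW (qm 64)).setLoD (qm 192)).setHiW
    (qm 96)).setLoA (qm 2560)).setLoA (qm 2816))
    (by decide +kernel))))
    (good_splitA (qm 2560)
    (good_splitW (qm 112)
    (good_splitD (qm 224)
    (good_splitU (qm 112)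
    (good_splitA (qm 2304)
    (good_splitD (qm 208)
    (good_of_check
    (R .u5 2207809 7365434 4530365 5177344 13543757 290821 2568474 11863286 5307388 (-115200)
    2568474 2774274 5307388 (-115200) 2568474 2774274 2774274 8416260)
    (((((((((((((((((((((root.setHiD (qm 2048)).setHiD (qm 1024)).setHiU (qm 512)).setLoA (qm
    2048)).setHiD (qm 512)).setHiU (qm 256)).setHiA (qm 3072)).setHiD (qm 256)).setHiU (qm
    128)).setLoU (qm 64)).setLoD (qm 128)).setLoU (qm 96)).setLoW (qm 64)).setLoD (qm 192)).setLoW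
    (qm 96)).setHiA (qm 2560)).setHiW (qm 112)).setHiD (qm 224)).setHiU (qm 112)).setHiA (qm
    2304)).setHiD (qm 208))
    (by decide +kernel))
    (good_of_check
    (R .u5 2221305 7218438 4530365 5155499 13523996 272906 2568474 11863286 5033056 (-109748)
    2568474 2774274 5033056 (-109748) 2568474 2774274 2774274 8286929)
    (((((((((((((((((((((root.setHiD (qm 2048)).setHiD (qm 1024)).setHiU (qm 512)).setLoA (qm
    2048)).setHiD (qm 512)).setHiU (qm 256)).setHiA (qm 3072)).setHiD (qm 256)).setHiU (qm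
    128)).setLoU (qm 64)).setLoD (qm 128)).setLoU (qm 96)).setLoW (qm 64)).setLoD (qm 192)).setLoW
    (qm 96)).setHiA (qm 2560)).setHiW (qm 112)).setHiD (qm 224)).setHiU (qm 112)).setHiA (qm
    2304)).setLoD (qm 208))
    (by decide +kernel)))
    (good_splitA (qm 2432)
    (good_splitU (qm 104)
    (good_splitD (qm 208)
    (good_of_check
    (T 2852127 73541481 11097087 10897120 1867267 4116985 4116985 990713 3472968 3472968 1543465
    2673357 2673357 66868652 15589487 15589487 24591289 16151134)
    (((((((((((((((((((((((root.setHiD (qm 2048)).setHiD (qm 1024)).setHiU (qm 512)).setLoA (qm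
    2048)).setHiD (qm 512)).setHiU (qm 256)).setHiA (qm 3072)).setHiD (qm 256)).setHiU (qm
    128)).setLoU (qm 64)).setLoD (qm 128)).setLoU (qm 96)).setLoW (qm 64)).setLoD (qm 192)).setLoW
    (qm 96)).setHiA (qm 2560)).setHiW (qm 112)).setHiD (qm 224)).setHiU (qm 112)).setLoA (qm
    2304)).setHiA (qm 2432)).setHiU (qm 104)).setHiD (qm 208))
    (by decide +kernel))
    (good_of_check
    (R .u5 2221305 7218437 4365569 5160960 13519296 274351 2568474 11863286 4267077 (-91796)
    2568474 2673357 4267077 (-91796) 2568474 2673357 2673357 7813558)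
    (((((((((((((((((((((((root.setHiD (qm 2048)).setHiD (qm 1024)).setHiU (qm 512)).setLoA (qm
    2048)).setHiD (qm 512)).setHiU (qm 256)).setHiA (qm 3072)).setHiD (qm 256)).setHiU (qm
    128)).setLoU (qm 64)).setLoD (qm 128)).setLoU (qm 96)).setLoW (qm 64)).setLoD (qm 192)).setLoW
    (qm 96)).setHiA (qm 2560)).setHiW (qm 112)).setHiD (qm 224)).setHiU (qm 112)).setLoA (qm
    2304)).setHiA (qm 2432)).setHiU (qm 104)).setLoD (qm 208))
    (by decide +kernel)))
    (good_splitD (qm 208)
    (good_of_check
    (R .u5 2232218 7316918 4365569 5171883 13514006 257807 2673352 11863286 5574786 (-126150)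
    2673352 2774274 4815460 (-105387) 2568474 2774274 2774274 8184245)
    (((((((((((((((((((((((root.setHiD (qm 2048)).setHiD (qm 1024)).setHiU (qm 512)).setLoA (qm
    2048)).setHiD (qm 512)).setHiU (qm 256)).setHiA (qm 3072)).setHiD (qm 256)).setHiU (qm
    128)).setLoU (qm 64)).setLoD (qm 128)).setLoU (qm 96)).setLoW (qm 64)).setLoD (qm 192)).setLoW
    (qm 96)).setHiA (qm 2560)).setHiW (qm 112)).setHiD (qm 224)).setHiU (qm 112)).setLoA (qm
    2304)).setHiA (qm 2432)).setLoU (qm 104)).setHiD (qm 208))
    (by decide +kernel))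
    (good_of_check
    (R .u5 2249869 7126852 4365569 5150037 13482086 236454 2673352 11863286 5219271 (-118870)
    2673352 2774274 4471784 (-98431) 2568474 2774274 2774274 8019782)
    (((((((((((((((((((((((root.setHiD (qm 2048)).setHiD (qm 1024)).setHiU (qm 512)).setLoA (qm
    2048)).setHiD (qm 512)).setHiU (qm 256)).setHiA (qm 3072)).setHiD (qm 256)).setHiU (qm
    128)).setLoU (qm 64)).setLoD (qm 128)).setLoU (qm 96)).setLoW (qm 64)).setLoD (qm 192)).setLoW
    (qm 96)).setHiA (qm 2560)).setHiW (qm 112)).setHiD (qm 224)).setHiU (qm 112)).setLoA (qm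
    2304)).setHiA (qm 2432)).setLoU (qm 104)).setLoD (qm 208))
    (by decide +kernel))))
    (good_splitA (qm 2496)
    (good_of_check
    (T 2684355 69264222 10693420 11195727 1893946 4148643 4148643 939307 3514573 3514573 1601729
    2774274 2774274 70636423 15606815 15606815 24613635 16125585)
    ((((((((((((((((((((((root.setHiD (qm 2048)).setHiD (qm 1024)).setHiU (qm 512)).setLoA (qm
    2048)).setHiD (qm 512)).setHiU (qm 256)).setHiA (qm 3072)).setHiD (qm 256)).setHiU (qm
    128)).setLoU (qm 64)).setLoD (qm 128)).setLoU (qm 96)).setLoW (qm 64)).setLoD (qm 192)).setLoW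
    (qm 96)).setHiA (qm 2560)).setHiW (qm 112)).setHiD (qm 224)).setHiU (qm 112)).setLoA (qm
    2304)).setLoA (qm 2432)).setHiA (qm 2496))
    (by decide +kernel))
    (good_of_check
    (T 2852127 66978052 10485761 11342082 1831434 4037980 4037980 1008731 3606182 3606182 1601729
    2774274 2774274 65722358 15008980 15008980 24635960 16125585)
    ((((((((((((((((((((((root.setHiD (qm 2048)).setHiD (qm 1024)).setHiU (qm 512)).setLoA (qm
    2048)).setHiD (qm 512)).setHiU (qm 256)).setHiA (qm 3072)).setHiD (qm 256)).setHiU (qm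
    128)).setLoU (qm 64)).setLoD (qm 128)).setLoU (qm 96)).setLoW (qm 64)).setLoD (qm 192)).setLoW
    (qm 96)).setHiA (qm 2560)).setHiW (qm 112)).setHiD (qm 224)).setHiU (qm 112)).setLoA (qm
    2304)).setLoA (qm 2432)).setLoA (qm 2496))
    (by decide +kernel)))))
    (good_splitD (qm 208)
    (good_splitW (qm 104)
    (good_splitU (qm 120)
    (good_of_check
    (R .u5 2264948 7168599 4194303 5160960 13463026 216868 2774269 11863286 6329155 (-151182)
    2774269 2871646 3450176 (-75336) 2568474 2673357 2673357 7419941)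
    ((((((((((((((((((((((root.setHiD (qm 2048)).setHiD (qm 1024)).setHiU (qm 512)).setLoA (qm
    2048)).setHiD (qm 512)).setHiU (qm 256)).setHiA (qm 3072)).setHiD (qm 256)).setHiU (qm
    128)).setLoU (qm 64)).setLoD (qm 128)).setLoU (qm 96)).setLoW (qm 64)).setLoD (qm 192)).setLoW
    (qm 96)).setHiA (qm 2560)).setHiW (qm 112)).setHiD (qm 224)).setLoU (qm 112)).setHiD (qm
    208)).setHiW (qm 104)).setHiU (qm 120))
    (by decide +kernel))
    (good_of_check
    (R .u5 2278462 7212948 4194303 5150037 13464567 193738 2871641 11863286 7357278 (-183498)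
    2871641 2965823 3211988 (-70448) 2568474 2673357 2673357 7303946)
    ((((((((((((((((((((((root.setHiD (qm 2048)).setHiD (qm 1024)).setHiU (qm 512)).setLoA (qm
    2048)).setHiD (qm 512)).setHiU (qm 256)).setHiA (qm 3072)).setHiD (qm 256)).setHiU (qm
    128)).setLoU (qm 64)).setLoD (qm 128)).setLoU (qm 96)).setLoW (qm 64)).setLoD (qm 192)).setLoW
    (qm 96)).setHiA (qm 2560)).setHiW (qm 112)).setHiD (qm 224)).setLoU (qm 112)).setHiD (qm
    208)).setHiW (qm 104)).setLoU (qm 120))
    (by decide +kernel)))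
    (good_of_check
    (R .u5 2274266 7070260 4194303 5155499 13441053 207296 2774269 11863286 6792065 (-164998)
    2774269 2965823 4742939 (-108968) 2673352 2774274 2673357 7339563)
    (((((((((((((((((((((root.setHiD (qm 2048)).setHiD (qm 1024)).setHiU (qm 512)).setLoA (qm
    2048)).setHiD (qm 512)).setHiU (qm 256)).setHiA (qm 3072)).setHiD (qm 256)).setHiU (qm
    128)).setLoU (qm 64)).setLoD (qm 128)).setLoU (qm 96)).setLoW (qm 64)).setLoD (qm 192)).setLoW
    (qm 96)).setHiA (qm 2560)).setHiW (qm 112)).setHiD (qm 224)).setLoU (qm 112)).setHiD (qm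
    208)).setLoW (qm 104))
    (by decide +kernel)))
    (good_splitU (qm 120)
    (good_of_check
    (R .u5 2282629 6982042 4194303 5139115 13430448 196008 2774269 11863286 5976150 (-143693)
    2774269 2871646 3861891 (-85881) 2568474 2774274 2774274 7724749)
    (((((((((((((((((((((root.setHiD (qm 2048)).setHiD (qm 1024)).setHiU (qm 512)).setLoA (qm
    2048)).setHiD (qm 512)).setHiU (qm 256)).setHiA (qm 3072)).setHiD (qm 256)).setHiU (qm
    128)).setLoU (qm 64)).setLoD (qm 128)).setLoU (qm 96)).setLoW (qm 64)).setLoD (qm 192)).setLoW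
    (qm 96)).setHiA (qm 2560)).setHiW (qm 112)).setHiD (qm 224)).setLoU (qm 112)).setLoD (qm
    208)).setHiU (qm 120))
    (by decide +kernel))
    (good_of_check
    (R .u5 2296116 7028502 4194303 5128192 13432692 172714 2871641 11863286 7004765 (-175897)
    2871641 2965823 3621750 (-80867) 2568474 2774274 2774274 7607345)
    (((((((((((((((((((((root.setHiD (qm 2048)).setHiD (qm 1024)).setHiU (qm 512)).setLoA (qm
    2048)).setHiD (qm 512)).setHiU (qm 256)).setHiA (qm 3072)).setHiD (qm 256)).setHiU (qm
    128)).setLoU (qm 64)).setLoD (qm 128)).setLoU (qm 96)).setLoW (qm 64)).setLoD (qm 192)).setLoW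
    (qm 96)).setHiA (qm 2560)).setHiW (qm 112)).setHiD (qm 224)).setLoU (qm 112)).setLoD (qm
    208)).setLoU (qm 120))
    (by decide +kernel)))))
    (good_splitU (qm 112)
    (good_splitW (qm 104)
    (good_splitD (qm 240)
    (good_splitW (qm 100)
    (good_splitU (qm 104)
    (good_of_check
    (R .u5 2228048 7145383 4194303 5139115 13518196 262799 2568474 11863286 4136233 (-89191)
    2568474 2673357 3747440 (-80079) 2568474 2621442 2621442 7502558)
    (((((((((((((((((((((((root.setHiD (qm 2048)).setHiD (qm 1024)).setHiU (qm 512)).setLoA (qm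
    2048)).setHiD (qm 512)).setHiU (qm 256)).setHiA (qm 3072)).setHiD (qm 256)).setHiU (qm
    128)).setLoU (qm 64)).setLoD (qm 128)).setLoU (qm 96)).setLoW (qm 64)).setLoD (qm 192)).setLoW
    (qm 96)).setHiA (qm 2560)).setHiW (qm 112)).setLoD (qm 224)).setHiU (qm 112)).setHiW (qm
    104)).setHiD (qm 240)).setHiW (qm 100)).setHiU (qm 104))
    (by decide +kernel))
    (good_of_check
    (R .u5 2254037 7082515 4194303 5128192 13488405 227230 2673352 11863286 5136657 (-117165)
    2673352 2774274 3270859 (-70527) 2568474 2621442 2621442 7272123)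
    (((((((((((((((((((((((root.setHiD (qm 2048)).setHiD (qm 1024)).setHiU (qm 512)).setLoA (qm
    2048)).setHiD (qm 512)).setHiU (qm 256)).setHiA (qm 3072)).setHiD (qm 256)).setHiU (qm
    128)).setLoU (qm 64)).setLoD (qm 128)).setLoU (qm 96)).setLoW (qm 64)).setLoD (qm 192)).setLoW
    (qm 96)).setHiA (qm 2560)).setHiW (qm 112)).setLoD (qm 224)).setHiU (qm 112)).setHiW (qm
    104)).setHiD (qm 240)).setHiW (qm 100)).setLoU (qm 104))
    (by decide +kernel)))
    (good_of_check
    (R .u5 2243128 7093472 4194303 5130923 13499817 242403 2621438 11863286 4979901 (-111411)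
    2621438 2774274 4231706 (-93144) 2621438 2673357 2673357 7613470)
    ((((((((((((((((((((((root.setHiD (qm 2048)).setHiD (qm 1024)).setHiU (qm 512)).setLoA (qm
    2048)).setHiD (qm 512)).setHiU (qm 256)).setHiA (qm 3072)).setHiD (qm 256)).setHiU (qm
    128)).setLoU (qm 64)).setLoD (qm 128)).setLoU (qm 96)).setLoW (qm 64)).setLoD (qm 192)).setLoW
    (qm 96)).setHiA (qm 2560)).setHiW (qm 112)).setLoD (qm 224)).setHiU (qm 112)).setHiW (qm
    104)).setHiD (qm 240)).setLoW (qm 100))
    (by decide +kernel)))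
    (good_of_check
    (R .u5 2249869 6915433 4194303 5111808 13476177 237652 2568474 11863286 4471784 (-98431)
    2568474 2774274 3724297 (-80912) 2568474 2673357 2673357 7553174)
    (((((((((((((((((((((root.setHiD (qm 2048)).setHiD (qm 1024)).setHiU (qm 512)).setLoA (qm
    2048)).setHiD (qm 512)).setHiU (qm 256)).setHiA (qm 3072)).setHiD (qm 256)).setHiU (qm
    128)).setLoU (qm 64)).setLoD (qm 128)).setLoU (qm 96)).setLoW (qm 64)).setLoD (qm 192)).setLoW
    (qm 96)).setHiA (qm 2560)).setHiW (qm 112)).setLoD (qm 224)).setHiU (qm 112)).setHiW (qm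
    104)).setLoD (qm 240))
    (by decide +kernel)))
    (good_of_check
    (R .u5 2256614 7055910 4194303 5117269 13490096 222227 2673352 11863286 5085814 (-116113)
    2673352 2774274 5085814 (-116113) 2673352 2774274 2774274 7958637)
    ((((((((((((((((((((root.setHiD (qm 2048)).setHiD (qm 1024)).setHiU (qm 512)).setLoA (qm
    2048)).setHiD (qm 512)).setHiU (qm 256)).setHiA (qm 3072)).setHiD (qm 256)).setHiU (qm
    128)).setLoU (qm 64)).setLoD (qm 128)).setLoU (qm 96)).setLoW (qm 64)).setLoD (qm 192)).setLoW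
    (qm 96)).setHiA (qm 2560)).setHiW (qm 112)).setLoD (qm 224)).setHiU (qm 112)).setLoW (qm 104))
    (by decide +kernel)))
    (good_of_check
    (R .u5 2282629 6981691 4194303 5100885 13462203 186316 2774269 11863286 6624840 (-161431)
    2774269 2965823 3861891 (-85881) 2568474 2774274 2774274 7724749)
    (((((((((((((((((((root.setHiD (qm 2048)).setHiD (qm 1024)).setHiU (qm 512)).setLoA (qm
    2048)).setHiD (qm 512)).setHiU (qm 256)).setHiA (qm 3072)).setHiD (qm 256)).setHiU (qm
    128)).setLoU (qm 64)).setLoD (qm 128)).setLoU (qm 96)).setLoW (qm 64)).setLoD (qm 192)).setLoW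
    (qm 96)).setHiA (qm 2560)).setHiW (qm 112)).setLoD (qm 224)).setLoU (qm 112))
    (by decide +kernel))))
    (good_splitD (qm 224)
    (good_splitD (qm 208)
    (good_of_check
    (R .u5 2282629 6982042 4194303 5155499 13416811 200192 2774269 11863286 6624840 (-161431)
    2774269 2965823 6624840 (-161431) 2774269 2965823 2568479 6780945)
    (((((((((((((((((((root.setHiD (qm 2048)).setHiD (qm 1024)).setHiU (qm 512)).setLoA (qm
    2048)).setHiD (qm 512)).setHiU (qm 256)).setHiA (qm 3072)).setHiD (qm 256)).setHiU (qm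
    128)).setLoU (qm 64)).setLoD (qm 128)).setLoU (qm 96)).setLoW (qm 64)).setLoD (qm 192)).setLoW
    (qm 96)).setHiA (qm 2560)).setLoW (qm 112)).setHiD (qm 224)).setHiD (qm 208))
    (by decide +kernel))
    (good_of_check
    (R .u5 2282629 6982042 4194303 5133653 13434994 194616 2774269 11863286 6624840 (-161431)
    2774269 2965823 6624840 (-161431) 2774269 2965823 2774274 7724749)
    (((((((((((((((((((root.setHiD (qm 2048)).setHiD (qm 1024)).setHiU (qm 512)).setLoA (qm
    2048)).setHiD (qm 512)).setHiU (qm 256)).setHiA (qm 3072)).setHiD (qm 256)).setHiU (qm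
    128)).setLoU (qm 64)).setLoD (qm 128)).setLoU (qm 96)).setLoW (qm 64)).setLoD (qm 192)).setLoW
    (qm 96)).setHiA (qm 2560)).setLoW (qm 112)).setHiD (qm 224)).setLoD (qm 208))
    (by decide +kernel)))
    (good_splitD (qm 240)
    (good_of_check
    (R .u5 2285207 6957184 4194303 5111808 13445768 186900 2774269 11863286 6573605 (-160333)
    2774269 2965823 6573605 (-160333) 2774269 2965823 2965823 8536563)
    (((((((((((((((((((root.setHiD (qm 2048)).setHiD (qm 1024)).setHiU (qm 512)).setLoA (qm
    2048)).setHiD (qm 512)).setHiU (qm 256)).setHiA (qm 3072)).setHiD (qm 256)).setHiU (qm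
    128)).setLoU (qm 64)).setLoD (qm 128)).setLoU (qm 96)).setLoW (qm 64)).setLoD (qm 192)).setLoW
    (qm 96)).setHiA (qm 2560)).setLoW (qm 112)).setLoD (qm 224)).setHiD (qm 240))
    (by decide +kernel))
    (good_of_check
    (R .u5 2296117 6844489 4194303 5089963 13431228 172592 2774269 11863286 6358333 (-155696)
    2774269 2965823 6358333 (-155696) 2774269 2965823 2965823 8436474)
    (((((((((((((((((((root.setHiD (qm 2048)).setHiD (qm 1024)).setHiU (qm 512)).setLoA (qm
    2048)).setHiD (qm 512)).setHiU (qm 256)).setHiA (qm 3072)).setHiD (qm 256)).setHiU (qm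
    128)).setLoU (qm 64)).setLoD (qm 128)).setLoU (qm 96)).setLoW (qm 64)).setLoD (qm 192)).setLoW
    (qm 96)).setHiA (qm 2560)).setLoW (qm 112)).setLoD (qm 224)).setLoD (qm 240))
    (by decide +kernel)))))
    (good_splitA (qm 2816)
    (good_splitU (qm 112)
    (good_splitA (qm 2688)
    (good_splitA (qm 2624)
    (good_splitA (qm 2592)
    (good_splitD (qm 224)
    (good_of_check
    (T 2852127 64796140 10273906 11486573 1771772 3906437 3906437 1019036 3753616 3753616 1601729
    2774274 2774274 65034216 14111613 14111613 24647115 16125585)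
    ((((((((((((((((((((((root.setHiD (qm 2048)).setHiD (qm 1024)).setHiU (qm 512)).setLoA (qm
    2048)).setHiD (qm 512)).setHiU (qm 256)).setHiA (qm 3072)).setHiD (qm 256)).setHiU (qm
    128)).setLoU (qm 64)).setLoD (qm 128)).setLoU (qm 96)).setLoW (qm 64)).setLoD (qm 192)).setLoW
    (qm 96)).setLoA (qm 2560)).setHiA (qm 2816)).setHiU (qm 112)).setHiA (qm 2688)).setHiA (qm
    2624)).setHiA (qm 2592)).setHiD (qm 224))
    (by decide +kernel))
    (good_splitW (qm 104)
    (good_of_check
    (T 2852127 65562959 10273906 11486573 1963477 4123404 3969124 1000085 3522781 3673632 1676267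
    2774274 2673357 66343666 15551920 14295077 24647115 16057256)
    (((((((((((((((((((((((root.setHiD (qm 2048)).setHiD (qm 1024)).setHiU (qm 512)).setLoA (qm
    2048)).setHiD (qm 512)).setHiU (qm 256)).setHiA (qm 3072)).setHiD (qm 256)).setHiU (qm
    128)).setLoU (qm 64)).setLoD (qm 128)).setLoU (qm 96)).setLoW (qm 64)).setLoD (qm 192)).setLoW
    (qm 96)).setLoA (qm 2560)).setHiA (qm 2816)).setHiU (qm 112)).setHiA (qm 2688)).setHiA (qm
    2624)).setHiA (qm 2592)).setLoD (qm 224)).setHiW (qm 104))
    (by decide +kernel))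
    (good_splitD (qm 240)
    (good_of_check
    (T 2852127 65177294 10273906 11486573 1867060 4014281 4014281 1009772 3641444 3641444 1639422
    2774274 2774274 65691136 14787306 14787306 24647115 16065813)
    ((((((((((((((((((((((((root.setHiD (qm 2048)).setHiD (qm 1024)).setHiU (qm 512)).setLoA (qm
    2048)).setHiD (qm 512)).setHiU (qm 256)).setHiA (qm 3072)).setHiD (qm 256)).setHiU (qm
    128)).setLoU (qm 64)).setLoD (qm 128)).setLoU (qm 96)).setLoW (qm 64)).setLoD (qm 192)).setLoW
    (qm 96)).setLoA (qm 2560)).setHiA (qm 2816)).setHiU (qm 112)).setHiA (qm 2688)).setHiA (qm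
    2624)).setHiA (qm 2592)).setLoD (qm 224)).setLoW (qm 104)).setHiD (qm 240))
    (by decide +kernel))
    (good_of_check
    (R .u5 2274296 6873180 4150382 5106347 13446647 204943 2673352 11863286 4742369 (-108956)
    2673352 2774274 4742369 (-108956) 2673352 2774274 2774274 7799675)
    ((((((((((((((((((((((((root.setHiD (qm 2048)).setHiD (qm 1024)).setHiU (qm 512)).setLoA (qm
    2048)).setHiD (qm 512)).setHiU (qm 256)).setHiA (qm 3072)).setHiD (qm 256)).setHiU (qm
    128)).setLoU (qm 64)).setLoD (qm 128)).setLoU (qm 96)).setLoW (qm 64)).setLoD (qm 192)).setLoW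
    (qm 96)).setLoA (qm 2560)).setHiA (qm 2816)).setHiU (qm 112)).setHiA (qm 2688)).setHiA (qm
    2624)).setHiA (qm 2592)).setLoD (qm 224)).setLoW (qm 104)).setLoD (qm 240))
    (by decide +kernel)))))
    (good_of_check
    (T 2852127 64496013 10166323 11558141 1931524 4056301 4056301 1005470 3601046 3601046 1676267
    2774274 2774274 65988345 15041651 15041651 24658265 16091457)
    (((((((((((((((((((((root.setHiD (qm 2048)).setHiD (qm 1024)).setHiU (qm 512)).setLoA (qm
    2048)).setHiD (qm 512)).setHiU (qm 256)).setHiA (qm 3072)).setHiD (qm 256)).setHiU (qm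
    128)).setLoU (qm 64)).setLoD (qm 128)).setLoU (qm 96)).setLoW (qm 64)).setLoD (qm 192)).setLoW
    (qm 96)).setLoA (qm 2560)).setHiA (qm 2816)).setHiU (qm 112)).setHiA (qm 2688)).setHiA (qm
    2624)).setLoA (qm 2592))
    (by decide +kernel)))
    (good_of_check
    (T 2852127 63452369 10057589 11629269 1900269 3990664 3990664 1010749 3675907 3675907 1676267
    2774274 2774274 65642882 14575017 14575017 24680550 16091457)
    ((((((((((((((((((((root.setHiD (qm 2048)).setHiD (qm 1024)).setHiU (qm 512)).setLoA (qm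
    2048)).setHiD (qm 512)).setHiU (qm 256)).setHiA (qm 3072)).setHiD (qm 256)).setHiU (qm
    128)).setLoU (qm 64)).setLoD (qm 128)).setLoU (qm 96)).setLoW (qm 64)).setLoD (qm 192)).setLoW
    (qm 96)).setLoA (qm 2560)).setHiA (qm 2816)).setHiU (qm 112)).setHiA (qm 2688)).setLoA (qm
    2624))
    (by decide +kernel)))
    (good_of_check
    (T 2852127 61431305 9836516 11770235 1839742 3863554 3863554 1021009 3816489 3816489 1676267
    2774274 2774274 64978442 13751538 13751538 24725060 16091457)
    (((((((((((((((((((root.setHiD (qm 2048)).setHiD (qm 1024)).setHiU (qm 512)).setLoA (qm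
    2048)).setHiD (qm 512)).setHiU (qm 256)).setHiA (qm 3072)).setHiD (qm 256)).setHiU (qm
    128)).setLoU (qm 64)).setLoD (qm 128)).setLoU (qm 96)).setLoW (qm 64)).setLoD (qm 192)).setLoW
    (qm 96)).setLoA (qm 2560)).setHiA (qm 2816)).setHiU (qm 112)).setLoA (qm 2688))
    (by decide +kernel)))
    (good_splitD (qm 224)
    (good_splitA (qm 2688)
    (good_splitU (qm 120)
    (good_splitA (qm 2624)
    (good_splitA (qm 2592)
    (good_of_check
    (T 2852127 64986158 10273906 11486573 1819276 4113124 4113124 1014456 3548860 3548860 1620685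
    2871646 2871646 65363540 15649483 15649483 24647115 16099996)
    (((((((((((((((((((((((root.setHiD (qm 2048)).setHiD (qm 1024)).setHiU (qm 512)).setLoA (qm
    2048)).setHiD (qm 512)).setHiU (qm 256)).setHiA (qm 3072)).setHiD (qm 256)).setHiU (qm
    128)).setLoU (qm 64)).setLoD (qm 128)).setLoU (qm 96)).setLoW (qm 64)).setLoD (qm 192)).setLoW
    (qm 96)).setLoA (qm 2560)).setHiA (qm 2816)).setLoU (qm 112)).setHiD (qm 224)).setHiA (qm
    2688)).setHiU (qm 120)).setHiA (qm 2624)).setHiA (qm 2592))
    (by decide +kernel))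
    (good_of_check
    (T 2852127 63928599 10166323 11558141 1789670 4046188 4046188 1019554 3626977 3626977 1620685
    2871646 2871646 65026955 15146359 15146359 24658265 16099996)
    (((((((((((((((((((((((root.setHiD (qm 2048)).setHiD (qm 1024)).setHiU (qm 512)).setLoA (qm
    2048)).setHiD (qm 512)).setHiU (qm 256)).setHiA (qm 3072)).setHiD (qm 256)).setHiU (qm
    128)).setLoU (qm 64)).setLoD (qm 128)).setLoU (qm 96)).setLoW (qm 64)).setLoD (qm 192)).setLoW
    (qm 96)).setLoA (qm 2560)).setHiA (qm 2816)).setLoU (qm 112)).setHiD (qm 224)).setHiA (qm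
    2688)).setHiU (qm 120)).setHiA (qm 2624)).setLoA (qm 2592))
    (by decide +kernel)))
    (good_of_check
    (T 2852127 62894137 10057589 11629269 1760711 3980716 3980716 1024557 3701710 3701710 1620685
    2871646 2871646 64698924 14685708 14685708 24680550 16099996)
    ((((((((((((((((((((((root.setHiD (qm 2048)).setHiD (qm 1024)).setHiU (qm 512)).setLoA (qm
    2048)).setHiD (qm 512)).setHiU (qm 256)).setHiA (qm 3072)).setHiD (qm 256)).setHiU (qm
    128)).setLoU (qm 64)).setLoD (qm 128)).setLoU (qm 96)).setLoW (qm 64)).setLoD (qm 192)).setLoW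
    (qm 96)).setLoA (qm 2560)).setHiA (qm 2816)).setLoU (qm 112)).setHiD (qm 224)).setHiA (qm
    2688)).setHiU (qm 120)).setLoA (qm 2624))
    (by decide +kernel)))
    (good_splitW (qm 112)
    (good_splitD (qm 208)
    (good_of_check
    (T 2852127 64796140 10273906 11486573 1771772 4211388 3906437 1019036 3451329 3753616 1601729
    2965823 2774274 65034216 16557111 14111613 24680550 16099996)
    (((((((((((((((((((((((root.setHiD (qm 2048)).setHiD (qm 1024)).setHiU (qm 512)).setLoA (qm
    2048)).setHiD (qm 512)).setHiU (qm 256)).setHiA (qm 3072)).setHiD (qm 256)).setHiU (qm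
    128)).setLoU (qm 64)).setLoD (qm 128)).setLoU (qm 96)).setLoW (qm 64)).setLoD (qm 192)).setLoW
    (qm 96)).setLoA (qm 2560)).setHiA (qm 2816)).setLoU (qm 112)).setHiD (qm 224)).setHiA (qm
    2688)).setLoU (qm 120)).setHiW (qm 112)).setHiD (qm 208))
    (by decide +kernel))
    (good_splitA (qm 2624)
    (good_of_check
    (R .u5 2302859 6960572 4105991 5128192 13413367 166993 2871641 11863286 6871704 (-172998)
    2871641 2965823 3504142 (-78396) 2568474 2774274 2774274 7549309)
    ((((((((((((((((((((((((root.setHiD (qm 2048)).setHiD (qm 1024)).setHiU (qm 512)).setLoA (qm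
    2048)).setHiD (qm 512)).setHiU (qm 256)).setHiA (qm 3072)).setHiD (qm 256)).setHiU (qm
    128)).setLoU (qm 64)).setLoD (qm 128)).setLoU (qm 96)).setLoW (qm 64)).setLoD (qm 192)).setLoW
    (qm 96)).setLoA (qm 2560)).setHiA (qm 2816)).setLoU (qm 112)).setHiD (qm 224)).setHiA (qm
    2688)).setLoU (qm 120)).setHiW (qm 112)).setLoD (qm 208)).setHiA (qm 2624))
    (by decide +kernel))
    (good_of_check
    (T 2852127 63079119 10057589 11629269 1806956 4181925 3885055 1020054 3494010 3785336 1639422
    2965823 2774274 65015086 16262992 13928333 24680550 16065813)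
    ((((((((((((((((((((((((root.setHiD (qm 2048)).setHiD (qm 1024)).setHiU (qm 512)).setLoA (qm
    2048)).setHiD (qm 512)).setHiU (qm 256)).setHiA (qm 3072)).setHiD (qm 256)).setHiU (qm
    128)).setLoU (qm 64)).setLoD (qm 128)).setLoU (qm 96)).setLoW (qm 64)).setLoD (qm 192)).setLoW
    (qm 96)).setLoA (qm 2560)).setHiA (qm 2816)).setLoU (qm 112)).setHiD (qm 224)).setHiA (qm
    2688)).setLoU (qm 120)).setHiW (qm 112)).setLoD (qm 208)).setLoA (qm 2624))
    (by decide +kernel))))
    (good_splitD (qm 208)
    (good_of_check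
    (R .u5 2307025 6917526 4015739 5150037 13383249 169025 2871641 11863286 6789935 (-171209)
    2871641 2965823 6145728 (-151077) 2774269 2965823 2568479 6583927)
    (((((((((((((((((((((((root.setHiD (qm 2048)).setHiD (qm 1024)).setHiU (qm 512)).setLoA (qm
    2048)).setHiD (qm 512)).setHiU (qm 256)).setHiA (qm 3072)).setHiD (qm 256)).setHiU (qm
    128)).setLoU (qm 64)).setLoD (qm 128)).setLoU (qm 96)).setLoW (qm 64)).setLoD (qm 192)).setLoW
    (qm 96)).setLoA (qm 2560)).setHiA (qm 2816)).setLoU (qm 112)).setHiD (qm 224)).setHiA (qm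
    2688)).setLoU (qm 120)).setLoW (qm 112)).setHiD (qm 208))
    (by decide +kernel))
    (good_of_check
    (R .u5 2311196 6874473 4015739 5128192 13389021 160090 2871641 11863286 6708426 (-169419)
    2871641 2965823 6065143 (-149316) 2774269 2965823 2774274 7476657)
    (((((((((((((((((((((((root.setHiD (qm 2048)).setHiD (qm 1024)).setHiU (qm 512)).setLoA (qm
    2048)).setHiD (qm 512)).setHiU (qm 256)).setHiA (qm 3072)).setHiD (qm 256)).setHiU (qm
    128)).setLoU (qm 64)).setLoD (qm 128)).setLoU (qm 96)).setLoW (qm 64)).setLoD (qm 192)).setLoW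
    (qm 96)).setLoA (qm 2560)).setHiA (qm 2816)).setLoU (qm 112)).setHiD (qm 224)).setHiA (qm
    2688)).setLoU (qm 120)).setLoW (qm 112)).setLoD (qm 208))
    (by decide +kernel)))))
    (good_splitA (qm 2752)
    (good_splitA (qm 2720)
    (good_of_check
    (T 2852127 61069944 9836516 11770235 1749402 4048725 4048725 1029960 3652214 3652214 1639422
    2965823 2965823 64372653 15233328 15233328 24691685 16091457)
    ((((((((((((((((((((((root.setHiD (qm 2048)).setHiD (qm 1024)).setHiU (qm 512)).setLoA (qm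
    2048)).setHiD (qm 512)).setHiU (qm 256)).setHiA (qm 3072)).setHiD (qm 256)).setHiU (qm
    128)).setLoU (qm 64)).setLoD (qm 128)).setLoU (qm 96)).setLoW (qm 64)).setLoD (qm 192)).setLoW
    (qm 96)).setLoA (qm 2560)).setHiA (qm 2816)).setLoU (qm 112)).setHiD (qm 224)).setLoA (qm
    2688)).setHiA (qm 2752)).setHiA (qm 2720))
    (by decide +kernel))
    (good_of_check
    (T 2852127 60096539 9724095 11840089 1721518 3984191 3984191 1034782 3726284 3726284 1639422
    2965823 2965823 64063046 14781985 14781985 24702815 16091457)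
    ((((((((((((((((((((((root.setHiD (qm 2048)).setHiD (qm 1024)).setHiU (qm 512)).setLoA (qm
    2048)).setHiD (qm 512)).setHiU (qm 256)).setHiA (qm 3072)).setHiD (qm 256)).setHiU (qm
    128)).setLoU (qm 64)).setLoD (qm 128)).setLoU (qm 96)).setLoW (qm 64)).setLoD (qm 192)).setLoW
    (qm 96)).setLoA (qm 2560)).setHiA (qm 2816)).setLoU (qm 112)).setHiD (qm 224)).setLoA (qm
    2688)).setHiA (qm 2752)).setLoA (qm 2720))
    (by decide +kernel)))
    (good_of_check
    (T 2852127 59142824 9610359 11909532 1694198 3920963 3920963 1039521 3797355 3797355 1639422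
    2965823 2965823 63760732 14366093 14366093 24725060 16091457)
    (((((((((((((((((((((root.setHiD (qm 2048)).setHiD (qm 1024)).setHiU (qm 512)).setLoA (qm
    2048)).setHiD (qm 512)).setHiU (qm 256)).setHiA (qm 3072)).setHiD (qm 256)).setHiU (qm
    128)).setLoU (qm 64)).setLoD (qm 128)).setLoU (qm 96)).setLoW (qm 64)).setLoD (qm 192)).setLoW
    (qm 96)).setLoA (qm 2560)).setHiA (qm 2816)).setLoU (qm 112)).setHiD (qm 224)).setLoA (qm
    2688)).setLoA (qm 2752))
    (by decide +kernel))))
    (good_splitW (qm 112)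
    (good_splitD (qm 240)
    (good_splitA (qm 2688)
    (good_splitW (qm 104)
    (good_of_check
    (R .u5 2282632 6981691 4015739 5111808 13453110 189078 2774269 11863286 6624797 (-161430)
    2774269 2965823 3139961 (-68961) 2568474 2673357 2673357 7267283)
    (((((((((((((((((((((((root.setHiD (qm 2048)).setHiD (qm 1024)).setHiU (qm 512)).setLoA (qm
    2048)).setHiD (qm 512)).setHiU (qm 256)).setHiA (qm 3072)).setHiD (qm 256)).setHiU (qm
    128)).setLoU (qm 64)).setLoD (qm 128)).setLoU (qm 96)).setLoW (qm 64)).setLoD (qm 192)).setLoW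
    (qm 96)).setLoA (qm 2560)).setHiA (qm 2816)).setLoU (qm 112)).setLoD (qm 224)).setHiW (qm
    112)).setHiD (qm 240)).setHiA (qm 2688)).setHiW (qm 104))
    (by decide +kernel))
    (good_of_check
    (R .u5 2285207 6957184 4015739 5111808 13445768 186900 2774269 11863286 6573605 (-160333)
    2774269 2965823 4535169 (-104594) 2673352 2774274 2774274 7702914)
    (((((((((((((((((((((((root.setHiD (qm 2048)).setHiD (qm 1024)).setHiU (qm 512)).setLoA (qm
    2048)).setHiD (qm 512)).setHiU (qm 256)).setHiA (qm 3072)).setHiD (qm 256)).setHiU (qm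
    128)).setLoU (qm 64)).setLoD (qm 128)).setLoU (qm 96)).setLoW (qm 64)).setLoD (qm 192)).setLoW
    (qm 96)).setLoA (qm 2560)).setHiA (qm 2816)).setLoU (qm 112)).setLoD (qm 224)).setHiW (qm
    112)).setHiD (qm 240)).setHiA (qm 2688)).setLoW (qm 104))
    (by decide +kernel)))
    (good_of_check
    (T 2852127 61431305 9836516 11770235 1839742 4152670 3863554 1021009 3535626 3816489 1676267
    2965823 2774274 64978442 15983077 13751538 24725060 16040128)
    ((((((((((((((((((((((root.setHiD (qm 2048)).setHiD (qm 1024)).setHiU (qm 512)).setLoA (qm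
    2048)).setHiD (qm 512)).setHiU (qm 256)).setHiA (qm 3072)).setHiD (qm 256)).setHiU (qm
    128)).setLoU (qm 64)).setLoD (qm 128)).setLoU (qm 96)).setLoW (qm 64)).setLoD (qm 192)).setLoW
    (qm 96)).setLoA (qm 2560)).setHiA (qm 2816)).setLoU (qm 112)).setLoD (qm 224)).setHiW (qm
    112)).setHiD (qm 240)).setLoA (qm 2688))
    (by decide +kernel)))
    (good_splitW (qm 104)
    (good_of_check
    (R .u5 2296117 6844489 3828857 5089963 13431228 172592 2774269 11863286 6358333 (-155696)
    2774269 2965823 2911775 (-64227) 2568474 2673357 2673357 7152460)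
    ((((((((((((((((((((((root.setHiD (qm 2048)).setHiD (qm 1024)).setHiU (qm 512)).setLoA (qm
    2048)).setHiD (qm 512)).setHiU (qm 256)).setHiA (qm 3072)).setHiD (qm 256)).setHiU (qm
    128)).setLoU (qm 64)).setLoD (qm 128)).setLoU (qm 96)).setLoW (qm 64)).setLoD (qm 192)).setLoW
    (qm 96)).setLoA (qm 2560)).setHiA (qm 2816)).setLoU (qm 112)).setLoD (qm 224)).setHiW (qm
    112)).setLoD (qm 240)).setHiW (qm 104))
    (by decide +kernel))
    (good_splitW (qm 108)
    (good_of_check
    (R .u5 2307030 6735116 3828857 5089963 13398577 163951 2774269 11863286 6145644 (-151075)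
    2774269 2965823 3782417 (-87138) 2673352 2724283 2724283 7290117)
    (((((((((((((((((((((((root.setHiD (qm 2048)).setHiD (qm 1024)).setHiU (qm 512)).setLoA (qm
    2048)).setHiD (qm 512)).setHiU (qm 256)).setHiA (qm 3072)).setHiD (qm 256)).setHiU (qm
    128)).setLoU (qm 64)).setLoD (qm 128)).setLoU (qm 96)).setLoW (qm 64)).setLoD (qm 192)).setLoW
    (qm 96)).setLoA (qm 2560)).setHiA (qm 2816)).setLoU (qm 112)).setLoD (qm 224)).setHiW (qm
    112)).setLoD (qm 240)).setLoW (qm 104)).setHiW (qm 108))
    (by decide +kernel))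
    (good_splitU (qm 120)
    (good_of_check
    (R .u5 2313771 6668861 3828857 5095424 13374351 159915 2774269 11863286 5372891 (-130657)
    2774269 2871646 4357481 (-102892) 2724278 2774274 2774274 7455559)
    ((((((((((((((((((((((((root.setHiD (qm 2048)).setHiD (qm 1024)).setHiU (qm 512)).setLoA (qm
    2048)).setHiD (qm 512)).setHiU (qm 256)).setHiA (qm 3072)).setHiD (qm 256)).setHiU (qm
    128)).setLoU (qm 64)).setLoD (qm 128)).setLoU (qm 96)).setLoW (qm 64)).setLoD (qm 192)).setLoW
    (qm 96)).setLoA (qm 2560)).setHiA (qm 2816)).setLoU (qm 112)).setLoD (qm 224)).setHiW (qm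
    112)).setLoD (qm 240)).setLoW (qm 104)).setLoW (qm 108)).setHiU (qm 120))
    (by decide +kernel))
    (good_of_check
    (R .u5 2326711 6720771 3828857 5084501 13378919 136784 2871641 11863286 6408278 (-162777)
    2871641 2965823 4123530 (-97806) 2724278 2774274 2774274 7345823)
    ((((((((((((((((((((((((root.setHiD (qm 2048)).setHiD (qm 1024)).setHiU (qm 512)).setLoA (qm
    2048)).setHiD (qm 512)).setHiU (qm 256)).setHiA (qm 3072)).setHiD (qm 256)).setHiU (qm
    128)).setLoU (qm 64)).setLoD (qm 128)).setLoU (qm 96)).setLoW (qm 64)).setLoD (qm 192)).setLoW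
    (qm 96)).setLoA (qm 2560)).setHiA (qm 2816)).setLoU (qm 112)).setLoD (qm 224)).setHiW (qm
    112)).setLoD (qm 240)).setLoW (qm 104)).setLoW (qm 108)).setLoU (qm 120))
    (by decide +kernel))))))
    (good_splitW (qm 120)
    (good_splitD (qm 240)
    (good_splitU (qm 120)
    (good_splitA (qm 2688)
    (good_splitU (qm 116)
    (good_of_check
    (R .u5 2285207 6957184 4015739 5120000 13438973 188972 2774269 11863286 5588201 (-133388)
    2774269 2823380 5588201 (-133388) 2774269 2823380 2823380 7920261)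
    (((((((((((((((((((((((((root.setHiD (qm 2048)).setHiD (qm 1024)).setHiU (qm 512)).setLoA (qm
    2048)).setHiD (qm 512)).setHiU (qm 256)).setHiA (qm 3072)).setHiD (qm 256)).setHiU (qm
    128)).setLoU (qm 64)).setLoD (qm 128)).setLoU (qm 96)).setLoW (qm 64)).setLoD (qm 192)).setLoW
    (qm 96)).setLoA (qm 2560)).setHiA (qm 2816)).setLoU (qm 112)).setLoD (qm 224)).setLoW (qm
    112)).setHiW (qm 120)).setHiD (qm 240)).setHiU (qm 120)).setHiA (qm 2688)).setHiU (qm 116))
    (by decide +kernel))
    (good_of_check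
    (R .u5 2300284 6896403 4015739 5114539 13416092 170287 2823375 11863286 5966092 (-146087)
    2823375 2871646 5631213 (-136276) 2774269 2871646 2871646 7997233)
    (((((((((((((((((((((((((root.setHiD (qm 2048)).setHiD (qm 1024)).setHiU (qm 512)).setLoA (qm
    2048)).setHiD (qm 512)).setHiU (qm 256)).setHiA (qm 3072)).setHiD (qm 256)).setHiU (qm
    128)).setLoU (qm 64)).setLoD (qm 128)).setLoU (qm 96)).setLoW (qm 64)).setLoD (qm 192)).setLoW
    (qm 96)).setLoA (qm 2560)).setHiA (qm 2816)).setLoU (qm 112)).setLoD (qm 224)).setLoW (qm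
    112)).setHiW (qm 120)).setHiD (qm 240)).setHiU (qm 120)).setHiA (qm 2688)).setLoU (qm 116))
    (by decide +kernel)))
    (good_of_check
    (T 2852127 61250092 9836516 11770235 1794439 3956413 3956413 1025532 3736280 3736280 1657947
    2871646 2871646 64676346 14479165 14479165 24725060 16048695)
    ((((((((((((((((((((((((root.setHiD (qm 2048)).setHiD (qm 1024)).setHiU (qm 512)).setLoA (qm
    2048)).setHiD (qm 512)).setHiU (qm 256)).setHiA (qm 3072)).setHiD (qm 256)).setHiU (qm
    128)).setLoU (qm 64)).setLoD (qm 128)).setLoU (qm 96)).setLoW (qm 64)).setLoD (qm 192)).setLoW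
    (qm 96)).setLoA (qm 2560)).setHiA (qm 2816)).setLoU (qm 112)).setLoD (qm 224)).setLoW (qm
    112)).setHiW (qm 120)).setHiD (qm 240)).setHiU (qm 120)).setLoA (qm 2688))
    (by decide +kernel)))
    (good_splitD (qm 232)
    (good_splitW (qm 116)
    (good_of_check
    (R .u5 2313771 6849968 3828857 5111808 13395144 153821 2871641 11863286 6658269 (-168315)
    2871641 2965823 5040300 (-121563) 2774269 2823380 2823380 7670551)
    (((((((((((((((((((((((((root.setHiD (qm 2048)).setHiD (qm 1024)).setHiU (qm 512)).setLoA (qm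
    2048)).setHiD (qm 512)).setHiU (qm 256)).setHiA (qm 3072)).setHiD (qm 256)).setHiU (qm
    128)).setLoU (qm 64)).setLoD (qm 128)).setLoU (qm 96)).setLoW (qm 64)).setLoD (qm 192)).setLoW
    (qm 96)).setLoA (qm 2560)).setHiA (qm 2816)).setLoU (qm 112)).setLoD (qm 224)).setLoW (qm
    112)).setHiW (qm 120)).setHiD (qm 240)).setLoU (qm 120)).setHiD (qm 232)).setHiW (qm 116))
    (by decide +kernel))
    (good_of_check
    (R .u5 2317939 6806929 3828857 5111808 13382699 150503 2871641 11863286 6577381 (-166529)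
    2871641 2965823 5625829 (-138652) 2823375 2871646 2823380 7634246)
    (((((((((((((((((((((((((root.setHiD (qm 2048)).setHiD (qm 1024)).setHiU (qm 512)).setLoA (qm
    2048)).setHiD (qm 512)).setHiU (qm 256)).setHiA (qm 3072)).setHiD (qm 256)).setHiU (qm
    128)).setLoU (qm 64)).setLoD (qm 128)).setLoU (qm 96)).setLoW (qm 64)).setLoD (qm 192)).setLoW
    (qm 96)).setLoA (qm 2560)).setHiA (qm 2816)).setLoU (qm 112)).setLoD (qm 224)).setLoW (qm
    112)).setHiW (qm 120)).setHiD (qm 240)).setLoU (qm 120)).setHiD (qm 232)).setLoW (qm 116))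
    (by decide +kernel)))
    (good_of_check
    (R .u5 2324681 6740600 3828857 5100885 13371753 142390 2871641 11863286 6447282 (-163645)
    2871641 2965823 5167332 (-126146) 2774269 2871646 2871646 7784207)
    ((((((((((((((((((((((((root.setHiD (qm 2048)).setHiD (qm 1024)).setHiU (qm 512)).setLoA (qm
    2048)).setHiD (qm 512)).setHiU (qm 256)).setHiA (qm 3072)).setHiD (qm 256)).setHiU (qm
    128)).setLoU (qm 64)).setLoD (qm 128)).setLoU (qm 96)).setLoW (qm 64)).setLoD (qm 192)).setLoW
    (qm 96)).setLoA (qm 2560)).setHiA (qm 2816)).setLoU (qm 112)).setLoD (qm 224)).setLoW (qm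
    112)).setHiW (qm 120)).setHiD (qm 240)).setLoU (qm 120)).setLoD (qm 232))
    (by decide +kernel))))
    (good_splitW (qm 116)
    (good_splitU (qm 120)
    (good_splitD (qm 248)
    (good_of_check
    (R .u5 2317939 6627900 3828857 5100885 13357520 158009 2774269 11863286 5294000 (-128930)
    2774269 2871646 4962172 (-119857) 2774269 2823380 2823380 7634246)
    (((((((((((((((((((((((((root.setHiD (qm 2048)).setHiD (qm 1024)).setHiU (qm 512)).setLoA (qm
    2048)).setHiD (qm 512)).setHiU (qm 256)).setHiA (qm 3072)).setHiD (qm 256)).setHiU (qm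
    128)).setLoU (qm 64)).setLoD (qm 128)).setLoU (qm 96)).setLoW (qm 64)).setLoD (qm 192)).setLoW
    (qm 96)).setLoA (qm 2560)).setHiA (qm 2816)).setLoU (qm 112)).setLoD (qm 224)).setLoW (qm
    112)).setHiW (qm 120)).setLoD (qm 240)).setHiW (qm 116)).setHiU (qm 120)).setHiD (qm 248))
    (by decide +kernel))
    (good_of_check
    (R .u5 2324681 6561648 3828857 5089963 13345953 150211 2774269 11863286 5167332 (-126146)
    2774269 2871646 4836794 (-117108) 2774269 2823380 2823380 7577049)
    (((((((((((((((((((((((((root.setHiD (qm 2048)).setHiD (qm 1024)).setHiU (qm 512)).setLoA (qm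
    2048)).setHiD (qm 512)).setHiU (qm 256)).setHiA (qm 3072)).setHiD (qm 256)).setHiU (qm
    128)).setLoU (qm 64)).setLoD (qm 128)).setLoU (qm 96)).setLoW (qm 64)).setLoD (qm 192)).setLoW
    (qm 96)).setLoA (qm 2560)).setHiA (qm 2816)).setLoU (qm 112)).setLoD (qm 224)).setLoW (qm
    112)).setHiW (qm 120)).setLoD (qm 240)).setHiW (qm 116)).setHiU (qm 120)).setLoD (qm 248))
    (by decide +kernel)))
    (good_of_check
    (R .u5 2333454 6654514 3828857 5084501 13358758 131541 2871641 11863286 6279377 (-159900)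
    2871641 2965823 4675509 (-113554) 2774269 2823380 2823380 7503080)
    ((((((((((((((((((((((((root.setHiD (qm 2048)).setHiD (qm 1024)).setHiU (qm 512)).setLoA (qm
    2048)).setHiD (qm 512)).setHiU (qm 256)).setHiA (qm 3072)).setHiD (qm 256)).setHiU (qm
    128)).setLoU (qm 64)).setLoD (qm 128)).setLoU (qm 96)).setLoW (qm 64)).setLoD (qm 192)).setLoW
    (qm 96)).setLoA (qm 2560)).setHiA (qm 2816)).setLoU (qm 112)).setLoD (qm 224)).setLoW (qm
    112)).setHiW (qm 120)).setLoD (qm 240)).setHiW (qm 116)).setLoU (qm 120))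
    (by decide +kernel)))
    (good_of_check
    (R .u5 2330878 6592435 3828857 5087232 13347289 139352 2823375 11863286 6012737 (-151130)
    2823375 2965823 5381210 (-133245) 2823375 2871646 2871646 7730647)
    (((((((((((((((((((((((root.setHiD (qm 2048)).setHiD (qm 1024)).setHiU (qm 512)).setLoA (qm
    2048)).setHiD (qm 512)).setHiU (qm 256)).setHiA (qm 3072)).setHiD (qm 256)).setHiU (qm
    128)).setLoU (qm 64)).setLoD (qm 128)).setLoU (qm 96)).setLoW (qm 64)).setLoD (qm 192)).setLoW
    (qm 96)).setLoA (qm 2560)).setHiA (qm 2816)).setLoU (qm 112)).setLoD (qm 224)).setLoW (qm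
    112)).setHiW (qm 120)).setLoD (qm 240)).setLoW (qm 116))
    (by decide +kernel))))
    (good_splitD (qm 240)
    (good_splitD (qm 232)
    (good_of_check
    (R .u5 2320514 6781615 3828857 5111808 13375210 148405 2871641 11863286 6527574 (-165427)
    2871641 2965823 6527574 (-165427) 2871641 2965823 2774274 7398654)
    (((((((((((((((((((((((root.setHiD (qm 2048)).setHiD (qm 1024)).setHiU (qm 512)).setLoA (qm
    2048)).setHiD (qm 512)).setHiU (qm 256)).setHiA (qm 3072)).setHiD (qm 256)).setHiU (qm
    128)).setLoU (qm 64)).setLoD (qm 128)).setLoU (qm 96)).setLoW (qm 64)).setLoD (qm 192)).setLoW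
    (qm 96)).setLoA (qm 2560)).setHiA (qm 2816)).setLoU (qm 112)).setLoD (qm 224)).setLoW (qm
    112)).setLoW (qm 120)).setHiD (qm 240)).setHiD (qm 232))
    (by decide +kernel))
    (good_of_check
    (R .u5 2333454 6654514 3828857 5100885 13345761 135486 2871641 11863286 6279377 (-159900)
    2871641 2965823 6279377 (-159900) 2871641 2965823 2871646 7708158)
    (((((((((((((((((((((((root.setHiD (qm 2048)).setHiD (qm 1024)).setHiU (qm 512)).setLoA (qm
    2048)).setHiD (qm 512)).setHiU (qm 256)).setHiA (qm 3072)).setHiD (qm 256)).setHiU (qm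
    128)).setLoU (qm 64)).setLoD (qm 128)).setLoU (qm 96)).setLoW (qm 64)).setLoD (qm 192)).setLoW
    (qm 96)).setLoA (qm 2560)).setHiA (qm 2816)).setLoU (qm 112)).setLoD (qm 224)).setLoW (qm
    112)).setLoW (qm 120)).setHiD (qm 240)).setLoD (qm 232))
    (by decide +kernel)))
    (good_of_check
    (R .u5 2340197 6590341 3828857 5084501 13338735 126327 2871641 11863286 6151411 (-157028)
    2871641 2965823 6151411 (-157028) 2871641 2965823 2965823 8044794)
    ((((((((((((((((((((((root.setHiD (qm 2048)).setHiD (qm 1024)).setHiU (qm 512)).setLoA (qm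
    2048)).setHiD (qm 512)).setHiU (qm 256)).setHiA (qm 3072)).setHiD (qm 256)).setHiU (qm
    128)).setLoU (qm 64)).setLoD (qm 128)).setLoU (qm 96)).setLoW (qm 64)).setLoD (qm 192)).setLoW
    (qm 96)).setLoA (qm 2560)).setHiA (qm 2816)).setLoU (qm 112)).setLoD (qm 224)).setLoW (qm
    112)).setLoW (qm 120)).setLoD (qm 240))
    (by decide +kernel)))))))
    (good_splitA (qm 2944)
    (good_splitA (qm 2880)
    (good_splitD (qm 224)
    (good_of_check
    (T 3187671 57291359 9378750 12047220 1641161 3851478 3851478 1172148 3789980 3789980 1639422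
    2965823 2965823 56029649 14408492 14408492 24747285 16108530)
    ((((((((((((((((((((root.setHiD (qm 2048)).setHiD (qm 1024)).setHiU (qm 512)).setLoA (qm
    2048)).setHiD (qm 512)).setHiU (qm 256)).setHiA (qm 3072)).setHiD (qm 256)).setHiU (qm
    128)).setLoU (qm 64)).setLoD (qm 128)).setLoU (qm 96)).setLoW (qm 64)).setLoD (qm 192)).setLoW
    (qm 96)).setLoA (qm 2560)).setLoA (qm 2816)).setHiA (qm 2944)).setHiA (qm 2880)).setHiD (qm
    224))
    (by decide +kernel))
    (good_splitA (qm 2848)
    (good_splitU (qm 112)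
    (good_of_check
    (T 3187671 57630361 9378750 12047220 1725912 3671384 3671384 1162846 3931431 3931431 1676267
    2774274 2774274 56659648 13125616 13125616 24736175 16057256)
    ((((((((((((((((((((((root.setHiD (qm 2048)).setHiD (qm 1024)).setHiU (qm 512)).setLoA (qm
    2048)).setHiD (qm 512)).setHiU (qm 256)).setHiA (qm 3072)).setHiD (qm 256)).setHiU (qm
    128)).setLoU (qm 64)).setLoD (qm 128)).setLoU (qm 96)).setLoW (qm 64)).setLoD (qm 192)).setLoW
    (qm 96)).setLoA (qm 2560)).setLoA (qm 2816)).setHiA (qm 2944)).setHiA (qm 2880)).setLoD (qm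
    224)).setHiA (qm 2848)).setHiU (qm 112))
    (by decide +kernel))
    (good_splitD (qm 240)
    (good_of_check
    (T 2852127 57630361 9378750 12047220 1725912 3895732 3895732 1040441 3831536 3831536 1676267
    2965823 2965823 63744807 14171824 14171824 24736175 16040128)
    (((((((((((((((((((((((root.setHiD (qm 2048)).setHiD (qm 1024)).setHiU (qm 512)).setLoA (qm
    2048)).setHiD (qm 512)).setHiU (qm 256)).setHiA (qm 3072)).setHiD (qm 256)).setHiU (qm
    128)).setLoU (qm 64)).setLoD (qm 128)).setLoU (qm 96)).setLoW (qm 64)).setLoD (qm 192)).setLoW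
    (qm 96)).setLoA (qm 2560)).setLoA (qm 2816)).setHiA (qm 2944)).setHiA (qm 2880)).setLoD (qm
    224)).setHiA (qm 2848)).setLoU (qm 112)).setHiD (qm 240))
    (by decide +kernel))
    (good_splitW (qm 112)
    (good_of_check
    (T 3187671 57973399 9378750 12047220 1811671 4048302 3768723 1153169 3585041 3839195 1712320
    2965823 2774274 57281525 15659235 13624643 24736175 16005818)
    ((((((((((((((((((((((((root.setHiD (qm 2048)).setHiD (qm 1024)).setHiU (qm 512)).setLoA (qm
    2048)).setHiD (qm 512)).setHiU (qm 256)).setHiA (qm 3072)).setHiD (qm 256)).setHiU (qm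
    128)).setLoU (qm 64)).setLoD (qm 128)).setLoU (qm 96)).setLoW (qm 64)).setLoD (qm 192)).setLoW
    (qm 96)).setLoA (qm 2560)).setLoA (qm 2816)).setHiA (qm 2944)).setHiA (qm 2880)).setLoD (qm
    224)).setHiA (qm 2848)).setLoU (qm 112)).setLoD (qm 240)).setHiW (qm 112))
    (by decide +kernel))
    (good_splitW (qm 120)
    (good_of_check
    (T 2852127 57973399 9378750 12047220 1811671 3994407 3857986 1031783 3726660 3854753 1712320
    2965823 2871646 64304851 14779741 13801112 24736175 16005818)
    (((((((((((((((((((((((((root.setHiD (qm 2048)).setHiD (qm 1024)).setHiU (qm 512)).setLoA (qm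
    2048)).setHiD (qm 512)).setHiU (qm 256)).setHiA (qm 3072)).setHiD (qm 256)).setHiU (qm
    128)).setLoU (qm 64)).setLoD (qm 128)).setLoU (qm 96)).setLoW (qm 64)).setLoD (qm 192)).setLoW
    (qm 96)).setLoA (qm 2560)).setLoA (qm 2816)).setHiA (qm 2944)).setHiA (qm 2880)).setLoD (qm
    224)).setHiA (qm 2848)).setLoU (qm 112)).setLoD (qm 240)).setLoW (qm 112)).setHiW (qm 120))
    (by decide +kernel))
    (good_splitD (qm 248)
    (good_of_check
    (T 2852127 57801371 9378750 12047220 1768664 3944923 3944923 1036155 3779755 3779755 1694389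
    2965823 2965823 64025602 14467563 14467563 24736175 16005818)
    ((((((((((((((((((((((((((root.setHiD (qm 2048)).setHiD (qm 1024)).setHiU (qm 512)).setLoA (qm
    2048)).setHiD (qm 512)).setHiU (qm 256)).setHiA (qm 3072)).setHiD (qm 256)).setHiU (qm
    128)).setLoU (qm 64)).setLoD (qm 128)).setLoU (qm 96)).setLoW (qm 64)).setLoD (qm 192)).setLoW
    (qm 96)).setLoA (qm 2560)).setLoA (qm 2816)).setHiA (qm 2944)).setHiA (qm 2880)).setLoD (qm
    224)).setHiA (qm 2848)).setLoU (qm 112)).setLoD (qm 240)).setLoW (qm 112)).setLoW (qm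
    120)).setHiD (qm 248))
    (by decide +kernel))
    (good_of_check
    (R .u5 2348530 6509718 3780693 5079040 13318051 118684 2871641 11863286 5994585 (-153489)
    2871641 2965823 5994585 (-153489) 2871641 2965823 2965823 7972707)
    ((((((((((((((((((((((((((root.setHiD (qm 2048)).setHiD (qm 1024)).setHiU (qm 512)).setLoA (qm
    2048)).setHiD (qm 512)).setHiU (qm 256)).setHiA (qm 3072)).setHiD (qm 256)).setHiU (qm
    128)).setLoU (qm 64)).setLoD (qm 128)).setLoU (qm 96)).setLoW (qm 64)).setLoD (qm 192)).setLoW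
    (qm 96)).setLoA (qm 2560)).setLoA (qm 2816)).setHiA (qm 2944)).setHiA (qm 2880)).setLoD (qm
    224)).setHiA (qm 2848)).setLoU (qm 112)).setLoD (qm 240)).setLoW (qm 112)).setLoW (qm
    120)).setLoD (qm 248))
    (by decide +kernel)))))))
    (good_splitA (qm 2864)
    (good_splitA (qm 2856)
    (good_of_check
    (T 2852127 57063463 9260774 12115476 1783236 3931712 3931712 1036589 3797331 3797331 1712320
    2965823 2965823 64005188 14366231 14366231 24738953 16040128)
    (((((((((((((((((((((((root.setHiD (qm 2048)).setHiD (qm 1024)).setHiU (qm 512)).setLoA (qm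
    2048)).setHiD (qm 512)).setHiU (qm 256)).setHiA (qm 3072)).setHiD (qm 256)).setHiU (qm
    128)).setLoU (qm 64)).setLoD (qm 128)).setLoU (qm 96)).setLoW (qm 64)).setLoD (qm 192)).setLoW
    (qm 96)).setLoA (qm 2560)).setLoA (qm 2816)).setHiA (qm 2944)).setHiA (qm 2880)).setLoD (qm
    224)).setLoA (qm 2848)).setHiA (qm 2864)).setHiA (qm 2856))
    (by decide +kernel))
    (good_of_check
    (T 2852127 56838649 9231044 12132480 1776210 3916222 3916222 1037778 3814570 3814570 1712320
    2965823 2965823 63931344 14267794 14267794 24741730 16040128)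
    (((((((((((((((((((((((root.setHiD (qm 2048)).setHiD (qm 1024)).setHiU (qm 512)).setLoA (qm
    2048)).setHiD (qm 512)).setHiU (qm 256)).setHiA (qm 3072)).setHiD (qm 256)).setHiU (qm
    128)).setLoU (qm 64)).setLoD (qm 128)).setLoU (qm 96)).setLoW (qm 64)).setLoD (qm 192)).setLoW
    (qm 96)).setLoA (qm 2560)).setLoA (qm 2816)).setHiA (qm 2944)).setHiA (qm 2880)).setLoD (qm
    224)).setLoA (qm 2848)).setHiA (qm 2864)).setLoA (qm 2856))
    (by decide +kernel)))
    (good_of_check
    (T 2852127 56614884 9201219 12149461 1769218 3900805 3900805 1038961 3831643 3831643 1712320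
    2965823 2965823 63857988 14171222 14171222 24747285 16040128)
    ((((((((((((((((((((((root.setHiD (qm 2048)).setHiD (qm 1024)).setHiU (qm 512)).setLoA (qm
    2048)).setHiD (qm 512)).setHiU (qm 256)).setHiA (qm 3072)).setHiD (qm 256)).setHiU (qm
    128)).setLoU (qm 64)).setLoD (qm 128)).setLoU (qm 96)).setLoW (qm 64)).setLoD (qm 192)).setLoW
    (qm 96)).setLoA (qm 2560)).setLoA (qm 2816)).setHiA (qm 2944)).setHiA (qm 2880)).setLoD (qm
    224)).setLoA (qm 2848)).setLoA (qm 2864))
    (by decide +kernel)))))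
    (good_of_check
    (T 2852127 56170446 9141275 12183351 1755329 3870183 3870183 1041314 3865308 3865308 1712320
    2965823 2965823 63712420 13983433 13983433 24769490 16074366)
    (((((((((((((((((((root.setHiD (qm 2048)).setHiD (qm 1024)).setHiU (qm 512)).setLoA (qm
    2048)).setHiD (qm 512)).setHiU (qm 256)).setHiA (qm 3072)).setHiD (qm 256)).setHiU (qm
    128)).setLoU (qm 64)).setLoD (qm 128)).setLoU (qm 96)).setLoW (qm 64)).setLoD (qm 192)).setLoW
    (qm 96)).setLoA (qm 2560)).setLoA (qm 2816)).setHiA (qm 2944)).setLoA (qm 2880))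
    (by decide +kernel)))
    (good_of_check
    (T 3187671 54432450 8897464 12317977 1701017 3801037 3801037 1174123 3854185 3854185 1712320
    2965823 2965823 56175767 14045095 14045095 24813840 16074366)
    ((((((((((((((((((root.setHiD (qm 2048)).setHiD (qm 1024)).setHiU (qm 512)).setLoA (qm
    2048)).setHiD (qm 512)).setHiU (qm 256)).setHiA (qm 3072)).setHiD (qm 256)).setHiU (qm
    128)).setLoU (qm 64)).setLoD (qm 128)).setLoU (qm 96)).setLoW (qm 64)).setLoD (qm 192)).setLoW
    (qm 96)).setLoA (qm 2560)).setLoA (qm 2816)).setLoA (qm 2944))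
    (by decide +kernel))))))

end Vale.Agent.P226.Cert
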