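import Vale.Agent.P226.CertBox
import Vale.Agent.P226.CertSound

/-! Part 7 of the cover (P226). -/

namespace Vale.Agent.P226.Cert

set_option maxHeartbeats 4000000 in
/-- One subtree of the cover. -/
theorem sub13_good : BoxGood
    (((((((((((root.setHiD (qm 2048)).setHiD (qm 1024)).setHiU (qm 512)).setLoA (qm 2048)).setHiD
    (qm 512)).setHiU (qm 256)).setHiA (qm 3072)).setHiD (qm 256)).setLoU (qm 128)).setHiW (qm
    128)).setHiD (qm 128)) :=
    (good_splitU (qm 192)
    (good_splitU (qm 160)
    (good_splitA (qm 2560)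
    (good_splitD (qm 64)
    (good_splitA (qm 2304)
    (good_of_check
    (R .t4n 2863821 7855157 4530365 5352107 13624089 272966 2919110 11851695 5795504 (-132937)
    2919110 3274180 0 0 0 0 2097154 8486519)
    ((((((((((((((((root.setHiD (qm 2048)).setHiD (qm 1024)).setHiU (qm 512)).setLoA (qm
    2048)).setHiD (qm 512)).setHiU (qm 256)).setHiA (qm 3072)).setHiD (qm 256)).setLoU (qm
    128)).setHiW (qm 128)).setHiD (qm 128)).setHiU (qm 192)).setHiU (qm 160)).setHiA (qm
    2560)).setHiD (qm 64)).setHiA (qm 2304))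
    (by decide +kernel))
    (good_of_check
    (T 2181038 71269132 11097087 10897120 1299179 4499125 2579159 794105 3245247 4848122 1307807
    3315891 2097154 83547570 18855492 7545809 24635960 16412811)
    ((((((((((((((((root.setHiD (qm 2048)).setHiD (qm 1024)).setHiU (qm 512)).setLoA (qm
    2048)).setHiD (qm 512)).setHiU (qm 256)).setHiA (qm 3072)).setHiD (qm 256)).setLoU (qm
    128)).setHiW (qm 128)).setHiD (qm 128)).setHiU (qm 192)).setHiU (qm 160)).setHiA (qm
    2560)).setHiD (qm 64)).setLoA (qm 2304))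
    (by decide +kernel)))
    (good_splitD (qm 96)
    (good_splitD (qm 80)
    (good_of_check
    (R .t4n 2903306 7374306 4194303 5297493 13573137 231881 2907315 11848795 4266483 (-74188)
    2907315 3263669 0 0 0 0 2344690 9425984)
    (((((((((((((((((root.setHiD (qm 2048)).setHiD (qm 1024)).setHiU (qm 512)).setLoA (qm
    2048)).setHiD (qm 512)).setHiU (qm 256)).setHiA (qm 3072)).setHiD (qm 256)).setLoU (qm
    128)).setHiW (qm 128)).setHiD (qm 128)).setHiU (qm 192)).setHiU (qm 160)).setHiA (qm
    2560)).setLoD (qm 64)).setHiD (qm 96)).setHiD (qm 80))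
    (by decide +kernel))
    (good_splitU (qm 144)
    (good_splitA (qm 2304)
    (good_of_check
    (R .t4n 2889809 7409827 4530365 5286571 13597267 243381 2895473 11845895 1899068 11908 2895473
    3079497 0 0 0 0 2568479 10529826)
    (((((((((((((((((((root.setHiD (qm 2048)).setHiD (qm 1024)).setHiU (qm 512)).setLoA (qm
    2048)).setHiD (qm 512)).setHiU (qm 256)).setHiA (qm 3072)).setHiD (qm 256)).setLoU (qm
    128)).setHiW (qm 128)).setHiD (qm 128)).setHiU (qm 192)).setHiU (qm 160)).setHiA (qm
    2560)).setLoD (qm 64)).setHiD (qm 96)).setLoD (qm 80)).setHiU (qm 144)).setHiA (qm 2304))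
    (by decide +kernel))
    (good_of_check
    (T 2684355 71671782 11097087 10897120 1399842 4399501 3399615 970126 3247634 4177028 1353708
    3145730 2568479 67678916 18488834 11346334 24635960 16312014)
    (((((((((((((((((((root.setHiD (qm 2048)).setHiD (qm 1024)).setHiU (qm 512)).setLoA (qm
    2048)).setHiD (qm 512)).setHiU (qm 256)).setHiA (qm 3072)).setHiD (qm 256)).setLoU (qm
    128)).setHiW (qm 128)).setHiD (qm 128)).setHiU (qm 192)).setHiU (qm 160)).setHiA (qm
    2560)).setLoD (qm 64)).setHiD (qm 96)).setLoD (qm 80)).setHiU (qm 144)).setLoA (qm 2304))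
    (by decide +kernel)))
    (good_of_check
    (R .t4n 2982722 7100246 4194303 5264725 13496515 146831 3079492 11845895 4060530 (-72724)
    3079492 3253124 0 0 0 0 2568479 9861468)
    ((((((((((((((((((root.setHiD (qm 2048)).setHiD (qm 1024)).setHiU (qm 512)).setLoA (qm
    2048)).setHiD (qm 512)).setHiU (qm 256)).setHiA (qm 3072)).setHiD (qm 256)).setLoU (qm
    128)).setHiW (qm 128)).setHiD (qm 128)).setHiU (qm 192)).setHiU (qm 160)).setHiA (qm
    2560)).setLoD (qm 64)).setHiD (qm 96)).setLoD (qm 80)).setLoU (qm 144))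
    (by decide +kernel))))
    (good_splitW (qm 64)
    (good_splitD (qm 112)
    (good_of_check
    (R .t4n 2925125 6990908 4194303 5253803 13526662 216316 2883582 11842994 2795357 (-3903)
    2883582 3242545 0 0 0 0 2097154 8087521)
    ((((((((((((((((((root.setHiD (qm 2048)).setHiD (qm 1024)).setHiU (qm 512)).setLoA (qm
    2048)).setHiD (qm 512)).setHiU (qm 256)).setHiA (qm 3072)).setHiD (qm 256)).setLoU (qm
    128)).setHiW (qm 128)).setHiD (qm 128)).setHiU (qm 192)).setHiU (qm 160)).setHiA (qm
    2560)).setLoD (qm 64)).setLoD (qm 96)).setHiW (qm 64)).setHiD (qm 112))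
    (by decide +kernel))
    (good_of_check
    (R .t4n 2914216 6999779 4194303 5231957 13553333 223356 2871641 11840093 2631896 13517 2871641
    3231931 0 0 0 0 2097154 8155966)
    ((((((((((((((((((root.setHiD (qm 2048)).setHiD (qm 1024)).setHiU (qm 512)).setLoA (qm
    2048)).setHiD (qm 512)).setHiU (qm 256)).setHiA (qm 3072)).setHiD (qm 256)).setLoU (qm
    128)).setHiW (qm 128)).setHiD (qm 128)).setHiU (qm 192)).setHiU (qm 160)).setHiA (qm
    2560)).setLoD (qm 64)).setLoD (qm 96)).setHiW (qm 64)).setLoD (qm 112))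
    (by decide +kernel)))
    (good_splitW (qm 96)
    (good_splitU (qm 144)
    (good_splitA (qm 2304)
    (good_splitW (qm 80)
    (good_of_check
    (R .t4n 2867998 7429651 4530365 5253803 13643195 259858 2871641 11840093 1506706 48684 2871641
    3057101 0 0 0 0 2344690 9677804)
    (((((((((((((((((((((root.setHiD (qm 2048)).setHiD (qm 1024)).setHiU (qm 512)).setLoA (qm
    2048)).setHiD (qm 512)).setHiU (qm 256)).setHiA (qm 3072)).setHiD (qm 256)).setLoU (qm
    128)).setHiW (qm 128)).setHiD (qm 128)).setHiU (qm 192)).setHiU (qm 160)).setHiA (qm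
    2560)).setLoD (qm 64)).setLoD (qm 96)).setLoW (qm 64)).setHiW (qm 96)).setHiU (qm 144)).setHiA
    (qm 2304)).setHiW (qm 80))
    (by decide +kernel))
    (good_of_check
    (R .t5n 2489812 7883866 4530365 5253803 13621149 254188 2943491 11857723 8329268 (-206958)
    2943491 3124689 (-606179) 40664 2316378 2542664 1816189 4754117)
    (((((((((((((((((((((root.setHiD (qm 2048)).setHiD (qm 1024)).setHiU (qm 512)).setLoA (qm
    2048)).setHiD (qm 512)).setHiU (qm 256)).setHiA (qm 3072)).setHiD (qm 256)).setLoU (qm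
    128)).setHiW (qm 128)).setHiD (qm 128)).setHiU (qm 192)).setHiU (qm 160)).setHiA (qm
    2560)).setLoD (qm 64)).setLoD (qm 96)).setLoW (qm 64)).setHiW (qm 96)).setHiU (qm 144)).setHiA
    (qm 2304)).setLoW (qm 80))
    (by decide +kernel)))
    (good_splitA (qm 2432)
    (good_of_check
    (T 2516582 72490888 11097087 10897120 1604619 4602866 3603451 894800 3006271 4047816 1441132
    3145730 2568479 74119566 20513384 11949080 24591289 16261382)
    (((((((((((((((((((((root.setHiD (qm 2048)).setHiD (qm 1024)).setHiU (qm 512)).setLoA (qm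
    2048)).setHiD (qm 512)).setHiU (qm 256)).setHiA (qm 3072)).setHiD (qm 256)).setLoU (qm
    128)).setHiW (qm 128)).setHiD (qm 128)).setHiU (qm 192)).setHiU (qm 160)).setHiA (qm
    2560)).setLoD (qm 64)).setLoD (qm 96)).setLoW (qm 64)).setHiW (qm 96)).setHiU (qm 144)).setLoA
    (qm 2304)).setHiA (qm 2432))
    (by decide +kernel))
    (good_of_check
    (T 2852127 67681040 10693420 11195727 1498151 4364914 3409327 1033807 3275081 4152785 1441132
    3145730 2568479 63502497 18276057 11456098 24635960 16261382)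
    (((((((((((((((((((((root.setHiD (qm 2048)).setHiD (qm 1024)).setHiU (qm 512)).setLoA (qm
    2048)).setHiD (qm 512)).setHiU (qm 256)).setHiA (qm 3072)).setHiD (qm 256)).setLoU (qm
    128)).setHiW (qm 128)).setHiD (qm 128)).setHiU (qm 192)).setHiU (qm 160)).setHiA (qm
    2560)).setLoD (qm 64)).setLoD (qm 96)).setLoW (qm 64)).setHiW (qm 96)).setHiU (qm 144)).setLoA
    (qm 2304)).setLoA (qm 2432))
    (by decide +kernel))))
    (good_of_check
    (R .t4n 2991056 6864667 4194303 5231957 13473172 143269 3057096 11840093 2985306 (-13568)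
    3057096 3231931 0 0 0 0 2568479 9804619)
    (((((((((((((((((((root.setHiD (qm 2048)).setHiD (qm 1024)).setHiU (qm 512)).setLoA (qm
    2048)).setHiD (qm 512)).setHiU (qm 256)).setHiA (qm 3072)).setHiD (qm 256)).setLoU (qm
    128)).setHiW (qm 128)).setHiD (qm 128)).setHiU (qm 192)).setHiU (qm 160)).setHiA (qm
    2560)).setLoD (qm 64)).setLoD (qm 96)).setLoW (qm 64)).setHiW (qm 96)).setLoU (qm 144))
    (by decide +kernel)))
    (good_of_check
    (R .t5n 2536030 7463843 4194303 5242880 13528943 207282 2950952 11859578 8789270 (-235056)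
    2950952 3302601 2825441 (-48687) 2551293 2950957 1482913 2911438)
    ((((((((((((((((((root.setHiD (qm 2048)).setHiD (qm 1024)).setHiU (qm 512)).setLoA (qm
    2048)).setHiD (qm 512)).setHiU (qm 256)).setHiA (qm 3072)).setHiD (qm 256)).setLoU (qm
    128)).setHiW (qm 128)).setHiD (qm 128)).setHiU (qm 192)).setHiU (qm 160)).setHiA (qm
    2560)).setLoD (qm 64)).setLoD (qm 96)).setLoW (qm 64)).setLoW (qm 96))
    (by decide +kernel))))))
    (good_splitA (qm 2816)
    (good_splitA (qm 2688)
    (good_splitA (qm 2624)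
    (good_splitA (qm 2592)
    (good_splitA (qm 2576)
    (good_splitA (qm 2568)
    (good_of_check
    (T 2684355 63678966 10273906 11486573 1492478 4453742 3861490 983019 3238657 3873565 1482913
    3315891 2965823 67271981 18906709 13937901 24638750 16345682)
    ((((((((((((((((((((root.setHiD (qm 2048)).setHiD (qm 1024)).setHiU (qm 512)).setLoA (qm
    2048)).setHiD (qm 512)).setHiU (qm 256)).setHiA (qm 3072)).setHiD (qm 256)).setLoU (qm
    128)).setHiW (qm 128)).setHiD (qm 128)).setHiU (qm 192)).setHiU (qm 160)).setLoA (qm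
    2560)).setHiA (qm 2816)).setHiA (qm 2688)).setHiA (qm 2624)).setHiA (qm 2592)).setHiA (qm
    2576)).setHiA (qm 2568))
    (by decide +kernel))
    (good_of_check
    (T 2684355 63417721 10247116 11504507 1486355 4435470 3845648 984095 3264114 3891023 1482913
    3315891 2965823 67193551 18709893 13842305 24641538 16345682)
    ((((((((((((((((((((root.setHiD (qm 2048)).setHiD (qm 1024)).setHiU (qm 512)).setLoA (qm
    2048)).setHiD (qm 512)).setHiU (qm 256)).setHiA (qm 3072)).setHiD (qm 256)).setLoU (qm
    128)).setHiW (qm 128)).setHiD (qm 128)).setHiU (qm 192)).setHiU (qm 160)).setLoA (qm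
    2560)).setHiA (qm 2816)).setHiA (qm 2688)).setHiA (qm 2624)).setHiA (qm 2592)).setHiA (qm
    2576)).setLoA (qm 2568))
    (by decide +kernel)))
    (good_of_check
    (T 2684355 63157935 10220256 11522413 1480267 4417302 3829895 985166 3289218 3908304 1482913
    3315891 2965823 67115607 18518518 13748572 24647115 16345682)
    (((((((((((((((((((root.setHiD (qm 2048)).setHiD (qm 1024)).setHiU (qm 512)).setLoA (qm
    2048)).setHiD (qm 512)).setHiU (qm 256)).setHiA (qm 3072)).setHiD (qm 256)).setLoU (qm
    128)).setHiW (qm 128)).setHiD (qm 128)).setHiU (qm 192)).setHiU (qm 160)).setLoA (qm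
    2560)).setHiA (qm 2816)).setHiA (qm 2688)).setHiA (qm 2624)).setHiA (qm 2592)).setLoA (qm
    2576))
    (by decide +kernel)))
    (good_of_check
    (T 2684355 62642679 10166323 11558141 1468190 4381264 3798649 987297 3338421 3942350 1482913
    3315891 2965823 66960886 18151063 13566463 24658265 16345682)
    ((((((((((((((((((root.setHiD (qm 2048)).setHiD (qm 1024)).setHiU (qm 512)).setLoA (qm
    2048)).setHiD (qm 512)).setHiU (qm 256)).setHiA (qm 3072)).setHiD (qm 256)).setLoU (qm
    128)).setHiW (qm 128)).setHiD (qm 128)).setHiU (qm 192)).setHiU (qm 160)).setLoA (qm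
    2560)).setHiA (qm 2816)).setHiA (qm 2688)).setHiA (qm 2624)).setLoA (qm 2592))
    (by decide +kernel)))
    (good_of_check
    (T 2684355 61629025 10057589 11629269 1444433 4310369 3737182 991506 3433026 4008463 1482913
    3315891 2965823 66656707 17471884 13222278 24680550 16345682)
    (((((((((((((((((root.setHiD (qm 2048)).setHiD (qm 1024)).setHiU (qm 512)).setLoA (qm
    2048)).setHiD (qm 512)).setHiU (qm 256)).setHiA (qm 3072)).setHiD (qm 256)).setLoU (qm
    128)).setHiW (qm 128)).setHiD (qm 128)).setHiU (qm 192)).setHiU (qm 160)).setLoA (qm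
    2560)).setHiA (qm 2816)).setHiA (qm 2688)).setLoA (qm 2624))
    (by decide +kernel)))
    (good_of_check
    (T 2852127 59666038 9836516 11770235 1398425 4206505 3644890 1062213 3529544 4062343 1482913
    3315891 2965823 61815076 16814105 12950691 24725060 16345682)
    ((((((((((((((((root.setHiD (qm 2048)).setHiD (qm 1024)).setHiU (qm 512)).setLoA (qm
    2048)).setHiD (qm 512)).setHiU (qm 256)).setHiA (qm 3072)).setHiD (qm 256)).setLoU (qm
    128)).setHiW (qm 128)).setHiD (qm 128)).setHiU (qm 192)).setHiU (qm 160)).setLoA (qm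
    2560)).setHiA (qm 2816)).setLoA (qm 2688))
    (by decide +kernel)))
    (good_of_check
    (T 3187671 55974316 9378750 12047220 1311901 4011282 3471406 1205860 3684880 4146171 1482913
    3315891 2965823 53348620 15824494 12543363 24813840 16345682)
    (((((((((((((((root.setHiD (qm 2048)).setHiD (qm 1024)).setHiU (qm 512)).setLoA (qm
    2048)).setHiD (qm 512)).setHiU (qm 256)).setHiA (qm 3072)).setHiD (qm 256)).setLoU (qm
    128)).setHiW (qm 128)).setHiD (qm 128)).setHiU (qm 192)).setHiU (qm 160)).setLoA (qm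
    2560)).setLoA (qm 2816))
    (by decide +kernel))))
    (good_splitD (qm 64)
    (good_splitD (qm 32)
    (good_splitD (qm 16)
    (good_of_check
    (R .t4n 3101186 6901089 3424633 5341184 13316284 41384 3305508 11860389 7883414 (-284879)
    3305508 3622905 0 0 0 0 1048578 2331490)
    ((((((((((((((((root.setHiD (qm 2048)).setHiD (qm 1024)).setHiU (qm 512)).setLoA (qm
    2048)).setHiD (qm 512)).setHiU (qm 256)).setHiA (qm 3072)).setHiD (qm 256)).setLoU (qm
    128)).setHiW (qm 128)).setHiD (qm 128)).setHiU (qm 192)).setLoU (qm 160)).setHiD (qm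
    64)).setHiD (qm 32)).setHiD (qm 16))
    (by decide +kernel))
    (good_of_check
    (R .t4n 3097018 6865609 3424633 5319339 13330360 42792 3295096 11857492 7686627 (-267454)
    3295096 3613408 0 0 0 0 1482913 4233980)
    ((((((((((((((((root.setHiD (qm 2048)).setHiD (qm 1024)).setHiU (qm 512)).setLoA (qm
    2048)).setHiD (qm 512)).setHiU (qm 256)).setHiA (qm 3072)).setHiD (qm 256)).setLoU (qm
    128)).setHiW (qm 128)).setHiD (qm 128)).setHiU (qm 192)).setLoU (qm 160)).setHiD (qm
    64)).setHiD (qm 32)).setLoD (qm 16))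
    (by decide +kernel)))
    (good_splitD (qm 48)
    (good_of_check
    (R .t4n 3107928 6706426 3424633 5297493 13311004 34439 3284652 11854594 7163356 (-238885)
    3284652 3603887 0 0 0 0 1816189 5739664)
    ((((((((((((((((root.setHiD (qm 2048)).setHiD (qm 1024)).setHiU (qm 512)).setLoA (qm
    2048)).setHiD (qm 512)).setHiU (qm 256)).setHiA (qm 3072)).setHiD (qm 256)).setLoU (qm
    128)).setHiW (qm 128)).setHiD (qm 128)).setHiU (qm 192)).setLoU (qm 160)).setHiD (qm
    64)).setLoD (qm 32)).setHiD (qm 48))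
    (by decide +kernel))
    (good_of_check
    (R .t4n 3114670 6581477 3424633 5275648 13299617 29414 3274175 11851695 6720292 (-212721)
    3274175 3594340 0 0 0 0 2097154 6992763)
    ((((((((((((((((root.setHiD (qm 2048)).setHiD (qm 1024)).setHiU (qm 512)).setLoA (qm
    2048)).setHiD (qm 512)).setHiU (qm 256)).setHiA (qm 3072)).setHiD (qm 256)).setLoU (qm
    128)).setHiW (qm 128)).setHiD (qm 128)).setHiU (qm 192)).setLoU (qm 160)).setHiD (qm
    64)).setLoD (qm 32)).setLoD (qm 48))
    (by decide +kernel))))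
    (good_splitA (qm 2560)
    (good_splitD (qm 96)
    (good_of_check
    (R .t4n 3057513 6909012 4194303 5242880 13425888 67438 3253119 11845895 7357657 (-212232)
    3253119 3575170 0 0 0 0 2568479 9361651)
    ((((((((((((((((root.setHiD (qm 2048)).setHiD (qm 1024)).setHiU (qm 512)).setLoA (qm
    2048)).setHiD (qm 512)).setHiU (qm 256)).setHiA (qm 3072)).setHiD (qm 256)).setLoU (qm
    128)).setHiW (qm 128)).setHiD (qm 128)).setHiU (qm 192)).setLoU (qm 160)).setLoD (qm
    64)).setHiA (qm 2560)).setHiD (qm 96))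
    (by decide +kernel))
    (good_of_check
    (R .t4n 3072593 6642262 4194303 5199189 13397497 56824 3231926 11840093 6410765 (-157472)
    3231926 3555897 0 0 0 0 2965823 10759542)
    ((((((((((((((((root.setHiD (qm 2048)).setHiD (qm 1024)).setHiU (qm 512)).setLoA (qm
    2048)).setHiD (qm 512)).setHiU (qm 256)).setHiA (qm 3072)).setHiD (qm 256)).setLoU (qm
    128)).setHiW (qm 128)).setHiD (qm 128)).setHiU (qm 192)).setLoU (qm 160)).setLoD (qm
    64)).setHiA (qm 2560)).setLoD (qm 96))
    (by decide +kernel)))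
    (good_splitD (qm 96)
    (good_splitD (qm 80)
    (good_of_check
    (R .t4n 3103761 6601300 3424633 5253803 13326895 35855 3263664 11848795 6654895 (-199440)
    3263664 3584768 0 0 0 0 2344690 8139909)
    (((((((((((((((((root.setHiD (qm 2048)).setHiD (qm 1024)).setHiU (qm 512)).setLoA (qm
    2048)).setHiD (qm 512)).setHiU (qm 256)).setHiA (qm 3072)).setHiD (qm 256)).setLoU (qm
    128)).setHiW (qm 128)).setHiD (qm 128)).setHiU (qm 192)).setLoU (qm 160)).setLoD (qm
    64)).setLoA (qm 2560)).setHiD (qm 96)).setHiD (qm 80))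
    (by decide +kernel))
    (good_splitD (qm 88)
    (good_of_check
    (R .t4n 3103761 6565034 3424633 5237419 13332772 34257 3258396 11847345 6502007 (-188606)
    3258396 3579972 0 0 0 0 2459131 8622435)
    ((((((((((((((((((root.setHiD (qm 2048)).setHiD (qm 1024)).setHiU (qm 512)).setLoA (qm
    2048)).setHiD (qm 512)).setHiU (qm 256)).setHiA (qm 3072)).setHiD (qm 256)).setLoU (qm
    128)).setHiW (qm 128)).setHiD (qm 128)).setHiU (qm 192)).setLoU (qm 160)).setLoD (qm
    64)).setLoA (qm 2560)).setHiD (qm 96)).setLoD (qm 80)).setHiD (qm 88))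
    (by decide +kernel))
    (good_splitU (qm 176)
    (good_of_check
    (R .t4n 3103761 6531655 3424633 5237419 13325004 36963 3253119 11845895 4855271 (-119386)
    3253119 3417942 0 0 0 0 2568479 9068028)
    (((((((((((((((((((root.setHiD (qm 2048)).setHiD (qm 1024)).setHiU (qm 512)).setLoA (qm
    2048)).setHiD (qm 512)).setHiU (qm 256)).setHiA (qm 3072)).setHiD (qm 256)).setLoU (qm
    128)).setHiW (qm 128)).setHiD (qm 128)).setHiU (qm 192)).setLoU (qm 160)).setLoD (qm
    64)).setLoA (qm 2560)).setHiD (qm 96)).setLoD (qm 80)).setLoD (qm 88)).setHiU (qm 176))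
    (by decide +kernel))
    (good_of_check
    (R .t4n 3175977 6349269 3424633 5215573 13252732 (-36263) 3417937 11845895 6346399 (-195209)
    3417937 3575170 0 0 0 0 2568479 8630657)
    (((((((((((((((((((root.setHiD (qm 2048)).setHiD (qm 1024)).setHiU (qm 512)).setLoA (qm
    2048)).setHiD (qm 512)).setHiU (qm 256)).setHiA (qm 3072)).setHiD (qm 256)).setLoU (qm
    128)).setHiW (qm 128)).setHiD (qm 128)).setHiU (qm 192)).setLoU (qm 160)).setLoD (qm
    64)).setLoA (qm 2560)).setHiD (qm 96)).setLoD (qm 80)).setLoD (qm 88)).setLoU (qm 176))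
    (by decide +kernel)))))
    (good_splitW (qm 64)
    (good_of_check
    (R .t4n 3101180 6410086 3424633 5199189 13330583 39847 3231926 11840093 5773941 (-135162)
    3231926 3555897 0 0 0 0 2097154 7063625)
    (((((((((((((((((root.setHiD (qm 2048)).setHiD (qm 1024)).setHiU (qm 512)).setLoA (qm
    2048)).setHiD (qm 512)).setHiU (qm 256)).setHiA (qm 3072)).setHiD (qm 256)).setLoU (qm
    128)).setHiW (qm 128)).setHiD (qm 128)).setHiU (qm 192)).setLoU (qm 160)).setLoD (qm
    64)).setLoA (qm 2560)).setLoD (qm 96)).setHiW (qm 64))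
    (by decide +kernel))
    (good_splitU (qm 176)
    (good_splitA (qm 2816)
    (good_splitW (qm 96)
    (good_of_check
    (R .t4n 3075169 6620329 3828857 5210112 13383062 57865 3231926 11840093 4832126 (-96058)
    3231926 3397777 0 0 0 0 2568479 9248255)
    ((((((((((((((((((((root.setHiD (qm 2048)).setHiD (qm 1024)).setHiU (qm 512)).setLoA (qm
    2048)).setHiD (qm 512)).setHiU (qm 256)).setHiA (qm 3072)).setHiD (qm 256)).setLoU (qm
    128)).setHiW (qm 128)).setHiD (qm 128)).setHiU (qm 192)).setLoU (qm 160)).setLoD (qm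
    64)).setLoA (qm 2560)).setLoD (qm 96)).setLoW (qm 64)).setHiU (qm 176)).setHiA (qm
    2816)).setHiW (qm 96))
    (by decide +kernel))
    (good_of_check
    (R .t5n 2654477 7032655 3828857 5210112 13374159 72017 3302596 11859578 9767025 (-305434)
    3302596 3465066 1055490 (-7211) 2551293 2950957 1482913 2505416)
    ((((((((((((((((((((root.setHiD (qm 2048)).setHiD (qm 1024)).setHiU (qm 512)).setLoA (qm
    2048)).setHiD (qm 512)).setHiU (qm 256)).setHiA (qm 3072)).setHiD (qm 256)).setLoU (qm
    128)).setHiW (qm 128)).setHiD (qm 128)).setHiU (qm 192)).setLoU (qm 160)).setLoD (qm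
    64)).setLoA (qm 2560)).setLoD (qm 96)).setLoW (qm 64)).setHiU (qm 176)).setHiA (qm
    2816)).setLoW (qm 96))
    (by decide +kernel)))
    (good_splitA (qm 2944)
    (good_splitA (qm 2880)
    (good_of_check
    (T 2852127 56297867 9378750 12047220 1392788 4307307 3512439 1071833 3446215 4204626 1523548
    3477736 2965823 61383789 17681142 12269825 24747285 16193626)
    (((((((((((((((((((((root.setHiD (qm 2048)).setHiD (qm 1024)).setHiU (qm 512)).setLoA (qm
    2048)).setHiD (qm 512)).setHiU (qm 256)).setHiA (qm 3072)).setHiD (qm 256)).setLoU (qm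
    128)).setHiW (qm 128)).setHiD (qm 128)).setHiU (qm 192)).setLoU (qm 160)).setLoD (qm
    64)).setLoA (qm 2560)).setLoD (qm 96)).setLoW (qm 64)).setHiU (qm 176)).setLoA (qm
    2816)).setHiA (qm 2944)).setHiA (qm 2880))
    (by decide +kernel))
    (good_of_check
    (T 2852127 54547023 9141275 12183351 1349473 4173352 3403204 1080052 3617056 4311825 1523548
    3477736 2965823 60866300 16554514 11789425 24769490 16193626)
    (((((((((((((((((((((root.setHiD (qm 2048)).setHiD (qm 1024)).setHiU (qm 512)).setLoA (qm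
    2048)).setHiD (qm 512)).setHiU (qm 256)).setHiA (qm 3072)).setHiD (qm 256)).setLoU (qm
    128)).setHiW (qm 128)).setHiD (qm 128)).setHiU (qm 192)).setLoU (qm 160)).setLoD (qm
    64)).setLoA (qm 2560)).setLoD (qm 96)).setLoW (qm 64)).setHiU (qm 176)).setLoA (qm
    2816)).setHiA (qm 2944)).setLoA (qm 2880))
    (by decide +kernel)))
    (good_of_check
    (T 2852127 52859258 8897464 12317977 1307719 4044223 3297904 1088046 3773661 4412573 1523548
    3477736 2965823 60368622 15605883 11361591 24813840 16193626)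
    ((((((((((((((((((((root.setHiD (qm 2048)).setHiD (qm 1024)).setHiU (qm 512)).setLoA (qm
    2048)).setHiD (qm 512)).setHiU (qm 256)).setHiA (qm 3072)).setHiD (qm 256)).setLoU (qm
    128)).setHiW (qm 128)).setHiD (qm 128)).setHiU (qm 192)).setLoU (qm 160)).setLoD (qm
    64)).setLoA (qm 2560)).setLoD (qm 96)).setLoW (qm 64)).setHiU (qm 176)).setLoA (qm
    2816)).setLoA (qm 2944))
    (by decide +kernel))))
    (good_splitD (qm 112)
    (good_of_check
    (R .t4n 3182723 6226836 3424633 5199189 13237443 (-39633) 3407870 11842994 5915204 (-168674)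
    3407870 3565546 0 0 0 0 2774274 9364436)
    (((((((((((((((((((root.setHiD (qm 2048)).setHiD (qm 1024)).setHiU (qm 512)).setLoA (qm
    2048)).setHiD (qm 512)).setHiU (qm 256)).setHiA (qm 3072)).setHiD (qm 256)).setLoU (qm
    128)).setHiW (qm 128)).setHiD (qm 128)).setHiU (qm 192)).setLoU (qm 160)).setLoD (qm
    64)).setLoA (qm 2560)).setLoD (qm 96)).setLoW (qm 64)).setLoU (qm 176)).setHiD (qm 112))
    (by decide +kernel))
    (good_splitW (qm 96)
    (good_of_check
    (R .t4n 3186889 6084149 3424633 5177344 13240759 (-45624) 3397772 11840093 5531283 (-143642)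
    3397772 3555897 0 0 0 0 2568479 8566658)
    ((((((((((((((((((((root.setHiD (qm 2048)).setHiD (qm 1024)).setHiU (qm 512)).setLoA (qm
    2048)).setHiD (qm 512)).setHiU (qm 256)).setHiA (qm 3072)).setHiD (qm 256)).setLoU (qm
    128)).setHiW (qm 128)).setHiD (qm 128)).setHiU (qm 192)).setLoU (qm 160)).setLoD (qm
    64)).setLoA (qm 2560)).setLoD (qm 96)).setLoW (qm 64)).setLoU (qm 176)).setLoD (qm
    112)).setHiW (qm 96))
    (by decide +kernel))
    (good_of_check
    (R .t5n 2707490 6842396 3424633 5177344 13317041 9263 3465061 11859578 10522914 (-353515)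
    3465061 3620248 529953 5106 2551293 2950957 1482913 2345983)
    ((((((((((((((((((((root.setHiD (qm 2048)).setHiD (qm 1024)).setHiU (qm 512)).setLoA (qm
    2048)).setHiD (qm 512)).setHiU (qm 256)).setHiA (qm 3072)).setHiD (qm 256)).setLoU (qm
    128)).setHiW (qm 128)).setHiD (qm 128)).setHiU (qm 192)).setLoU (qm 160)).setLoD (qm
    64)).setLoA (qm 2560)).setLoD (qm 96)).setLoW (qm 64)).setLoU (qm 176)).setLoD (qm
    112)).setLoW (qm 96))
    (by decide +kernel))))))))))
    (good_splitD (qm 64)
    (good_splitD (qm 32)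
    (good_of_check
    (R .t4n 3239854 6433297 3424633 5264725 13188224 (-102145) 3613403 11857492 10843110 (-450593)
    3613403 4177890 0 0 0 0 1482913 3759710)
    ((((((((((((((root.setHiD (qm 2048)).setHiD (qm 1024)).setHiU (qm 512)).setLoA (qm
    2048)).setHiD (qm 512)).setHiU (qm 256)).setHiA (qm 3072)).setHiD (qm 256)).setLoU (qm
    128)).setHiW (qm 128)).setHiD (qm 128)).setLoU (qm 192)).setHiD (qm 64)).setHiD (qm 32))
    (by decide +kernel))
    (good_of_check
    (R .t4n 3244021 6288413 3424633 5221035 13187823 (-106405) 3594335 11851695 10424638 (-416232)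
    3594335 4161409 0 0 0 0 2097154 6351541)
    ((((((((((((((root.setHiD (qm 2048)).setHiD (qm 1024)).setHiU (qm 512)).setLoA (qm
    2048)).setHiD (qm 512)).setHiU (qm 256)).setHiA (qm 3072)).setHiD (qm 256)).setLoU (qm
    128)).setHiW (qm 128)).setHiD (qm 128)).setLoU (qm 192)).setHiD (qm 64)).setLoD (qm 32))
    (by decide +kernel)))
    (good_splitD (qm 96)
    (good_of_check
    (R .t4n 3239855 6205701 3424633 5177344 13203690 (-104697) 3575165 11845895 10126611 (-385529)
    3575165 4144863 0 0 0 0 2568479 8265988)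
    ((((((((((((((root.setHiD (qm 2048)).setHiD (qm 1024)).setHiU (qm 512)).setLoA (qm
    2048)).setHiD (qm 512)).setHiU (qm 256)).setHiA (qm 3072)).setHiD (qm 256)).setLoU (qm
    128)).setHiW (qm 128)).setHiD (qm 128)).setLoU (qm 192)).setLoD (qm 64)).setHiD (qm 96))
    (by decide +kernel))
    (good_of_check
    (R .t4n 3275177 5610108 3424633 5133653 13177477 (-141516) 3555892 11840093 9177741 (-330701)
    3555892 4128250 0 0 0 0 2965823 9473047)
    ((((((((((((((root.setHiD (qm 2048)).setHiD (qm 1024)).setHiU (qm 512)).setLoA (qm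
    2048)).setHiD (qm 512)).setHiU (qm 256)).setHiA (qm 3072)).setHiD (qm 256)).setLoU (qm
    128)).setHiW (qm 128)).setHiD (qm 128)).setLoU (qm 192)).setLoD (qm 64)).setLoD (qm 96))
    (by decide +kernel)))))

set_option maxHeartbeats 4000000 in
/-- One subtree of the cover. -/
theorem sub14_good : BoxGood
    (((((((((((((root.setHiD (qm 2048)).setHiD (qm 1024)).setHiU (qm 512)).setLoA (qm
    2048)).setHiD (qm 512)).setHiU (qm 256)).setHiA (qm 3072)).setHiD (qm 256)).setLoU (qm
    128)).setHiW (qm 128)).setLoD (qm 128)).setHiU (qm 192)).setHiW (qm 64)) :=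
    (good_splitD (qm 192)
    (good_splitU (qm 160)
    (good_splitD (qm 160)
    (good_splitW (qm 32)
    (good_splitD (qm 144)
    (good_of_check
    (R .t4n 2951578 6590341 3424633 5210112 13462474 201576 2859651 11837190 1336435 66417 2859651
    3221282 0 0 0 0 1482913 4795356)
    ((((((((((((((((((root.setHiD (qm 2048)).setHiD (qm 1024)).setHiU (qm 512)).setLoA (qm
    2048)).setHiD (qm 512)).setHiU (qm 256)).setHiA (qm 3072)).setHiD (qm 256)).setLoU (qm
    128)).setHiW (qm 128)).setLoD (qm 128)).setHiU (qm 192)).setHiW (qm 64)).setHiD (qm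
    192)).setHiU (qm 160)).setHiD (qm 160)).setHiW (qm 32)).setHiD (qm 144))
    (by decide +kernel))
    (good_of_check
    (R .t4n 2947411 6470886 3424633 5188267 13488830 199263 2847610 11834287 1015359 88974 2847610
    3210598 0 0 0 0 1482913 4814484)
    ((((((((((((((((((root.setHiD (qm 2048)).setHiD (qm 1024)).setHiU (qm 512)).setLoA (qm
    2048)).setHiD (qm 512)).setHiU (qm 256)).setHiA (qm 3072)).setHiD (qm 256)).setLoU (qm
    128)).setHiW (qm 128)).setLoD (qm 128)).setHiU (qm 192)).setHiW (qm 64)).setHiD (qm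
    192)).setHiU (qm 160)).setHiD (qm 160)).setHiW (qm 32)).setLoD (qm 144))
    (by decide +kernel)))
    (good_splitA (qm 2560)
    (good_splitD (qm 144)
    (good_of_check
    (R .t4n 2903307 7007383 4194303 5210112 13580052 230428 2859651 11837190 2463653 31192 2859651
    3221282 0 0 0 0 2097154 8227242)
    (((((((((((((((((((root.setHiD (qm 2048)).setHiD (qm 1024)).setHiU (qm 512)).setLoA (qm
    2048)).setHiD (qm 512)).setHiU (qm 256)).setHiA (qm 3072)).setHiD (qm 256)).setLoU (qm
    128)).setHiW (qm 128)).setLoD (qm 128)).setHiU (qm 192)).setHiW (qm 64)).setHiD (qm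
    192)).setHiU (qm 160)).setHiD (qm 160)).setLoW (qm 32)).setHiA (qm 2560)).setHiD (qm 144))
    (by decide +kernel))
    (good_splitU (qm 144)
    (good_of_check
    (R .t4n 2916792 6801448 4194303 5199189 13537479 225750 2847610 11834287 (-733167) 143616
    2847610 3034539 0 0 0 0 2097154 8141351)
    ((((((((((((((((((((root.setHiD (qm 2048)).setHiD (qm 1024)).setHiU (qm 512)).setLoA (qm
    2048)).setHiD (qm 512)).setHiU (qm 256)).setHiA (qm 3072)).setHiD (qm 256)).setLoU (qm
    128)).setHiW (qm 128)).setLoD (qm 128)).setHiU (qm 192)).setHiW (qm 64)).setHiD (qm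
    192)).setHiU (qm 160)).setHiD (qm 160)).setLoW (qm 32)).setHiA (qm 2560)).setLoD (qm
    144)).setHiU (qm 144))
    (by decide +kernel))
    (good_of_check
    (R .t4n 2975981 6831433 4194303 5177344 13520657 149840 3034534 11834287 2510191 26153 3034534
    3210598 0 0 0 0 2097154 7774160)
    ((((((((((((((((((((root.setHiD (qm 2048)).setHiD (qm 1024)).setHiU (qm 512)).setLoA (qm
    2048)).setHiD (qm 512)).setHiU (qm 256)).setHiA (qm 3072)).setHiD (qm 256)).setLoU (qm
    128)).setHiW (qm 128)).setLoD (qm 128)).setHiU (qm 192)).setHiW (qm 64)).setHiD (qm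
    192)).setHiU (qm 160)).setHiD (qm 160)).setLoW (qm 32)).setHiA (qm 2560)).setLoD (qm
    144)).setLoU (qm 144))
    (by decide +kernel))))
    (good_splitA (qm 2816)
    (good_splitA (qm 2688)
    (good_of_check
    (T 2516582 64419419 10273906 11486573 1677592 4638046 2861775 906966 3010233 4628754 1563127
    3315891 2097154 73155180 20804970 8200851 24680550 16176643)
    ((((((((((((((((((((root.setHiD (qm 2048)).setHiD (qm 1024)).setHiU (qm 512)).setLoA (qm
    2048)).setHiD (qm 512)).setHiU (qm 256)).setHiA (qm 3072)).setHiD (qm 256)).setLoU (qm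
    128)).setHiW (qm 128)).setLoD (qm 128)).setHiU (qm 192)).setHiW (qm 64)).setHiD (qm
    192)).setHiU (qm 160)).setHiD (qm 160)).setLoW (qm 32)).setLoA (qm 2560)).setHiA (qm
    2816)).setHiA (qm 2688))
    (by decide +kernel))
    (good_of_check
    (T 2852127 60359829 9836516 11770235 1571873 4412605 2708167 1046770 3271646 4659324 1563127
    3315891 2097154 63130474 18652194 8104741 24725060 16176643)
    ((((((((((((((((((((root.setHiD (qm 2048)).setHiD (qm 1024)).setHiU (qm 512)).setLoA (qm
    2048)).setHiD (qm 512)).setHiU (qm 256)).setHiA (qm 3072)).setHiD (qm 256)).setLoU (qm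
    128)).setHiW (qm 128)).setLoD (qm 128)).setHiU (qm 192)).setHiW (qm 64)).setHiD (qm
    192)).setHiU (qm 160)).setHiD (qm 160)).setLoW (qm 32)).setLoA (qm 2560)).setHiA (qm
    2816)).setLoA (qm 2688))
    (by decide +kernel)))
    (good_of_check
    (T 3187671 56625180 9378750 12047220 1474617 4205386 2566926 1189678 3465903 4671276 1563127
    3315891 2097154 54730260 17243952 8067608 24813840 16176643)
    (((((((((((((((((((root.setHiD (qm 2048)).setHiD (qm 1024)).setHiU (qm 512)).setLoA (qm
    2048)).setHiD (qm 512)).setHiU (qm 256)).setHiA (qm 3072)).setHiD (qm 256)).setLoU (qm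
    128)).setHiW (qm 128)).setLoD (qm 128)).setHiU (qm 192)).setHiW (qm 64)).setHiD (qm
    192)).setHiU (qm 160)).setHiD (qm 160)).setLoW (qm 32)).setLoA (qm 2560)).setLoA (qm 2816))
    (by decide +kernel)))))
    (good_splitW (qm 32)
    (good_of_check
    (R .t4n 2986890 5716038 3424633 5155499 13440174 161643 2823375 11828479 (-502305) 161776
    2823375 3189122 0 0 0 0 1482913 4651681)
    (((((((((((((((((root.setHiD (qm 2048)).setHiD (qm 1024)).setHiU (qm 512)).setLoA (qm
    2048)).setHiD (qm 512)).setHiU (qm 256)).setHiA (qm 3072)).setHiD (qm 256)).setLoU (qm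
    128)).setHiW (qm 128)).setLoD (qm 128)).setHiU (qm 192)).setHiW (qm 64)).setHiD (qm
    192)).setHiU (qm 160)).setLoD (qm 160)).setHiW (qm 32))
    (by decide +kernel))
    (good_splitA (qm 2560)
    (good_splitU (qm 144)
    (good_of_check
    (R .u4 2599921 6949956 4194303 5166421 13451982 129687 2965818 11863286 6690917 (-191148)
    2965818 3145730 0 0 0 0 2097154 5526165)
    (((((((((((((((((((root.setHiD (qm 2048)).setHiD (qm 1024)).setHiU (qm 512)).setLoA (qm
    2048)).setHiD (qm 512)).setHiU (qm 256)).setHiA (qm 3072)).setHiD (qm 256)).setLoU (qm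
    128)).setHiW (qm 128)).setLoD (qm 128)).setHiU (qm 192)).setHiW (qm 64)).setHiD (qm
    192)).setHiU (qm 160)).setLoD (qm 160)).setLoW (qm 32)).setHiA (qm 2560)).setHiU (qm 144))
    (by decide +kernel))
    (good_of_check
    (R .t4n 2980141 6633392 4194303 5144576 13501008 151544 3011803 11828479 1471869 85530 3011803
    3189122 0 0 0 0 2097154 7748576)
    (((((((((((((((((((root.setHiD (qm 2048)).setHiD (qm 1024)).setHiU (qm 512)).setLoA (qm
    2048)).setHiD (qm 512)).setHiU (qm 256)).setHiA (qm 3072)).setHiD (qm 256)).setLoU (qm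
    128)).setHiW (qm 128)).setLoD (qm 128)).setHiU (qm 192)).setHiW (qm 64)).setHiD (qm
    192)).setHiU (qm 160)).setLoD (qm 160)).setLoW (qm 32)).setHiA (qm 2560)).setLoU (qm 144))
    (by decide +kernel)))
    (good_splitU (qm 144)
    (good_of_check
    (T 2852127 64796140 10273906 11486573 1771772 4516340 2991581 1019036 3093554 4431899 1601729
    3145730 2097154 65034216 19748050 8861105 24813840 16125585)
    (((((((((((((((((((root.setHiD (qm 2048)).setHiD (qm 1024)).setHiU (qm 512)).setLoA (qm
    2048)).setHiD (qm 512)).setHiU (qm 256)).setHiA (qm 3072)).setHiD (qm 256)).setLoU (qm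
    128)).setHiW (qm 128)).setLoD (qm 128)).setHiU (qm 192)).setHiW (qm 64)).setHiD (qm
    192)).setHiU (qm 160)).setLoD (qm 160)).setLoW (qm 32)).setLoA (qm 2560)).setHiU (qm 144))
    (by decide +kernel))
    (good_splitA (qm 2816)
    (good_of_check
    (R .t4n 2997801 6486505 3828857 5144576 13456103 142023 3011803 11828479 972973 102802 3011803
    3189122 0 0 0 0 2097154 7644812)
    ((((((((((((((((((((root.setHiD (qm 2048)).setHiD (qm 1024)).setHiU (qm 512)).setLoA (qm
    2048)).setHiD (qm 512)).setHiU (qm 256)).setHiA (qm 3072)).setHiD (qm 256)).setLoU (qm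
    128)).setHiW (qm 128)).setLoD (qm 128)).setHiU (qm 192)).setHiW (qm 64)).setHiD (qm
    192)).setHiU (qm 160)).setLoD (qm 160)).setLoW (qm 32)).setLoA (qm 2560)).setLoU (qm
    144)).setHiA (qm 2816))
    (by decide +kernel))
    (good_of_check
    (T 2852127 57291359 9378750 12047220 1641161 4337481 2719691 1048764 3381001 4680216 1639422
    3315891 2097154 63176640 17841016 8039994 24813840 16091457)
    ((((((((((((((((((((root.setHiD (qm 2048)).setHiD (qm 1024)).setHiU (qm 512)).setLoA (qm
    2048)).setHiD (qm 512)).setHiU (qm 256)).setHiA (qm 3072)).setHiD (qm 256)).setLoU (qm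
    128)).setHiW (qm 128)).setLoD (qm 128)).setHiU (qm 192)).setHiW (qm 64)).setHiD (qm
    192)).setHiU (qm 160)).setLoD (qm 160)).setLoW (qm 32)).setLoA (qm 2560)).setLoU (qm
    144)).setLoA (qm 2816))
    (by decide +kernel)))))))
    (good_splitD (qm 160)
    (good_of_check
    (R .t4n 3112095 6060914 3424633 5155499 13333859 25302 3210593 11834287 4870454 (-80168)
    3210593 3536518 0 0 0 0 2097154 7007050)
    ((((((((((((((((root.setHiD (qm 2048)).setHiD (qm 1024)).setHiU (qm 512)).setLoA (qm
    2048)).setHiD (qm 512)).setHiU (qm 256)).setHiA (qm 3072)).setHiD (qm 256)).setLoU (qm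
    128)).setHiW (qm 128)).setLoD (qm 128)).setHiU (qm 192)).setHiW (qm 64)).setHiD (qm
    192)).setLoU (qm 160)).setHiD (qm 160))
    (by decide +kernel))
    (good_of_check
    (R .t4n 3129749 5556902 3424633 5111808 13337467 1529 3189117 11828479 3774262 (-16996)
    3189117 3517033 0 0 0 0 2097154 6914102)
    ((((((((((((((((root.setHiD (qm 2048)).setHiD (qm 1024)).setHiU (qm 512)).setLoA (qm
    2048)).setHiD (qm 512)).setHiU (qm 256)).setHiA (qm 3072)).setHiD (qm 256)).setLoU (qm
    128)).setHiW (qm 128)).setLoD (qm 128)).setHiU (qm 192)).setHiW (qm 64)).setHiD (qm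
    192)).setLoU (qm 160)).setLoD (qm 160))
    (by decide +kernel))))
    (good_splitU (qm 160)
    (good_splitD (qm 224)
    (good_splitU (qm 144)
    (good_splitD (qm 208)
    (good_splitA (qm 2560)
    (good_of_check
    (R .u4 2619166 6772729 4194303 5133653 13428154 107303 2965818 11863286 6305050 (-181320)
    2965818 3145730 0 0 0 0 2097154 5410743)
    (((((((((((((((((((root.setHiD (qm 2048)).setHiD (qm 1024)).setHiU (qm 512)).setLoA (qm
    2048)).setHiD (qm 512)).setHiU (qm 256)).setHiA (qm 3072)).setHiD (qm 256)).setLoU (qm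
    128)).setHiW (qm 128)).setLoD (qm 128)).setHiU (qm 192)).setHiW (qm 64)).setLoD (qm
    192)).setHiU (qm 160)).setHiD (qm 224)).setHiU (qm 144)).setHiD (qm 208)).setHiA (qm 2560))
    (by decide +kernel))
    (good_splitA (qm 2816)
    (good_of_check
    (T 2852127 65177294 10273906 11486573 1867060 4627772 3094045 1009772 2936476 4356773 1639422
    3145730 2097154 65691136 21154556 9133401 24725060 16074366)
    ((((((((((((((((((((root.setHiD (qm 2048)).setHiD (qm 1024)).setHiU (qm 512)).setLoA (qm
    2048)).setHiD (qm 512)).setHiU (qm 256)).setHiA (qm 3072)).setHiD (qm 256)).setLoU (qm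
    128)).setHiW (qm 128)).setLoD (qm 128)).setHiU (qm 192)).setHiW (qm 64)).setLoD (qm
    192)).setHiU (qm 160)).setHiD (qm 224)).setHiU (qm 144)).setHiD (qm 208)).setLoA (qm
    2560)).setHiA (qm 2816))
    (by decide +kernel))
    (good_of_check
    (T 3187671 57291359 9378750 12047220 1641161 4127768 2746321 1172148 3526739 4553498 1639422
    3145730 2097154 56029649 16472074 8444590 24813840 16074366)
    ((((((((((((((((((((root.setHiD (qm 2048)).setHiD (qm 1024)).setHiU (qm 512)).setLoA (qm
    2048)).setHiD (qm 512)).setHiU (qm 256)).setHiA (qm 3072)).setHiD (qm 256)).setLoU (qm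
    128)).setHiW (qm 128)).setLoD (qm 128)).setHiU (qm 192)).setHiW (qm 64)).setLoD (qm
    192)).setHiU (qm 160)).setHiD (qm 224)).setHiU (qm 144)).setHiD (qm 208)).setLoA (qm
    2560)).setLoA (qm 2816))
    (by decide +kernel))))
    (good_of_check
    (R .u4 2654476 6457809 3424633 5111808 13350108 77724 2965818 11863286 5610477 (-163251)
    2965818 3145730 0 0 0 0 2097154 5206269)
    ((((((((((((((((((root.setHiD (qm 2048)).setHiD (qm 1024)).setHiU (qm 512)).setLoA (qm
    2048)).setHiD (qm 512)).setHiU (qm 256)).setHiA (qm 3072)).setHiD (qm 256)).setLoU (qm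
    128)).setHiW (qm 128)).setLoD (qm 128)).setHiU (qm 192)).setHiW (qm 64)).setLoD (qm
    192)).setHiU (qm 160)).setHiD (qm 224)).setHiU (qm 144)).setLoD (qm 208))
    (by decide +kernel)))
    (good_of_check
    (R .u4 2703319 6381388 3424633 5100885 13297816 20108 3145726 11863286 7161712 (-225522)
    3145726 3315891 0 0 0 0 2097154 4938246)
    (((((((((((((((((root.setHiD (qm 2048)).setHiD (qm 1024)).setHiU (qm 512)).setLoA (qm
    2048)).setHiD (qm 512)).setHiU (qm 256)).setHiA (qm 3072)).setHiD (qm 256)).setLoU (qm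
    128)).setHiW (qm 128)).setLoD (qm 128)).setHiU (qm 192)).setHiW (qm 64)).setLoD (qm
    192)).setHiU (qm 160)).setHiD (qm 224)).setLoU (qm 144))
    (by decide +kernel)))
    (good_of_check
    (R .u4 2674747 6220062 3424633 5068117 13342837 49535 2965818 11863286 6457319 (-191546)
    2965818 3315891 0 0 0 0 2097154 5093001)
    ((((((((((((((((root.setHiD (qm 2048)).setHiD (qm 1024)).setHiU (qm 512)).setLoA (qm
    2048)).setHiD (qm 512)).setHiU (qm 256)).setHiA (qm 3072)).setHiD (qm 256)).setLoU (qm
    128)).setHiW (qm 128)).setLoD (qm 128)).setHiU (qm 192)).setHiW (qm 64)).setLoD (qm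
    192)).setHiU (qm 160)).setLoD (qm 224))
    (by decide +kernel)))
    (good_of_check
    (R .t4n 3160900 4454952 3424633 5046272 13348178 (-41439) 3145726 11816854 1559123 113902
    3145726 3477736 0 0 0 0 2097154 6754171)
    (((((((((((((((root.setHiD (qm 2048)).setHiD (qm 1024)).setHiU (qm 512)).setLoA (qm
    2048)).setHiD (qm 512)).setHiU (qm 256)).setHiA (qm 3072)).setHiD (qm 256)).setLoU (qm
    128)).setHiW (qm 128)).setLoD (qm 128)).setHiU (qm 192)).setHiW (qm 64)).setLoD (qm
    192)).setLoU (qm 160))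
    (by decide +kernel))))

end Vale.Agent.P226.Cert
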