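import Vale.Agent.P226.CertBox
import Vale.Agent.P226.CertSound

/-! Part 8 of the cover (P226). -/

namespace Vale.Agent.P226.Cert

set_option maxHeartbeats 4000000 in
/-- One subtree of the cover. -/
theorem sub15_good : BoxGood
    ((((((((((((((root.setHiD (qm 2048)).setHiD (qm 1024)).setHiU (qm 512)).setLoA (qm
    2048)).setHiD (qm 512)).setHiU (qm 256)).setHiA (qm 3072)).setHiD (qm 256)).setLoU (qm
    128)).setHiW (qm 128)).setLoD (qm 128)).setHiU (qm 192)).setLoW (qm 64)).setHiD (qm 192)) :=
    (good_splitU (qm 160)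
    (good_splitW (qm 96)
    (good_splitD (qm 160)
    (good_splitA (qm 2560)
    (good_splitU (qm 144)
    (good_splitW (qm 80)
    (good_splitA (qm 2304)
    (good_splitD (qm 144)
    (good_of_check
    (R .t4n 2899136 7044953 4530365 5221035 13580908 235903 2859651 11837190 116640 104536 2859651
    3045841 0 0 0 0 2344690 9454664)
    ((((((((((((((((((((((root.setHiD (qm 2048)).setHiD (qm 1024)).setHiU (qm 512)).setLoA (qm
    2048)).setHiD (qm 512)).setHiU (qm 256)).setHiA (qm 3072)).setHiD (qm 256)).setLoU (qm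
    128)).setHiW (qm 128)).setLoD (qm 128)).setHiU (qm 192)).setLoW (qm 64)).setHiD (qm
    192)).setHiU (qm 160)).setHiW (qm 96)).setHiD (qm 160)).setHiA (qm 2560)).setHiU (qm
    144)).setHiW (qm 80)).setHiA (qm 2304)).setHiD (qm 144))
    (by decide +kernel))
    (good_of_check
    (R .t4n 2892393 7016247 4530365 5199189 13597048 240563 2847610 11834287 (-198238) 126899
    2847610 3034539 0 0 0 0 2344690 9503191)
    ((((((((((((((((((((((root.setHiD (qm 2048)).setHiD (qm 1024)).setHiU (qm 512)).setLoA (qm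
    2048)).setHiD (qm 512)).setHiU (qm 256)).setHiA (qm 3072)).setHiD (qm 256)).setLoU (qm
    128)).setHiW (qm 128)).setLoD (qm 128)).setHiU (qm 192)).setLoW (qm 64)).setHiD (qm
    192)).setHiU (qm 160)).setHiW (qm 96)).setHiD (qm 160)).setHiA (qm 2560)).setHiU (qm
    144)).setHiW (qm 80)).setHiA (qm 2304)).setLoD (qm 144))
    (by decide +kernel)))
    (good_splitU (qm 136)
    (good_of_check
    (T 2684355 73117611 11097087 10897120 1761299 4651460 3461395 941583 2891461 4090831 1503368
    3057101 2344690 70421097 21397579 11049674 24635960 16202111)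
    ((((((((((((((((((((((root.setHiD (qm 2048)).setHiD (qm 1024)).setHiU (qm 512)).setLoA (qm
    2048)).setHiD (qm 512)).setHiU (qm 256)).setHiA (qm 3072)).setHiD (qm 256)).setLoU (qm
    128)).setHiW (qm 128)).setLoD (qm 128)).setHiU (qm 192)).setLoW (qm 64)).setHiD (qm
    192)).setHiU (qm 160)).setHiW (qm 96)).setHiD (qm 160)).setHiA (qm 2560)).setHiU (qm
    144)).setHiW (qm 80)).setLoA (qm 2304)).setHiU (qm 136))
    (by decide +kernel))
    (good_splitA (qm 2432)
    (good_of_check
    (R .t4n 2931870 6949963 4365569 5204651 13552248 200209 2942557 11834287 (-53566) 118628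
    2942557 3034539 0 0 0 0 2344690 9228245)
    (((((((((((((((((((((((root.setHiD (qm 2048)).setHiD (qm 1024)).setHiU (qm 512)).setLoA (qm
    2048)).setHiD (qm 512)).setHiU (qm 256)).setHiA (qm 3072)).setHiD (qm 256)).setLoU (qm
    128)).setHiW (qm 128)).setLoD (qm 128)).setHiU (qm 192)).setLoW (qm 64)).setHiD (qm
    192)).setHiU (qm 160)).setHiW (qm 96)).setHiD (qm 160)).setHiA (qm 2560)).setHiU (qm
    144)).setHiW (qm 80)).setLoA (qm 2304)).setLoU (qm 136)).setHiA (qm 2432))
    (by decide +kernel))
    (good_of_check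
    (T 2684355 68463480 10693420 11195727 1693760 4559143 3285640 956959 3052940 4265867 1523548
    3145730 2344690 69283728 20099268 10289679 24635960 16185137)
    (((((((((((((((((((((((root.setHiD (qm 2048)).setHiD (qm 1024)).setHiU (qm 512)).setLoA (qm
    2048)).setHiD (qm 512)).setHiU (qm 256)).setHiA (qm 3072)).setHiD (qm 256)).setLoU (qm
    128)).setHiW (qm 128)).setLoD (qm 128)).setHiU (qm 192)).setLoW (qm 64)).setHiD (qm
    192)).setHiU (qm 160)).setHiW (qm 96)).setHiD (qm 160)).setHiA (qm 2560)).setHiU (qm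
    144)).setHiW (qm 80)).setLoA (qm 2304)).setLoU (qm 136)).setLoA (qm 2432))
    (by decide +kernel)))))
    (good_splitD (qm 144)
    (good_of_check
    (R .t5n 2525119 7465137 4194303 5221035 13557640 215744 2936010 11855869 7353000 (-175447)
    2936010 3117643 (-878778) 55686 2306865 2534001 2097154 6003193)
    (((((((((((((((((((((root.setHiD (qm 2048)).setHiD (qm 1024)).setHiU (qm 512)).setLoA (qm
    2048)).setHiD (qm 512)).setHiU (qm 256)).setHiA (qm 3072)).setHiD (qm 256)).setLoU (qm
    128)).setHiW (qm 128)).setLoD (qm 128)).setHiU (qm 192)).setLoW (qm 64)).setHiD (qm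
    192)).setHiU (qm 160)).setHiW (qm 96)).setHiD (qm 160)).setHiA (qm 2560)).setHiU (qm
    144)).setLoW (qm 80)).setHiD (qm 144))
    (by decide +kernel))
    (good_splitD (qm 152)
    (good_of_check
    (R .t5n 2533452 7354475 4194303 5204651 13546780 205621 2932263 11854941 7063925 (-164280)
    2932263 3114114 (-994853) 62833 2302094 2529658 2224368 6604166)
    ((((((((((((((((((((((root.setHiD (qm 2048)).setHiD (qm 1024)).setHiU (qm 512)).setLoA (qm
    2048)).setHiD (qm 512)).setHiU (qm 256)).setHiA (qm 3072)).setHiD (qm 256)).setLoU (qm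
    128)).setHiW (qm 128)).setLoD (qm 128)).setHiU (qm 192)).setLoW (qm 64)).setHiD (qm
    192)).setHiU (qm 160)).setHiW (qm 96)).setHiD (qm 160)).setHiA (qm 2560)).setHiU (qm
    144)).setLoW (qm 80)).setLoD (qm 144)).setHiD (qm 152))
    (by decide +kernel))
    (good_of_check
    (R .t5n 2544364 7221824 4194303 5193728 13524244 195149 2928511 11854014 6720621 (-151683)
    2928511 3110582 (-1111701) 70015 2297312 2525308 2344690 7139360)
    ((((((((((((((((((((((root.setHiD (qm 2048)).setHiD (qm 1024)).setHiU (qm 512)).setLoA (qm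
    2048)).setHiD (qm 512)).setHiU (qm 256)).setHiA (qm 3072)).setHiD (qm 256)).setLoU (qm
    128)).setHiW (qm 128)).setLoD (qm 128)).setHiU (qm 192)).setLoW (qm 64)).setHiD (qm
    192)).setHiU (qm 160)).setHiW (qm 96)).setHiD (qm 160)).setHiA (qm 2560)).setHiU (qm
    144)).setLoW (qm 80)).setLoD (qm 144)).setLoD (qm 152))
    (by decide +kernel)))))
    (good_splitD (qm 144)
    (good_of_check
    (R .t4n 2986890 6819181 4194303 5199189 13493387 143059 3045836 11837190 2658424 9251 3045836
    3221282 0 0 0 0 2568479 9833807)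
    ((((((((((((((((((((root.setHiD (qm 2048)).setHiD (qm 1024)).setHiU (qm 512)).setLoA (qm
    2048)).setHiD (qm 512)).setHiU (qm 256)).setHiA (qm 3072)).setHiD (qm 256)).setLoU (qm
    128)).setHiW (qm 128)).setLoD (qm 128)).setHiU (qm 192)).setLoW (qm 64)).setHiD (qm
    192)).setHiU (qm 160)).setHiW (qm 96)).setHiD (qm 160)).setHiA (qm 2560)).setLoU (qm
    144)).setHiD (qm 144))
    (by decide +kernel))
    (good_of_check
    (R .t4n 2993631 6681114 4194303 5177344 13477265 139550 3034534 11834287 2022746 42711 3034534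
    3210598 0 0 0 0 2568479 9787578)
    ((((((((((((((((((((root.setHiD (qm 2048)).setHiD (qm 1024)).setHiU (qm 512)).setLoA (qm
    2048)).setHiD (qm 512)).setHiU (qm 256)).setHiA (qm 3072)).setHiD (qm 256)).setLoU (qm
    128)).setHiW (qm 128)).setLoD (qm 128)).setHiU (qm 192)).setLoW (qm 64)).setHiD (qm
    192)).setHiU (qm 160)).setHiW (qm 96)).setHiD (qm 160)).setHiA (qm 2560)).setLoU (qm
    144)).setLoD (qm 144))
    (by decide +kernel))))
    (good_splitU (qm 144)
    (good_of_check
    (T 2852127 64047052 10273906 11486573 1584500 4297339 3393060 1036364 3376395 4194033 1523548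
    3145730 2568479 63686623 17518881 11270226 24813840 16193626)
    (((((((((((((((((((root.setHiD (qm 2048)).setHiD (qm 1024)).setHiU (qm 512)).setLoA (qm
    2048)).setHiD (qm 512)).setHiU (qm 256)).setHiA (qm 3072)).setHiD (qm 256)).setLoU (qm
    128)).setHiW (qm 128)).setLoD (qm 128)).setHiU (qm 192)).setLoW (qm 64)).setHiD (qm
    192)).setHiU (qm 160)).setHiW (qm 96)).setHiD (qm 160)).setLoA (qm 2560)).setHiU (qm 144))
    (by decide +kernel))
    (good_splitA (qm 2816)
    (good_splitU (qm 152)
    (good_of_check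
    (T 2684355 64232696 10273906 11486573 1630911 4468575 3423120 971461 3205959 4216396 1543465
    3231931 2568479 68245087 18999392 11171233 24725060 16168144)
    (((((((((((((((((((((root.setHiD (qm 2048)).setHiD (qm 1024)).setHiU (qm 512)).setLoA (qm
    2048)).setHiD (qm 512)).setHiU (qm 256)).setHiA (qm 3072)).setHiD (qm 256)).setLoU (qm
    128)).setHiW (qm 128)).setLoD (qm 128)).setHiU (qm 192)).setLoW (qm 64)).setHiD (qm
    192)).setHiU (qm 160)).setHiW (qm 96)).setHiD (qm 160)).setLoA (qm 2560)).setLoU (qm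
    144)).setHiA (qm 2816)).setHiU (qm 152))
    (by decide +kernel))
    (good_splitA (qm 2688)
    (good_of_check
    (R .t4n 3033108 6595821 4015739 5182805 13427353 101694 3123804 11834287 2152994 32773 3123804
    3210598 0 0 0 0 2568479 9521297)
    ((((((((((((((((((((((root.setHiD (qm 2048)).setHiD (qm 1024)).setHiU (qm 512)).setLoA (qm
    2048)).setHiD (qm 512)).setHiU (qm 256)).setHiA (qm 3072)).setHiD (qm 256)).setLoU (qm
    128)).setHiW (qm 128)).setLoD (qm 128)).setHiU (qm 192)).setLoW (qm 64)).setHiD (qm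
    192)).setHiU (qm 160)).setHiW (qm 96)).setHiD (qm 160)).setLoA (qm 2560)).setLoU (qm
    144)).setHiA (qm 2816)).setLoU (qm 152)).setHiA (qm 2688))
    (by decide +kernel))
    (good_of_check
    (T 2852127 60359829 9836516 11770235 1571873 4412605 3276313 1046770 3271646 4315804 1563127
    3315891 2568479 63130474 18652194 10745763 24725060 16151134)
    ((((((((((((((((((((((root.setHiD (qm 2048)).setHiD (qm 1024)).setHiU (qm 512)).setLoA (qm
    2048)).setHiD (qm 512)).setHiU (qm 256)).setHiA (qm 3072)).setHiD (qm 256)).setLoU (qm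
    128)).setHiW (qm 128)).setLoD (qm 128)).setHiU (qm 192)).setLoW (qm 64)).setHiD (qm
    192)).setHiU (qm 160)).setHiW (qm 96)).setHiD (qm 160)).setLoA (qm 2560)).setLoU (qm
    144)).setHiA (qm 2816)).setLoU (qm 152)).setLoA (qm 2688))
    (by decide +kernel))))
    (good_of_check
    (T 3187671 56625180 9378750 12047220 1474617 4205386 3113080 1189678 3465903 4367917 1563127
    3315891 2568479 54730260 17243952 10531850 24813840 16159641)
    ((((((((((((((((((((root.setHiD (qm 2048)).setHiD (qm 1024)).setHiU (qm 512)).setLoA (qm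
    2048)).setHiD (qm 512)).setHiU (qm 256)).setHiA (qm 3072)).setHiD (qm 256)).setLoU (qm
    128)).setHiW (qm 128)).setLoD (qm 128)).setHiU (qm 192)).setLoW (qm 64)).setHiD (qm
    192)).setHiU (qm 160)).setHiW (qm 96)).setHiD (qm 160)).setLoA (qm 2560)).setLoU (qm
    144)).setLoA (qm 2816))
    (by decide +kernel)))))
    (good_splitA (qm 2560)
    (good_splitW (qm 80)
    (good_splitU (qm 144)
    (good_splitD (qm 176)
    (good_splitU (qm 136)
    (good_splitW (qm 72)
    (good_splitD (qm 168)
    (good_splitA (qm 2304)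
    (good_of_check
    (R .t4n 2885652 7030594 4530365 5188267 13613599 244914 2841571 11832835 (-1651406) 178613
    2841571 2936717 0 0 0 0 2224368 8974733)
    (((((((((((((((((((((((((root.setHiD (qm 2048)).setHiD (qm 1024)).setHiU (qm 512)).setLoA (qm
    2048)).setHiD (qm 512)).setHiU (qm 256)).setHiA (qm 3072)).setHiD (qm 256)).setLoU (qm
    128)).setHiW (qm 128)).setLoD (qm 128)).setHiU (qm 192)).setLoW (qm 64)).setHiD (qm
    192)).setHiU (qm 160)).setHiW (qm 96)).setLoD (qm 160)).setHiA (qm 2560)).setHiW (qm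
    80)).setHiU (qm 144)).setHiD (qm 176)).setHiU (qm 136)).setHiW (qm 72)).setHiD (qm
    168)).setHiA (qm 2304))
    (by decide +kernel))
    (good_of_check
    (T 2684355 73328933 11097087 10897120 1814130 4712644 3348639 937067 2800167 4165427 1523548
    3057101 2224368 70789714 22308845 10321961 24635960 16159641)
    (((((((((((((((((((((((((root.setHiD (qm 2048)).setHiD (qm 1024)).setHiU (qm 512)).setLoA (qm
    2048)).setHiD (qm 512)).setHiU (qm 256)).setHiA (qm 3072)).setHiD (qm 256)).setLoU (qm
    128)).setHiW (qm 128)).setLoD (qm 128)).setHiU (qm 192)).setLoW (qm 64)).setHiD (qm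
    192)).setHiU (qm 160)).setHiW (qm 96)).setLoD (qm 160)).setHiA (qm 2560)).setHiW (qm
    80)).setHiU (qm 144)).setHiD (qm 176)).setHiU (qm 136)).setHiW (qm 72)).setHiD (qm
    168)).setLoA (qm 2304))
    (by decide +kernel)))
    (good_of_check
    (R .u5 2293540 7229395 4194303 5177344 13426447 180154 2965818 11863286 8241849 (-214068)
    2965818 3057101 0 42 2097150 2224368 2224368 5064713)
    ((((((((((((((((((((((((root.setHiD (qm 2048)).setHiD (qm 1024)).setHiU (qm 512)).setLoA (qm
    2048)).setHiD (qm 512)).setHiU (qm 256)).setHiA (qm 3072)).setHiD (qm 256)).setLoU (qm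
    128)).setHiW (qm 128)).setLoD (qm 128)).setHiU (qm 192)).setLoW (qm 64)).setHiD (qm
    192)).setHiU (qm 160)).setHiW (qm 96)).setLoD (qm 160)).setHiA (qm 2560)).setHiW (qm
    80)).setHiU (qm 144)).setHiD (qm 176)).setHiU (qm 136)).setHiW (qm 72)).setLoD (qm 168))
    (by decide +kernel)))
    (good_splitD (qm 168)
    (good_splitW (qm 76)
    (good_splitA (qm 2304)
    (good_of_check
    (R .t4n 2885652 7030594 4530365 5188267 13613599 244914 2841571 11832835 (-1651406) 178613
    2841571 2936717 0 0 0 0 2285321 9268451)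
    ((((((((((((((((((((((((((root.setHiD (qm 2048)).setHiD (qm 1024)).setHiU (qm 512)).setLoA (qm
    2048)).setHiD (qm 512)).setHiU (qm 256)).setHiA (qm 3072)).setHiD (qm 256)).setLoU (qm
    128)).setHiW (qm 128)).setLoD (qm 128)).setHiU (qm 192)).setLoW (qm 64)).setHiD (qm
    192)).setHiU (qm 160)).setHiW (qm 96)).setLoD (qm 160)).setHiA (qm 2560)).setHiW (qm
    80)).setHiU (qm 144)).setHiD (qm 176)).setHiU (qm 136)).setLoW (qm 72)).setHiD (qm
    168)).setHiW (qm 76)).setHiA (qm 2304))
    (by decide +kernel))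
    (good_of_check
    (T 2684355 73328933 11097087 10897120 1814130 4712644 3433889 937067 2800167 4104961 1523548
    3057101 2285321 70789714 22308845 10790330 24635960 16159641)
    ((((((((((((((((((((((((((root.setHiD (qm 2048)).setHiD (qm 1024)).setHiU (qm 512)).setLoA (qm
    2048)).setHiD (qm 512)).setHiU (qm 256)).setHiA (qm 3072)).setHiD (qm 256)).setLoU (qm
    128)).setHiW (qm 128)).setLoD (qm 128)).setHiU (qm 192)).setLoW (qm 64)).setHiD (qm
    192)).setHiU (qm 160)).setHiW (qm 96)).setLoD (qm 160)).setHiA (qm 2560)).setHiW (qm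
    80)).setHiU (qm 144)).setHiD (qm 176)).setHiU (qm 136)).setLoW (qm 72)).setHiD (qm
    168)).setHiW (qm 76)).setLoA (qm 2304))
    (by decide +kernel)))
    (good_splitU (qm 132)
    (good_of_check
    (R .u5 2278463 7389947 4194303 5190997 13455922 197740 2965818 11863286 8260905 (-211737)
    2965818 3011808 71537 (-1285) 2285316 2344690 2344690 5749822)
    ((((((((((((((((((((((((((root.setHiD (qm 2048)).setHiD (qm 1024)).setHiU (qm 512)).setLoA (qm
    2048)).setHiD (qm 512)).setHiU (qm 256)).setHiA (qm 3072)).setHiD (qm 256)).setLoU (qm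
    128)).setHiW (qm 128)).setLoD (qm 128)).setHiU (qm 192)).setLoW (qm 64)).setHiD (qm
    192)).setHiU (qm 160)).setHiW (qm 96)).setLoD (qm 160)).setHiA (qm 2560)).setHiW (qm
    80)).setHiU (qm 144)).setHiD (qm 176)).setHiU (qm 136)).setLoW (qm 72)).setHiD (qm
    168)).setLoW (qm 76)).setHiU (qm 132))
    (by decide +kernel))
    (good_of_check
    (R .u5 2289374 7357862 4194303 5185536 13443336 182976 3011803 11863286 8606998 (-225234)
    3011803 3057101 41781 (-733) 2285316 2344690 2344690 5667573)
    ((((((((((((((((((((((((((root.setHiD (qm 2048)).setHiD (qm 1024)).setHiU (qm 512)).setLoA (qm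
    2048)).setHiD (qm 512)).setHiU (qm 256)).setHiA (qm 3072)).setHiD (qm 256)).setLoU (qm
    128)).setHiW (qm 128)).setLoD (qm 128)).setHiU (qm 192)).setLoW (qm 64)).setHiD (qm
    192)).setHiU (qm 160)).setHiW (qm 96)).setLoD (qm 160)).setHiA (qm 2560)).setHiW (qm
    80)).setHiU (qm 144)).setHiD (qm 176)).setHiU (qm 136)).setLoW (qm 72)).setHiD (qm
    168)).setLoW (qm 76)).setLoU (qm 132))
    (by decide +kernel))))
    (good_of_check
    (R .u5 2293540 7229395 4194303 5177344 13426447 180154 2965818 11863286 8241849 (-214068)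
    2965818 3057101 16524 (-248) 2224363 2344690 2344690 5638050)
    ((((((((((((((((((((((((root.setHiD (qm 2048)).setHiD (qm 1024)).setHiU (qm 512)).setLoA (qm
    2048)).setHiD (qm 512)).setHiU (qm 256)).setHiA (qm 3072)).setHiD (qm 256)).setLoU (qm
    128)).setHiW (qm 128)).setLoD (qm 128)).setHiU (qm 192)).setLoW (qm 64)).setHiD (qm
    192)).setHiU (qm 160)).setHiW (qm 96)).setLoD (qm 160)).setHiA (qm 2560)).setHiW (qm
    80)).setHiU (qm 144)).setHiD (qm 176)).setHiU (qm 136)).setLoW (qm 72)).setLoD (qm 168))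
    (by decide +kernel))))
    (good_splitD (qm 168)
    (good_of_check
    (R .t4n 2958321 6674340 4194303 5177344 13500284 180825 2936712 11832835 (-1072416) 158501
    2936712 3028872 0 0 0 0 2344690 9049932)
    (((((((((((((((((((((((root.setHiD (qm 2048)).setHiD (qm 1024)).setHiU (qm 512)).setLoA (qm
    2048)).setHiD (qm 512)).setHiU (qm 256)).setHiA (qm 3072)).setHiD (qm 256)).setLoU (qm
    128)).setHiW (qm 128)).setLoD (qm 128)).setHiU (qm 192)).setLoW (qm 64)).setHiD (qm
    192)).setHiU (qm 160)).setHiW (qm 96)).setLoD (qm 160)).setHiA (qm 2560)).setHiW (qm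
    80)).setHiU (qm 144)).setHiD (qm 176)).setLoU (qm 136)).setHiD (qm 168))
    (by decide +kernel))
    (good_of_check
    (R .t4n 2965063 6575992 4194303 5166421 13482504 177708 2930857 11831383 (-1444287) 176955
    2930857 3023195 0 0 0 0 2344690 9005745)
    (((((((((((((((((((((((root.setHiD (qm 2048)).setHiD (qm 1024)).setHiU (qm 512)).setLoA (qm
    2048)).setHiD (qm 512)).setHiU (qm 256)).setHiA (qm 3072)).setHiD (qm 256)).setLoU (qm
    128)).setHiW (qm 128)).setLoD (qm 128)).setHiU (qm 192)).setLoW (qm 64)).setHiD (qm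
    192)).setHiU (qm 160)).setHiW (qm 96)).setLoD (qm 160)).setHiA (qm 2560)).setHiW (qm
    80)).setHiU (qm 144)).setHiD (qm 176)).setLoU (qm 136)).setLoD (qm 168))
    (by decide +kernel))))
    (good_splitW (qm 72)
    (good_of_check
    (R .u5 2293540 7229395 4194303 5155499 13445273 174357 2965818 11863286 8778942 (-230852)
    2965818 3145730 0 42 2097150 2224368 2224368 5064713)
    ((((((((((((((((((((((root.setHiD (qm 2048)).setHiD (qm 1024)).setHiU (qm 512)).setLoA (qm
    2048)).setHiD (qm 512)).setHiU (qm 256)).setHiA (qm 3072)).setHiD (qm 256)).setLoU (qm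
    128)).setHiW (qm 128)).setLoD (qm 128)).setHiU (qm 192)).setLoW (qm 64)).setHiD (qm
    192)).setHiU (qm 160)).setHiW (qm 96)).setLoD (qm 160)).setHiA (qm 2560)).setHiW (qm
    80)).setHiU (qm 144)).setLoD (qm 176)).setHiW (qm 72))
    (by decide +kernel))
    (good_of_check
    (R .u5 2293540 7229395 4194303 5155499 13445273 174357 2965818 11863286 8778942 (-230852)
    2965818 3145730 16524 (-248) 2224363 2344690 2344690 5638050)
    ((((((((((((((((((((((root.setHiD (qm 2048)).setHiD (qm 1024)).setHiU (qm 512)).setLoA (qm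
    2048)).setHiD (qm 512)).setHiU (qm 256)).setHiA (qm 3072)).setHiD (qm 256)).setLoU (qm
    128)).setHiW (qm 128)).setLoD (qm 128)).setHiU (qm 192)).setLoW (qm 64)).setHiD (qm
    192)).setHiU (qm 160)).setHiW (qm 96)).setLoD (qm 160)).setHiA (qm 2560)).setHiW (qm
    80)).setHiU (qm 144)).setLoD (qm 176)).setLoW (qm 72))
    (by decide +kernel))))
    (good_of_check
    (R .t4n 2991056 6541820 4194303 5144576 13473427 145572 3011803 11828479 1163867 96169 3011803
    3189122 0 0 0 0 2344690 8833936)
    ((((((((((((((((((((root.setHiD (qm 2048)).setHiD (qm 1024)).setHiU (qm 512)).setLoA (qm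
    2048)).setHiD (qm 512)).setHiU (qm 256)).setHiA (qm 3072)).setHiD (qm 256)).setLoU (qm
    128)).setHiW (qm 128)).setLoD (qm 128)).setHiU (qm 192)).setLoW (qm 64)).setHiD (qm
    192)).setHiU (qm 160)).setHiW (qm 96)).setLoD (qm 160)).setHiA (qm 2560)).setHiW (qm
    80)).setLoU (qm 144))
    (by decide +kernel)))
    (good_splitA (qm 2304)
    (good_of_check
    (R .u5 2274272 7435131 4530365 5155499 13498713 192004 2965818 11863286 10121274 (-269037)
    2965818 3315891 1258329 (-24450) 2344685 2568479 2568479 6849639)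
    ((((((((((((((((((((root.setHiD (qm 2048)).setHiD (qm 1024)).setHiU (qm 512)).setLoA (qm
    2048)).setHiD (qm 512)).setHiU (qm 256)).setHiA (qm 3072)).setHiD (qm 256)).setLoU (qm
    128)).setHiW (qm 128)).setLoD (qm 128)).setHiU (qm 192)).setLoW (qm 64)).setHiD (qm
    192)).setHiU (qm 160)).setHiW (qm 96)).setLoD (qm 160)).setHiA (qm 2560)).setLoW (qm
    80)).setHiA (qm 2304))
    (by decide +kernel))
    (good_splitD (qm 176)
    (good_splitW (qm 88)
    (good_splitU (qm 144)
    (good_splitD (qm 168)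
    (good_splitA (qm 2432)
    (good_of_check
    (R .u5 2267530 7508181 4365569 5182805 13492802 205869 2965818 11863286 9296521 (-241899)
    2965818 3145730 721970 (-13948) 2344685 2459131 2459131 6385241)
    (((((((((((((((((((((((((root.setHiD (qm 2048)).setHiD (qm 1024)).setHiU (qm 512)).setLoA (qm
    2048)).setHiD (qm 512)).setHiU (qm 256)).setHiA (qm 3072)).setHiD (qm 256)).setLoU (qm
    128)).setHiW (qm 128)).setLoD (qm 128)).setHiU (qm 192)).setLoW (qm 64)).setHiD (qm
    192)).setHiU (qm 160)).setHiW (qm 96)).setLoD (qm 160)).setHiA (qm 2560)).setLoW (qm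
    80)).setLoA (qm 2304)).setHiD (qm 176)).setHiW (qm 88)).setHiU (qm 144)).setHiD (qm
    168)).setHiA (qm 2432))
    (by decide +kernel))
    (good_of_check
    (T 2684355 68661925 10693420 11195727 1743372 4617060 3499516 952702 2970291 4106004 1543465
    3145730 2459131 69623499 20840577 11342859 24635960 16151134)
    (((((((((((((((((((((((((root.setHiD (qm 2048)).setHiD (qm 1024)).setHiU (qm 512)).setLoA (qm
    2048)).setHiD (qm 512)).setHiU (qm 256)).setHiA (qm 3072)).setHiD (qm 256)).setLoU (qm
    128)).setHiW (qm 128)).setLoD (qm 128)).setHiU (qm 192)).setLoW (qm 64)).setHiD (qm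
    192)).setHiU (qm 160)).setHiW (qm 96)).setLoD (qm 160)).setHiA (qm 2560)).setLoW (qm
    80)).setLoA (qm 2304)).setHiD (qm 176)).setHiW (qm 88)).setHiU (qm 144)).setHiD (qm
    168)).setLoA (qm 2432))
    (by decide +kernel)))
    (good_splitU (qm 136)
    (good_of_check
    (R .u5 2293540 7229395 4194303 5177344 13426447 180154 2965818 11863286 8241849 (-214068)
    2965818 3057101 487395 (-9445) 2344685 2459131 2459131 6179851)
    (((((((((((((((((((((((((root.setHiD (qm 2048)).setHiD (qm 1024)).setHiU (qm 512)).setLoA (qm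
    2048)).setHiD (qm 512)).setHiU (qm 256)).setHiA (qm 3072)).setHiD (qm 256)).setLoU (qm
    128)).setHiW (qm 128)).setLoD (qm 128)).setHiU (qm 192)).setLoW (qm 64)).setHiD (qm
    192)).setHiU (qm 160)).setHiW (qm 96)).setLoD (qm 160)).setHiA (qm 2560)).setLoW (qm
    80)).setLoA (qm 2304)).setHiD (qm 176)).setHiW (qm 88)).setHiU (qm 144)).setLoD (qm
    168)).setHiU (qm 136))
    (by decide +kernel))
    (good_of_check
    (R .u5 2307030 7253899 4194303 5166421 13424008 158444 3057096 11863286 9052706 (-244025)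
    3057096 3145730 384469 (-7454) 2344685 2459131 2459131 6076245)
    (((((((((((((((((((((((((root.setHiD (qm 2048)).setHiD (qm 1024)).setHiU (qm 512)).setLoA (qm
    2048)).setHiD (qm 512)).setHiU (qm 256)).setHiA (qm 3072)).setHiD (qm 256)).setLoU (qm
    128)).setHiW (qm 128)).setLoD (qm 128)).setHiU (qm 192)).setLoW (qm 64)).setHiD (qm
    192)).setHiU (qm 160)).setHiW (qm 96)).setLoD (qm 160)).setHiA (qm 2560)).setLoW (qm
    80)).setLoA (qm 2304)).setHiD (qm 176)).setHiW (qm 88)).setHiU (qm 144)).setLoD (qm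
    168)).setLoU (qm 136))
    (by decide +kernel))))
    (good_of_check
    (R .t4n 2997800 6565034 4194303 5155499 13466438 138038 3023190 11831383 1445114 74470 3023190
    3199878 0 0 0 0 2459131 9295508)
    (((((((((((((((((((((((root.setHiD (qm 2048)).setHiD (qm 1024)).setHiU (qm 512)).setLoA (qm
    2048)).setHiD (qm 512)).setHiU (qm 256)).setHiA (qm 3072)).setHiD (qm 256)).setLoU (qm
    128)).setHiW (qm 128)).setLoD (qm 128)).setHiU (qm 192)).setLoW (qm 64)).setHiD (qm
    192)).setHiU (qm 160)).setHiW (qm 96)).setLoD (qm 160)).setHiA (qm 2560)).setLoW (qm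
    80)).setLoA (qm 2304)).setHiD (qm 176)).setHiW (qm 88)).setLoU (qm 144))
    (by decide +kernel)))
    (good_splitU (qm 144)
    (good_of_check
    (R .t5n 2553682 7105724 4194303 5177344 13509547 184949 2924754 11853086 6411035 (-139828)
    2924754 3107045 (-1142447) 75194 2409442 2520950 2459131 7642492)
    (((((((((((((((((((((((root.setHiD (qm 2048)).setHiD (qm 1024)).setHiU (qm 512)).setLoA (qm
    2048)).setHiD (qm 512)).setHiU (qm 256)).setHiA (qm 3072)).setHiD (qm 256)).setLoU (qm
    128)).setHiW (qm 128)).setLoD (qm 128)).setHiU (qm 192)).setLoW (qm 64)).setHiD (qm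
    192)).setHiU (qm 160)).setHiW (qm 96)).setLoD (qm 160)).setHiA (qm 2560)).setLoW (qm
    80)).setLoA (qm 2304)).setHiD (qm 176)).setLoW (qm 88)).setHiU (qm 144))
    (by decide +kernel))
    (good_of_check
    (R .u5 2320514 7268250 4194303 5155499 13419805 137329 3145726 11863286 10205280 (-287985)
    3145726 3315891 1243158 (-26087) 2459126 2568479 2459131 5974418)
    (((((((((((((((((((((((root.setHiD (qm 2048)).setHiD (qm 1024)).setHiU (qm 512)).setLoA (qm
    2048)).setHiD (qm 512)).setHiU (qm 256)).setHiA (qm 3072)).setHiD (qm 256)).setLoU (qm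
    128)).setHiW (qm 128)).setLoD (qm 128)).setHiU (qm 192)).setLoW (qm 64)).setHiD (qm
    192)).setHiU (qm 160)).setHiW (qm 96)).setLoD (qm 160)).setHiA (qm 2560)).setLoW (qm
    80)).setLoA (qm 2304)).setHiD (qm 176)).setLoW (qm 88)).setLoU (qm 144))
    (by decide +kernel))))
    (good_splitU (qm 144)
    (good_splitW (qm 88)
    (good_of_check
    (R .u5 2293540 7229395 4194303 5155499 13445273 174357 2965818 11863286 8778942 (-230852)
    2965818 3145730 487395 (-9445) 2344685 2459131 2459131 6179851)
    (((((((((((((((((((((((root.setHiD (qm 2048)).setHiD (qm 1024)).setHiU (qm 512)).setLoA (qm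
    2048)).setHiD (qm 512)).setHiU (qm 256)).setHiA (qm 3072)).setHiD (qm 256)).setLoU (qm
    128)).setHiW (qm 128)).setLoD (qm 128)).setHiU (qm 192)).setLoW (qm 64)).setHiD (qm
    192)).setHiU (qm 160)).setHiW (qm 96)).setLoD (qm 160)).setHiA (qm 2560)).setLoW (qm
    80)).setLoA (qm 2304)).setLoD (qm 176)).setHiU (qm 144)).setHiW (qm 88))
    (by decide +kernel))
    (good_of_check
    (R .u5 2293540 7229395 4194303 5155499 13445273 174357 2965818 11863286 8778942 (-230852)
    2965818 3145730 1589087 (-33114) 2459126 2568479 2568479 6692722)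
    (((((((((((((((((((((((root.setHiD (qm 2048)).setHiD (qm 1024)).setHiU (qm 512)).setLoA (qm
    2048)).setHiD (qm 512)).setHiU (qm 256)).setHiA (qm 3072)).setHiD (qm 256)).setLoU (qm
    128)).setHiW (qm 128)).setLoD (qm 128)).setHiU (qm 192)).setLoW (qm 64)).setHiD (qm
    192)).setHiU (qm 160)).setHiW (qm 96)).setLoD (qm 160)).setHiA (qm 2560)).setLoW (qm
    80)).setLoA (qm 2304)).setLoD (qm 176)).setHiU (qm 144)).setLoW (qm 88))
    (by decide +kernel)))
    (good_of_check
    (R .u5 2342343 7047033 4194303 5133653 13378542 112014 3145726 11863286 9798563 (-279033)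
    3145726 3315891 585128 (-11386) 2344685 2568479 2568479 6307630)
    ((((((((((((((((((((((root.setHiD (qm 2048)).setHiD (qm 1024)).setHiU (qm 512)).setLoA (qm
    2048)).setHiD (qm 512)).setHiU (qm 256)).setHiA (qm 3072)).setHiD (qm 256)).setLoU (qm
    128)).setHiW (qm 128)).setLoD (qm 128)).setHiU (qm 192)).setLoW (qm 64)).setHiD (qm
    192)).setHiU (qm 160)).setHiW (qm 96)).setLoD (qm 160)).setHiA (qm 2560)).setLoW (qm
    80)).setLoA (qm 2304)).setLoD (qm 176)).setLoU (qm 144))
    (by decide +kernel))))))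
    (good_splitA (qm 2816)
    (good_splitU (qm 144)
    (good_splitA (qm 2688)
    (good_of_check
    (T 2684355 64796140 10273906 11486573 1771772 4483667 3579703 959093 3172861 4078640 1601729
    3145730 2568479 69179229 19085853 11801261 24680550 16125585)
    (((((((((((((((((((((root.setHiD (qm 2048)).setHiD (qm 1024)).setHiU (qm 512)).setLoA (qm
    2048)).setHiD (qm 512)).setHiU (qm 256)).setHiA (qm 3072)).setHiD (qm 256)).setLoU (qm
    128)).setHiW (qm 128)).setLoD (qm 128)).setHiU (qm 192)).setLoW (qm 64)).setHiD (qm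
    192)).setHiU (qm 160)).setHiW (qm 96)).setLoD (qm 160)).setLoA (qm 2560)).setHiA (qm
    2816)).setHiU (qm 144)).setHiA (qm 2688))
    (by decide +kernel))
    (good_of_check
    (T 2852127 60712810 9836516 11770235 1660118 4231729 3374526 1038543 3471456 4234265 1601729
    3145730 2568479 63758099 16846805 11093016 24725060 16125585)
    (((((((((((((((((((((root.setHiD (qm 2048)).setHiD (qm 1024)).setHiU (qm 512)).setLoA (qm
    2048)).setHiD (qm 512)).setHiU (qm 256)).setHiA (qm 3072)).setHiD (qm 256)).setLoU (qm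
    128)).setHiW (qm 128)).setLoD (qm 128)).setHiU (qm 192)).setLoW (qm 64)).setHiD (qm
    192)).setHiU (qm 160)).setHiW (qm 96)).setLoD (qm 160)).setLoA (qm 2560)).setHiA (qm
    2816)).setHiU (qm 144)).setLoA (qm 2688))
    (by decide +kernel)))
    (good_splitU (qm 152)
    (good_splitA (qm 2688)
    (good_splitA (qm 2624)
    (good_splitW (qm 80)
    (good_of_check
    (R .t4n 2997800 6486505 4105991 5150037 13451884 143319 3011803 11828479 (-282481) 146939
    3011803 3101732 0 0 0 0 2344690 8790870)
    ((((((((((((((((((((((((root.setHiD (qm 2048)).setHiD (qm 1024)).setHiU (qm 512)).setLoA (qm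
    2048)).setHiD (qm 512)).setHiU (qm 256)).setHiA (qm 3072)).setHiD (qm 256)).setLoU (qm
    128)).setHiW (qm 128)).setLoD (qm 128)).setHiU (qm 192)).setLoW (qm 64)).setHiD (qm
    192)).setHiU (qm 160)).setHiW (qm 96)).setLoD (qm 160)).setLoA (qm 2560)).setHiA (qm
    2816)).setLoU (qm 144)).setHiU (qm 152)).setHiA (qm 2688)).setHiA (qm 2624)).setHiW (qm 80))
    (by decide +kernel))
    (good_splitD (qm 176)
    (good_splitW (qm 88)
    (good_of_check
    (T 2684355 64607230 10273906 11486573 1724544 4578754 3376982 963309 3052491 4237744 1582546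
    3231931 2459131 68870955 20277704 10757767 24658265 16117060)
    ((((((((((((((((((((((((((root.setHiD (qm 2048)).setHiD (qm 1024)).setHiU (qm 512)).setLoA (qm
    2048)).setHiD (qm 512)).setHiU (qm 256)).setHiA (qm 3072)).setHiD (qm 256)).setLoU (qm
    128)).setHiW (qm 128)).setLoD (qm 128)).setHiU (qm 192)).setLoW (qm 64)).setHiD (qm
    192)).setHiU (qm 160)).setHiW (qm 96)).setLoD (qm 160)).setLoA (qm 2560)).setHiA (qm
    2816)).setLoU (qm 144)).setHiU (qm 152)).setHiA (qm 2688)).setHiA (qm 2624)).setLoW (qm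
    80)).setHiD (qm 176)).setHiW (qm 88))
    (by decide +kernel))
    (good_of_check
    (R .t5n 2608255 6971882 4105991 5160960 13447883 119933 3107040 11853086 7349344 (-183312)
    3107040 3194289 (-1142447) 75194 2409442 2520950 2459131 7231561)
    ((((((((((((((((((((((((((root.setHiD (qm 2048)).setHiD (qm 1024)).setHiU (qm 512)).setLoA (qm
    2048)).setHiD (qm 512)).setHiU (qm 256)).setHiA (qm 3072)).setHiD (qm 256)).setLoU (qm
    128)).setHiW (qm 128)).setLoD (qm 128)).setHiU (qm 192)).setLoW (qm 64)).setHiD (qm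
    192)).setHiU (qm 160)).setHiW (qm 96)).setLoD (qm 160)).setLoA (qm 2560)).setHiA (qm
    2816)).setLoU (qm 144)).setHiU (qm 152)).setHiA (qm 2688)).setHiA (qm 2624)).setLoW (qm
    80)).setHiD (qm 176)).setLoW (qm 88))
    (by decide +kernel)))
    (good_splitW (qm 88)
    (good_of_check
    (R .u5 2342343 7047033 4105991 5139115 13373954 113419 3145726 11863286 9355910 (-263471)
    3145726 3231931 177672 (-3428) 2344685 2459131 2459131 5814269)
    ((((((((((((((((((((((((((root.setHiD (qm 2048)).setHiD (qm 1024)).setHiU (qm 512)).setLoA (qm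
    2048)).setHiD (qm 512)).setHiU (qm 256)).setHiA (qm 3072)).setHiD (qm 256)).setLoU (qm
    128)).setHiW (qm 128)).setLoD (qm 128)).setHiU (qm 192)).setLoW (qm 64)).setHiD (qm
    192)).setHiU (qm 160)).setHiW (qm 96)).setLoD (qm 160)).setLoA (qm 2560)).setHiA (qm
    2816)).setLoU (qm 144)).setHiU (qm 152)).setHiA (qm 2688)).setHiA (qm 2624)).setLoW (qm
    80)).setLoD (qm 176)).setHiW (qm 88))
    (by decide +kernel))
    (good_of_check
    (R .u5 2342343 7047033 4105991 5139115 13373954 113419 3145726 11863286 9355910 (-263471)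
    3145726 3231931 992585 (-20936) 2459126 2568479 2568479 6307630)
    ((((((((((((((((((((((((((root.setHiD (qm 2048)).setHiD (qm 1024)).setHiU (qm 512)).setLoA (qm
    2048)).setHiD (qm 512)).setHiU (qm 256)).setHiA (qm 3072)).setHiD (qm 256)).setLoU (qm
    128)).setHiW (qm 128)).setLoD (qm 128)).setHiU (qm 192)).setLoW (qm 64)).setHiD (qm
    192)).setHiU (qm 160)).setHiW (qm 96)).setLoD (qm 160)).setLoA (qm 2560)).setHiA (qm
    2816)).setLoU (qm 144)).setHiU (qm 152)).setHiA (qm 2688)).setHiA (qm 2624)).setLoW (qm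
    80)).setLoD (qm 176)).setLoW (qm 88))
    (by decide +kernel)))))
    (good_splitA (qm 2656)
    (good_splitA (qm 2640)
    (good_of_check
    (T 2684355 62894137 10057589 11629269 1760711 4539240 3515572 964289 3115475 4148087 1620685
    3231931 2568479 68806469 19739389 11477542 24663839 16099996)
    (((((((((((((((((((((((((root.setHiD (qm 2048)).setHiD (qm 1024)).setHiU (qm 512)).setLoA (qm
    2048)).setHiD (qm 512)).setHiU (qm 256)).setHiA (qm 3072)).setHiD (qm 256)).setLoU (qm
    128)).setHiW (qm 128)).setLoD (qm 128)).setHiU (qm 192)).setLoW (qm 64)).setHiD (qm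
    192)).setHiU (qm 160)).setHiW (qm 96)).setLoD (qm 160)).setLoA (qm 2560)).setHiA (qm
    2816)).setLoU (qm 144)).setHiU (qm 152)).setHiA (qm 2688)).setLoA (qm 2624)).setHiA (qm
    2656)).setHiA (qm 2640))
    (by decide +kernel))
    (good_of_check
    (T 2684355 62385278 10002779 11664670 1746465 4502514 3487128 966611 3168393 4176212 1620685
    3231931 2568479 68641148 19301969 11350004 24669410 16099996)
    (((((((((((((((((((((((((root.setHiD (qm 2048)).setHiD (qm 1024)).setHiU (qm 512)).setLoA (qm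
    2048)).setHiD (qm 512)).setHiU (qm 256)).setHiA (qm 3072)).setHiD (qm 256)).setLoU (qm
    128)).setHiW (qm 128)).setLoD (qm 128)).setHiU (qm 192)).setLoW (qm 64)).setHiD (qm
    192)).setHiU (qm 160)).setHiW (qm 96)).setLoD (qm 160)).setLoA (qm 2560)).setHiA (qm
    2816)).setLoU (qm 144)).setHiU (qm 152)).setHiA (qm 2688)).setLoA (qm 2624)).setHiA (qm
    2656)).setLoA (qm 2640))
    (by decide +kernel)))
    (good_of_check
    (T 2852127 61881850 9947667 11699964 1732372 4499118 3479791 1029470 3139760 4138256 1620685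
    3231931 2568479 64378975 19536999 11522600 24680550 16099996)
    ((((((((((((((((((((((((root.setHiD (qm 2048)).setHiD (qm 1024)).setHiU (qm 512)).setLoA (qm
    2048)).setHiD (qm 512)).setHiU (qm 256)).setHiA (qm 3072)).setHiD (qm 256)).setLoU (qm
    128)).setHiW (qm 128)).setLoD (qm 128)).setHiU (qm 192)).setLoW (qm 64)).setHiD (qm
    192)).setHiU (qm 160)).setHiW (qm 96)).setLoD (qm 160)).setLoA (qm 2560)).setHiA (qm
    2816)).setLoU (qm 144)).setHiU (qm 152)).setHiA (qm 2688)).setLoA (qm 2624)).setLoA (qm 2656))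
    (by decide +kernel))))
    (good_of_check
    (T 2852127 60890854 9836516 11770235 1704629 4427067 3424065 1034297 3239662 4192116 1620685
    3231931 2568479 64066712 18733381 11278770 24725060 16099996)
    ((((((((((((((((((((((root.setHiD (qm 2048)).setHiD (qm 1024)).setHiU (qm 512)).setLoA (qm
    2048)).setHiD (qm 512)).setHiU (qm 256)).setHiA (qm 3072)).setHiD (qm 256)).setLoU (qm
    128)).setHiW (qm 128)).setLoD (qm 128)).setHiU (qm 192)).setLoW (qm 64)).setHiD (qm
    192)).setHiU (qm 160)).setHiW (qm 96)).setLoD (qm 160)).setLoA (qm 2560)).setHiA (qm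
    2816)).setLoU (qm 144)).setHiU (qm 152)).setLoA (qm 2688))
    (by decide +kernel)))
    (good_splitD (qm 176)
    (good_splitD (qm 168)
    (good_of_check
    (R .t4n 3054938 6381376 3828857 5155499 13386146 86107 3118299 11832835 1342649 67202 3118299
    3205242 0 0 0 0 2568479 9377876)
    (((((((((((((((((((((((root.setHiD (qm 2048)).setHiD (qm 1024)).setHiU (qm 512)).setLoA (qm
    2048)).setHiD (qm 512)).setHiU (qm 256)).setHiA (qm 3072)).setHiD (qm 256)).setLoU (qm
    128)).setHiW (qm 128)).setLoD (qm 128)).setHiU (qm 192)).setLoW (qm 64)).setHiD (qm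
    192)).setHiU (qm 160)).setHiW (qm 96)).setLoD (qm 160)).setLoA (qm 2560)).setHiA (qm
    2816)).setLoU (qm 144)).setLoU (qm 152)).setHiD (qm 176)).setHiD (qm 168))
    (by decide +kernel))
    (good_splitD (qm 172)
    (good_of_check
    (R .t4n 3061683 6280838 3828857 5147307 13377579 79939 3115543 11832109 1046811 80683 3115543
    3202561 0 0 0 0 2568479 9333896)
    ((((((((((((((((((((((((root.setHiD (qm 2048)).setHiD (qm 1024)).setHiU (qm 512)).setLoA (qm
    2048)).setHiD (qm 512)).setHiU (qm 256)).setHiA (qm 3072)).setHiD (qm 256)).setLoU (qm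
    128)).setHiW (qm 128)).setLoD (qm 128)).setHiU (qm 192)).setLoW (qm 64)).setHiD (qm
    192)).setHiU (qm 160)).setHiW (qm 96)).setLoD (qm 160)).setLoA (qm 2560)).setHiA (qm
    2816)).setLoU (qm 144)).setLoU (qm 152)).setHiD (qm 176)).setLoD (qm 168)).setHiD (qm 172))
    (by decide +kernel))
    (good_of_check
    (R .t4n 3061684 6252141 3828857 5141845 13379579 79453 3112785 11831383 934109 87638 3112785
    3199878 0 0 0 0 2568479 9333885)
    ((((((((((((((((((((((((root.setHiD (qm 2048)).setHiD (qm 1024)).setHiU (qm 512)).setLoA (qm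
    2048)).setHiD (qm 512)).setHiU (qm 256)).setHiA (qm 3072)).setHiD (qm 256)).setLoU (qm
    128)).setHiW (qm 128)).setLoD (qm 128)).setHiU (qm 192)).setLoW (qm 64)).setHiD (qm
    192)).setHiU (qm 160)).setHiW (qm 96)).setLoD (qm 160)).setLoA (qm 2560)).setHiA (qm
    2816)).setLoU (qm 144)).setLoU (qm 152)).setHiD (qm 176)).setLoD (qm 168)).setLoD (qm 172))
    (by decide +kernel))))
    (good_splitU (qm 156)
    (good_splitD (qm 184)
    (good_splitA (qm 2688)
    (good_of_check
    (R .t4n 3044028 6393645 4015739 5136384 13410586 93638 3107261 11829931 598570 106282 3107261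
    3151187 0 0 0 0 2568479 9450049)
    (((((((((((((((((((((((((root.setHiD (qm 2048)).setHiD (qm 1024)).setHiU (qm 512)).setLoA (qm
    2048)).setHiD (qm 512)).setHiU (qm 256)).setHiA (qm 3072)).setHiD (qm 256)).setLoU (qm
    128)).setHiW (qm 128)).setLoD (qm 128)).setHiU (qm 192)).setLoW (qm 64)).setHiD (qm
    192)).setHiU (qm 160)).setHiW (qm 96)).setLoD (qm 160)).setLoA (qm 2560)).setHiA (qm
    2816)).setLoU (qm 144)).setLoU (qm 152)).setLoD (qm 176)).setHiU (qm 156)).setHiD (qm
    184)).setHiA (qm 2688))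
    (by decide +kernel))
    (good_of_check
    (T 2852127 60801702 9836516 11770235 1682341 4472331 3399259 1036431 3185620 4213309 1611235
    3274180 2568479 63912791 19246119 11184825 24725060 16078640)
    (((((((((((((((((((((((((root.setHiD (qm 2048)).setHiD (qm 1024)).setHiU (qm 512)).setLoA (qm
    2048)).setHiD (qm 512)).setHiU (qm 256)).setHiA (qm 3072)).setHiD (qm 256)).setLoU (qm
    128)).setHiW (qm 128)).setLoD (qm 128)).setHiU (qm 192)).setLoW (qm 64)).setHiD (qm
    192)).setHiU (qm 160)).setHiW (qm 96)).setLoD (qm 160)).setLoA (qm 2560)).setHiA (qm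
    2816)).setLoU (qm 144)).setLoU (qm 152)).setLoD (qm 176)).setHiU (qm 156)).setHiD (qm
    184)).setLoA (qm 2688))
    (by decide +kernel)))
    (good_splitU (qm 154)
    (good_splitA (qm 2688)
    (good_of_check
    (R .t4n 3048195 6295270 4015739 5126827 13404727 90213 3101727 11828479 (-68156) 136427
    3101727 3123809 0 0 0 0 2568479 9422054)
    ((((((((((((((((((((((((((root.setHiD (qm 2048)).setHiD (qm 1024)).setHiU (qm 512)).setLoA (qm
    2048)).setHiD (qm 512)).setHiU (qm 256)).setHiA (qm 3072)).setHiD (qm 256)).setLoU (qm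
    128)).setHiW (qm 128)).setLoD (qm 128)).setHiU (qm 192)).setLoW (qm 64)).setHiD (qm
    192)).setHiU (qm 160)).setHiW (qm 96)).setLoD (qm 160)).setLoA (qm 2560)).setHiA (qm
    2816)).setLoU (qm 144)).setLoU (qm 152)).setLoD (qm 176)).setHiU (qm 156)).setLoD (qm
    184)).setHiU (qm 154)).setHiA (qm 2688))
    (by decide +kernel))
    (good_of_check
    (T 2852127 60935528 9836516 11770235 1715798 4476081 3436495 1033221 3177381 4181430 1625389
    3253124 2568479 64143448 19271267 11326563 24725060 16063674)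
    ((((((((((((((((((((((((((root.setHiD (qm 2048)).setHiD (qm 1024)).setHiU (qm 512)).setLoA (qm
    2048)).setHiD (qm 512)).setHiU (qm 256)).setHiA (qm 3072)).setHiD (qm 256)).setLoU (qm
    128)).setHiW (qm 128)).setLoD (qm 128)).setHiU (qm 192)).setLoW (qm 64)).setHiD (qm
    192)).setHiU (qm 160)).setHiW (qm 96)).setLoD (qm 160)).setLoA (qm 2560)).setHiA (qm
    2816)).setLoU (qm 144)).setLoU (qm 152)).setLoD (qm 176)).setHiU (qm 156)).setLoD (qm
    184)).setHiU (qm 154)).setLoA (qm 2688))
    (by decide +kernel)))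
    (good_of_check
    (R .t4n 3079336 5983701 3828857 5124096 13369541 59217 3123804 11828479 (-310590) 144345
    3123804 3145730 0 0 0 0 2568479 9220888)
    (((((((((((((((((((((((((root.setHiD (qm 2048)).setHiD (qm 1024)).setHiU (qm 512)).setLoA (qm
    2048)).setHiD (qm 512)).setHiU (qm 256)).setHiA (qm 3072)).setHiD (qm 256)).setLoU (qm
    128)).setHiW (qm 128)).setLoD (qm 128)).setHiU (qm 192)).setLoW (qm 64)).setHiD (qm
    192)).setHiU (qm 160)).setHiW (qm 96)).setLoD (qm 160)).setLoA (qm 2560)).setHiA (qm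
    2816)).setLoU (qm 144)).setLoU (qm 152)).setLoD (qm 176)).setHiU (qm 156)).setLoD (qm
    184)).setLoU (qm 154))
    (by decide +kernel))))
    (good_of_check
    (R .t4n 3090246 5951623 3828857 5125461 13355347 49057 3145726 11828479 310763 120257 3145726
    3189122 0 0 0 0 2568479 9152179)
    (((((((((((((((((((((((root.setHiD (qm 2048)).setHiD (qm 1024)).setHiU (qm 512)).setLoA (qm
    2048)).setHiD (qm 512)).setHiU (qm 256)).setHiA (qm 3072)).setHiD (qm 256)).setLoU (qm
    128)).setHiW (qm 128)).setLoD (qm 128)).setHiU (qm 192)).setLoW (qm 64)).setHiD (qm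
    192)).setHiU (qm 160)).setHiW (qm 96)).setLoD (qm 160)).setLoA (qm 2560)).setHiA (qm
    2816)).setLoU (qm 144)).setLoU (qm 152)).setLoD (qm 176)).setLoU (qm 156))
    (by decide +kernel))))))
    (good_of_check
    (T 2852127 57291359 9378750 12047220 1641161 4337481 3258954 1048764 3381001 4352801 1639422
    3315891 2568479 63176640 17841016 10593271 24813840 16108530)
    (((((((((((((((((((root.setHiD (qm 2048)).setHiD (qm 1024)).setHiU (qm 512)).setLoA (qm
    2048)).setHiD (qm 512)).setHiU (qm 256)).setHiA (qm 3072)).setHiD (qm 256)).setLoU (qm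
    128)).setHiW (qm 128)).setLoD (qm 128)).setHiU (qm 192)).setLoW (qm 64)).setHiD (qm
    192)).setHiU (qm 160)).setHiW (qm 96)).setLoD (qm 160)).setLoA (qm 2560)).setLoA (qm 2816))
    (by decide +kernel)))))
    (good_splitD (qm 160)
    (good_splitA (qm 2560)
    (good_of_check
    (R .t5n 2525119 7465137 4194303 5199189 13577080 209707 2936010 11855869 8608360 (-214677)
    2936010 3289257 2463286 (-22643) 2533996 2936015 2097154 6003193)
    ((((((((((((((((((root.setHiD (qm 2048)).setHiD (qm 1024)).setHiU (qm 512)).setLoA (qm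
    2048)).setHiD (qm 512)).setHiU (qm 256)).setHiA (qm 3072)).setHiD (qm 256)).setLoU (qm
    128)).setHiW (qm 128)).setLoD (qm 128)).setHiU (qm 192)).setLoW (qm 64)).setHiD (qm
    192)).setHiU (qm 160)).setLoW (qm 96)).setHiD (qm 160)).setHiA (qm 2560))
    (by decide +kernel))
    (good_splitA (qm 2816)
    (good_splitD (qm 144)
    (good_of_check
    (R .t5n 2546945 7302421 3828857 5210112 13522047 191749 2943491 11857723 8365699 (-216791)
    2943491 3295936 2350080 (-28803) 2542659 2943496 1816189 4440295)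
    ((((((((((((((((((((root.setHiD (qm 2048)).setHiD (qm 1024)).setHiU (qm 512)).setLoA (qm
    2048)).setHiD (qm 512)).setHiU (qm 256)).setHiA (qm 3072)).setHiD (qm 256)).setLoU (qm
    128)).setHiW (qm 128)).setLoD (qm 128)).setHiU (qm 192)).setLoW (qm 64)).setHiD (qm
    192)).setHiU (qm 160)).setLoW (qm 96)).setHiD (qm 160)).setLoA (qm 2560)).setHiA (qm
    2816)).setHiD (qm 144))
    (by decide +kernel))
    (good_splitU (qm 144)
    (good_of_check
    (R .t5n 2557855 7143291 3828857 5199189 13494508 182914 2936010 11855869 6666243 (-158463)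
    2936010 3117643 1890480 (-9220) 2533996 2936015 2097154 5788702)
    (((((((((((((((((((((root.setHiD (qm 2048)).setHiD (qm 1024)).setHiU (qm 512)).setLoA (qm
    2048)).setHiD (qm 512)).setHiU (qm 256)).setHiA (qm 3072)).setHiD (qm 256)).setLoU (qm
    128)).setHiW (qm 128)).setLoD (qm 128)).setHiU (qm 192)).setLoW (qm 64)).setHiD (qm
    192)).setHiU (qm 160)).setLoW (qm 96)).setHiD (qm 160)).setLoA (qm 2560)).setHiA (qm
    2816)).setLoD (qm 144)).setHiU (qm 144))
    (by decide +kernel))
    (good_of_check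
    (R .t5n 2608255 7042847 3828857 5177344 13447494 119906 3117638 11855869 8225709 (-223163)
    3117638 3289257 1141839 8326 2533996 2936015 2097154 5475829)
    (((((((((((((((((((((root.setHiD (qm 2048)).setHiD (qm 1024)).setHiU (qm 512)).setLoA (qm
    2048)).setHiD (qm 512)).setHiU (qm 256)).setHiA (qm 3072)).setHiD (qm 256)).setLoU (qm
    128)).setHiW (qm 128)).setLoD (qm 128)).setHiU (qm 192)).setLoW (qm 64)).setHiD (qm
    192)).setHiU (qm 160)).setLoW (qm 96)).setHiD (qm 160)).setLoA (qm 2560)).setHiA (qm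
    2816)).setLoD (qm 144)).setLoU (qm 144))
    (by decide +kernel))))
    (good_of_check
    (T 2852127 56625180 9378750 12047220 1474617 4139585 3606592 1064448 3622521 4117595 1563127
    3315891 2965823 62000689 16211961 12680185 24813840 16176643)
    (((((((((((((((((((root.setHiD (qm 2048)).setHiD (qm 1024)).setHiU (qm 512)).setLoA (qm
    2048)).setHiD (qm 512)).setHiU (qm 256)).setHiA (qm 3072)).setHiD (qm 256)).setLoU (qm
    128)).setHiW (qm 128)).setLoD (qm 128)).setHiU (qm 192)).setLoW (qm 64)).setHiD (qm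
    192)).setHiU (qm 160)).setLoW (qm 96)).setHiD (qm 160)).setLoA (qm 2560)).setLoA (qm 2816))
    (by decide +kernel))))
    (good_splitA (qm 2560)
    (good_splitD (qm 176)
    (good_of_check
    (R .u5 2293540 7229395 4194303 5166421 13435860 177253 2965818 11863286 9746408 (-261085)
    2965818 3315891 5038021 (-113948) 2568474 2965823 2344690 5638050)
    (((((((((((((((((((root.setHiD (qm 2048)).setHiD (qm 1024)).setHiU (qm 512)).setLoA (qm
    2048)).setHiD (qm 512)).setHiU (qm 256)).setHiA (qm 3072)).setHiD (qm 256)).setLoU (qm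
    128)).setHiW (qm 128)).setLoD (qm 128)).setHiU (qm 192)).setLoW (qm 64)).setHiD (qm
    192)).setHiU (qm 160)).setLoW (qm 96)).setLoD (qm 160)).setHiA (qm 2560)).setHiD (qm 176))
    (by decide +kernel))
    (good_of_check
    (R .u5 2296116 7204063 4194303 5144576 13447689 169119 2965818 11863286 9696615 (-260017)
    2965818 3315891 4990055 (-112937) 2568474 2965823 2568479 6670711)
    (((((((((((((((((((root.setHiD (qm 2048)).setHiD (qm 1024)).setHiU (qm 512)).setLoA (qm
    2048)).setHiD (qm 512)).setHiU (qm 256)).setHiA (qm 3072)).setHiD (qm 256)).setLoU (qm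
    128)).setHiW (qm 128)).setLoD (qm 128)).setHiU (qm 192)).setLoW (qm 64)).setHiD (qm
    192)).setHiU (qm 160)).setLoW (qm 96)).setLoD (qm 160)).setHiA (qm 2560)).setLoD (qm 176))
    (by decide +kernel)))
    (good_splitW (qm 112)
    (good_splitA (qm 2816)
    (good_splitD (qm 176)
    (good_splitD (qm 168)
    (good_of_check
    (R .t5n 2568765 7013772 3828857 5171883 13484741 168795 2932263 11854941 7616054 (-186133)
    2932263 3285912 (-12846) 39817 2529653 2738372 2224368 6357927)
    ((((((((((((((((((((((root.setHiD (qm 2048)).setHiD (qm 1024)).setHiU (qm 512)).setLoA (qm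
    2048)).setHiD (qm 512)).setHiU (qm 256)).setHiA (qm 3072)).setHiD (qm 256)).setLoU (qm
    128)).setHiW (qm 128)).setLoD (qm 128)).setHiU (qm 192)).setLoW (qm 64)).setHiD (qm
    192)).setHiU (qm 160)).setLoW (qm 96)).setLoD (qm 160)).setLoA (qm 2560)).setHiW (qm
    112)).setHiA (qm 2816)).setHiD (qm 176)).setHiD (qm 168))
    (by decide +kernel))
    (good_splitU (qm 144)
    (good_of_check
    (R .t5n 2564599 7027208 3828857 5171883 13490657 173558 2928511 11854014 6298749 (-141066)
    2928511 3110582 (-98858) 46276 2525303 2734354 2344690 6989974)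
    (((((((((((((((((((((((root.setHiD (qm 2048)).setHiD (qm 1024)).setHiU (qm 512)).setLoA (qm
    2048)).setHiD (qm 512)).setHiU (qm 256)).setHiA (qm 3072)).setHiD (qm 256)).setLoU (qm
    128)).setHiW (qm 128)).setLoD (qm 128)).setHiU (qm 192)).setLoW (qm 64)).setHiD (qm
    192)).setHiU (qm 160)).setLoW (qm 96)).setLoD (qm 160)).setLoA (qm 2560)).setHiW (qm
    112)).setHiA (qm 2816)).setHiD (qm 176)).setLoD (qm 168)).setHiU (qm 144))
    (by decide +kernel))
    (good_of_check
    (R .t5n 2625907 6835618 3828857 5150037 13416123 102313 3110577 11854014 7694681 (-201563)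
    3110577 3282565 (-608654) 58225 2525303 2734354 2344690 6559148)
    (((((((((((((((((((((((root.setHiD (qm 2048)).setHiD (qm 1024)).setHiU (qm 512)).setLoA (qm
    2048)).setHiD (qm 512)).setHiU (qm 256)).setHiA (qm 3072)).setHiD (qm 256)).setLoU (qm
    128)).setHiW (qm 128)).setLoD (qm 128)).setHiU (qm 192)).setLoW (qm 64)).setHiD (qm
    192)).setHiU (qm 160)).setLoW (qm 96)).setLoD (qm 160)).setLoA (qm 2560)).setHiW (qm
    112)).setHiA (qm 2816)).setHiD (qm 176)).setLoD (qm 168)).setLoU (qm 144))
    (by decide +kernel))))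
    (good_splitU (qm 144)
    (good_splitA (qm 2688)
    (good_splitD (qm 184)
    (good_of_check
    (R .u5 2296116 7204063 4015739 5160960 13433619 173440 2965818 11863286 8728192 (-229754)
    2965818 3145730 3621750 (-80867) 2568474 2774274 2459131 6160140)
    ((((((((((((((((((((((((root.setHiD (qm 2048)).setHiD (qm 1024)).setHiU (qm 512)).setLoA (qm
    2048)).setHiD (qm 512)).setHiU (qm 256)).setHiA (qm 3072)).setHiD (qm 256)).setLoU (qm
    128)).setHiW (qm 128)).setLoD (qm 128)).setHiU (qm 192)).setLoW (qm 64)).setHiD (qm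
    192)).setHiU (qm 160)).setLoW (qm 96)).setLoD (qm 160)).setLoA (qm 2560)).setHiW (qm
    112)).setHiA (qm 2816)).setLoD (qm 176)).setHiU (qm 144)).setHiA (qm 2688)).setHiD (qm 184))
    (by decide +kernel))
    (good_of_check
    (R .u5 2300284 7158934 4015739 5150037 13431127 166889 2965818 11863286 8646255 (-227974)
    2965818 3145730 3548864 (-79337) 2568474 2774274 2568479 6637293)
    ((((((((((((((((((((((((root.setHiD (qm 2048)).setHiD (qm 1024)).setHiU (qm 512)).setLoA (qm
    2048)).setHiD (qm 512)).setHiU (qm 256)).setHiA (qm 3072)).setHiD (qm 256)).setLoU (qm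
    128)).setHiW (qm 128)).setLoD (qm 128)).setHiU (qm 192)).setLoW (qm 64)).setHiD (qm
    192)).setHiU (qm 160)).setLoW (qm 96)).setLoD (qm 160)).setLoA (qm 2560)).setHiW (qm
    112)).setHiA (qm 2816)).setLoD (qm 176)).setHiU (qm 144)).setHiA (qm 2688)).setLoD (qm 184))
    (by decide +kernel)))
    (good_of_check
    (T 2852127 60712810 9836516 11770235 1660118 4231729 3660260 1038543 3471456 4014583 1601729
    3145730 2774274 63758099 16846805 12697341 24725060 16108530)
    (((((((((((((((((((((((root.setHiD (qm 2048)).setHiD (qm 1024)).setHiU (qm 512)).setLoA (qm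
    2048)).setHiD (qm 512)).setHiU (qm 256)).setHiA (qm 3072)).setHiD (qm 256)).setLoU (qm
    128)).setHiW (qm 128)).setLoD (qm 128)).setHiU (qm 192)).setLoW (qm 64)).setHiD (qm
    192)).setHiU (qm 160)).setLoW (qm 96)).setLoD (qm 160)).setLoA (qm 2560)).setHiW (qm
    112)).setHiA (qm 2816)).setLoD (qm 176)).setHiU (qm 144)).setLoA (qm 2688))
    (by decide +kernel)))
    (good_of_check
    (R .t5n 2619166 6849968 3828857 5133653 13437776 106239 3103499 11852159 7634260 (-192182)
    3103499 3275859 (-796205) 71554 2516580 2726300 2568479 7669232)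
    ((((((((((((((((((((((root.setHiD (qm 2048)).setHiD (qm 1024)).setHiU (qm 512)).setLoA (qm
    2048)).setHiD (qm 512)).setHiU (qm 256)).setHiA (qm 3072)).setHiD (qm 256)).setLoU (qm
    128)).setHiW (qm 128)).setLoD (qm 128)).setHiU (qm 192)).setLoW (qm 64)).setHiD (qm
    192)).setHiU (qm 160)).setLoW (qm 96)).setLoD (qm 160)).setLoA (qm 2560)).setHiW (qm
    112)).setHiA (qm 2816)).setLoD (qm 176)).setLoU (qm 144))
    (by decide +kernel))))
    (good_splitA (qm 2944)
    (good_splitA (qm 2880)
    (good_of_check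
    (T 2852127 57291359 9378750 12047220 1641161 4337481 3528586 1048764 3381001 4155481 1639422
    3315891 2774274 63176640 17841016 12015128 24747285 16108530)
    ((((((((((((((((((((((root.setHiD (qm 2048)).setHiD (qm 1024)).setHiU (qm 512)).setLoA (qm
    2048)).setHiD (qm 512)).setHiU (qm 256)).setHiA (qm 3072)).setHiD (qm 256)).setLoU (qm
    128)).setHiW (qm 128)).setLoD (qm 128)).setHiU (qm 192)).setLoW (qm 64)).setHiD (qm
    192)).setHiU (qm 160)).setLoW (qm 96)).setLoD (qm 160)).setLoA (qm 2560)).setHiW (qm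
    112)).setLoA (qm 2816)).setHiA (qm 2944)).setHiA (qm 2880))
    (by decide +kernel))
    (good_of_check
    (T 2852127 55509618 9141275 12183351 1590122 4202588 3418849 1057711 3553737 4262677 1639422
    3315891 2774274 62618142 16654528 11530070 24769490 16108530)
    ((((((((((((((((((((((root.setHiD (qm 2048)).setHiD (qm 1024)).setHiU (qm 512)).setLoA (qm
    2048)).setHiD (qm 512)).setHiU (qm 256)).setHiA (qm 3072)).setHiD (qm 256)).setLoU (qm
    128)).setHiW (qm 128)).setLoD (qm 128)).setHiU (qm 192)).setLoW (qm 64)).setHiD (qm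
    192)).setHiU (qm 160)).setLoW (qm 96)).setLoD (qm 160)).setLoA (qm 2560)).setHiW (qm
    112)).setLoA (qm 2816)).setHiA (qm 2944)).setLoA (qm 2880))
    (by decide +kernel)))
    (good_of_check
    (T 3187671 53792069 8897464 12317977 1540921 4135063 3356821 1191842 3558593 4227522 1639422
    3315891 2774274 54991655 16622747 11686063 24813840 16108530)
    (((((((((((((((((((((root.setHiD (qm 2048)).setHiD (qm 1024)).setHiU (qm 512)).setLoA (qm
    2048)).setHiD (qm 512)).setHiU (qm 256)).setHiA (qm 3072)).setHiD (qm 256)).setLoU (qm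
    128)).setHiW (qm 128)).setLoD (qm 128)).setHiU (qm 192)).setLoW (qm 64)).setHiD (qm
    192)).setHiU (qm 160)).setLoW (qm 96)).setLoD (qm 160)).setLoA (qm 2560)).setHiW (qm
    112)).setLoA (qm 2816)).setLoA (qm 2944))
    (by decide +kernel))))
    (good_splitD (qm 176)
    (good_splitU (qm 144)
    (good_of_check
    (R .t5n 2579674 6937351 3424633 5177344 13456774 160312 2936010 11855869 6215768 (-147070)
    2936010 3117643 3093889 (-49511) 2742380 2936015 2097154 5650740)
    (((((((((((((((((((((root.setHiD (qm 2048)).setHiD (qm 1024)).setHiU (qm 512)).setLoA (qm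
    2048)).setHiD (qm 512)).setHiU (qm 256)).setHiA (qm 3072)).setHiD (qm 256)).setLoU (qm
    128)).setHiW (qm 128)).setLoD (qm 128)).setHiU (qm 192)).setLoW (qm 64)).setHiD (qm
    192)).setHiU (qm 160)).setLoW (qm 96)).setLoD (qm 160)).setLoA (qm 2560)).setLoW (qm
    112)).setHiD (qm 176)).setHiU (qm 144))
    (by decide +kernel))
    (good_of_check
    (R .t5n 2632656 6819181 3424633 5155499 13403096 95734 3117638 11855869 7753767 (-210868)
    3117638 3289257 2094443 (-23841) 2742380 2936015 2097154 5331527)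
    (((((((((((((((((((((root.setHiD (qm 2048)).setHiD (qm 1024)).setHiU (qm 512)).setLoA (qm
    2048)).setHiD (qm 512)).setHiU (qm 256)).setHiA (qm 3072)).setHiD (qm 256)).setLoU (qm
    128)).setHiW (qm 128)).setLoD (qm 128)).setHiU (qm 192)).setLoW (qm 64)).setHiD (qm
    192)).setHiU (qm 160)).setLoW (qm 96)).setLoD (qm 160)).setLoA (qm 2560)).setLoW (qm
    112)).setHiD (qm 176)).setLoU (qm 144))
    (by decide +kernel)))
    (good_splitD (qm 184)
    (good_of_check
    (R .t5n 2593178 6787094 3424633 5150037 13438486 145130 2932263 11854941 7126144 (-173641)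
    2932263 3285912 2696240 (-35206) 2738367 2932268 2224368 6193972)
    (((((((((((((((((((((root.setHiD (qm 2048)).setHiD (qm 1024)).setHiU (qm 512)).setLoA (qm
    2048)).setHiD (qm 512)).setHiU (qm 256)).setHiA (qm 3072)).setHiD (qm 256)).setLoU (qm
    128)).setHiW (qm 128)).setLoD (qm 128)).setHiU (qm 192)).setLoW (qm 64)).setHiD (qm
    192)).setHiU (qm 160)).setLoW (qm 96)).setLoD (qm 160)).setLoA (qm 2560)).setLoW (qm
    112)).setLoD (qm 176)).setHiD (qm 184))
    (by decide +kernel))
    (good_of_check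
    (R .t5n 2604087 6663379 3424633 5139115 13413135 136339 2928511 11854014 6804849 (-161312)
    2928511 3282565 2354216 (-22230) 2734349 2928516 2344690 6708829)
    (((((((((((((((((((((root.setHiD (qm 2048)).setHiD (qm 1024)).setHiU (qm 512)).setLoA (qm
    2048)).setHiD (qm 512)).setHiU (qm 256)).setHiA (qm 3072)).setHiD (qm 256)).setLoU (qm
    128)).setHiW (qm 128)).setLoD (qm 128)).setHiU (qm 192)).setLoW (qm 64)).setHiD (qm
    192)).setHiU (qm 160)).setLoW (qm 96)).setLoD (qm 160)).setLoA (qm 2560)).setLoW (qm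
    112)).setLoD (qm 176)).setLoD (qm 184))
    (by decide +kernel))))))))
    (good_splitW (qm 96)
    (good_splitA (qm 2560)
    (good_splitD (qm 160)
    (good_of_check
    (R .t4n 3068426 6531655 4194303 5155499 13410666 59441 3210593 11834287 5862115 (-115631)
    3210593 3536518 0 0 0 0 2568479 9291776)
    ((((((((((((((((((root.setHiD (qm 2048)).setHiD (qm 1024)).setHiU (qm 512)).setLoA (qm
    2048)).setHiD (qm 512)).setHiU (qm 256)).setHiA (qm 3072)).setHiD (qm 256)).setLoU (qm
    128)).setHiW (qm 128)).setLoD (qm 128)).setHiU (qm 192)).setLoW (qm 64)).setHiD (qm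
    192)).setLoU (qm 160)).setHiW (qm 96)).setHiA (qm 2560)).setHiD (qm 160))
    (by decide +kernel))
    (good_of_check
    (R .t4n 3075169 6336215 4194303 5111808 13394174 57256 3189117 11828479 5041601 (-63535)
    3189117 3517033 0 0 0 0 2568479 9248255)
    ((((((((((((((((((root.setHiD (qm 2048)).setHiD (qm 1024)).setHiU (qm 512)).setLoA (qm
    2048)).setHiD (qm 512)).setHiU (qm 256)).setHiA (qm 3072)).setHiD (qm 256)).setLoU (qm
    128)).setHiW (qm 128)).setLoD (qm 128)).setHiU (qm 192)).setLoW (qm 64)).setHiD (qm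
    192)).setLoU (qm 160)).setHiW (qm 96)).setHiA (qm 2560)).setLoD (qm 160))
    (by decide +kernel)))
    (good_splitD (qm 160)
    (good_splitU (qm 176)
    (good_splitD (qm 144)
    (good_splitU (qm 168)
    (good_splitA (qm 2816)
    (good_of_check
    (R .t4n 3094413 6395739 3828857 5182805 13342949 45584 3221277 11837190 3091659 (-19731)
    3221277 3305513 0 0 0 0 2568479 9125110)
    ((((((((((((((((((((((root.setHiD (qm 2048)).setHiD (qm 1024)).setHiU (qm 512)).setLoA (qm
    2048)).setHiD (qm 512)).setHiU (qm 256)).setHiA (qm 3072)).setHiD (qm 256)).setLoU (qm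
    128)).setHiW (qm 128)).setLoD (qm 128)).setHiU (qm 192)).setLoW (qm 64)).setHiD (qm
    192)).setLoU (qm 160)).setHiW (qm 96)).setLoA (qm 2560)).setHiD (qm 160)).setHiU (qm
    176)).setHiD (qm 144)).setHiU (qm 168)).setHiA (qm 2816))
    (by decide +kernel))
    (good_of_check
    (T 2852127 56461050 9378750 12047220 1433584 4223689 3027931 1068178 3536393 4536238 1543465
    3397777 2568479 61695142 16927590 9880813 24813840 16151134)
    ((((((((((((((((((((((root.setHiD (qm 2048)).setHiD (qm 1024)).setHiU (qm 512)).setLoA (qm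
    2048)).setHiD (qm 512)).setHiU (qm 256)).setHiA (qm 3072)).setHiD (qm 256)).setLoU (qm
    128)).setHiW (qm 128)).setLoD (qm 128)).setHiU (qm 192)).setLoW (qm 64)).setHiD (qm
    192)).setLoU (qm 160)).setHiW (qm 96)).setLoA (qm 2560)).setHiD (qm 160)).setHiU (qm
    176)).setHiD (qm 144)).setHiU (qm 168)).setLoA (qm 2816))
    (by decide +kernel)))
    (good_of_check
    (R .t4n 3158313 5985794 3424633 5171883 13270081 (-16593) 3305508 11837190 3431510 (-40596)
    3305508 3387650 0 0 0 0 2568479 8734423)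
    (((((((((((((((((((((root.setHiD (qm 2048)).setHiD (qm 1024)).setHiU (qm 512)).setLoA (qm
    2048)).setHiD (qm 512)).setHiU (qm 256)).setHiA (qm 3072)).setHiD (qm 256)).setLoU (qm
    128)).setHiW (qm 128)).setLoD (qm 128)).setHiU (qm 192)).setLoW (qm 64)).setHiD (qm
    192)).setLoU (qm 160)).setHiW (qm 96)).setLoA (qm 2560)).setHiD (qm 160)).setHiU (qm
    176)).setHiD (qm 144)).setLoU (qm 168))
    (by decide +kernel)))
    (good_splitU (qm 168)
    (good_splitA (qm 2816)
    (good_of_check
    (R .t4n 3097013 6306227 3828857 5160960 13336663 44933 3210593 11834287 2634360 8176 3210593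
    3295101 0 0 0 0 2568479 9109087)
    ((((((((((((((((((((((root.setHiD (qm 2048)).setHiD (qm 1024)).setHiU (qm 512)).setLoA (qm
    2048)).setHiD (qm 512)).setHiU (qm 256)).setHiA (qm 3072)).setHiD (qm 256)).setLoU (qm
    128)).setHiW (qm 128)).setLoD (qm 128)).setHiU (qm 192)).setLoW (qm 64)).setHiD (qm
    192)).setLoU (qm 160)).setHiW (qm 96)).setLoA (qm 2560)).setHiD (qm 160)).setHiU (qm
    176)).setLoD (qm 144)).setHiU (qm 168)).setHiA (qm 2816))
    (by decide +kernel))
    (good_of_check
    (T 2852127 56790268 9378750 12047220 1515889 4322263 3119532 1060643 3413793 4465091 1582546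
    3397777 2568479 62301014 17763328 10148815 24813840 16117060)
    ((((((((((((((((((((((root.setHiD (qm 2048)).setHiD (qm 1024)).setHiU (qm 512)).setLoA (qm
    2048)).setHiD (qm 512)).setHiU (qm 256)).setHiA (qm 3072)).setHiD (qm 256)).setLoU (qm
    128)).setHiW (qm 128)).setLoD (qm 128)).setHiU (qm 192)).setLoW (qm 64)).setHiD (qm
    192)).setLoU (qm 160)).setHiW (qm 96)).setLoA (qm 2560)).setHiD (qm 160)).setHiU (qm
    176)).setLoD (qm 144)).setHiU (qm 168)).setLoA (qm 2816))
    (by decide +kernel)))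
    (good_of_check
    (R .t4n 3169234 5754892 3424633 5150037 13261405 (-27749) 3295096 11834287 2810650 (-6155)
    3295096 3377492 0 0 0 0 2568479 8669496)
    (((((((((((((((((((((root.setHiD (qm 2048)).setHiD (qm 1024)).setHiU (qm 512)).setLoA (qm
    2048)).setHiD (qm 512)).setHiU (qm 256)).setHiA (qm 3072)).setHiD (qm 256)).setLoU (qm
    128)).setHiW (qm 128)).setLoD (qm 128)).setHiU (qm 192)).setLoW (qm 64)).setHiD (qm
    192)).setLoU (qm 160)).setHiW (qm 96)).setLoA (qm 2560)).setHiD (qm 160)).setHiU (qm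
    176)).setLoD (qm 144)).setLoU (qm 168))
    (by decide +kernel))))
    (good_of_check
    (R .t4n 3200375 5685247 3424633 5144576 13241069 (-62627) 3377487 11834287 4630369 (-87899)
    3377487 3536518 0 0 0 0 2568479 8488604)
    (((((((((((((((((((root.setHiD (qm 2048)).setHiD (qm 1024)).setHiU (qm 512)).setLoA (qm
    2048)).setHiD (qm 512)).setHiU (qm 256)).setHiA (qm 3072)).setHiD (qm 256)).setLoU (qm
    128)).setHiW (qm 128)).setLoD (qm 128)).setHiU (qm 192)).setLoW (qm 64)).setHiD (qm
    192)).setLoU (qm 160)).setHiW (qm 96)).setLoA (qm 2560)).setHiD (qm 160)).setLoU (qm 176))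
    (by decide +kernel)))
    (good_splitU (qm 176)
    (good_splitD (qm 176)
    (good_splitU (qm 168)
    (good_splitA (qm 2816)
    (good_of_check
    (R .t4n 3097018 6171530 3828857 5139115 13351273 40734 3199873 11831383 2234296 34188 3199873
    3284657 0 0 0 0 2568479 9109032)
    ((((((((((((((((((((((root.setHiD (qm 2048)).setHiD (qm 1024)).setHiU (qm 512)).setLoA (qm
    2048)).setHiD (qm 512)).setHiU (qm 256)).setHiA (qm 3072)).setHiD (qm 256)).setLoU (qm
    128)).setHiW (qm 128)).setLoD (qm 128)).setHiU (qm 192)).setLoW (qm 64)).setHiD (qm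
    192)).setLoU (qm 160)).setHiW (qm 96)).setLoA (qm 2560)).setLoD (qm 160)).setHiU (qm
    176)).setHiD (qm 176)).setHiU (qm 168)).setHiA (qm 2816))
    (by decide +kernel))
    (good_splitA (qm 2944)
    (good_of_check
    (T 2852127 57123349 9378750 12047220 1599159 4421993 3212208 1052803 3283855 4391003 1620685
    3397777 2568479 62888390 18711442 10439015 24769490 16082914)
    (((((((((((((((((((((((root.setHiD (qm 2048)).setHiD (qm 1024)).setHiU (qm 512)).setLoA (qm
    2048)).setHiD (qm 512)).setHiU (qm 256)).setHiA (qm 3072)).setHiD (qm 256)).setLoU (qm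
    128)).setHiW (qm 128)).setLoD (qm 128)).setHiU (qm 192)).setLoW (qm 64)).setHiD (qm
    192)).setLoU (qm 160)).setHiW (qm 96)).setLoA (qm 2560)).setLoD (qm 160)).setHiU (qm
    176)).setHiD (qm 176)).setHiU (qm 168)).setLoA (qm 2816)).setHiA (qm 2944))
    (by decide +kernel))
    (good_of_check
    (T 3187671 53634321 8897464 12317977 1501484 4217345 3053406 1196068 3476363 4434754 1620685
    3397777 2568479 54687843 17329964 10266240 24813840 16082914)
    (((((((((((((((((((((((root.setHiD (qm 2048)).setHiD (qm 1024)).setHiU (qm 512)).setLoA (qm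
    2048)).setHiD (qm 512)).setHiU (qm 256)).setHiA (qm 3072)).setHiD (qm 256)).setLoU (qm
    128)).setHiW (qm 128)).setLoD (qm 128)).setHiU (qm 192)).setLoW (qm 64)).setHiD (qm
    192)).setLoU (qm 160)).setHiW (qm 96)).setLoA (qm 2560)).setLoD (qm 160)).setHiU (qm
    176)).setHiD (qm 176)).setHiU (qm 168)).setLoA (qm 2816)).setLoA (qm 2944))
    (by decide +kernel))))
    (good_of_check
    (R .t4n 3182723 5427721 3424633 5128192 13262264 (-45524) 3284652 11831383 2114652 31539
    3284652 3367303 0 0 0 0 2568479 8590396)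
    (((((((((((((((((((((root.setHiD (qm 2048)).setHiD (qm 1024)).setHiU (qm 512)).setLoA (qm
    2048)).setHiD (qm 512)).setHiU (qm 256)).setHiA (qm 3072)).setHiD (qm 256)).setLoU (qm
    128)).setHiW (qm 128)).setLoD (qm 128)).setHiU (qm 192)).setLoW (qm 64)).setHiD (qm
    192)).setLoU (qm 160)).setHiW (qm 96)).setLoA (qm 2560)).setLoD (qm 160)).setHiU (qm
    176)).setHiD (qm 176)).setLoU (qm 168))
    (by decide +kernel)))
    (good_splitU (qm 168)
    (good_splitA (qm 2816)
    (good_of_check
    (R .t4n 3112095 5887446 3828857 5117269 13333618 26773 3189117 11828479 1435947 75100 3189117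
    3274180 0 0 0 0 2568479 9016102)
    ((((((((((((((((((((((root.setHiD (qm 2048)).setHiD (qm 1024)).setHiU (qm 512)).setLoA (qm
    2048)).setHiD (qm 512)).setHiU (qm 256)).setHiA (qm 3072)).setHiD (qm 256)).setLoU (qm
    128)).setHiW (qm 128)).setLoD (qm 128)).setHiU (qm 192)).setLoW (qm 64)).setHiD (qm
    192)).setLoU (qm 160)).setHiW (qm 96)).setLoA (qm 2560)).setLoD (qm 160)).setHiU (qm
    176)).setLoD (qm 176)).setHiU (qm 168)).setHiA (qm 2816))
    (by decide +kernel))
    (good_splitA (qm 2944)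
    (good_splitA (qm 2880)
    (good_of_check
    (R .t4n 3123006 5705080 3731908 5117269 13328407 13589 3189117 11828479 1152205 85694 3189117
    3274180 0 0 0 0 2568479 8949034)
    ((((((((((((((((((((((((root.setHiD (qm 2048)).setHiD (qm 1024)).setHiU (qm 512)).setLoA (qm
    2048)).setHiD (qm 512)).setHiU (qm 256)).setHiA (qm 3072)).setHiD (qm 256)).setLoU (qm
    128)).setHiW (qm 128)).setLoD (qm 128)).setHiU (qm 192)).setLoW (qm 64)).setHiD (qm
    192)).setLoU (qm 160)).setHiW (qm 96)).setLoA (qm 2560)).setLoD (qm 160)).setHiU (qm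
    176)).setLoD (qm 176)).setHiU (qm 168)).setLoA (qm 2816)).setHiA (qm 2944)).setHiA (qm 2880))
    (by decide +kernel))
    (good_of_check
    (T 2852127 55673363 9141275 12183351 1631058 4382239 3203162 1053729 3341457 4408866 1657947
    3397777 2568479 62895499 18282875 10367978 24769490 16048695)
    ((((((((((((((((((((((((root.setHiD (qm 2048)).setHiD (qm 1024)).setHiU (qm 512)).setLoA (qm
    2048)).setHiD (qm 512)).setHiU (qm 256)).setHiA (qm 3072)).setHiD (qm 256)).setLoU (qm
    128)).setHiW (qm 128)).setLoD (qm 128)).setHiU (qm 192)).setLoW (qm 64)).setHiD (qm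
    192)).setLoU (qm 160)).setHiW (qm 96)).setLoA (qm 2560)).setLoD (qm 160)).setHiU (qm
    176)).setLoD (qm 176)).setHiU (qm 168)).setLoA (qm 2816)).setHiA (qm 2944)).setLoA (qm 2880))
    (by decide +kernel)))
    (good_of_check
    (T 2852127 53950747 8897464 12317977 1580591 4246646 3104052 1062532 3518936 4498610 1657947
    3397777 2568479 62353161 17043280 10021281 24813840 16048695)
    (((((((((((((((((((((((root.setHiD (qm 2048)).setHiD (qm 1024)).setHiU (qm 512)).setLoA (qm
    2048)).setHiD (qm 512)).setHiU (qm 256)).setHiA (qm 3072)).setHiD (qm 256)).setLoU (qm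
    128)).setHiW (qm 128)).setLoD (qm 128)).setHiU (qm 192)).setLoW (qm 64)).setHiD (qm
    192)).setLoU (qm 160)).setHiW (qm 96)).setLoA (qm 2560)).setLoD (qm 160)).setHiU (qm
    176)).setLoD (qm 176)).setHiU (qm 168)).setLoA (qm 2816)).setLoA (qm 2944))
    (by decide +kernel))))
    (good_of_check
    (R .t4n 3196208 5152331 3424633 5106347 13247909 (-58209) 3274175 11828479 1404196 70235
    3274175 3357084 0 0 0 0 2568479 8512116)
    (((((((((((((((((((((root.setHiD (qm 2048)).setHiD (qm 1024)).setHiU (qm 512)).setLoA (qm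
    2048)).setHiD (qm 512)).setHiU (qm 256)).setHiA (qm 3072)).setHiD (qm 256)).setLoU (qm
    128)).setHiW (qm 128)).setLoD (qm 128)).setHiU (qm 192)).setLoW (qm 64)).setHiD (qm
    192)).setLoU (qm 160)).setHiW (qm 96)).setLoA (qm 2560)).setLoD (qm 160)).setHiU (qm
    176)).setLoD (qm 176)).setLoU (qm 168))
    (by decide +kernel))))
    (good_of_check
    (R .t4n 3228943 5066243 3424633 5100885 13228791 (-95363) 3357079 11828479 3359050 (-16581)
    3357079 3517033 0 0 0 0 2568479 8326005)
    (((((((((((((((((((root.setHiD (qm 2048)).setHiD (qm 1024)).setHiU (qm 512)).setLoA (qm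
    2048)).setHiD (qm 512)).setHiU (qm 256)).setHiA (qm 3072)).setHiD (qm 256)).setLoU (qm
    128)).setHiW (qm 128)).setLoD (qm 128)).setHiU (qm 192)).setLoW (qm 64)).setHiD (qm
    192)).setLoU (qm 160)).setHiW (qm 96)).setLoA (qm 2560)).setLoD (qm 160)).setLoU (qm 176))
    (by decide +kernel)))))
    (good_splitD (qm 160)
    (good_splitD (qm 144)
    (good_of_check
    (R .t5n 2672133 6831433 3424633 5166421 13358688 49555 3295931 11857723 10138267 (-318684)
    3295931 3614169 637342 11340 2542659 2943496 1816189 3834665)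
    ((((((((((((((((((root.setHiD (qm 2048)).setHiD (qm 1024)).setHiU (qm 512)).setLoA (qm
    2048)).setHiD (qm 512)).setHiU (qm 256)).setHiA (qm 3072)).setHiD (qm 256)).setLoU (qm
    128)).setHiW (qm 128)).setLoD (qm 128)).setHiU (qm 192)).setLoW (qm 64)).setHiD (qm
    192)).setLoU (qm 160)).setLoW (qm 96)).setHiD (qm 160)).setHiD (qm 144))
    (by decide +kernel))
    (good_of_check
    (R .t5n 2685617 6672247 3424633 5144576 13333854 36805 3289252 11855869 9760660 (-301475)
    3289252 3608079 285738 28391 2533996 2936015 2097154 5033461)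
    ((((((((((((((((((root.setHiD (qm 2048)).setHiD (qm 1024)).setHiU (qm 512)).setLoA (qm
    2048)).setHiD (qm 512)).setHiU (qm 256)).setHiA (qm 3072)).setHiD (qm 256)).setLoU (qm
    128)).setHiW (qm 128)).setLoD (qm 128)).setHiU (qm 192)).setLoW (qm 64)).setHiD (qm
    192)).setLoU (qm 160)).setLoW (qm 96)).setHiD (qm 160)).setLoD (qm 144))
    (by decide +kernel)))
    (good_splitD (qm 176)
    (good_splitD (qm 168)
    (good_of_check
    (R .t5n 2685619 6651128 3424633 5128192 13342564 34255 3285907 11854941 9687778 (-295881)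
    3285907 3605031 174792 35419 2529653 2932268 2224368 5616478)
    (((((((((((((((((((root.setHiD (qm 2048)).setHiD (qm 1024)).setHiU (qm 512)).setLoA (qm
    2048)).setHiD (qm 512)).setHiU (qm 256)).setHiA (qm 3072)).setHiD (qm 256)).setLoU (qm
    128)).setHiW (qm 128)).setLoD (qm 128)).setHiU (qm 192)).setLoW (qm 64)).setHiD (qm
    192)).setLoU (qm 160)).setLoW (qm 96)).setLoD (qm 160)).setHiD (qm 176)).setHiD (qm 168))
    (by decide +kernel))
    (good_of_check
    (R .t5n 2683092 6653221 3424633 5117269 13353656 34814 3282560 11854014 9658420 (-291435)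
    3282560 3601979 85536 41955 2525303 2928516 2344690 6185030)
    (((((((((((((((((((root.setHiD (qm 2048)).setHiD (qm 1024)).setHiU (qm 512)).setLoA (qm
    2048)).setHiD (qm 512)).setHiU (qm 256)).setHiA (qm 3072)).setHiD (qm 256)).setLoU (qm
    128)).setHiW (qm 128)).setLoD (qm 128)).setHiU (qm 192)).setLoW (qm 64)).setHiD (qm
    192)).setLoU (qm 160)).setLoW (qm 96)).setLoD (qm 160)).setHiD (qm 176)).setLoD (qm 168))
    (by decide +kernel)))
    (good_splitD (qm 184)
    (good_of_check
    (R .t5n 2678926 6667568 3424633 5106347 13368661 36663 3279208 11853086 9657341 (-287734)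
    3279208 3598926 9805 48189 2520945 2924759 2459131 6737045)
    (((((((((((((((((((root.setHiD (qm 2048)).setHiD (qm 1024)).setHiU (qm 512)).setLoA (qm
    2048)).setHiD (qm 512)).setHiU (qm 256)).setHiA (qm 3072)).setHiD (qm 256)).setLoU (qm
    128)).setHiW (qm 128)).setLoD (qm 128)).setHiU (qm 192)).setLoW (qm 64)).setHiD (qm
    192)).setLoU (qm 160)).setLoW (qm 96)).setLoD (qm 160)).setLoD (qm 176)).setHiD (qm 184))
    (by decide +kernel))
    (good_splitD (qm 188)
    (good_of_check
    (R .t5n 2689834 6563740 3424633 5098155 13344792 27580 3277531 11852622 9430822 (-279816)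
    3277531 3597398 (-137586) 53878 2518763 2922879 2514399 6914584)
    ((((((((((((((((((((root.setHiD (qm 2048)).setHiD (qm 1024)).setHiU (qm 512)).setLoA (qm
    2048)).setHiD (qm 512)).setHiU (qm 256)).setHiA (qm 3072)).setHiD (qm 256)).setLoU (qm
    128)).setHiW (qm 128)).setLoD (qm 128)).setHiU (qm 192)).setLoW (qm 64)).setHiD (qm
    192)).setLoU (qm 160)).setLoW (qm 96)).setLoD (qm 160)).setLoD (qm 176)).setLoD (qm
    184)).setHiD (qm 188))
    (by decide +kernel))
    (good_splitU (qm 176)
    (good_of_check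
    (R .t5n 2685667 6588249 3424633 5103616 13348679 32726 3275854 11852159 8576418 (-244174)
    3275854 3439588 (-159191) 56624 2516580 2920997 2568479 7187119)
    (((((((((((((((((((((root.setHiD (qm 2048)).setHiD (qm 1024)).setHiU (qm 512)).setLoA (qm
    2048)).setHiD (qm 512)).setHiU (qm 256)).setHiA (qm 3072)).setHiD (qm 256)).setLoU (qm
    128)).setHiW (qm 128)).setLoD (qm 128)).setHiU (qm 192)).setLoW (qm 64)).setHiD (qm
    192)).setLoU (qm 160)).setLoW (qm 96)).setLoD (qm 160)).setLoD (qm 176)).setLoD (qm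
    184)).setLoD (qm 188)).setHiU (qm 176))
    (by decide +kernel))
    (good_of_check
    (R .t5n 2731886 6483117 3424633 5081771 13300263 (-21538) 3439583 11852159 9581508 (-299766)
    3439583 3595869 (-484541) 64249 2516580 2920997 2568479 6872772)
    (((((((((((((((((((((root.setHiD (qm 2048)).setHiD (qm 1024)).setHiU (qm 512)).setLoA (qm
    2048)).setHiD (qm 512)).setHiU (qm 256)).setHiA (qm 3072)).setHiD (qm 256)).setLoU (qm
    128)).setHiW (qm 128)).setLoD (qm 128)).setHiU (qm 192)).setLoW (qm 64)).setHiD (qm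
    192)).setLoU (qm 160)).setLoW (qm 96)).setLoD (qm 160)).setLoD (qm 176)).setLoD (qm
    184)).setLoD (qm 188)).setLoU (qm 176))
    (by decide +kernel)))))))))

end Vale.Agent.P226.Cert
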