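import Vale.Agent.P226.CertBox
import Vale.Agent.P226.CertSound

/-! Part 9 of the cover (P226). -/

namespace Vale.Agent.P226.Cert

set_option maxHeartbeats 4000000 in
/-- One subtree of the cover. -/
theorem sub16_good : BoxGood
    (((((((((((((((root.setHiD (qm 2048)).setHiD (qm 1024)).setHiU (qm 512)).setLoA (qm
    2048)).setHiD (qm 512)).setHiU (qm 256)).setHiA (qm 3072)).setHiD (qm 256)).setLoU (qm
    128)).setHiW (qm 128)).setLoD (qm 128)).setHiU (qm 192)).setLoW (qm 64)).setLoD (qm
    192)).setHiW (qm 96)) :=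
    (good_splitA (qm 2560)
    (good_splitD (qm 224)
    (good_splitU (qm 160)
    (good_splitW (qm 80)
    (good_splitU (qm 144)
    (good_of_check
    (R .u5 2296117 7204063 4194303 5122731 13466445 163378 2965818 11863286 8728165 (-229753)
    2965818 3145730 7077 (-68) 2097150 2344690 2344690 5619148)
    ((((((((((((((((((((root.setHiD (qm 2048)).setHiD (qm 1024)).setHiU (qm 512)).setLoA (qm
    2048)).setHiD (qm 512)).setHiU (qm 256)).setHiA (qm 3072)).setHiD (qm 256)).setLoU (qm
    128)).setHiW (qm 128)).setLoD (qm 128)).setHiU (qm 192)).setLoW (qm 64)).setLoD (qm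
    192)).setHiW (qm 96)).setHiA (qm 2560)).setHiD (qm 224)).setHiU (qm 160)).setHiW (qm
    80)).setHiU (qm 144))
    (by decide +kernel))
    (good_of_check
    (R .u5 2346511 7003964 4194303 5100885 13394123 100075 3145726 11863286 9721429 (-277311)
    3145726 3315891 0 42 2097150 2344690 2344690 5263595)
    ((((((((((((((((((((root.setHiD (qm 2048)).setHiD (qm 1024)).setHiU (qm 512)).setLoA (qm
    2048)).setHiD (qm 512)).setHiU (qm 256)).setHiA (qm 3072)).setHiD (qm 256)).setLoU (qm
    128)).setHiW (qm 128)).setLoD (qm 128)).setHiU (qm 192)).setLoW (qm 64)).setLoD (qm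
    192)).setHiW (qm 96)).setHiA (qm 2560)).setHiD (qm 224)).setHiU (qm 160)).setHiW (qm
    80)).setLoU (qm 144))
    (by decide +kernel)))
    (good_splitW (qm 88)
    (good_of_check
    (R .u5 2296117 7204063 4194303 5111808 13475825 160517 2965818 11863286 9696589 (-260016)
    2965818 3315891 466733 (-9046) 2344685 2459131 2459131 6160128)
    ((((((((((((((((((((root.setHiD (qm 2048)).setHiD (qm 1024)).setHiU (qm 512)).setLoA (qm
    2048)).setHiD (qm 512)).setHiU (qm 256)).setHiA (qm 3072)).setHiD (qm 256)).setLoU (qm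
    128)).setHiW (qm 128)).setLoD (qm 128)).setHiU (qm 192)).setLoW (qm 64)).setLoD (qm
    192)).setHiW (qm 96)).setHiA (qm 2560)).setHiD (qm 224)).setHiU (qm 160)).setLoW (qm
    80)).setHiW (qm 88))
    (by decide +kernel))
    (good_of_check
    (R .u5 2300284 7158934 4194303 5111808 13463752 156911 2965818 11863286 9616192 (-258285)
    2965818 3315891 1498923 (-31292) 2459126 2568479 2568479 6637293)
    ((((((((((((((((((((root.setHiD (qm 2048)).setHiD (qm 1024)).setHiU (qm 512)).setLoA (qm
    2048)).setHiD (qm 512)).setHiU (qm 256)).setHiA (qm 3072)).setHiD (qm 256)).setLoU (qm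
    128)).setHiW (qm 128)).setLoD (qm 128)).setHiU (qm 192)).setLoW (qm 64)).setLoD (qm
    192)).setHiW (qm 96)).setHiA (qm 2560)).setHiD (qm 224)).setHiU (qm 160)).setLoW (qm
    80)).setLoW (qm 88))
    (by decide +kernel))))
    (good_of_check
    (R .t4n 3094437 5866328 4194303 5068117 13380876 36746 3167496 11822668 3894356 1471 3167496
    3497440 0 0 0 0 2568479 9126453)
    ((((((((((((((((((root.setHiD (qm 2048)).setHiD (qm 1024)).setHiU (qm 512)).setLoA (qm
    2048)).setHiD (qm 512)).setHiU (qm 256)).setHiA (qm 3072)).setHiD (qm 256)).setLoU (qm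
    128)).setHiW (qm 128)).setLoD (qm 128)).setHiU (qm 192)).setLoW (qm 64)).setLoD (qm
    192)).setHiW (qm 96)).setHiA (qm 2560)).setHiD (qm 224)).setLoU (qm 160))
    (by decide +kernel)))
    (good_splitU (qm 160)
    (good_of_check
    (R .u5 2335592 6803542 4194303 5068117 13397907 116331 2965818 11863286 8942934 (-243496)
    2965818 3315891 319346 (-4947) 2097150 2568479 2568479 6358905)
    ((((((((((((((((((root.setHiD (qm 2048)).setHiD (qm 1024)).setHiU (qm 512)).setLoA (qm
    2048)).setHiD (qm 512)).setHiU (qm 256)).setHiA (qm 3072)).setHiD (qm 256)).setLoU (qm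
    128)).setHiW (qm 128)).setLoD (qm 128)).setHiU (qm 192)).setLoW (qm 64)).setLoD (qm
    192)).setHiW (qm 96)).setHiA (qm 2560)).setLoD (qm 224)).setHiU (qm 160))
    (by decide +kernel))
    (good_of_check
    (R .t4n 3118839 5274061 4194303 5024427 13363040 10724 3145726 11816854 2575790 74418 3145726
    3477736 0 0 0 0 2568479 8973947)
    ((((((((((((((((((root.setHiD (qm 2048)).setHiD (qm 1024)).setHiU (qm 512)).setLoA (qm
    2048)).setHiD (qm 512)).setHiU (qm 256)).setHiA (qm 3072)).setHiD (qm 256)).setLoU (qm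
    128)).setHiW (qm 128)).setLoD (qm 128)).setHiU (qm 192)).setLoW (qm 64)).setLoD (qm
    192)).setHiW (qm 96)).setHiA (qm 2560)).setLoD (qm 224)).setLoU (qm 160))
    (by decide +kernel))))
    (good_splitU (qm 160)
    (good_splitD (qm 224)
    (good_splitW (qm 80)
    (good_splitA (qm 2816)
    (good_splitU (qm 144)
    (good_splitA (qm 2688)
    (good_splitD (qm 208)
    (good_of_check
    (T 2684355 65177294 10273906 11486573 1867060 4594907 3382532 950374 3017194 4215187 1639422
    3145730 2344690 69813893 20415431 10501865 24680550 16074366)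
    (((((((((((((((((((((((root.setHiD (qm 2048)).setHiD (qm 1024)).setHiU (qm 512)).setLoA (qm
    2048)).setHiD (qm 512)).setHiU (qm 256)).setHiA (qm 3072)).setHiD (qm 256)).setLoU (qm
    128)).setHiW (qm 128)).setLoD (qm 128)).setHiU (qm 192)).setLoW (qm 64)).setLoD (qm
    192)).setHiW (qm 96)).setLoA (qm 2560)).setHiU (qm 160)).setHiD (qm 224)).setHiW (qm
    80)).setHiA (qm 2816)).setHiU (qm 144)).setHiA (qm 2688)).setHiD (qm 208))
    (by decide +kernel))
    (good_of_check
    (R .u5 2317939 6978304 4015739 5111808 13413313 141738 2965818 11863286 8301851 (-220419)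
    2965818 3145730 1185 24 2097150 2344690 2344690 5462774)
    (((((((((((((((((((((((root.setHiD (qm 2048)).setHiD (qm 1024)).setHiU (qm 512)).setLoA (qm
    2048)).setHiD (qm 512)).setHiU (qm 256)).setHiA (qm 3072)).setHiD (qm 256)).setLoU (qm
    128)).setHiW (qm 128)).setLoD (qm 128)).setHiU (qm 192)).setLoW (qm 64)).setLoD (qm
    192)).setHiW (qm 96)).setLoA (qm 2560)).setHiU (qm 160)).setHiD (qm 224)).setHiW (qm
    80)).setHiA (qm 2816)).setHiU (qm 144)).setHiA (qm 2688)).setLoD (qm 208))
    (by decide +kernel)))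
    (good_of_check
    (T 2852127 61431305 9836516 11770235 1839742 4441786 3285323 1021009 3207299 4271839 1676267
    3145730 2344690 64978442 18807681 10265079 24725060 16057256)
    ((((((((((((((((((((((root.setHiD (qm 2048)).setHiD (qm 1024)).setHiU (qm 512)).setLoA (qm
    2048)).setHiD (qm 512)).setHiU (qm 256)).setHiA (qm 3072)).setHiD (qm 256)).setLoU (qm
    128)).setHiW (qm 128)).setLoD (qm 128)).setHiU (qm 192)).setLoW (qm 64)).setLoD (qm
    192)).setHiW (qm 96)).setLoA (qm 2560)).setHiU (qm 160)).setHiD (qm 224)).setHiW (qm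
    80)).setHiA (qm 2816)).setHiU (qm 144)).setLoA (qm 2688))
    (by decide +kernel)))
    (good_splitD (qm 208)
    (good_splitU (qm 152)
    (good_splitA (qm 2688)
    (good_of_check
    (R .t4n 3004542 6291882 4015739 5117269 13454384 134111 3000373 11825574 (-998185) 184009
    3000373 3090635 0 0 0 0 2344690 8748057)
    ((((((((((((((((((((((((root.setHiD (qm 2048)).setHiD (qm 1024)).setHiU (qm 512)).setLoA (qm
    2048)).setHiD (qm 512)).setHiU (qm 256)).setHiA (qm 3072)).setHiD (qm 256)).setLoU (qm
    128)).setHiW (qm 128)).setLoD (qm 128)).setHiU (qm 192)).setLoW (qm 64)).setLoD (qm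
    192)).setHiW (qm 96)).setLoA (qm 2560)).setHiU (qm 160)).setHiD (qm 224)).setHiW (qm
    80)).setHiA (qm 2816)).setLoU (qm 144)).setHiD (qm 208)).setHiU (qm 152)).setHiA (qm 2688))
    (by decide +kernel))
    (good_of_check
    (T 2852127 61250092 9836516 11770235 1794439 4532939 3235756 1025532 3096152 4311780 1657947
    3231931 2344690 64676346 19902460 10102694 24725060 16048695)
    ((((((((((((((((((((((((root.setHiD (qm 2048)).setHiD (qm 1024)).setHiU (qm 512)).setLoA (qm
    2048)).setHiD (qm 512)).setHiU (qm 256)).setHiA (qm 3072)).setHiD (qm 256)).setLoU (qm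
    128)).setHiW (qm 128)).setLoD (qm 128)).setHiU (qm 192)).setLoW (qm 64)).setLoD (qm
    192)).setHiW (qm 96)).setLoA (qm 2560)).setHiU (qm 160)).setHiD (qm 224)).setHiW (qm
    80)).setHiA (qm 2816)).setLoU (qm 144)).setHiD (qm 208)).setHiU (qm 152)).setLoA (qm 2688))
    (by decide +kernel)))
    (good_of_check
    (R .t4n 3068426 5892926 3828857 5106347 13387239 68841 3090630 11825574 (-177679) 151322
    3090630 3178330 0 0 0 0 2344690 8349872)
    (((((((((((((((((((((((root.setHiD (qm 2048)).setHiD (qm 1024)).setHiU (qm 512)).setLoA (qm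
    2048)).setHiD (qm 512)).setHiU (qm 256)).setHiA (qm 3072)).setHiD (qm 256)).setLoU (qm
    128)).setHiW (qm 128)).setLoD (qm 128)).setHiU (qm 192)).setLoW (qm 64)).setLoD (qm
    192)).setHiW (qm 96)).setLoA (qm 2560)).setHiU (qm 160)).setHiD (qm 224)).setHiW (qm
    80)).setHiA (qm 2816)).setLoU (qm 144)).setHiD (qm 208)).setLoU (qm 152))
    (by decide +kernel)))
    (good_of_check
    (R .u5 2362020 6851262 3828857 5089963 13359110 84261 3145726 11863286 9435910 (-270871)
    3145726 3315891 0 42 2097150 2344690 2344690 5159561)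
    ((((((((((((((((((((((root.setHiD (qm 2048)).setHiD (qm 1024)).setHiU (qm 512)).setLoA (qm
    2048)).setHiD (qm 512)).setHiU (qm 256)).setHiA (qm 3072)).setHiD (qm 256)).setLoU (qm
    128)).setHiW (qm 128)).setLoD (qm 128)).setHiU (qm 192)).setLoW (qm 64)).setLoD (qm
    192)).setHiW (qm 96)).setLoA (qm 2560)).setHiU (qm 160)).setHiD (qm 224)).setHiW (qm
    80)).setHiA (qm 2816)).setLoU (qm 144)).setLoD (qm 208))
    (by decide +kernel))))
    (good_splitA (qm 2944)
    (good_splitA (qm 2880)
    (good_of_check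
    (T 2852127 57973399 9378750 12047220 1811671 4540090 3175882 1031783 3109035 4382758 1712320
    3315891 2344690 64304851 19953629 9823049 24747285 16040128)
    ((((((((((((((((((((((root.setHiD (qm 2048)).setHiD (qm 1024)).setHiU (qm 512)).setLoA (qm
    2048)).setHiD (qm 512)).setHiU (qm 256)).setHiA (qm 3072)).setHiD (qm 256)).setLoU (qm
    128)).setHiW (qm 128)).setLoD (qm 128)).setHiU (qm 192)).setLoW (qm 64)).setLoD (qm
    192)).setHiW (qm 96)).setLoA (qm 2560)).setHiU (qm 160)).setHiD (qm 224)).setHiW (qm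
    80)).setLoA (qm 2816)).setHiA (qm 2944)).setHiA (qm 2880))
    (by decide +kernel))
    (good_of_check
    (T 2852127 56170446 9141275 12183351 1755329 4398895 3077113 1041314 3306424 4471222 1712320
    3315891 2344690 63712420 18388883 9489764 24769490 16040128)
    ((((((((((((((((((((((root.setHiD (qm 2048)).setHiD (qm 1024)).setHiU (qm 512)).setLoA (qm
    2048)).setHiD (qm 512)).setHiU (qm 256)).setHiA (qm 3072)).setHiD (qm 256)).setLoU (qm
    128)).setHiW (qm 128)).setLoD (qm 128)).setHiU (qm 192)).setLoW (qm 64)).setLoD (qm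
    192)).setHiW (qm 96)).setLoA (qm 2560)).setHiU (qm 160)).setHiD (qm 224)).setHiW (qm
    80)).setLoA (qm 2816)).setHiA (qm 2944)).setLoA (qm 2880))
    (by decide +kernel)))
    (good_of_check
    (T 3187671 54432450 8897464 12317977 1701017 4326041 3013530 1174123 3329882 4426312 1712320
    3315891 2344690 56175767 18214119 9656903 24813840 16040128)
    (((((((((((((((((((((root.setHiD (qm 2048)).setHiD (qm 1024)).setHiU (qm 512)).setLoA (qm
    2048)).setHiD (qm 512)).setHiU (qm 256)).setHiA (qm 3072)).setHiD (qm 256)).setLoU (qm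
    128)).setHiW (qm 128)).setLoD (qm 128)).setHiU (qm 192)).setLoW (qm 64)).setLoD (qm
    192)).setHiW (qm 96)).setLoA (qm 2560)).setHiU (qm 160)).setHiD (qm 224)).setHiW (qm
    80)).setLoA (qm 2816)).setLoA (qm 2944))
    (by decide +kernel))))
    (good_splitA (qm 2816)
    (good_splitD (qm 208)
    (good_splitU (qm 144)
    (good_splitA (qm 2688)
    (good_splitU (qm 136)
    (good_of_check
    (T 2852127 64986158 10273906 11486573 1819276 4418970 3654355 1014456 3210187 3964891 1620685
    3057101 2568479 65363540 18584712 12359944 24680550 16082914)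
    ((((((((((((((((((((((((root.setHiD (qm 2048)).setHiD (qm 1024)).setHiU (qm 512)).setLoA (qm
    2048)).setHiD (qm 512)).setHiU (qm 256)).setHiA (qm 3072)).setHiD (qm 256)).setLoU (qm
    128)).setHiW (qm 128)).setLoD (qm 128)).setHiU (qm 192)).setLoW (qm 64)).setLoD (qm
    192)).setHiW (qm 96)).setLoA (qm 2560)).setHiU (qm 160)).setHiD (qm 224)).setLoW (qm
    80)).setHiA (qm 2816)).setHiD (qm 208)).setHiU (qm 144)).setHiA (qm 2688)).setHiU (qm 136))
    (by decide +kernel))
    (good_splitA (qm 2624)
    (good_of_check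
    (R .u5 2320514 7114590 4105991 5128192 13419361 136319 3057096 11863286 8791730 (-238290)
    3057096 3145730 768914 (-14972) 2344685 2568479 2568479 6476815)
    (((((((((((((((((((((((((root.setHiD (qm 2048)).setHiD (qm 1024)).setHiU (qm 512)).setLoA (qm
    2048)).setHiD (qm 512)).setHiU (qm 256)).setHiA (qm 3072)).setHiD (qm 256)).setLoU (qm
    128)).setHiW (qm 128)).setLoD (qm 128)).setHiU (qm 192)).setLoW (qm 64)).setLoD (qm
    192)).setHiW (qm 96)).setLoA (qm 2560)).setHiU (qm 160)).setHiD (qm 224)).setLoW (qm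
    80)).setHiA (qm 2816)).setHiD (qm 208)).setHiU (qm 144)).setHiA (qm 2688)).setLoU (qm
    136)).setHiA (qm 2624))
    (by decide +kernel))
    (good_of_check
    (T 2852127 63079119 10057589 11629269 1806956 4478796 3588184 1020054 3151405 4036503 1639422
    3145730 2568479 65015086 19261995 12003988 24680550 16065813)
    (((((((((((((((((((((((((root.setHiD (qm 2048)).setHiD (qm 1024)).setHiU (qm 512)).setLoA (qm
    2048)).setHiD (qm 512)).setHiU (qm 256)).setHiA (qm 3072)).setHiD (qm 256)).setLoU (qm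
    128)).setHiW (qm 128)).setLoD (qm 128)).setHiU (qm 192)).setLoW (qm 64)).setLoD (qm
    192)).setHiW (qm 96)).setLoA (qm 2560)).setHiU (qm 160)).setHiD (qm 224)).setLoW (qm
    80)).setHiA (qm 2816)).setHiD (qm 208)).setHiU (qm 144)).setHiA (qm 2688)).setLoU (qm
    136)).setLoA (qm 2624))
    (by decide +kernel))))
    (good_of_check
    (T 2852127 61069944 9836516 11770235 1749402 4336140 3473895 1029960 3343467 4149004 1639422
    3145730 2568479 64372653 17760204 11473352 24725060 16074366)
    (((((((((((((((((((((((root.setHiD (qm 2048)).setHiD (qm 1024)).setHiU (qm 512)).setLoA (qm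
    2048)).setHiD (qm 512)).setHiU (qm 256)).setHiA (qm 3072)).setHiD (qm 256)).setLoU (qm
    128)).setHiW (qm 128)).setLoD (qm 128)).setHiU (qm 192)).setLoW (qm 64)).setLoD (qm
    192)).setHiW (qm 96)).setLoA (qm 2560)).setHiU (qm 160)).setHiD (qm 224)).setLoW (qm
    80)).setHiA (qm 2816)).setHiD (qm 208)).setHiU (qm 144)).setLoA (qm 2688))
    (by decide +kernel)))
    (good_splitW (qm 88)
    (good_splitW (qm 84)
    (good_of_check
    (R .u5 2344368 7026825 3828857 5111808 13391214 104660 3145726 11863286 9761081 (-278197)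
    3145726 3315891 46398 (-864) 2344685 2402592 2402592 5541914)
    ((((((((((((((((((((((((root.setHiD (qm 2048)).setHiD (qm 1024)).setHiU (qm 512)).setLoA (qm
    2048)).setHiD (qm 512)).setHiU (qm 256)).setHiA (qm 3072)).setHiD (qm 256)).setLoU (qm
    128)).setHiW (qm 128)).setLoD (qm 128)).setHiU (qm 192)).setLoW (qm 64)).setLoD (qm
    192)).setHiW (qm 96)).setLoA (qm 2560)).setHiU (qm 160)).setHiD (qm 224)).setLoW (qm
    80)).setHiA (qm 2816)).setHiD (qm 208)).setLoU (qm 144)).setHiW (qm 88)).setHiW (qm 84))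
    (by decide +kernel))
    (good_splitU (qm 152)
    (good_of_check
    (R .u5 2346511 7004906 3828857 5117269 13380598 104200 3145726 11863286 9277992 (-261721)
    3145726 3231931 277313 (-5604) 2402587 2459131 2459131 5783751)
    (((((((((((((((((((((((((root.setHiD (qm 2048)).setHiD (qm 1024)).setHiU (qm 512)).setLoA (qm
    2048)).setHiD (qm 512)).setHiU (qm 256)).setHiA (qm 3072)).setHiD (qm 256)).setLoU (qm
    128)).setHiW (qm 128)).setLoD (qm 128)).setHiU (qm 192)).setLoW (qm 64)).setLoD (qm
    192)).setHiW (qm 96)).setLoA (qm 2560)).setHiU (qm 160)).setHiD (qm 224)).setLoW (qm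
    80)).setHiA (qm 2816)).setHiD (qm 208)).setLoU (qm 144)).setHiW (qm 88)).setLoW (qm
    84)).setHiU (qm 152))
    (by decide +kernel))
    (good_of_check
    (R .u5 2368773 6926394 3828857 5106347 13350750 75998 3231926 11863286 9759638 (-285524)
    3231926 3315891 155907 (-3146) 2402587 2459131 2459131 5625339)
    (((((((((((((((((((((((((root.setHiD (qm 2048)).setHiD (qm 1024)).setHiU (qm 512)).setLoA (qm
    2048)).setHiD (qm 512)).setHiU (qm 256)).setHiA (qm 3072)).setHiD (qm 256)).setLoU (qm
    128)).setHiW (qm 128)).setLoD (qm 128)).setHiU (qm 192)).setLoW (qm 64)).setLoD (qm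
    192)).setHiW (qm 96)).setLoA (qm 2560)).setHiU (qm 160)).setHiD (qm 224)).setLoW (qm
    80)).setHiA (qm 2816)).setHiD (qm 208)).setLoU (qm 144)).setHiW (qm 88)).setLoW (qm
    84)).setLoU (qm 152))
    (by decide +kernel))))
    (good_splitD (qm 200)
    (good_splitW (qm 92)
    (good_of_check
    (R .u5 2348534 6983783 3828857 5117269 13374780 102496 3145726 11863286 9684054 (-276474)
    3145726 3315891 667191 (-13997) 2459126 2514399 2514399 6017822)
    (((((((((((((((((((((((((root.setHiD (qm 2048)).setHiD (qm 1024)).setHiU (qm 512)).setLoA (qm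
    2048)).setHiD (qm 512)).setHiU (qm 256)).setHiA (qm 3072)).setHiD (qm 256)).setLoU (qm
    128)).setHiW (qm 128)).setLoD (qm 128)).setHiU (qm 192)).setLoW (qm 64)).setLoD (qm
    192)).setHiW (qm 96)).setLoA (qm 2560)).setHiU (qm 160)).setHiD (qm 224)).setLoW (qm
    80)).setHiA (qm 2816)).setHiD (qm 208)).setLoU (qm 144)).setLoW (qm 88)).setHiD (qm
    200)).setHiW (qm 92))
    (by decide +kernel))
    (good_of_check
    (R .u5 2348534 6983783 3828857 5117269 13374780 102496 3145726 11863286 9684054 (-276474)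
    3145726 3315891 1185676 (-25642) 2514394 2568479 2568479 6261732)
    (((((((((((((((((((((((((root.setHiD (qm 2048)).setHiD (qm 1024)).setHiU (qm 512)).setLoA (qm
    2048)).setHiD (qm 512)).setHiU (qm 256)).setHiA (qm 3072)).setHiD (qm 256)).setLoU (qm
    128)).setHiW (qm 128)).setLoD (qm 128)).setHiU (qm 192)).setLoW (qm 64)).setLoD (qm
    192)).setHiW (qm 96)).setLoA (qm 2560)).setHiU (qm 160)).setHiD (qm 224)).setLoW (qm
    80)).setHiA (qm 2816)).setHiD (qm 208)).setLoU (qm 144)).setLoW (qm 88)).setHiD (qm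
    200)).setLoW (qm 92))
    (by decide +kernel)))
    (good_of_check
    (R .u5 2351109 6958477 3828857 5106347 13376636 97520 3145726 11863286 9636526 (-275407)
    3145726 3315891 899561 (-19009) 2459126 2568479 2568479 6241083)
    ((((((((((((((((((((((((root.setHiD (qm 2048)).setHiD (qm 1024)).setHiU (qm 512)).setLoA (qm
    2048)).setHiD (qm 512)).setHiU (qm 256)).setHiA (qm 3072)).setHiD (qm 256)).setLoU (qm
    128)).setHiW (qm 128)).setLoD (qm 128)).setHiU (qm 192)).setLoW (qm 64)).setLoD (qm
    192)).setHiW (qm 96)).setLoA (qm 2560)).setHiU (qm 160)).setHiD (qm 224)).setLoW (qm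
    80)).setHiA (qm 2816)).setHiD (qm 208)).setLoU (qm 144)).setLoW (qm 88)).setLoD (qm 200))
    (by decide +kernel)))))
    (good_splitU (qm 144)
    (good_splitA (qm 2688)
    (good_of_check
    (R .u5 2317939 6978304 4015739 5111808 13413313 141738 2965818 11863286 8301851 (-220419)
    2965818 3145730 792635 (-15434) 2344685 2568479 2568479 6496628)
    (((((((((((((((((((((((root.setHiD (qm 2048)).setHiD (qm 1024)).setHiU (qm 512)).setLoA (qm
    2048)).setHiD (qm 512)).setHiU (qm 256)).setHiA (qm 3072)).setHiD (qm 256)).setLoU (qm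
    128)).setHiW (qm 128)).setLoD (qm 128)).setHiU (qm 192)).setLoW (qm 64)).setLoD (qm
    192)).setHiW (qm 96)).setLoA (qm 2560)).setHiU (qm 160)).setHiD (qm 224)).setLoW (qm
    80)).setHiA (qm 2816)).setLoD (qm 208)).setHiU (qm 144)).setHiA (qm 2688))
    (by decide +kernel))
    (good_of_check
    (T 2852127 61431305 9836516 11770235 1839742 4441786 3574439 1021009 3207299 4059750 1676267
    3145730 2568479 64978442 18807681 11891542 24725060 16040128)
    (((((((((((((((((((((((root.setHiD (qm 2048)).setHiD (qm 1024)).setHiU (qm 512)).setLoA (qm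
    2048)).setHiD (qm 512)).setHiU (qm 256)).setHiA (qm 3072)).setHiD (qm 256)).setLoU (qm
    128)).setHiW (qm 128)).setLoD (qm 128)).setHiU (qm 192)).setLoW (qm 64)).setLoD (qm
    192)).setHiW (qm 96)).setLoA (qm 2560)).setHiU (qm 160)).setHiD (qm 224)).setLoW (qm
    80)).setHiA (qm 2816)).setLoD (qm 208)).setHiU (qm 144)).setLoA (qm 2688))
    (by decide +kernel)))
    (good_of_check
    (R .u5 2362020 6851262 3828857 5089963 13359110 84261 3145726 11863286 9435910 (-270871)
    3145726 3315891 446168 (-8672) 2344685 2568479 2568479 6159785)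
    ((((((((((((((((((((((root.setHiD (qm 2048)).setHiD (qm 1024)).setHiU (qm 512)).setLoA (qm
    2048)).setHiD (qm 512)).setHiU (qm 256)).setHiA (qm 3072)).setHiD (qm 256)).setLoU (qm
    128)).setHiW (qm 128)).setLoD (qm 128)).setHiU (qm 192)).setLoW (qm 64)).setLoD (qm
    192)).setHiW (qm 96)).setLoA (qm 2560)).setHiU (qm 160)).setHiD (qm 224)).setLoW (qm
    80)).setHiA (qm 2816)).setLoD (qm 208)).setLoU (qm 144))
    (by decide +kernel))))
    (good_splitU (qm 144)
    (good_of_check
    (T 3187671 57630361 9378750 12047220 1725912 4227232 3393460 1162846 3412179 4142642 1676267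
    3145730 2568479 56659648 17261668 11502467 24813840 16057256)
    (((((((((((((((((((((root.setHiD (qm 2048)).setHiD (qm 1024)).setHiU (qm 512)).setLoA (qm
    2048)).setHiD (qm 512)).setHiU (qm 256)).setHiA (qm 3072)).setHiD (qm 256)).setLoU (qm
    128)).setHiW (qm 128)).setLoD (qm 128)).setHiU (qm 192)).setLoW (qm 64)).setLoD (qm
    192)).setHiW (qm 96)).setLoA (qm 2560)).setHiU (qm 160)).setHiD (qm 224)).setLoW (qm
    80)).setLoA (qm 2816)).setHiU (qm 144))
    (by decide +kernel))
    (good_splitA (qm 2944)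
    (good_splitD (qm 208)
    (good_splitA (qm 2880)
    (good_of_check
    (T 2852127 57630361 9378750 12047220 1725912 4438187 3353278 1040441 3249305 4273950 1676267
    3315891 2568479 63744807 18824046 10922053 24747285 16040128)
    ((((((((((((((((((((((((root.setHiD (qm 2048)).setHiD (qm 1024)).setHiU (qm 512)).setLoA (qm
    2048)).setHiD (qm 512)).setHiU (qm 256)).setHiA (qm 3072)).setHiD (qm 256)).setLoU (qm
    128)).setHiW (qm 128)).setLoD (qm 128)).setHiU (qm 192)).setLoW (qm 64)).setLoD (qm
    192)).setHiW (qm 96)).setLoA (qm 2560)).setHiU (qm 160)).setHiD (qm 224)).setLoW (qm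
    80)).setLoA (qm 2816)).setLoU (qm 144)).setHiA (qm 2944)).setHiD (qm 208)).setHiA (qm 2880))
    (by decide +kernel))
    (good_of_check
    (T 2852127 55838077 9141275 12183351 1672237 4300161 3248992 1049670 3433602 4371275 1676267
    3315891 2568479 63170022 17467856 10518274 24769490 16040128)
    ((((((((((((((((((((((((root.setHiD (qm 2048)).setHiD (qm 1024)).setHiU (qm 512)).setLoA (qm
    2048)).setHiD (qm 512)).setHiU (qm 256)).setHiA (qm 3072)).setHiD (qm 256)).setLoU (qm
    128)).setHiW (qm 128)).setLoD (qm 128)).setHiU (qm 192)).setLoW (qm 64)).setLoD (qm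
    192)).setHiW (qm 96)).setLoA (qm 2560)).setHiU (qm 160)).setHiD (qm 224)).setLoW (qm
    80)).setLoA (qm 2816)).setLoU (qm 144)).setHiA (qm 2944)).setHiD (qm 208)).setLoA (qm 2880))
    (by decide +kernel)))
    (good_splitU (qm 152)
    (good_of_check
    (T 2852127 57801371 9378750 12047220 1768664 4352971 3400859 1036155 3347821 4233250 1694389
    3231931 2568479 64025602 17913108 11097438 24769490 16014402)
    ((((((((((((((((((((((((root.setHiD (qm 2048)).setHiD (qm 1024)).setHiU (qm 512)).setLoA (qm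
    2048)).setHiD (qm 512)).setHiU (qm 256)).setHiA (qm 3072)).setHiD (qm 256)).setLoU (qm
    128)).setHiW (qm 128)).setLoD (qm 128)).setHiU (qm 192)).setLoW (qm 64)).setLoD (qm
    192)).setHiW (qm 96)).setLoA (qm 2560)).setHiU (qm 160)).setHiD (qm 224)).setLoW (qm
    80)).setLoA (qm 2816)).setLoU (qm 144)).setHiA (qm 2944)).setLoD (qm 208)).setHiU (qm 152))
    (by decide +kernel))
    (good_splitW (qm 88)
    (good_of_check
    (R .u5 2379681 6821273 3632372 5084501 13337992 61368 3231926 11863286 9562705 (-281017)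
    3231926 3315891 56151 (-1054) 2344685 2459131 2459131 5550230)
    (((((((((((((((((((((((((root.setHiD (qm 2048)).setHiD (qm 1024)).setHiU (qm 512)).setLoA (qm
    2048)).setHiD (qm 512)).setHiU (qm 256)).setHiA (qm 3072)).setHiD (qm 256)).setLoU (qm
    128)).setHiW (qm 128)).setLoD (qm 128)).setHiU (qm 192)).setLoW (qm 64)).setLoD (qm
    192)).setHiW (qm 96)).setLoA (qm 2560)).setHiU (qm 160)).setHiD (qm 224)).setLoW (qm
    80)).setLoA (qm 2816)).setLoU (qm 144)).setHiA (qm 2944)).setLoD (qm 208)).setLoU (qm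
    152)).setHiW (qm 88))
    (by decide +kernel))
    (good_of_check
    (R .u5 2379681 6821273 3632372 5084501 13337992 61368 3231926 11863286 9562705 (-281017)
    3231926 3315891 627401 (-13327) 2459126 2568479 2568479 6030491)
    (((((((((((((((((((((((((root.setHiD (qm 2048)).setHiD (qm 1024)).setHiU (qm 512)).setLoA (qm
    2048)).setHiD (qm 512)).setHiU (qm 256)).setHiA (qm 3072)).setHiD (qm 256)).setLoU (qm
    128)).setHiW (qm 128)).setLoD (qm 128)).setHiU (qm 192)).setLoW (qm 64)).setLoD (qm
    192)).setHiW (qm 96)).setLoA (qm 2560)).setHiU (qm 160)).setHiD (qm 224)).setLoW (qm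
    80)).setLoA (qm 2816)).setLoU (qm 144)).setHiA (qm 2944)).setLoD (qm 208)).setLoU (qm
    152)).setLoW (qm 88))
    (by decide +kernel)))))
    (good_of_check
    (T 2852127 54432450 8897464 12317977 1701017 4262788 3238080 1050531 3485112 4389817 1712320
    3315891 2568479 63146528 17112649 10443755 24813840 16022982)
    ((((((((((((((((((((((root.setHiD (qm 2048)).setHiD (qm 1024)).setHiU (qm 512)).setLoA (qm
    2048)).setHiD (qm 512)).setHiU (qm 256)).setHiA (qm 3072)).setHiD (qm 256)).setLoU (qm
    128)).setHiW (qm 128)).setLoD (qm 128)).setHiU (qm 192)).setLoW (qm 64)).setLoD (qm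
    192)).setHiW (qm 96)).setLoA (qm 2560)).setHiU (qm 160)).setHiD (qm 224)).setLoW (qm
    80)).setLoA (qm 2816)).setLoU (qm 144)).setLoA (qm 2944))
    (by decide +kernel))))))
    (good_splitW (qm 80)
    (good_splitU (qm 144)
    (good_splitA (qm 2816)
    (good_of_check
    (R .u5 2335602 6801450 3828857 5079040 13388787 119044 2965818 11863286 7961797 (-212837)
    2965818 3145730 47 42 2097150 2344690 2344690 5338423)
    (((((((((((((((((((((root.setHiD (qm 2048)).setHiD (qm 1024)).setHiU (qm 512)).setLoA (qm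
    2048)).setHiD (qm 512)).setHiU (qm 256)).setHiA (qm 3072)).setHiD (qm 256)).setLoU (qm
    128)).setHiW (qm 128)).setLoD (qm 128)).setHiU (qm 192)).setLoW (qm 64)).setLoD (qm
    192)).setHiW (qm 96)).setLoA (qm 2560)).setHiU (qm 160)).setLoD (qm 224)).setHiW (qm
    80)).setHiU (qm 144)).setHiA (qm 2816))
    (by decide +kernel))
    (good_of_check
    (T 2852127 58320545 9378750 12047220 1898458 4368740 3270838 1022774 3314241 4306110 1747629
    3145730 2344690 64871933 17978205 10125521 24813840 15988635)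
    (((((((((((((((((((((root.setHiD (qm 2048)).setHiD (qm 1024)).setHiU (qm 512)).setLoA (qm
    2048)).setHiD (qm 512)).setHiU (qm 256)).setHiA (qm 3072)).setHiD (qm 256)).setLoU (qm
    128)).setHiW (qm 128)).setLoD (qm 128)).setHiU (qm 192)).setLoW (qm 64)).setLoD (qm
    192)).setHiW (qm 96)).setLoA (qm 2560)).setHiU (qm 160)).setLoD (qm 224)).setHiW (qm
    80)).setHiU (qm 144)).setLoA (qm 2816))
    (by decide +kernel)))
    (good_of_check
    (R .u4 2742795 5914048 3424633 5057195 13256262 (-25851) 3145726 11863286 6438384 (-205491)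
    3145726 3315891 0 0 0 0 2344690 5820802)
    ((((((((((((((((((((root.setHiD (qm 2048)).setHiD (qm 1024)).setHiU (qm 512)).setLoA (qm
    2048)).setHiD (qm 512)).setHiU (qm 256)).setHiA (qm 3072)).setHiD (qm 256)).setLoU (qm
    128)).setHiW (qm 128)).setLoD (qm 128)).setHiU (qm 192)).setLoW (qm 64)).setLoD (qm
    192)).setHiW (qm 96)).setLoA (qm 2560)).setHiU (qm 160)).setLoD (qm 224)).setHiW (qm
    80)).setLoU (qm 144))
    (by decide +kernel)))
    (good_splitA (qm 2816)
    (good_splitW (qm 88)
    (good_of_check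
    (R .u5 2335602 6801450 3828857 5068117 13397643 116366 2965818 11863286 8942745 (-243492)
    2965818 3315891 210015 (-4059) 2344685 2459131 2459131 5863620)
    (((((((((((((((((((((root.setHiD (qm 2048)).setHiD (qm 1024)).setHiU (qm 512)).setLoA (qm
    2048)).setHiD (qm 512)).setHiU (qm 256)).setHiA (qm 3072)).setHiD (qm 256)).setLoU (qm
    128)).setHiW (qm 128)).setLoD (qm 128)).setHiU (qm 192)).setLoW (qm 64)).setLoD (qm
    192)).setHiW (qm 96)).setLoA (qm 2560)).setHiU (qm 160)).setLoD (qm 224)).setLoW (qm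
    80)).setHiA (qm 2816)).setHiW (qm 88))
    (by decide +kernel))
    (good_of_check
    (R .u5 2337622 6781596 3828857 5068117 13391693 114749 2965818 11863286 8904683 (-242640)
    2965818 3315891 1044514 (-22008) 2459126 2568479 2568479 6344360)
    (((((((((((((((((((((root.setHiD (qm 2048)).setHiD (qm 1024)).setHiU (qm 512)).setLoA (qm
    2048)).setHiD (qm 512)).setHiU (qm 256)).setHiA (qm 3072)).setHiD (qm 256)).setLoU (qm
    128)).setHiW (qm 128)).setLoD (qm 128)).setHiU (qm 192)).setLoW (qm 64)).setLoD (qm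
    192)).setHiW (qm 96)).setLoA (qm 2560)).setHiU (qm 160)).setLoD (qm 224)).setLoW (qm
    80)).setHiA (qm 2816)).setLoW (qm 88))
    (by decide +kernel)))
    (good_splitD (qm 240)
    (good_splitU (qm 144)
    (good_of_check
    (T 2852127 57973399 9378750 12047220 1811671 4267249 3448724 1031783 3441588 4191660 1712320
    3145730 2568479 64304851 17054120 11280804 24813840 16005818)
    ((((((((((((((((((((((root.setHiD (qm 2048)).setHiD (qm 1024)).setHiU (qm 512)).setLoA (qm
    2048)).setHiD (qm 512)).setHiU (qm 256)).setHiA (qm 3072)).setHiD (qm 256)).setLoU (qm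
    128)).setHiW (qm 128)).setLoD (qm 128)).setHiU (qm 192)).setLoW (qm 64)).setLoD (qm
    192)).setHiW (qm 96)).setLoA (qm 2560)).setHiU (qm 160)).setLoD (qm 224)).setLoW (qm
    80)).setLoA (qm 2816)).setHiD (qm 240)).setHiU (qm 144))
    (by decide +kernel))
    (good_splitW (qm 88)
    (good_of_check
    (R .u5 2386425 6616940 3424633 5068117 13306113 59300 3145726 11863286 8991561 (-260641)
    3145726 3315891 43063 (-799) 2344685 2459131 2459131 5503434)
    (((((((((((((((((((((((root.setHiD (qm 2048)).setHiD (qm 1024)).setHiU (qm 512)).setLoA (qm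
    2048)).setHiD (qm 512)).setHiU (qm 256)).setHiA (qm 3072)).setHiD (qm 256)).setLoU (qm
    128)).setHiW (qm 128)).setLoD (qm 128)).setHiU (qm 192)).setLoW (qm 64)).setLoD (qm
    192)).setHiW (qm 96)).setLoA (qm 2560)).setHiU (qm 160)).setLoD (qm 224)).setLoW (qm
    80)).setLoA (qm 2816)).setHiD (qm 240)).setLoU (qm 144)).setHiW (qm 88))
    (by decide +kernel))
    (good_splitW (qm 92)
    (good_of_check
    (R .u5 2386425 6616940 3424633 5068117 13306113 59300 3145726 11863286 8991561 (-260641)
    3145726 3315891 360721 (-7623) 2459126 2514399 2514399 5745968)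
    ((((((((((((((((((((((((root.setHiD (qm 2048)).setHiD (qm 1024)).setHiU (qm 512)).setLoA (qm
    2048)).setHiD (qm 512)).setHiU (qm 256)).setHiA (qm 3072)).setHiD (qm 256)).setLoU (qm
    128)).setHiW (qm 128)).setLoD (qm 128)).setHiU (qm 192)).setLoW (qm 64)).setLoD (qm
    192)).setHiW (qm 96)).setLoA (qm 2560)).setHiU (qm 160)).setLoD (qm 224)).setLoW (qm
    80)).setLoA (qm 2816)).setHiD (qm 240)).setLoU (qm 144)).setLoW (qm 88)).setHiW (qm 92))
    (by decide +kernel))
    (good_of_check
    (R .u5 2386425 6616940 3424633 5068117 13306113 59300 3145726 11863286 8991561 (-260641)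
    3145726 3315891 779764 (-17035) 2514394 2568479 2568479 5981907)
    ((((((((((((((((((((((((root.setHiD (qm 2048)).setHiD (qm 1024)).setHiU (qm 512)).setLoA (qm
    2048)).setHiD (qm 512)).setHiU (qm 256)).setHiA (qm 3072)).setHiD (qm 256)).setLoU (qm
    128)).setHiW (qm 128)).setLoD (qm 128)).setHiU (qm 192)).setLoW (qm 64)).setLoD (qm
    192)).setHiW (qm 96)).setLoA (qm 2560)).setHiU (qm 160)).setLoD (qm 224)).setLoW (qm
    80)).setLoA (qm 2816)).setHiD (qm 240)).setLoU (qm 144)).setLoW (qm 88)).setLoW (qm 92))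
    (by decide +kernel)))))
    (good_splitW (qm 88)
    (good_of_check
    (R .u5 2344367 6717383 3424633 5057195 13380694 106730 2965818 11863286 8777933 (-239793)
    2965818 3315891 168633 (-3251) 2344685 2459131 2459131 5798882)
    ((((((((((((((((((((((root.setHiD (qm 2048)).setHiD (qm 1024)).setHiU (qm 512)).setLoA (qm
    2048)).setHiD (qm 512)).setHiU (qm 256)).setHiA (qm 3072)).setHiD (qm 256)).setLoU (qm
    128)).setHiW (qm 128)).setLoD (qm 128)).setHiU (qm 192)).setLoW (qm 64)).setLoD (qm
    192)).setHiW (qm 96)).setLoA (qm 2560)).setHiU (qm 160)).setLoD (qm 224)).setLoW (qm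
    80)).setLoA (qm 2816)).setLoD (qm 240)).setHiW (qm 88))
    (by decide +kernel))
    (good_splitU (qm 144)
    (good_splitA (qm 2944)
    (good_of_check
    (R .u5 2337622 6781596 3632372 5068117 13391693 114749 2965818 11863286 7923206 (-211969)
    2965818 3145730 1044514 (-22008) 2459126 2568479 2568479 6344360)
    ((((((((((((((((((((((((root.setHiD (qm 2048)).setHiD (qm 1024)).setHiU (qm 512)).setLoA (qm
    2048)).setHiD (qm 512)).setHiU (qm 256)).setHiA (qm 3072)).setHiD (qm 256)).setLoU (qm
    128)).setHiW (qm 128)).setLoD (qm 128)).setHiU (qm 192)).setLoW (qm 64)).setLoD (qm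
    192)).setHiW (qm 96)).setLoA (qm 2560)).setHiU (qm 160)).setLoD (qm 224)).setLoW (qm
    80)).setLoA (qm 2816)).setLoD (qm 240)).setLoW (qm 88)).setHiU (qm 144)).setHiA (qm 2944))
    (by decide +kernel))
    (good_of_check
    (T 3187671 54758393 8897464 12317977 1782502 4159171 3366949 1164755 3502090 4182917 1747629
    3145730 2568479 56754866 16637732 11319895 24813840 15971434)
    ((((((((((((((((((((((((root.setHiD (qm 2048)).setHiD (qm 1024)).setHiU (qm 512)).setLoA (qm
    2048)).setHiD (qm 512)).setHiU (qm 256)).setHiA (qm 3072)).setHiD (qm 256)).setLoU (qm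
    128)).setHiW (qm 128)).setLoD (qm 128)).setHiU (qm 192)).setLoW (qm 64)).setLoD (qm
    192)).setHiW (qm 96)).setLoA (qm 2560)).setHiU (qm 160)).setLoD (qm 224)).setLoW (qm
    80)).setLoA (qm 2816)).setLoD (qm 240)).setLoW (qm 88)).setHiU (qm 144)).setLoA (qm 2944))
    (by decide +kernel)))
    (good_of_check
    (R .u5 2386425 6616940 3424633 5046272 13323345 54105 3145726 11863286 8991561 (-260641)
    3145726 3315891 570242 (-12125) 2459126 2568479 2568479 5981907)
    (((((((((((((((((((((((root.setHiD (qm 2048)).setHiD (qm 1024)).setHiU (qm 512)).setLoA (qm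
    2048)).setHiD (qm 512)).setHiU (qm 256)).setHiA (qm 3072)).setHiD (qm 256)).setLoU (qm
    128)).setHiW (qm 128)).setLoD (qm 128)).setHiU (qm 192)).setLoW (qm 64)).setLoD (qm
    192)).setHiW (qm 96)).setLoA (qm 2560)).setHiU (qm 160)).setLoD (qm 224)).setLoW (qm
    80)).setLoA (qm 2816)).setLoD (qm 240)).setLoW (qm 88)).setLoU (qm 144))
    (by decide +kernel))))))))
    (good_splitD (qm 224)
    (good_splitU (qm 176)
    (good_splitW (qm 80)
    (good_of_check
    (R .t4n 3160900 4830693 3424633 5079040 13316446 (-32392) 3167496 11822668 393864 136537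
    3167496 3336551 0 0 0 0 2344690 7814348)
    ((((((((((((((((((((root.setHiD (qm 2048)).setHiD (qm 1024)).setHiU (qm 512)).setLoA (qm
    2048)).setHiD (qm 512)).setHiU (qm 256)).setHiA (qm 3072)).setHiD (qm 256)).setLoU (qm
    128)).setHiW (qm 128)).setLoD (qm 128)).setHiU (qm 192)).setLoW (qm 64)).setLoD (qm
    192)).setHiW (qm 96)).setLoA (qm 2560)).setLoU (qm 160)).setHiD (qm 224)).setHiU (qm
    176)).setHiW (qm 80))
    (by decide +kernel))
    (good_splitU (qm 168)
    (good_splitD (qm 208)
    (good_splitA (qm 2816)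
    (good_of_check
    (R .t4n 3123006 5586896 3828857 5095424 13335524 11935 3178325 11825574 729379 113052 3178325
    3263669 0 0 0 0 2568479 8949034)
    (((((((((((((((((((((((root.setHiD (qm 2048)).setHiD (qm 1024)).setHiU (qm 512)).setLoA (qm
    2048)).setHiD (qm 512)).setHiU (qm 256)).setHiA (qm 3072)).setHiD (qm 256)).setLoU (qm
    128)).setHiW (qm 128)).setLoD (qm 128)).setHiU (qm 192)).setLoW (qm 64)).setLoD (qm
    192)).setHiW (qm 96)).setLoA (qm 2560)).setLoU (qm 160)).setHiD (qm 224)).setHiU (qm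
    176)).setLoW (qm 80)).setHiU (qm 168)).setHiD (qm 208)).setHiA (qm 2816))
    (by decide +kernel))
    (good_splitA (qm 2944)
    (good_splitD (qm 200)
    (good_of_check
    (R .t4n 3143237 5401094 3632372 5100885 13302866 (-4953) 3183725 11827026 410493 119426
    3183725 3268929 0 0 0 0 2568479 8825798)
    (((((((((((((((((((((((((root.setHiD (qm 2048)).setHiD (qm 1024)).setHiU (qm 512)).setLoA (qm
    2048)).setHiD (qm 512)).setHiU (qm 256)).setHiA (qm 3072)).setHiD (qm 256)).setLoU (qm
    128)).setHiW (qm 128)).setLoD (qm 128)).setHiU (qm 192)).setLoW (qm 64)).setLoD (qm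
    192)).setHiW (qm 96)).setLoA (qm 2560)).setLoU (qm 160)).setHiD (qm 224)).setHiU (qm
    176)).setLoW (qm 80)).setHiU (qm 168)).setHiD (qm 208)).setLoA (qm 2816)).setHiA (qm
    2944)).setHiD (qm 200))
    (by decide +kernel))
    (good_of_check
    (R .t4n 3149980 5184453 3632372 5089963 13312567 (-16955) 3178325 11825574 16637 140184
    3178325 3263669 0 0 0 0 2568479 8784602)
    (((((((((((((((((((((((((root.setHiD (qm 2048)).setHiD (qm 1024)).setHiU (qm 512)).setLoA (qm
    2048)).setHiD (qm 512)).setHiU (qm 256)).setHiA (qm 3072)).setHiD (qm 256)).setLoU (qm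
    128)).setHiW (qm 128)).setLoD (qm 128)).setHiU (qm 192)).setLoW (qm 64)).setLoD (qm
    192)).setHiW (qm 96)).setLoA (qm 2560)).setLoU (qm 160)).setHiD (qm 224)).setHiU (qm
    176)).setLoW (qm 80)).setHiU (qm 168)).setHiD (qm 208)).setLoA (qm 2816)).setHiA (qm
    2944)).setLoD (qm 200))
    (by decide +kernel)))
    (good_of_check
    (T 2852127 54270930 8897464 12317977 1660636 4342513 3193138 1054606 3397696 4426799 1694389
    3397777 2568479 62884488 17877193 10297351 24813840 16014402)
    ((((((((((((((((((((((((root.setHiD (qm 2048)).setHiD (qm 1024)).setHiU (qm 512)).setLoA (qm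
    2048)).setHiD (qm 512)).setHiU (qm 256)).setHiA (qm 3072)).setHiD (qm 256)).setLoU (qm
    128)).setHiW (qm 128)).setLoD (qm 128)).setHiU (qm 192)).setLoW (qm 64)).setLoD (qm
    192)).setHiW (qm 96)).setLoA (qm 2560)).setLoU (qm 160)).setHiD (qm 224)).setHiU (qm
    176)).setLoW (qm 80)).setHiU (qm 168)).setHiD (qm 208)).setLoA (qm 2816)).setLoA (qm 2944))
    (by decide +kernel))))
    (good_splitW (qm 88)
    (good_of_check
    (R .t4n 3178552 4601855 3424633 5073579 13292406 (-48164) 3167496 11822668 (-1171391) 197666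
    3167496 3253124 0 0 0 0 2459131 8183449)
    (((((((((((((((((((((((root.setHiD (qm 2048)).setHiD (qm 1024)).setHiU (qm 512)).setLoA (qm
    2048)).setHiD (qm 512)).setHiU (qm 256)).setHiA (qm 3072)).setHiD (qm 256)).setLoU (qm
    128)).setHiW (qm 128)).setLoD (qm 128)).setHiU (qm 192)).setLoW (qm 64)).setLoD (qm
    192)).setHiW (qm 96)).setLoA (qm 2560)).setLoU (qm 160)).setHiD (qm 224)).setHiU (qm
    176)).setLoW (qm 80)).setHiU (qm 168)).setLoD (qm 208)).setHiW (qm 88))
    (by decide +kernel))
    (good_splitD (qm 216)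
    (good_splitW (qm 92)
    (good_of_check
    (R .t4n 3178552 4668132 3424633 5079040 13292510 (-48446) 3172915 11824121 (-961851) 183807
    3172915 3258401 0 0 0 0 2514399 8403616)
    (((((((((((((((((((((((((root.setHiD (qm 2048)).setHiD (qm 1024)).setHiU (qm 512)).setLoA (qm
    2048)).setHiD (qm 512)).setHiU (qm 256)).setHiA (qm 3072)).setHiD (qm 256)).setLoU (qm
    128)).setHiW (qm 128)).setLoD (qm 128)).setHiU (qm 192)).setLoW (qm 64)).setLoD (qm
    192)).setHiW (qm 96)).setLoA (qm 2560)).setLoU (qm 160)).setHiD (qm 224)).setHiU (qm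
    176)).setLoW (qm 80)).setHiU (qm 168)).setLoD (qm 208)).setLoW (qm 88)).setHiD (qm
    216)).setHiW (qm 92))
    (by decide +kernel))
    (good_splitW (qm 94)
    (good_of_check
    (R .u5 2404080 6720771 3424633 5079040 13296328 33511 3315886 11863286 9946340 (-302878)
    3315886 3397777 510568 (-11145) 2514394 2541583 2541583 5739940)
    ((((((((((((((((((((((((((root.setHiD (qm 2048)).setHiD (qm 1024)).setHiU (qm 512)).setLoA (qm
    2048)).setHiD (qm 512)).setHiU (qm 256)).setHiA (qm 3072)).setHiD (qm 256)).setLoU (qm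
    128)).setHiW (qm 128)).setLoD (qm 128)).setHiU (qm 192)).setLoW (qm 64)).setLoD (qm
    192)).setHiW (qm 96)).setLoA (qm 2560)).setLoU (qm 160)).setHiD (qm 224)).setHiU (qm
    176)).setLoW (qm 80)).setHiU (qm 168)).setLoD (qm 208)).setLoW (qm 88)).setHiD (qm
    216)).setLoW (qm 92)).setHiW (qm 94))
    (by decide +kernel))
    (good_of_check
    (R .u5 2404080 6720771 3424633 5079040 13296328 33511 3315886 11863286 9946340 (-302878)
    3315886 3397777 725546 (-16079) 2541578 2568479 2568479 5856357)
    ((((((((((((((((((((((((((root.setHiD (qm 2048)).setHiD (qm 1024)).setHiU (qm 512)).setLoA (qm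
    2048)).setHiD (qm 512)).setHiU (qm 256)).setHiA (qm 3072)).setHiD (qm 256)).setLoU (qm
    128)).setHiW (qm 128)).setLoD (qm 128)).setHiU (qm 192)).setLoW (qm 64)).setLoD (qm
    192)).setHiW (qm 96)).setLoA (qm 2560)).setLoU (qm 160)).setHiD (qm 224)).setHiU (qm
    176)).setLoW (qm 80)).setHiU (qm 168)).setLoD (qm 208)).setLoW (qm 88)).setHiD (qm
    216)).setLoW (qm 92)).setLoW (qm 94))
    (by decide +kernel))))
    (good_of_check
    (R .u5 2412414 6642260 3424633 5068117 13281290 24134 3315886 11863286 9801416 (-299486)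
    3315886 3397777 375899 (-8011) 2459126 2568479 2568479 5797716)
    ((((((((((((((((((((((((root.setHiD (qm 2048)).setHiD (qm 1024)).setHiU (qm 512)).setLoA (qm
    2048)).setHiD (qm 512)).setHiU (qm 256)).setHiA (qm 3072)).setHiD (qm 256)).setLoU (qm
    128)).setHiW (qm 128)).setLoD (qm 128)).setHiU (qm 192)).setLoW (qm 64)).setLoD (qm
    192)).setHiW (qm 96)).setLoA (qm 2560)).setLoU (qm 160)).setHiD (qm 224)).setHiU (qm
    176)).setLoW (qm 80)).setHiU (qm 168)).setLoD (qm 208)).setLoW (qm 88)).setLoD (qm 216))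
    (by decide +kernel)))))
    (good_splitD (qm 208)
    (good_of_check
    (R .t4n 3207119 4816295 3424633 5084501 13257060 (-75126) 3263664 11825574 743204 107403
    3263664 3346833 0 0 0 0 2568479 8450642)
    ((((((((((((((((((((((root.setHiD (qm 2048)).setHiD (qm 1024)).setHiU (qm 512)).setLoA (qm
    2048)).setHiD (qm 512)).setHiU (qm 256)).setHiA (qm 3072)).setHiD (qm 256)).setLoU (qm
    128)).setHiW (qm 128)).setLoD (qm 128)).setHiU (qm 192)).setLoW (qm 64)).setLoD (qm
    192)).setHiW (qm 96)).setLoA (qm 2560)).setLoU (qm 160)).setHiD (qm 224)).setHiU (qm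
    176)).setLoW (qm 80)).setLoU (qm 168)).setHiD (qm 208))
    (by decide +kernel))
    (good_of_check
    (R .t4n 3218028 4555413 3424633 5062656 13245550 (-85262) 3253119 11822668 68709 145472
    3253119 3336551 0 0 0 0 2568479 8388108)
    ((((((((((((((((((((((root.setHiD (qm 2048)).setHiD (qm 1024)).setHiU (qm 512)).setLoA (qm
    2048)).setHiD (qm 512)).setHiU (qm 256)).setHiA (qm 3072)).setHiD (qm 256)).setLoU (qm
    128)).setHiW (qm 128)).setLoD (qm 128)).setHiU (qm 192)).setLoW (qm 64)).setLoD (qm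
    192)).setHiW (qm 96)).setLoA (qm 2560)).setLoU (qm 160)).setHiD (qm 224)).setHiU (qm
    176)).setLoW (qm 80)).setLoU (qm 168)).setLoD (qm 208))
    (by decide +kernel)))))
    (good_of_check
    (R .t4n 3250764 4476071 3424633 5057195 13228928 (-122978) 3336546 11822668 2191372 52259
    3336546 3497440 0 0 0 0 2568479 8204918)
    (((((((((((((((((((root.setHiD (qm 2048)).setHiD (qm 1024)).setHiU (qm 512)).setLoA (qm
    2048)).setHiD (qm 512)).setHiU (qm 256)).setHiA (qm 3072)).setHiD (qm 256)).setLoU (qm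
    128)).setHiW (qm 128)).setLoD (qm 128)).setHiU (qm 192)).setLoW (qm 64)).setLoD (qm
    192)).setHiW (qm 96)).setLoA (qm 2560)).setLoU (qm 160)).setHiD (qm 224)).setLoU (qm 176))
    (by decide +kernel)))
    (good_splitW (qm 80)
    (good_of_check
    (R .t4n 3224776 3609105 3424633 5024427 13261906 (-98457) 3145726 11816854 219548 166229
    3145726 3477736 0 0 0 0 2344690 7468539)
    (((((((((((((((((((root.setHiD (qm 2048)).setHiD (qm 1024)).setHiU (qm 512)).setLoA (qm
    2048)).setHiD (qm 512)).setHiU (qm 256)).setHiA (qm 3072)).setHiD (qm 256)).setLoU (qm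
    128)).setHiW (qm 128)).setLoD (qm 128)).setHiU (qm 192)).setLoW (qm 64)).setLoD (qm
    192)).setHiW (qm 96)).setLoA (qm 2560)).setLoU (qm 160)).setLoD (qm 224)).setHiW (qm 80))
    (by decide +kernel))
    (good_splitW (qm 88)
    (good_of_check
    (R .u5 2430066 6479727 3424633 5024427 13264325 112 3315886 11863286 10552034 (-333485)
    3315886 3632376 2763 (-12) 2344685 2459131 2459131 5213614)
    ((((((((((((((((((((root.setHiD (qm 2048)).setHiD (qm 1024)).setHiU (qm 512)).setLoA (qm
    2048)).setHiD (qm 512)).setHiU (qm 256)).setHiA (qm 3072)).setHiD (qm 256)).setLoU (qm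
    128)).setHiW (qm 128)).setLoD (qm 128)).setHiU (qm 192)).setLoW (qm 64)).setLoD (qm
    192)).setHiW (qm 96)).setLoA (qm 2560)).setLoU (qm 160)).setLoD (qm 224)).setLoW (qm
    80)).setHiW (qm 88))
    (by decide +kernel))
    (good_of_check
    (R .u5 2430066 6479727 3424633 5024427 13264325 112 3315886 11863286 10552034 (-333485)
    3315886 3632376 267924 (-5708) 2459126 2568479 2568479 5675993)
    ((((((((((((((((((((root.setHiD (qm 2048)).setHiD (qm 1024)).setHiU (qm 512)).setLoA (qm
    2048)).setHiD (qm 512)).setHiU (qm 256)).setHiA (qm 3072)).setHiD (qm 256)).setLoU (qm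
    128)).setHiW (qm 128)).setLoD (qm 128)).setHiU (qm 192)).setLoW (qm 64)).setLoD (qm
    192)).setHiW (qm 96)).setLoA (qm 2560)).setLoU (qm 160)).setLoD (qm 224)).setLoW (qm
    80)).setLoW (qm 88))
    (by decide +kernel)))))))

set_option maxHeartbeats 4000000 in
/-- One subtree of the cover. -/
theorem sub17_good : BoxGood
    ((((((((((((((((root.setHiD (qm 2048)).setHiD (qm 1024)).setHiU (qm 512)).setLoA (qm
    2048)).setHiD (qm 512)).setHiU (qm 256)).setHiA (qm 3072)).setHiD (qm 256)).setLoU (qm
    128)).setHiW (qm 128)).setLoD (qm 128)).setHiU (qm 192)).setLoW (qm 64)).setLoD (qm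
    192)).setLoW (qm 96)).setHiA (qm 2560)) :=
    (good_splitU (qm 160)
    (good_splitD (qm 224)
    (good_splitW (qm 112)
    (good_splitW (qm 104)
    (good_of_check
    (R .u5 2307029 7089287 4194303 5111808 13444530 151055 2965818 11863286 9486450 (-255475)
    2965818 3315891 2732569 (-60482) 2568474 2673357 2673357 7061585)
    ((((((((((((((((((((root.setHiD (qm 2048)).setHiD (qm 1024)).setHiU (qm 512)).setLoA (qm
    2048)).setHiD (qm 512)).setHiU (qm 256)).setHiA (qm 3072)).setHiD (qm 256)).setLoU (qm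
    128)).setHiW (qm 128)).setLoD (qm 128)).setHiU (qm 192)).setLoW (qm 64)).setLoD (qm
    192)).setLoW (qm 96)).setHiA (qm 2560)).setHiU (qm 160)).setHiD (qm 224)).setHiW (qm
    112)).setHiW (qm 104))
    (by decide +kernel))
    (good_of_check
    (R .u5 2317938 6978304 4194303 5111808 13413314 141739 2965818 11863286 9277729 (-250915)
    2965818 3315891 3936043 (-91798) 2673352 2774274 2774274 7419603)
    ((((((((((((((((((((root.setHiD (qm 2048)).setHiD (qm 1024)).setHiU (qm 512)).setLoA (qm
    2048)).setHiD (qm 512)).setHiU (qm 256)).setHiA (qm 3072)).setHiD (qm 256)).setLoU (qm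
    128)).setHiW (qm 128)).setLoD (qm 128)).setHiU (qm 192)).setLoW (qm 64)).setLoD (qm
    192)).setLoW (qm 96)).setHiA (qm 2560)).setHiU (qm 160)).setHiD (qm 224)).setHiW (qm
    112)).setLoW (qm 104))
    (by decide +kernel)))
    (good_of_check
    (R .u5 2320514 6952991 4194303 5111808 13405996 139545 2965818 11863286 9228632 (-249835)
    2965818 3315891 5886524 (-145394) 2774269 2965823 2774274 7398654)
    (((((((((((((((((((root.setHiD (qm 2048)).setHiD (qm 1024)).setHiU (qm 512)).setLoA (qm
    2048)).setHiD (qm 512)).setHiU (qm 256)).setHiA (qm 3072)).setHiD (qm 256)).setLoU (qm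
    128)).setHiW (qm 128)).setLoD (qm 128)).setHiU (qm 192)).setLoW (qm 64)).setLoD (qm
    192)).setLoW (qm 96)).setHiA (qm 2560)).setHiU (qm 160)).setHiD (qm 224)).setLoW (qm 112))
    (by decide +kernel)))
    (good_splitU (qm 144)
    (good_of_check
    (R .u5 2335592 6803542 4194303 5079040 13389048 119010 2965818 11863286 7961989 (-212841)
    2965818 3145730 4279481 (-97763) 2568474 2965823 2965823 8084972)
    (((((((((((((((((((root.setHiD (qm 2048)).setHiD (qm 1024)).setHiU (qm 512)).setLoA (qm
    2048)).setHiD (qm 512)).setHiU (qm 256)).setHiA (qm 3072)).setHiD (qm 256)).setLoU (qm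
    128)).setHiW (qm 128)).setLoD (qm 128)).setHiU (qm 192)).setLoW (qm 64)).setLoD (qm
    192)).setLoW (qm 96)).setHiA (qm 2560)).setHiU (qm 160)).setLoD (qm 224)).setHiU (qm 144))
    (by decide +kernel))
    (good_of_check
    (R .u5 2366186 6810315 4194303 5057195 13373717 72800 3145726 11863286 9359616 (-269132)
    3145726 3315891 3761923 (-86487) 2568474 2965823 2965823 7822855)
    (((((((((((((((((((root.setHiD (qm 2048)).setHiD (qm 1024)).setHiU (qm 512)).setLoA (qm
    2048)).setHiD (qm 512)).setHiU (qm 256)).setHiA (qm 3072)).setHiD (qm 256)).setLoU (qm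
    128)).setHiW (qm 128)).setLoD (qm 128)).setHiU (qm 192)).setLoW (qm 64)).setLoD (qm
    192)).setLoW (qm 96)).setHiA (qm 2560)).setHiU (qm 160)).setLoD (qm 224)).setLoU (qm 144))
    (by decide +kernel))))
    (good_splitW (qm 112)
    (good_of_check
    (R .u5 2394762 6806929 4194303 5046272 13349014 33206 3315886 11863286 11142649 (-347024)
    3315886 3632376 2074550 (-47538) 2568474 2774274 2774274 6800608)
    ((((((((((((((((((root.setHiD (qm 2048)).setHiD (qm 1024)).setHiU (qm 512)).setLoA (qm
    2048)).setHiD (qm 512)).setHiU (qm 256)).setHiA (qm 3072)).setHiD (qm 256)).setLoU (qm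
    128)).setHiW (qm 128)).setLoD (qm 128)).setHiU (qm 192)).setLoW (qm 64)).setLoD (qm
    192)).setLoW (qm 96)).setHiA (qm 2560)).setLoU (qm 160)).setHiW (qm 112))
    (by decide +kernel))
    (good_of_check
    (R .u5 2394762 6806929 4194303 5046272 13349014 33206 3315886 11863286 11142649 (-347024)
    3315886 3632376 4537515 (-114885) 2774269 2965823 2965823 7586639)
    ((((((((((((((((((root.setHiD (qm 2048)).setHiD (qm 1024)).setHiU (qm 512)).setLoA (qm
    2048)).setHiD (qm 512)).setHiU (qm 256)).setHiA (qm 3072)).setHiD (qm 256)).setLoU (qm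
    128)).setHiW (qm 128)).setLoD (qm 128)).setHiU (qm 192)).setLoW (qm 64)).setLoD (qm
    192)).setLoW (qm 96)).setHiA (qm 2560)).setLoU (qm 160)).setLoW (qm 112))
    (by decide +kernel))))

end Vale.Agent.P226.Cert
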