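import Vale.Agent.P226.CertBox
import Vale.Agent.P226.CertSound

/-! Part 10 of the cover (P226). -/

namespace Vale.Agent.P226.Cert

set_option maxHeartbeats 4000000 in
/-- One subtree of the cover. -/
theorem sub18_good : BoxGood
    ((((((((((((((((root.setHiD (qm 2048)).setHiD (qm 1024)).setHiU (qm 512)).setLoA (qm
    2048)).setHiD (qm 512)).setHiU (qm 256)).setHiA (qm 3072)).setHiD (qm 256)).setLoU (qm
    128)).setHiW (qm 128)).setLoD (qm 128)).setHiU (qm 192)).setLoW (qm 64)).setLoD (qm
    192)).setLoW (qm 96)).setLoA (qm 2560)) :=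
    (good_splitU (qm 160)
    (good_splitD (qm 224)
    (good_splitW (qm 112)
    (good_splitA (qm 2816)
    (good_splitU (qm 144)
    (good_splitD (qm 208)
    (good_splitA (qm 2688)
    (good_splitW (qm 104)
    (good_splitW (qm 100)
    (good_of_check
    (R .u5 2311196 7047033 4015739 5133653 13414306 153069 2965818 11863286 8432865 (-223308)
    2965818 3145730 2321079 (-51002) 2568474 2621442 2621442 6792196)
    (((((((((((((((((((((((((root.setHiD (qm 2048)).setHiD (qm 1024)).setHiU (qm 512)).setLoA (qm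
    2048)).setHiD (qm 512)).setHiU (qm 256)).setHiA (qm 3072)).setHiD (qm 256)).setLoU (qm
    128)).setHiW (qm 128)).setLoD (qm 128)).setHiU (qm 192)).setLoW (qm 64)).setLoD (qm
    192)).setLoW (qm 96)).setLoA (qm 2560)).setHiU (qm 160)).setHiD (qm 224)).setHiW (qm
    112)).setHiA (qm 2816)).setHiU (qm 144)).setHiD (qm 208)).setHiA (qm 2688)).setHiW (qm
    104)).setHiW (qm 100))
    (by decide +kernel))
    (good_of_check
    (R .u5 2311196 7047033 4015739 5133653 13414306 153069 2965818 11863286 8432865 (-223308)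
    2965818 3145730 3009776 (-67816) 2621438 2673357 2673357 7027651)
    (((((((((((((((((((((((((root.setHiD (qm 2048)).setHiD (qm 1024)).setHiU (qm 512)).setLoA (qm
    2048)).setHiD (qm 512)).setHiU (qm 256)).setHiA (qm 3072)).setHiD (qm 256)).setLoU (qm
    128)).setHiW (qm 128)).setLoD (qm 128)).setHiU (qm 192)).setLoW (qm 64)).setLoD (qm
    192)).setLoW (qm 96)).setLoA (qm 2560)).setHiU (qm 160)).setHiD (qm 224)).setHiW (qm
    112)).setHiA (qm 2816)).setHiU (qm 144)).setHiD (qm 208)).setHiA (qm 2688)).setHiW (qm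
    104)).setLoW (qm 100))
    (by decide +kernel)))
    (good_of_check
    (R .u5 2317938 6978304 4015739 5133653 13395142 147288 2965818 11863286 8301877 (-220420)
    2965818 3145730 3936043 (-91798) 2673352 2774274 2673357 6971879)
    ((((((((((((((((((((((((root.setHiD (qm 2048)).setHiD (qm 1024)).setHiU (qm 512)).setLoA (qm
    2048)).setHiD (qm 512)).setHiU (qm 256)).setHiA (qm 3072)).setHiD (qm 256)).setLoU (qm
    128)).setHiW (qm 128)).setLoD (qm 128)).setHiU (qm 192)).setLoW (qm 64)).setLoD (qm
    192)).setLoW (qm 96)).setLoA (qm 2560)).setHiU (qm 160)).setHiD (qm 224)).setHiW (qm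
    112)).setHiA (qm 2816)).setHiU (qm 144)).setHiD (qm 208)).setHiA (qm 2688)).setLoW (qm 104))
    (by decide +kernel)))
    (good_splitA (qm 2752)
    (good_of_check
    (T 2852127 61069944 9836516 11770235 1749402 4336140 3761310 1029960 3343467 3917970 1639422
    3145730 2774274 64372653 17760204 13196838 24702815 16074366)
    ((((((((((((((((((((((((root.setHiD (qm 2048)).setHiD (qm 1024)).setHiU (qm 512)).setLoA (qm
    2048)).setHiD (qm 512)).setHiU (qm 256)).setHiA (qm 3072)).setHiD (qm 256)).setLoU (qm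
    128)).setHiW (qm 128)).setLoD (qm 128)).setHiU (qm 192)).setLoW (qm 64)).setLoD (qm
    192)).setLoW (qm 96)).setLoA (qm 2560)).setHiU (qm 160)).setHiD (qm 224)).setHiW (qm
    112)).setHiA (qm 2816)).setHiU (qm 144)).setHiD (qm 208)).setLoA (qm 2688)).setHiA (qm 2752))
    (by decide +kernel))
    (good_of_check
    (T 2852127 59142824 9610359 11909532 1694198 4199309 3642618 1039521 3517128 4040926 1639422
    3145730 2774274 63760732 16536397 12565738 24725060 16074366)
    ((((((((((((((((((((((((root.setHiD (qm 2048)).setHiD (qm 1024)).setHiU (qm 512)).setLoA (qm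
    2048)).setHiD (qm 512)).setHiU (qm 256)).setHiA (qm 3072)).setHiD (qm 256)).setLoU (qm
    128)).setHiW (qm 128)).setLoD (qm 128)).setHiU (qm 192)).setLoW (qm 64)).setLoD (qm
    192)).setLoW (qm 96)).setLoA (qm 2560)).setHiU (qm 160)).setHiD (qm 224)).setHiW (qm
    112)).setHiA (qm 2816)).setHiU (qm 144)).setHiD (qm 208)).setLoA (qm 2688)).setLoA (qm 2752))
    (by decide +kernel))))
    (good_splitW (qm 104)
    (good_splitU (qm 136)
    (good_splitA (qm 2688)
    (good_of_check
    (R .u5 2320514 6952991 4015739 5117269 13401470 140925 2965818 11863286 7712240 (-202448)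
    2965818 3057101 2517924 (-55964) 2568474 2673357 2673357 6951449)
    (((((((((((((((((((((((((root.setHiD (qm 2048)).setHiD (qm 1024)).setHiU (qm 512)).setLoA (qm
    2048)).setHiD (qm 512)).setHiU (qm 256)).setHiA (qm 3072)).setHiD (qm 256)).setLoU (qm
    128)).setHiW (qm 128)).setLoD (qm 128)).setHiU (qm 192)).setLoW (qm 64)).setLoD (qm
    192)).setLoW (qm 96)).setLoA (qm 2560)).setHiU (qm 160)).setHiD (qm 224)).setHiW (qm
    112)).setHiA (qm 2816)).setHiU (qm 144)).setLoD (qm 208)).setHiW (qm 104)).setHiU (qm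
    136)).setHiA (qm 2688))
    (by decide +kernel))
    (good_of_check
    (T 2852127 61250092 9836516 11770235 1794439 4244676 3668150 1025532 3441980 3990468 1657947
    3057101 2673357 64676346 16846828 12538445 24725060 16048695)
    (((((((((((((((((((((((((root.setHiD (qm 2048)).setHiD (qm 1024)).setHiU (qm 512)).setLoA (qm
    2048)).setHiD (qm 512)).setHiU (qm 256)).setHiA (qm 3072)).setHiD (qm 256)).setLoU (qm
    128)).setHiW (qm 128)).setLoD (qm 128)).setHiU (qm 192)).setLoW (qm 64)).setLoD (qm
    192)).setLoW (qm 96)).setLoA (qm 2560)).setHiU (qm 160)).setHiD (qm 224)).setHiW (qm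
    112)).setHiA (qm 2816)).setHiU (qm 144)).setLoD (qm 208)).setHiW (qm 104)).setHiU (qm
    136)).setLoA (qm 2688))
    (by decide +kernel)))
    (good_of_check
    (R .u5 2348534 6833525 3828857 5106347 13357923 106944 3057096 11863286 8256998 (-226304)
    3057096 3145730 2096752 (-46996) 2568474 2673357 2673357 6726902)
    ((((((((((((((((((((((((root.setHiD (qm 2048)).setHiD (qm 1024)).setHiU (qm 512)).setLoA (qm
    2048)).setHiD (qm 512)).setHiU (qm 256)).setHiA (qm 3072)).setHiD (qm 256)).setLoU (qm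
    128)).setHiW (qm 128)).setLoD (qm 128)).setHiU (qm 192)).setLoW (qm 64)).setLoD (qm
    192)).setLoW (qm 96)).setLoA (qm 2560)).setHiU (qm 160)).setHiD (qm 224)).setHiW (qm
    112)).setHiA (qm 2816)).setHiU (qm 144)).setLoD (qm 208)).setHiW (qm 104)).setLoU (qm 136))
    (by decide +kernel)))
    (good_splitU (qm 136)
    (good_splitA (qm 2688)
    (good_of_check
    (R .u5 2328848 6868995 4015739 5117269 13377412 133988 2965818 11863286 7550961 (-198853)
    2965818 3057101 3744035 (-87639) 2673352 2774274 2774274 7328894)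
    (((((((((((((((((((((((((root.setHiD (qm 2048)).setHiD (qm 1024)).setHiU (qm 512)).setLoA (qm
    2048)).setHiD (qm 512)).setHiU (qm 256)).setHiA (qm 3072)).setHiD (qm 256)).setLoU (qm
    128)).setHiW (qm 128)).setLoD (qm 128)).setHiU (qm 192)).setLoW (qm 64)).setLoD (qm
    192)).setLoW (qm 96)).setLoA (qm 2560)).setHiU (qm 160)).setHiD (qm 224)).setHiW (qm
    112)).setHiA (qm 2816)).setHiU (qm 144)).setLoD (qm 208)).setLoW (qm 104)).setHiU (qm
    136)).setHiA (qm 2688))
    (by decide +kernel))
    (good_of_check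
    (T 2852127 61250092 9836516 11770235 1794439 4244676 3812282 1025532 3441980 3867864 1657947
    3057101 2774274 64676346 16846828 13466741 24725060 16048695)
    (((((((((((((((((((((((((root.setHiD (qm 2048)).setHiD (qm 1024)).setHiU (qm 512)).setLoA (qm
    2048)).setHiD (qm 512)).setHiU (qm 256)).setHiA (qm 3072)).setHiD (qm 256)).setLoU (qm
    128)).setHiW (qm 128)).setLoD (qm 128)).setHiU (qm 192)).setLoW (qm 64)).setLoD (qm
    192)).setLoW (qm 96)).setLoA (qm 2560)).setHiU (qm 160)).setHiD (qm 224)).setHiW (qm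
    112)).setHiA (qm 2816)).setHiU (qm 144)).setLoD (qm 208)).setLoW (qm 104)).setHiU (qm
    136)).setLoA (qm 2688))
    (by decide +kernel)))
    (good_of_check
    (R .u5 2355277 6769343 3828857 5106347 13338746 101372 3057096 11863286 8129884 (-223408)
    3057096 3145730 3295476 (-77807) 2673352 2774274 2774274 7111035)
    ((((((((((((((((((((((((root.setHiD (qm 2048)).setHiD (qm 1024)).setHiU (qm 512)).setLoA (qm
    2048)).setHiD (qm 512)).setHiU (qm 256)).setHiA (qm 3072)).setHiD (qm 256)).setLoU (qm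
    128)).setHiW (qm 128)).setLoD (qm 128)).setHiU (qm 192)).setLoW (qm 64)).setLoD (qm
    192)).setLoW (qm 96)).setLoA (qm 2560)).setHiU (qm 160)).setHiD (qm 224)).setHiW (qm
    112)).setHiA (qm 2816)).setHiU (qm 144)).setLoD (qm 208)).setLoW (qm 104)).setLoU (qm 136))
    (by decide +kernel)))))
    (good_splitD (qm 208)
    (good_splitD (qm 200)
    (good_of_check
    (R .t5n 2621747 6803542 3828857 5117269 13439655 101808 3099954 11851231 7487817 (-184400)
    3099954 3272501 (-923162) 79020 2512207 2722264 2673357 8136773)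
    (((((((((((((((((((((((root.setHiD (qm 2048)).setHiD (qm 1024)).setHiU (qm 512)).setLoA (qm
    2048)).setHiD (qm 512)).setHiU (qm 256)).setHiA (qm 3072)).setHiD (qm 256)).setLoU (qm
    128)).setHiW (qm 128)).setLoD (qm 128)).setHiU (qm 192)).setLoW (qm 64)).setLoD (qm
    192)).setLoW (qm 96)).setLoA (qm 2560)).setHiU (qm 160)).setHiD (qm 224)).setHiW (qm
    112)).setHiA (qm 2816)).setLoU (qm 144)).setHiD (qm 208)).setHiD (qm 200))
    (by decide +kernel))
    (good_splitW (qm 104)
    (good_of_check
    (R .u5 2355277 6917526 3828857 5106347 13364873 93980 3145726 11863286 9559750 (-273677)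
    3145726 3315891 2000515 (-44927) 2568474 2673357 2673357 6673445)
    ((((((((((((((((((((((((root.setHiD (qm 2048)).setHiD (qm 1024)).setHiU (qm 512)).setLoA (qm
    2048)).setHiD (qm 512)).setHiU (qm 256)).setHiA (qm 3072)).setHiD (qm 256)).setLoU (qm
    128)).setHiW (qm 128)).setLoD (qm 128)).setHiU (qm 192)).setLoW (qm 64)).setLoD (qm
    192)).setLoW (qm 96)).setLoA (qm 2560)).setHiU (qm 160)).setHiD (qm 224)).setHiW (qm
    112)).setHiA (qm 2816)).setLoU (qm 144)).setHiD (qm 208)).setLoD (qm 200)).setHiW (qm 104))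
    (by decide +kernel))
    (good_of_check
    (R .u5 2362019 6851262 3828857 5106347 13345730 88329 3145726 11863286 9435925 (-270871)
    3145726 3315891 3184894 (-75358) 2673352 2774274 2673357 6620410)
    ((((((((((((((((((((((((root.setHiD (qm 2048)).setHiD (qm 1024)).setHiU (qm 512)).setLoA (qm
    2048)).setHiD (qm 512)).setHiU (qm 256)).setHiA (qm 3072)).setHiD (qm 256)).setLoU (qm
    128)).setHiW (qm 128)).setLoD (qm 128)).setHiU (qm 192)).setLoW (qm 64)).setLoD (qm
    192)).setLoW (qm 96)).setLoA (qm 2560)).setHiU (qm 160)).setHiD (qm 224)).setHiW (qm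
    112)).setHiA (qm 2816)).setLoU (qm 144)).setHiD (qm 208)).setLoD (qm 200)).setLoW (qm 104))
    (by decide +kernel))))
    (good_of_check
    (R .u5 2366188 6810315 3828857 5089963 13347112 80842 3145726 11863286 9359576 (-269131)
    3145726 3315891 2483198 (-56517) 2568474 2774274 2774274 7024019)
    ((((((((((((((((((((((root.setHiD (qm 2048)).setHiD (qm 1024)).setHiU (qm 512)).setLoA (qm
    2048)).setHiD (qm 512)).setHiU (qm 256)).setHiA (qm 3072)).setHiD (qm 256)).setLoU (qm
    128)).setHiW (qm 128)).setLoD (qm 128)).setHiU (qm 192)).setLoW (qm 64)).setLoD (qm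
    192)).setLoW (qm 96)).setLoA (qm 2560)).setHiU (qm 160)).setHiD (qm 224)).setHiW (qm
    112)).setHiA (qm 2816)).setLoU (qm 144)).setLoD (qm 208))
    (by decide +kernel))))
    (good_splitU (qm 144)
    (good_splitA (qm 2944)
    (good_of_check
    (T 2852127 57630361 9378750 12047220 1725912 4166960 3624505 1040441 3561798 4067031 1676267
    3145730 2774274 63744807 16240316 12437200 24769490 16057256)
    ((((((((((((((((((((((root.setHiD (qm 2048)).setHiD (qm 1024)).setHiU (qm 512)).setLoA (qm
    2048)).setHiD (qm 512)).setHiU (qm 256)).setHiA (qm 3072)).setHiD (qm 256)).setLoU (qm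
    128)).setHiW (qm 128)).setLoD (qm 128)).setHiU (qm 192)).setLoW (qm 64)).setLoD (qm
    192)).setLoW (qm 96)).setLoA (qm 2560)).setHiU (qm 160)).setHiD (qm 224)).setHiW (qm
    112)).setLoA (qm 2816)).setHiU (qm 144)).setHiA (qm 2944))
    (by decide +kernel))
    (good_of_check
    (T 3187671 54110365 8897464 12317977 1620495 3969038 3447140 1183148 3712672 4149830 1676267
    3145730 2774274 55589090 15292344 12041488 24813840 16057256)
    ((((((((((((((((((((((root.setHiD (qm 2048)).setHiD (qm 1024)).setHiU (qm 512)).setLoA (qm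
    2048)).setHiD (qm 512)).setHiU (qm 256)).setHiA (qm 3072)).setHiD (qm 256)).setLoU (qm
    128)).setHiW (qm 128)).setLoD (qm 128)).setHiU (qm 192)).setLoW (qm 64)).setLoD (qm
    192)).setLoW (qm 96)).setLoA (qm 2560)).setHiU (qm 160)).setHiD (qm 224)).setHiW (qm
    112)).setLoA (qm 2816)).setHiU (qm 144)).setLoA (qm 2944))
    (by decide +kernel)))
    (good_splitA (qm 2944)
    (good_splitD (qm 208)
    (good_splitU (qm 152)
    (good_of_check
    (T 2852127 57460360 9378750 12047220 1683411 4252471 3576404 1044644 3473535 4111750 1657947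
    3231931 2774274 63461940 17019897 12221254 24769490 16048695)
    ((((((((((((((((((((((((root.setHiD (qm 2048)).setHiD (qm 1024)).setHiU (qm 512)).setLoA (qm
    2048)).setHiD (qm 512)).setHiU (qm 256)).setHiA (qm 3072)).setHiD (qm 256)).setLoU (qm
    128)).setHiW (qm 128)).setLoD (qm 128)).setHiU (qm 192)).setLoW (qm 64)).setLoD (qm
    192)).setLoW (qm 96)).setLoA (qm 2560)).setHiU (qm 160)).setHiD (qm 224)).setHiW (qm
    112)).setLoA (qm 2816)).setLoU (qm 144)).setHiA (qm 2944)).setHiD (qm 208)).setHiU (qm 152))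
    (by decide +kernel))
    (good_splitW (qm 104)
    (good_splitA (qm 2880)
    (good_splitD (qm 200)
    (good_of_check
    (T 2852127 57460360 9378750 12047220 1683411 4387685 3441190 1044644 3316157 4215966 1657947
    3315891 2673357 63461940 18316096 11467518 24747285 16040128)
    (((((((((((((((((((((((((((root.setHiD (qm 2048)).setHiD (qm 1024)).setHiU (qm 512)).setLoA
    (qm 2048)).setHiD (qm 512)).setHiU (qm 256)).setHiA (qm 3072)).setHiD (qm 256)).setLoU (qm
    128)).setHiW (qm 128)).setLoD (qm 128)).setHiU (qm 192)).setLoW (qm 64)).setLoD (qm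
    192)).setLoW (qm 96)).setLoA (qm 2560)).setHiU (qm 160)).setHiD (qm 224)).setHiW (qm
    112)).setLoA (qm 2816)).setLoU (qm 144)).setHiA (qm 2944)).setHiD (qm 208)).setLoU (qm
    152)).setHiW (qm 104)).setHiA (qm 2880)).setHiD (qm 200))
    (by decide +kernel))
    (good_of_check
    (R .u5 2372940 6885432 3731908 5100885 13343516 71105 3231926 11863286 9684280 (-283806)
    3231926 3315891 1758090 (-39681) 2568474 2673357 2673357 6537532)
    (((((((((((((((((((((((((((root.setHiD (qm 2048)).setHiD (qm 1024)).setHiU (qm 512)).setLoA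
    (qm 2048)).setHiD (qm 512)).setHiU (qm 256)).setHiA (qm 3072)).setHiD (qm 256)).setLoU (qm
    128)).setHiW (qm 128)).setLoD (qm 128)).setHiU (qm 192)).setLoW (qm 64)).setLoD (qm
    192)).setLoW (qm 96)).setLoA (qm 2560)).setHiU (qm 160)).setHiD (qm 224)).setHiW (qm
    112)).setLoA (qm 2816)).setLoU (qm 144)).setHiA (qm 2944)).setHiD (qm 208)).setLoU (qm
    152)).setHiW (qm 104)).setHiA (qm 2880)).setLoD (qm 200))
    (by decide +kernel)))
    (good_of_check
    (T 2852127 55838077 9141275 12183351 1672237 4300161 3380389 1049670 3433602 4278399 1676267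
    3315891 2673357 63170022 17467856 11193845 24769490 16031558)
    ((((((((((((((((((((((((((root.setHiD (qm 2048)).setHiD (qm 1024)).setHiU (qm 512)).setLoA (qm
    2048)).setHiD (qm 512)).setHiU (qm 256)).setHiA (qm 3072)).setHiD (qm 256)).setLoU (qm
    128)).setHiW (qm 128)).setLoD (qm 128)).setHiU (qm 192)).setLoW (qm 64)).setLoD (qm
    192)).setLoW (qm 96)).setLoA (qm 2560)).setHiU (qm 160)).setHiD (qm 224)).setHiW (qm
    112)).setLoA (qm 2816)).setLoU (qm 144)).setHiA (qm 2944)).setHiD (qm 208)).setLoU (qm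
    152)).setHiW (qm 104)).setLoA (qm 2880))
    (by decide +kernel)))
    (good_of_check
    (R .t5n 2650310 6717385 3632372 5106347 13404880 69058 3187393 11851231 7548112 (-193489)
    3187393 3272501 (-882446) 77450 2619340 2722264 2673357 7917605)
    (((((((((((((((((((((((((root.setHiD (qm 2048)).setHiD (qm 1024)).setHiU (qm 512)).setLoA (qm
    2048)).setHiD (qm 512)).setHiU (qm 256)).setHiA (qm 3072)).setHiD (qm 256)).setLoU (qm
    128)).setHiW (qm 128)).setLoD (qm 128)).setHiU (qm 192)).setLoW (qm 64)).setLoD (qm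
    192)).setLoW (qm 96)).setLoA (qm 2560)).setHiU (qm 160)).setHiD (qm 224)).setHiW (qm
    112)).setLoA (qm 2816)).setLoU (qm 144)).setHiA (qm 2944)).setHiD (qm 208)).setLoU (qm
    152)).setLoW (qm 104))
    (by decide +kernel))))
    (good_splitW (qm 104)
    (good_splitD (qm 216)
    (good_splitA (qm 2880)
    (good_of_check
    (R .u5 2368763 6787074 3731908 5095424 13335573 80004 3145726 11863286 9312505 (-268055)
    3145726 3315891 1814138 (-40898) 2568474 2673357 2673357 6569245)
    ((((((((((((((((((((((((((root.setHiD (qm 2048)).setHiD (qm 1024)).setHiU (qm 512)).setLoA (qm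
    2048)).setHiD (qm 512)).setHiU (qm 256)).setHiA (qm 3072)).setHiD (qm 256)).setLoU (qm
    128)).setHiW (qm 128)).setLoD (qm 128)).setHiU (qm 192)).setLoW (qm 64)).setLoD (qm
    192)).setLoW (qm 96)).setLoA (qm 2560)).setHiU (qm 160)).setHiD (qm 224)).setHiW (qm
    112)).setLoA (qm 2816)).setLoU (qm 144)).setHiA (qm 2944)).setLoD (qm 208)).setHiW (qm
    104)).setHiD (qm 216)).setHiA (qm 2880))
    (by decide +kernel))
    (good_of_check
    (T 2852127 56003769 9141275 12183351 1713659 4349381 3426879 1045532 3370946 4237870 1694389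
    3315891 2673357 63442197 17913579 11370438 24769490 16014402)
    ((((((((((((((((((((((((((root.setHiD (qm 2048)).setHiD (qm 1024)).setHiU (qm 512)).setLoA (qm
    2048)).setHiD (qm 512)).setHiU (qm 256)).setHiA (qm 3072)).setHiD (qm 256)).setLoU (qm
    128)).setHiW (qm 128)).setLoD (qm 128)).setHiU (qm 192)).setLoW (qm 64)).setLoD (qm
    192)).setLoW (qm 96)).setLoA (qm 2560)).setHiU (qm 160)).setHiD (qm 224)).setHiW (qm
    112)).setLoA (qm 2816)).setLoU (qm 144)).setHiA (qm 2944)).setLoD (qm 208)).setHiW (qm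
    104)).setHiD (qm 216)).setLoA (qm 2880))
    (by decide +kernel)))
    (good_of_check
    (R .u5 2379681 6681114 3632372 5084501 13312762 68550 3145726 11863286 9113711 (-263478)
    3145726 3315891 1669301 (-37747) 2568474 2673357 2673357 6485562)
    (((((((((((((((((((((((((root.setHiD (qm 2048)).setHiD (qm 1024)).setHiU (qm 512)).setLoA (qm
    2048)).setHiD (qm 512)).setHiU (qm 256)).setHiA (qm 3072)).setHiD (qm 256)).setLoU (qm
    128)).setHiW (qm 128)).setLoD (qm 128)).setHiU (qm 192)).setLoW (qm 64)).setLoD (qm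
    192)).setLoW (qm 96)).setLoA (qm 2560)).setHiU (qm 160)).setHiD (qm 224)).setHiW (qm
    112)).setLoA (qm 2816)).setLoU (qm 144)).setHiA (qm 2944)).setLoD (qm 208)).setHiW (qm
    104)).setLoD (qm 216))
    (by decide +kernel)))
    (good_splitD (qm 216)
    (good_splitW (qm 108)
    (good_of_check
    (R .t5n 2643567 6586956 3632372 5095424 13394356 82599 3096405 11850303 6968670 (-166567)
    3096405 3269139 (-1159013) 88786 2615138 2667181 2724283 8199045)
    ((((((((((((((((((((((((((root.setHiD (qm 2048)).setHiD (qm 1024)).setHiU (qm 512)).setLoA (qm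
    2048)).setHiD (qm 512)).setHiU (qm 256)).setHiA (qm 3072)).setHiD (qm 256)).setLoU (qm
    128)).setHiW (qm 128)).setLoD (qm 128)).setHiU (qm 192)).setLoW (qm 64)).setLoD (qm
    192)).setLoW (qm 96)).setLoA (qm 2560)).setHiU (qm 160)).setHiD (qm 224)).setHiW (qm
    112)).setLoA (qm 2816)).setLoU (qm 144)).setHiA (qm 2944)).setLoD (qm 208)).setLoW (qm
    104)).setHiD (qm 216)).setHiW (qm 108))
    (by decide +kernel))
    (good_of_check
    (R .u5 2383849 6642260 3632372 5095424 13292170 67823 3145726 11863286 9038156 (-261726)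
    3145726 3315891 3154309 (-76261) 2724278 2774274 2724283 6672206)
    ((((((((((((((((((((((((((root.setHiD (qm 2048)).setHiD (qm 1024)).setHiU (qm 512)).setLoA (qm
    2048)).setHiD (qm 512)).setHiU (qm 256)).setHiA (qm 3072)).setHiD (qm 256)).setLoU (qm
    128)).setHiW (qm 128)).setLoD (qm 128)).setHiU (qm 192)).setLoW (qm 64)).setLoD (qm
    192)).setLoW (qm 96)).setLoA (qm 2560)).setHiU (qm 160)).setHiD (qm 224)).setHiW (qm
    112)).setLoA (qm 2816)).setLoU (qm 144)).setHiA (qm 2944)).setLoD (qm 208)).setLoW (qm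
    104)).setHiD (qm 216)).setLoW (qm 108))
    (by decide +kernel)))
    (good_of_check
    (R .u5 2386425 6616940 3632372 5084501 13293190 63210 3145726 11863286 8991561 (-260641)
    3145726 3315891 2798018 (-66712) 2673352 2774274 2774274 6864065)
    (((((((((((((((((((((((((root.setHiD (qm 2048)).setHiD (qm 1024)).setHiU (qm 512)).setLoA (qm
    2048)).setHiD (qm 512)).setHiU (qm 256)).setHiA (qm 3072)).setHiD (qm 256)).setLoU (qm
    128)).setHiW (qm 128)).setLoD (qm 128)).setHiU (qm 192)).setLoW (qm 64)).setLoD (qm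
    192)).setLoW (qm 96)).setLoA (qm 2560)).setHiU (qm 160)).setHiD (qm 224)).setHiW (qm
    112)).setLoA (qm 2816)).setLoU (qm 144)).setHiA (qm 2944)).setLoD (qm 208)).setLoW (qm
    104)).setLoD (qm 216))
    (by decide +kernel)))))
    (good_splitA (qm 3008)
    (good_splitA (qm 2976)
    (good_of_check
    (T 2852127 54432450 8897464 12317977 1701017 4262788 3494257 1050531 3485112 4203791 1712320
    3315891 2774274 63146528 17112649 11793047 24780584 16022982)
    ((((((((((((((((((((((((root.setHiD (qm 2048)).setHiD (qm 1024)).setHiU (qm 512)).setLoA (qm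
    2048)).setHiD (qm 512)).setHiU (qm 256)).setHiA (qm 3072)).setHiD (qm 256)).setLoU (qm
    128)).setHiW (qm 128)).setLoD (qm 128)).setHiU (qm 192)).setLoW (qm 64)).setLoD (qm
    192)).setLoW (qm 96)).setLoA (qm 2560)).setHiU (qm 160)).setHiD (qm 224)).setHiW (qm
    112)).setLoA (qm 2816)).setLoU (qm 144)).setLoA (qm 2944)).setHiA (qm 3008)).setHiA (qm 2976))
    (by decide +kernel))
    (good_of_check
    (T 2852127 53586156 8773018 12384742 1674570 4196511 3439930 1055030 3568520 4256609 1712320
    3315891 2774274 62872779 16558034 11556786 24791674 16022982)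
    ((((((((((((((((((((((((root.setHiD (qm 2048)).setHiD (qm 1024)).setHiU (qm 512)).setLoA (qm
    2048)).setHiD (qm 512)).setHiU (qm 256)).setHiA (qm 3072)).setHiD (qm 256)).setLoU (qm
    128)).setHiW (qm 128)).setLoD (qm 128)).setHiU (qm 192)).setLoW (qm 64)).setLoD (qm
    192)).setLoW (qm 96)).setLoA (qm 2560)).setHiU (qm 160)).setHiD (qm 224)).setHiW (qm
    112)).setLoA (qm 2816)).setLoU (qm 144)).setLoA (qm 2944)).setHiA (qm 3008)).setLoA (qm 2976))
    (by decide +kernel)))
    (good_of_check
    (T 3187671 52754152 8646781 12451149 1648570 4192658 3429432 1184101 3495984 4172880 1712320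
    3315891 2774274 55659367 17038935 11934473 24813840 16022982)
    (((((((((((((((((((((((root.setHiD (qm 2048)).setHiD (qm 1024)).setHiU (qm 512)).setLoA (qm
    2048)).setHiD (qm 512)).setHiU (qm 256)).setHiA (qm 3072)).setHiD (qm 256)).setLoU (qm
    128)).setHiW (qm 128)).setLoD (qm 128)).setHiU (qm 192)).setLoW (qm 64)).setLoD (qm
    192)).setLoW (qm 96)).setLoA (qm 2560)).setHiU (qm 160)).setHiD (qm 224)).setHiW (qm
    112)).setLoA (qm 2816)).setLoU (qm 144)).setLoA (qm 2944)).setLoA (qm 3008))
    (by decide +kernel))))))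
    (good_splitD (qm 208)
    (good_splitU (qm 144)
    (good_splitD (qm 200)
    (good_splitD (qm 196)
    (good_of_check
    (R .t5n 2604087 6651127 3424633 5141845 13408317 137896 2926633 11853550 5433804 (-116735)
    2926633 3108814 2286962 (-18396) 2732338 2926638 2402592 6989481)
    (((((((((((((((((((((((root.setHiD (qm 2048)).setHiD (qm 1024)).setHiU (qm 512)).setLoA (qm
    2048)).setHiD (qm 512)).setHiU (qm 256)).setHiA (qm 3072)).setHiD (qm 256)).setLoU (qm
    128)).setHiW (qm 128)).setLoD (qm 128)).setHiU (qm 192)).setLoW (qm 64)).setLoD (qm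
    192)).setLoW (qm 96)).setLoA (qm 2560)).setHiU (qm 160)).setHiD (qm 224)).setLoW (qm
    112)).setHiD (qm 208)).setHiU (qm 144)).setHiD (qm 200)).setHiD (qm 196))
    (by decide +kernel))
    (good_of_check
    (R .t5n 2604087 6638870 3424633 5136384 13410019 137457 2924754 11853086 5376234 (-113199)
    2924754 3107045 2219563 (-14553) 2730325 2924759 2459131 7262023)
    (((((((((((((((((((((((root.setHiD (qm 2048)).setHiD (qm 1024)).setHiU (qm 512)).setLoA (qm
    2048)).setHiD (qm 512)).setHiU (qm 256)).setHiA (qm 3072)).setHiD (qm 256)).setLoU (qm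
    128)).setHiW (qm 128)).setLoD (qm 128)).setHiU (qm 192)).setLoW (qm 64)).setLoD (qm
    192)).setLoW (qm 96)).setLoA (qm 2560)).setHiU (qm 160)).setHiD (qm 224)).setLoW (qm
    112)).setHiD (qm 208)).setHiU (qm 144)).setHiD (qm 200)).setLoD (qm 196))
    (by decide +kernel)))
    (good_splitU (qm 136)
    (good_splitA (qm 2816)
    (good_of_check
    (R .u5 2335592 6803542 3828857 5133653 13344754 132492 2965818 11863286 7421280 (-195944)
    2965818 3057101 5601764 (-139084) 2774269 2965823 2568479 6358905)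
    ((((((((((((((((((((((((root.setHiD (qm 2048)).setHiD (qm 1024)).setHiU (qm 512)).setLoA (qm
    2048)).setHiD (qm 512)).setHiU (qm 256)).setHiA (qm 3072)).setHiD (qm 256)).setLoU (qm
    128)).setHiW (qm 128)).setLoD (qm 128)).setHiU (qm 192)).setLoW (qm 64)).setLoD (qm
    192)).setLoW (qm 96)).setLoA (qm 2560)).setHiU (qm 160)).setHiD (qm 224)).setLoW (qm
    112)).setHiD (qm 208)).setHiU (qm 144)).setLoD (qm 200)).setHiU (qm 136)).setHiA (qm 2816))
    (by decide +kernel))
    (good_of_check
    (T 3187671 57123349 9378750 12047220 1599159 3940734 3802994 1176662 3714401 3838148 1620685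
    3057101 2965823 55710496 15076590 14134665 24813840 16074366)
    ((((((((((((((((((((((((root.setHiD (qm 2048)).setHiD (qm 1024)).setHiU (qm 512)).setLoA (qm
    2048)).setHiD (qm 512)).setHiU (qm 256)).setHiA (qm 3072)).setHiD (qm 256)).setLoU (qm
    128)).setHiW (qm 128)).setLoD (qm 128)).setHiU (qm 192)).setLoW (qm 64)).setLoD (qm
    192)).setLoW (qm 96)).setLoA (qm 2560)).setHiU (qm 160)).setHiD (qm 224)).setLoW (qm
    112)).setHiD (qm 208)).setHiU (qm 144)).setLoD (qm 200)).setHiU (qm 136)).setLoA (qm 2816))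
    (by decide +kernel)))
    (good_of_check
    (R .t5n 2628484 6586956 3424633 5122731 13387890 107178 3013628 11852159 5510465 (-119084)
    3013628 3103504 1640113 4744 2726295 2920997 2568479 7599465)
    (((((((((((((((((((((((root.setHiD (qm 2048)).setHiD (qm 1024)).setHiU (qm 512)).setLoA (qm
    2048)).setHiD (qm 512)).setHiU (qm 256)).setHiA (qm 3072)).setHiD (qm 256)).setLoU (qm
    128)).setHiW (qm 128)).setLoD (qm 128)).setHiU (qm 192)).setLoW (qm 64)).setLoD (qm
    192)).setLoW (qm 96)).setLoA (qm 2560)).setHiU (qm 160)).setHiD (qm 224)).setLoW (qm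
    112)).setHiD (qm 208)).setHiU (qm 144)).setLoD (qm 200)).setLoU (qm 136))
    (by decide +kernel))))
    (good_of_check
    (R .t5n 2647734 6595821 3424633 5111808 13380091 80324 3103499 11852159 7082562 (-177448)
    3103499 3275859 1306245 13557 2726295 2920997 2568479 7457657)
    (((((((((((((((((((((root.setHiD (qm 2048)).setHiD (qm 1024)).setHiU (qm 512)).setLoA (qm
    2048)).setHiD (qm 512)).setHiU (qm 256)).setHiA (qm 3072)).setHiD (qm 256)).setLoU (qm
    128)).setHiW (qm 128)).setLoD (qm 128)).setHiU (qm 192)).setLoW (qm 64)).setLoD (qm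
    192)).setLoW (qm 96)).setLoA (qm 2560)).setHiU (qm 160)).setHiD (qm 224)).setLoW (qm
    112)).setHiD (qm 208)).setLoU (qm 144))
    (by decide +kernel)))
    (good_splitU (qm 144)
    (good_splitA (qm 2816)
    (good_splitD (qm 216)
    (good_of_check
    (R .u5 2337622 6781596 3828857 5117269 13351957 126811 2965818 11863286 7923206 (-211969)
    2965818 3145730 5563837 (-138239) 2774269 2965823 2673357 6813551)
    (((((((((((((((((((((((root.setHiD (qm 2048)).setHiD (qm 1024)).setHiU (qm 512)).setLoA (qm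
    2048)).setHiD (qm 512)).setHiU (qm 256)).setHiA (qm 3072)).setHiD (qm 256)).setLoU (qm
    128)).setHiW (qm 128)).setLoD (qm 128)).setHiU (qm 192)).setLoW (qm 64)).setLoD (qm
    192)).setLoW (qm 96)).setLoA (qm 2560)).setHiU (qm 160)).setHiD (qm 224)).setLoW (qm
    112)).setLoD (qm 208)).setHiU (qm 144)).setHiA (qm 2816)).setHiD (qm 216))
    (by decide +kernel))
    (good_of_check
    (R .u5 2337622 6781596 3828857 5106347 13360787 124121 2965818 11863286 7923206 (-211969)
    2965818 3145730 5563837 (-138239) 2774269 2965823 2774274 7255988)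
    (((((((((((((((((((((((root.setHiD (qm 2048)).setHiD (qm 1024)).setHiU (qm 512)).setLoA (qm
    2048)).setHiD (qm 512)).setHiU (qm 256)).setHiA (qm 3072)).setHiD (qm 256)).setLoU (qm
    128)).setHiW (qm 128)).setLoD (qm 128)).setHiU (qm 192)).setLoW (qm 64)).setLoD (qm
    192)).setLoW (qm 96)).setLoA (qm 2560)).setHiU (qm 160)).setHiD (qm 224)).setLoW (qm
    112)).setLoD (qm 208)).setHiU (qm 144)).setHiA (qm 2816)).setLoD (qm 216))
    (by decide +kernel)))
    (good_splitA (qm 2944)
    (good_splitU (qm 136)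
    (good_of_check
    (T 2852127 57460360 9378750 12047220 1683411 3982044 3846831 1044644 3755289 3882061 1657947
    3057101 2965823 63461940 14833251 13891265 24769490 16048695)
    ((((((((((((((((((((((((root.setHiD (qm 2048)).setHiD (qm 1024)).setHiU (qm 512)).setLoA (qm
    2048)).setHiD (qm 512)).setHiU (qm 256)).setHiA (qm 3072)).setHiD (qm 256)).setLoU (qm
    128)).setHiW (qm 128)).setLoD (qm 128)).setHiU (qm 192)).setLoW (qm 64)).setLoD (qm
    192)).setLoW (qm 96)).setLoA (qm 2560)).setHiU (qm 160)).setHiD (qm 224)).setLoW (qm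
    112)).setLoD (qm 208)).setHiU (qm 144)).setLoA (qm 2816)).setHiA (qm 2944)).setHiU (qm 136))
    (by decide +kernel))
    (good_splitD (qm 216)
    (good_of_check
    (R .u5 2362019 6703039 3632372 5111808 13314847 97248 3057096 11863286 8003423 (-220510)
    3057096 3145730 5115705 (-128153) 2774269 2965823 2673357 6620410)
    (((((((((((((((((((((((((root.setHiD (qm 2048)).setHiD (qm 1024)).setHiU (qm 512)).setLoA (qm
    2048)).setHiD (qm 512)).setHiU (qm 256)).setHiA (qm 3072)).setHiD (qm 256)).setLoU (qm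
    128)).setHiW (qm 128)).setLoD (qm 128)).setHiU (qm 192)).setLoW (qm 64)).setLoD (qm
    192)).setLoW (qm 96)).setLoA (qm 2560)).setHiU (qm 160)).setHiD (qm 224)).setLoW (qm
    112)).setLoD (qm 208)).setHiU (qm 144)).setLoA (qm 2816)).setHiA (qm 2944)).setLoU (qm
    136)).setHiD (qm 216))
    (by decide +kernel))
    (good_of_check
    (R .u5 2362020 6703039 3632372 5100885 13323574 94590 3057096 11863286 8003408 (-220510)
    3057096 3145730 5115690 (-128153) 2774269 2965823 2774274 7056697)
    (((((((((((((((((((((((((root.setHiD (qm 2048)).setHiD (qm 1024)).setHiU (qm 512)).setLoA (qm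
    2048)).setHiD (qm 512)).setHiU (qm 256)).setHiA (qm 3072)).setHiD (qm 256)).setLoU (qm
    128)).setHiW (qm 128)).setLoD (qm 128)).setHiU (qm 192)).setLoW (qm 64)).setLoD (qm
    192)).setLoW (qm 96)).setLoA (qm 2560)).setHiU (qm 160)).setHiD (qm 224)).setLoW (qm
    112)).setLoD (qm 208)).setHiU (qm 144)).setLoA (qm 2816)).setHiA (qm 2944)).setLoU (qm
    136)).setLoD (qm 216))
    (by decide +kernel))))
    (good_of_check
    (T 3187671 54110365 8897464 12317977 1620495 3969038 3708089 1183148 3712672 3944995 1676267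
    3145730 2965823 55589090 15292344 13552456 24813840 16040128)
    (((((((((((((((((((((((root.setHiD (qm 2048)).setHiD (qm 1024)).setHiU (qm 512)).setLoA (qm
    2048)).setHiD (qm 512)).setHiU (qm 256)).setHiA (qm 3072)).setHiD (qm 256)).setLoU (qm
    128)).setHiW (qm 128)).setLoD (qm 128)).setHiU (qm 192)).setLoW (qm 64)).setLoD (qm
    192)).setLoW (qm 96)).setLoA (qm 2560)).setHiU (qm 160)).setHiD (qm 224)).setLoW (qm
    112)).setLoD (qm 208)).setHiU (qm 144)).setLoA (qm 2816)).setLoA (qm 2944))
    (by decide +kernel))))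
    (good_splitD (qm 216)
    (good_of_check
    (R .t5n 2657053 6491985 3424633 5095424 13363119 71664 3099954 11851231 6807235 (-166074)
    3099954 3272501 1019995 25354 2722259 2917231 2673357 7866868)
    ((((((((((((((((((((((root.setHiD (qm 2048)).setHiD (qm 1024)).setHiU (qm 512)).setLoA (qm
    2048)).setHiD (qm 512)).setHiU (qm 256)).setHiA (qm 3072)).setHiD (qm 256)).setLoU (qm
    128)).setHiW (qm 128)).setLoD (qm 128)).setHiU (qm 192)).setLoW (qm 64)).setLoD (qm
    192)).setLoW (qm 96)).setLoA (qm 2560)).setHiU (qm 160)).setHiD (qm 224)).setLoW (qm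
    112)).setLoD (qm 208)).setLoU (qm 144)).setHiD (qm 216))
    (by decide +kernel))
    (good_of_check
    (R .t5n 2657053 6470862 3424633 5084501 13366291 70902 3096405 11850303 6709805 (-159510)
    3096405 3269139 889260 33033 2718217 2913459 2774274 8317701)
    ((((((((((((((((((((((root.setHiD (qm 2048)).setHiD (qm 1024)).setHiU (qm 512)).setLoA (qm
    2048)).setHiD (qm 512)).setHiU (qm 256)).setHiA (qm 3072)).setHiD (qm 256)).setLoU (qm
    128)).setHiW (qm 128)).setLoD (qm 128)).setHiU (qm 192)).setLoW (qm 64)).setLoD (qm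
    192)).setLoW (qm 96)).setLoA (qm 2560)).setHiU (qm 160)).setHiD (qm 224)).setLoW (qm
    112)).setLoD (qm 208)).setLoU (qm 144)).setLoD (qm 216))
    (by decide +kernel))))))
    (good_splitW (qm 112)
    (good_splitA (qm 2816)
    (good_splitU (qm 144)
    (good_splitW (qm 104)
    (good_of_check
    (R .u5 2337622 6781596 3828857 5079040 13382862 117420 2965818 11863286 7923206 (-211969)
    2965818 3145730 2256737 (-50419) 2568474 2673357 2673357 6813551)
    ((((((((((((((((((((((root.setHiD (qm 2048)).setHiD (qm 1024)).setHiU (qm 512)).setLoA (qm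
    2048)).setHiD (qm 512)).setHiU (qm 256)).setHiA (qm 3072)).setHiD (qm 256)).setLoU (qm
    128)).setHiW (qm 128)).setLoD (qm 128)).setHiU (qm 192)).setLoW (qm 64)).setLoD (qm
    192)).setLoW (qm 96)).setLoA (qm 2560)).setHiU (qm 160)).setLoD (qm 224)).setHiW (qm
    112)).setHiA (qm 2816)).setHiU (qm 144)).setHiW (qm 104))
    (by decide +kernel))
    (good_of_check
    (R .u5 2337622 6781596 3828857 5079040 13382862 117420 2965818 11863286 7923206 (-211969)
    2965818 3145730 3592501 (-84335) 2673352 2774274 2774274 7255988)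
    ((((((((((((((((((((((root.setHiD (qm 2048)).setHiD (qm 1024)).setHiU (qm 512)).setLoA (qm
    2048)).setHiD (qm 512)).setHiU (qm 256)).setHiA (qm 3072)).setHiD (qm 256)).setLoU (qm
    128)).setHiW (qm 128)).setLoD (qm 128)).setHiU (qm 192)).setLoW (qm 64)).setLoD (qm
    192)).setLoW (qm 96)).setLoA (qm 2560)).setHiU (qm 160)).setLoD (qm 224)).setHiW (qm
    112)).setHiA (qm 2816)).setHiU (qm 144)).setLoW (qm 104))
    (by decide +kernel)))
    (good_of_check
    (R .u5 2383849 6642262 3828857 5057195 13322441 58664 3145726 11863286 9038156 (-261726)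
    3145726 3315891 2226646 (-50895) 2568474 2774274 2774274 6884928)
    (((((((((((((((((((((root.setHiD (qm 2048)).setHiD (qm 1024)).setHiU (qm 512)).setLoA (qm
    2048)).setHiD (qm 512)).setHiU (qm 256)).setHiA (qm 3072)).setHiD (qm 256)).setLoU (qm
    128)).setHiW (qm 128)).setLoD (qm 128)).setHiU (qm 192)).setLoW (qm 64)).setLoD (qm
    192)).setLoW (qm 96)).setLoA (qm 2560)).setHiU (qm 160)).setLoD (qm 224)).setHiW (qm
    112)).setHiA (qm 2816)).setLoU (qm 144))
    (by decide +kernel)))
    (good_splitU (qm 144)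
    (good_splitA (qm 2944)
    (good_splitD (qm 240)
    (good_splitU (qm 136)
    (good_of_check
    (T 2852127 57801371 9378750 12047220 1768664 4080939 3672891 1036155 3646090 4021288 1694389
    3057101 2774274 64025602 15495548 12663662 24769490 16014402)
    ((((((((((((((((((((((((root.setHiD (qm 2048)).setHiD (qm 1024)).setHiU (qm 512)).setLoA (qm
    2048)).setHiD (qm 512)).setHiU (qm 256)).setHiA (qm 3072)).setHiD (qm 256)).setLoU (qm
    128)).setHiW (qm 128)).setLoD (qm 128)).setHiU (qm 192)).setLoW (qm 64)).setLoD (qm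
    192)).setLoW (qm 96)).setLoA (qm 2560)).setHiU (qm 160)).setLoD (qm 224)).setHiW (qm
    112)).setLoA (qm 2816)).setHiU (qm 144)).setHiA (qm 2944)).setHiD (qm 240)).setHiU (qm 136))
    (by decide +kernel))
    (good_splitW (qm 104)
    (good_of_check
    (T 2852127 57973399 9378750 12047220 1811671 4267249 3585144 1031783 3441588 4086579 1712320
    3145730 2673357 64304851 17054120 12065496 24769490 15997229)
    (((((((((((((((((((((((((root.setHiD (qm 2048)).setHiD (qm 1024)).setHiU (qm 512)).setLoA (qm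
    2048)).setHiD (qm 512)).setHiU (qm 256)).setHiA (qm 3072)).setHiD (qm 256)).setLoU (qm
    128)).setHiW (qm 128)).setLoD (qm 128)).setHiU (qm 192)).setLoW (qm 64)).setLoD (qm
    192)).setLoW (qm 96)).setLoA (qm 2560)).setHiU (qm 160)).setLoD (qm 224)).setHiW (qm
    112)).setLoA (qm 2816)).setHiU (qm 144)).setHiA (qm 2944)).setHiD (qm 240)).setLoU (qm
    136)).setHiW (qm 104))
    (by decide +kernel))
    (good_of_check
    (R .u5 2362020 6703039 3632372 5084501 13336666 90616 3057096 11863286 8003408 (-220510)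
    3057096 3145730 3184881 (-75358) 2673352 2774274 2774274 7056697)
    (((((((((((((((((((((((((root.setHiD (qm 2048)).setHiD (qm 1024)).setHiU (qm 512)).setLoA (qm
    2048)).setHiD (qm 512)).setHiU (qm 256)).setHiA (qm 3072)).setHiD (qm 256)).setLoU (qm
    128)).setHiW (qm 128)).setLoD (qm 128)).setHiU (qm 192)).setLoW (qm 64)).setLoD (qm
    192)).setLoW (qm 96)).setLoA (qm 2560)).setHiU (qm 160)).setLoD (qm 224)).setHiW (qm
    112)).setLoA (qm 2816)).setHiU (qm 144)).setHiA (qm 2944)).setHiD (qm 240)).setLoU (qm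
    136)).setLoW (qm 104))
    (by decide +kernel))))
    (good_splitW (qm 104)
    (good_of_check
    (R .u5 2340200 6756239 3632372 5068117 13384033 112712 2965818 11863286 7874021 (-210860)
    2965818 3145730 2218459 (-49602) 2568474 2673357 2673357 6792056)
    ((((((((((((((((((((((((root.setHiD (qm 2048)).setHiD (qm 1024)).setHiU (qm 512)).setLoA (qm
    2048)).setHiD (qm 512)).setHiU (qm 256)).setHiA (qm 3072)).setHiD (qm 256)).setLoU (qm
    128)).setHiW (qm 128)).setLoD (qm 128)).setHiU (qm 192)).setLoW (qm 64)).setLoD (qm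
    192)).setLoW (qm 96)).setLoA (qm 2560)).setHiU (qm 160)).setLoD (qm 224)).setHiW (qm
    112)).setLoA (qm 2816)).setHiU (qm 144)).setHiA (qm 2944)).setLoD (qm 240)).setHiW (qm 104))
    (by decide +kernel))
    (good_of_check
    (R .u5 2348534 6676432 3632372 5068117 13359602 106082 2965818 11863286 7715766 (-207276)
    2965818 3145730 3407656 (-80280) 2673352 2774274 2774274 7165780)
    ((((((((((((((((((((((((root.setHiD (qm 2048)).setHiD (qm 1024)).setHiU (qm 512)).setLoA (qm
    2048)).setHiD (qm 512)).setHiU (qm 256)).setHiA (qm 3072)).setHiD (qm 256)).setLoU (qm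
    128)).setHiW (qm 128)).setLoD (qm 128)).setHiU (qm 192)).setLoW (qm 64)).setLoD (qm
    192)).setLoW (qm 96)).setLoA (qm 2560)).setHiU (qm 160)).setLoD (qm 224)).setHiW (qm
    112)).setLoA (qm 2816)).setHiU (qm 144)).setHiA (qm 2944)).setLoD (qm 240)).setLoW (qm 104))
    (by decide +kernel))))
    (good_of_check
    (T 3187671 54758393 8897464 12317977 1782502 4159171 3631023 1164755 3502090 3984361 1747629
    3145730 2774274 56754866 16637732 12850708 24813840 15988635)
    ((((((((((((((((((((((root.setHiD (qm 2048)).setHiD (qm 1024)).setHiU (qm 512)).setLoA (qm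
    2048)).setHiD (qm 512)).setHiU (qm 256)).setHiA (qm 3072)).setHiD (qm 256)).setLoU (qm
    128)).setHiW (qm 128)).setLoD (qm 128)).setHiU (qm 192)).setLoW (qm 64)).setLoD (qm
    192)).setLoW (qm 96)).setLoA (qm 2560)).setHiU (qm 160)).setLoD (qm 224)).setHiW (qm
    112)).setLoA (qm 2816)).setHiU (qm 144)).setLoA (qm 2944))
    (by decide +kernel)))
    (good_splitD (qm 240)
    (good_splitW (qm 104)
    (good_splitW (qm 100)
    (good_of_check
    (R .u5 2386425 6616940 3424633 5068117 13306113 59300 3145726 11863286 8991561 (-260641)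
    3145726 3315891 1294569 (-29101) 2568474 2621442 2621442 6211232)
    ((((((((((((((((((((((((root.setHiD (qm 2048)).setHiD (qm 1024)).setHiU (qm 512)).setLoA (qm
    2048)).setHiD (qm 512)).setHiU (qm 256)).setHiA (qm 3072)).setHiD (qm 256)).setLoU (qm
    128)).setHiW (qm 128)).setLoD (qm 128)).setHiU (qm 192)).setLoW (qm 64)).setLoD (qm
    192)).setLoW (qm 96)).setLoA (qm 2560)).setHiU (qm 160)).setLoD (qm 224)).setHiW (qm
    112)).setLoA (qm 2816)).setLoU (qm 144)).setHiD (qm 240)).setHiW (qm 104)).setHiW (qm 100))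
    (by decide +kernel))
    (good_splitU (qm 152)
    (good_of_check
    (R .u5 2386425 6616940 3424633 5073579 13301806 60601 3145726 11863286 8541588 (-244822)
    3145726 3231931 1870615 (-43165) 2621438 2673357 2673357 6435428)
    (((((((((((((((((((((((((root.setHiD (qm 2048)).setHiD (qm 1024)).setHiU (qm 512)).setLoA (qm
    2048)).setHiD (qm 512)).setHiU (qm 256)).setHiA (qm 3072)).setHiD (qm 256)).setLoU (qm
    128)).setHiW (qm 128)).setLoD (qm 128)).setHiU (qm 192)).setLoW (qm 64)).setLoD (qm
    192)).setLoW (qm 96)).setLoA (qm 2560)).setHiU (qm 160)).setLoD (qm 224)).setHiW (qm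
    112)).setLoA (qm 2816)).setLoU (qm 144)).setHiD (qm 240)).setHiW (qm 104)).setLoW (qm
    100)).setHiU (qm 152))
    (by decide +kernel))
    (good_of_check
    (R .u5 2412414 6513104 3424633 5062656 13261235 29948 3231926 11863286 8978632 (-267346)
    3231926 3315891 1533144 (-35651) 2621438 2673357 2673357 6243826)
    (((((((((((((((((((((((((root.setHiD (qm 2048)).setHiD (qm 1024)).setHiU (qm 512)).setLoA (qm
    2048)).setHiD (qm 512)).setHiU (qm 256)).setHiA (qm 3072)).setHiD (qm 256)).setLoU (qm
    128)).setHiW (qm 128)).setLoD (qm 128)).setHiU (qm 192)).setLoW (qm 64)).setLoD (qm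
    192)).setLoW (qm 96)).setLoA (qm 2560)).setHiU (qm 160)).setLoD (qm 224)).setHiW (qm
    112)).setLoA (qm 2816)).setLoU (qm 144)).setHiD (qm 240)).setHiW (qm 104)).setLoW (qm
    100)).setLoU (qm 152))
    (by decide +kernel))))
    (good_splitD (qm 232)
    (good_splitU (qm 152)
    (good_splitA (qm 2944)
    (good_of_check
    (R .u5 2386425 6616940 3632372 5079040 13297498 61905 3145726 11863286 8541588 (-244822)
    3145726 3231931 2798018 (-66712) 2673352 2774274 2774274 6864065)
    ((((((((((((((((((((((((((root.setHiD (qm 2048)).setHiD (qm 1024)).setHiU (qm 512)).setLoA (qm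
    2048)).setHiD (qm 512)).setHiU (qm 256)).setHiA (qm 3072)).setHiD (qm 256)).setLoU (qm
    128)).setHiW (qm 128)).setLoD (qm 128)).setHiU (qm 192)).setLoW (qm 64)).setLoD (qm
    192)).setLoW (qm 96)).setLoA (qm 2560)).setHiU (qm 160)).setLoD (qm 224)).setHiW (qm
    112)).setLoA (qm 2816)).setLoU (qm 144)).setHiD (qm 240)).setLoW (qm 104)).setHiD (qm
    232)).setHiU (qm 152)).setHiA (qm 2944))
    (by decide +kernel))
    (good_of_check
    (T 2852127 54432450 8897464 12317977 1701017 4134699 3494257 1050531 3625331 4203791 1712320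
    3231931 2774274 63146528 16020410 11793047 24813840 15988635)
    ((((((((((((((((((((((((((root.setHiD (qm 2048)).setHiD (qm 1024)).setHiU (qm 512)).setLoA (qm
    2048)).setHiD (qm 512)).setHiU (qm 256)).setHiA (qm 3072)).setHiD (qm 256)).setLoU (qm
    128)).setHiW (qm 128)).setLoD (qm 128)).setHiU (qm 192)).setLoW (qm 64)).setLoD (qm
    192)).setLoW (qm 96)).setLoA (qm 2560)).setHiU (qm 160)).setLoD (qm 224)).setHiW (qm
    112)).setLoA (qm 2816)).setLoU (qm 144)).setHiD (qm 240)).setLoW (qm 104)).setHiD (qm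
    232)).setHiU (qm 152)).setLoA (qm 2944))
    (by decide +kernel)))
    (good_of_check
    (R .u5 2412414 6513104 3424633 5068117 13256994 31228 3231926 11863286 8978632 (-267346)
    3231926 3315891 2409873 (-57912) 2673352 2774274 2774274 6665949)
    (((((((((((((((((((((((((root.setHiD (qm 2048)).setHiD (qm 1024)).setHiU (qm 512)).setLoA (qm
    2048)).setHiD (qm 512)).setHiU (qm 256)).setHiA (qm 3072)).setHiD (qm 256)).setLoU (qm
    128)).setHiW (qm 128)).setLoD (qm 128)).setHiU (qm 192)).setLoW (qm 64)).setLoD (qm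
    192)).setLoW (qm 96)).setLoA (qm 2560)).setHiU (qm 160)).setLoD (qm 224)).setHiW (qm
    112)).setLoA (qm 2816)).setLoU (qm 144)).setHiD (qm 240)).setLoW (qm 104)).setHiD (qm
    232)).setLoU (qm 152))
    (by decide +kernel)))
    (good_of_check
    (R .u5 2386428 6616940 3424633 5062656 13310417 57995 3145726 11863286 8991497 (-260640)
    3145726 3315891 2797964 (-66711) 2673352 2774274 2774274 6864031)
    ((((((((((((((((((((((((root.setHiD (qm 2048)).setHiD (qm 1024)).setHiU (qm 512)).setLoA (qm
    2048)).setHiD (qm 512)).setHiU (qm 256)).setHiA (qm 3072)).setHiD (qm 256)).setLoU (qm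
    128)).setHiW (qm 128)).setLoD (qm 128)).setHiU (qm 192)).setLoW (qm 64)).setLoD (qm
    192)).setLoW (qm 96)).setLoA (qm 2560)).setHiU (qm 160)).setLoD (qm 224)).setHiW (qm
    112)).setLoA (qm 2816)).setLoU (qm 144)).setHiD (qm 240)).setLoW (qm 104)).setLoD (qm 232))
    (by decide +kernel))))
    (good_of_check
    (R .u5 2390594 6578085 3424633 5046272 13311118 50868 3145726 11863286 8916266 (-258883)
    3145726 3315891 2132046 (-48809) 2568474 2774274 2774274 6832257)
    ((((((((((((((((((((((root.setHiD (qm 2048)).setHiD (qm 1024)).setHiU (qm 512)).setLoA (qm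
    2048)).setHiD (qm 512)).setHiU (qm 256)).setHiA (qm 3072)).setHiD (qm 256)).setLoU (qm
    128)).setHiW (qm 128)).setLoD (qm 128)).setHiU (qm 192)).setLoW (qm 64)).setLoD (qm
    192)).setLoW (qm 96)).setLoA (qm 2560)).setHiU (qm 160)).setLoD (qm 224)).setHiW (qm
    112)).setLoA (qm 2816)).setLoU (qm 144)).setLoD (qm 240))
    (by decide +kernel)))))
    (good_splitA (qm 2816)
    (good_splitU (qm 144)
    (good_splitD (qm 240)
    (good_splitW (qm 120)
    (good_of_check
    (R .u5 2337622 6781596 3828857 5089963 13374032 120096 2965818 11863286 7923206 (-211969)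
    2965818 3145730 4927502 (-120839) 2774269 2871646 2871646 7673708)
    (((((((((((((((((((((((root.setHiD (qm 2048)).setHiD (qm 1024)).setHiU (qm 512)).setLoA (qm
    2048)).setHiD (qm 512)).setHiU (qm 256)).setHiA (qm 3072)).setHiD (qm 256)).setLoU (qm
    128)).setHiW (qm 128)).setLoD (qm 128)).setHiU (qm 192)).setLoW (qm 64)).setLoD (qm
    192)).setLoW (qm 96)).setLoA (qm 2560)).setHiU (qm 160)).setLoD (qm 224)).setLoW (qm
    112)).setHiA (qm 2816)).setHiU (qm 144)).setHiD (qm 240)).setHiW (qm 120))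
    (by decide +kernel))
    (good_of_check
    (R .u5 2344367 6717383 3828857 5089963 13354454 114666 2965818 11863286 7794769 (-209069)
    2965818 3145730 6072756 (-155256) 2871641 2965823 2871646 7615776)
    (((((((((((((((((((((((root.setHiD (qm 2048)).setHiD (qm 1024)).setHiU (qm 512)).setLoA (qm
    2048)).setHiD (qm 512)).setHiU (qm 256)).setHiA (qm 3072)).setHiD (qm 256)).setLoU (qm
    128)).setHiW (qm 128)).setLoD (qm 128)).setHiU (qm 192)).setLoW (qm 64)).setLoD (qm
    192)).setLoW (qm 96)).setLoA (qm 2560)).setHiU (qm 160)).setLoD (qm 224)).setLoW (qm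
    112)).setHiA (qm 2816)).setHiU (qm 144)).setHiD (qm 240)).setLoW (qm 120))
    (by decide +kernel)))
    (good_of_check
    (R .u5 2348534 6676432 3828857 5068117 13359602 106082 2965818 11863286 7715766 (-207276)
    2965818 3145730 5361614 (-133709) 2774269 2965823 2965823 7972659)
    ((((((((((((((((((((((root.setHiD (qm 2048)).setHiD (qm 1024)).setHiU (qm 512)).setLoA (qm
    2048)).setHiD (qm 512)).setHiU (qm 256)).setHiA (qm 3072)).setHiD (qm 256)).setLoU (qm
    128)).setHiW (qm 128)).setLoD (qm 128)).setHiU (qm 192)).setLoW (qm 64)).setLoD (qm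
    192)).setLoW (qm 96)).setLoA (qm 2560)).setHiU (qm 160)).setLoD (qm 224)).setLoW (qm
    112)).setHiA (qm 2816)).setHiU (qm 144)).setLoD (qm 240))
    (by decide +kernel)))
    (good_of_check
    (R .u5 2386425 6616940 3828857 5057195 13314729 56700 3145726 11863286 8991561 (-260641)
    3145726 3315891 4682139 (-118231) 2774269 2965823 2965823 7655387)
    (((((((((((((((((((((root.setHiD (qm 2048)).setHiD (qm 1024)).setHiU (qm 512)).setLoA (qm
    2048)).setHiD (qm 512)).setHiU (qm 256)).setHiA (qm 3072)).setHiD (qm 256)).setLoU (qm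
    128)).setHiW (qm 128)).setLoD (qm 128)).setHiU (qm 192)).setLoW (qm 64)).setLoD (qm
    192)).setLoW (qm 96)).setLoA (qm 2560)).setHiU (qm 160)).setLoD (qm 224)).setLoW (qm
    112)).setHiA (qm 2816)).setLoU (qm 144))
    (by decide +kernel)))
    (good_splitU (qm 144)
    (good_splitD (qm 240)
    (good_splitA (qm 2944)
    (good_splitW (qm 120)
    (good_splitU (qm 136)
    (good_splitA (qm 2880)
    (good_of_check
    (T 2852127 57801371 9378750 12047220 1768664 4080939 3808907 1036155 3646090 3904545 1694389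
    3057101 2871646 64025602 15495548 13529270 24747285 16014402)
    ((((((((((((((((((((((((((root.setHiD (qm 2048)).setHiD (qm 1024)).setHiU (qm 512)).setLoA (qm
    2048)).setHiD (qm 512)).setHiU (qm 256)).setHiA (qm 3072)).setHiD (qm 256)).setLoU (qm
    128)).setHiW (qm 128)).setLoD (qm 128)).setHiU (qm 192)).setLoW (qm 64)).setLoD (qm
    192)).setLoW (qm 96)).setLoA (qm 2560)).setHiU (qm 160)).setLoD (qm 224)).setLoW (qm
    112)).setLoA (qm 2816)).setHiU (qm 144)).setHiD (qm 240)).setHiA (qm 2944)).setHiW (qm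
    120)).setHiU (qm 136)).setHiA (qm 2880))
    (by decide +kernel))
    (good_of_check
    (T 3187671 56003769 9141275 12183351 1713659 4009341 3739261 1168536 3648473 3891535 1694389
    3057101 2871646 56414983 15480665 13599575 24769490 16014402)
    ((((((((((((((((((((((((((root.setHiD (qm 2048)).setHiD (qm 1024)).setHiU (qm 512)).setLoA (qm
    2048)).setHiD (qm 512)).setHiU (qm 256)).setHiA (qm 3072)).setHiD (qm 256)).setLoU (qm
    128)).setHiW (qm 128)).setLoD (qm 128)).setHiU (qm 192)).setLoW (qm 64)).setLoD (qm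
    192)).setLoW (qm 96)).setLoA (qm 2560)).setHiU (qm 160)).setLoD (qm 224)).setLoW (qm
    112)).setLoA (qm 2816)).setHiU (qm 144)).setHiD (qm 240)).setHiA (qm 2944)).setHiW (qm
    120)).setHiU (qm 136)).setLoA (qm 2880))
    (by decide +kernel)))
    (good_splitW (qm 116)
    (good_of_check
    (R .u5 2362029 6703039 3632372 5084501 13336656 90604 3057096 11863286 8003235 (-220505)
    3057096 3145730 4165227 (-102165) 2774269 2823380 2823380 7266086)
    ((((((((((((((((((((((((((root.setHiD (qm 2048)).setHiD (qm 1024)).setHiU (qm 512)).setLoA (qm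
    2048)).setHiD (qm 512)).setHiU (qm 256)).setHiA (qm 3072)).setHiD (qm 256)).setLoU (qm
    128)).setHiW (qm 128)).setLoD (qm 128)).setHiU (qm 192)).setLoW (qm 64)).setLoD (qm
    192)).setLoW (qm 96)).setLoA (qm 2560)).setHiU (qm 160)).setLoD (qm 224)).setLoW (qm
    112)).setLoA (qm 2816)).setHiU (qm 144)).setHiD (qm 240)).setHiA (qm 2944)).setHiW (qm
    120)).setLoU (qm 136)).setHiW (qm 116))
    (by decide +kernel))
    (good_of_check
    (R .u5 2362031 6703039 3632372 5084501 13336653 90602 3057096 11863286 8003195 (-220505)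
    3057096 3145730 4809378 (-120407) 2823375 2871646 2871646 7468940)
    ((((((((((((((((((((((((((root.setHiD (qm 2048)).setHiD (qm 1024)).setHiU (qm 512)).setLoA (qm
    2048)).setHiD (qm 512)).setHiU (qm 256)).setHiA (qm 3072)).setHiD (qm 256)).setLoU (qm
    128)).setHiW (qm 128)).setLoD (qm 128)).setHiU (qm 192)).setLoW (qm 64)).setLoD (qm
    192)).setLoW (qm 96)).setLoA (qm 2560)).setHiU (qm 160)).setLoD (qm 224)).setLoW (qm
    112)).setLoA (qm 2816)).setHiU (qm 144)).setHiD (qm 240)).setHiA (qm 2944)).setHiW (qm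
    120)).setLoU (qm 136)).setLoW (qm 116))
    (by decide +kernel))))
    (good_splitD (qm 232)
    (good_of_check
    (R .u5 2348534 6676432 3632372 5095424 13337869 112665 2965818 11863286 7715766 (-207276)
    2965818 3145730 5994520 (-153487) 2871641 2965823 2774274 7165780)
    (((((((((((((((((((((((((root.setHiD (qm 2048)).setHiD (qm 1024)).setHiU (qm 512)).setLoA (qm
    2048)).setHiD (qm 512)).setHiU (qm 256)).setHiA (qm 3072)).setHiD (qm 256)).setLoU (qm
    128)).setHiW (qm 128)).setLoD (qm 128)).setHiU (qm 192)).setLoW (qm 64)).setLoD (qm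
    192)).setLoW (qm 96)).setLoA (qm 2560)).setHiU (qm 160)).setLoD (qm 224)).setLoW (qm
    112)).setLoA (qm 2816)).setHiU (qm 144)).setHiD (qm 240)).setHiA (qm 2944)).setLoW (qm
    120)).setHiD (qm 232))
    (by decide +kernel))
    (good_of_check
    (R .u5 2357852 6586956 3632372 5084501 13318984 102791 2965818 11863286 7540069 (-203267)
    2965818 3145730 5820920 (-149543) 2871641 2965823 2871646 7503996)
    (((((((((((((((((((((((((root.setHiD (qm 2048)).setHiD (qm 1024)).setHiU (qm 512)).setLoA (qm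
    2048)).setHiD (qm 512)).setHiU (qm 256)).setHiA (qm 3072)).setHiD (qm 256)).setLoU (qm
    128)).setHiW (qm 128)).setLoD (qm 128)).setHiU (qm 192)).setLoW (qm 64)).setLoD (qm
    192)).setLoW (qm 96)).setLoA (qm 2560)).setHiU (qm 160)).setLoD (qm 224)).setLoW (qm
    112)).setLoA (qm 2816)).setHiU (qm 144)).setHiD (qm 240)).setHiA (qm 2944)).setLoW (qm
    120)).setLoD (qm 232))
    (by decide +kernel))))
    (good_splitA (qm 3008)
    (good_of_check
    (T 2852127 54432450 8897464 12317977 1701017 4006611 3750434 1050531 3756277 3993942 1712320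
    3145730 2965823 63146528 15032545 13296826 24791674 16005818)
    ((((((((((((((((((((((((root.setHiD (qm 2048)).setHiD (qm 1024)).setHiU (qm 512)).setLoA (qm
    2048)).setHiD (qm 512)).setHiU (qm 256)).setHiA (qm 3072)).setHiD (qm 256)).setLoU (qm
    128)).setHiW (qm 128)).setLoD (qm 128)).setHiU (qm 192)).setLoW (qm 64)).setLoD (qm
    192)).setLoW (qm 96)).setLoA (qm 2560)).setHiU (qm 160)).setLoD (qm 224)).setLoW (qm
    112)).setLoA (qm 2816)).setHiU (qm 144)).setHiD (qm 240)).setLoA (qm 2944)).setHiA (qm 3008))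
    (by decide +kernel))
    (good_of_check
    (T 3187671 52754152 8646781 12451149 1648570 3938249 3683841 1184101 3750701 3974682 1712320
    3145730 2965823 55659367 15065427 13396607 24813840 16005818)
    ((((((((((((((((((((((((root.setHiD (qm 2048)).setHiD (qm 1024)).setHiU (qm 512)).setLoA (qm
    2048)).setHiD (qm 512)).setHiU (qm 256)).setHiA (qm 3072)).setHiD (qm 256)).setLoU (qm
    128)).setHiW (qm 128)).setLoD (qm 128)).setHiU (qm 192)).setLoW (qm 64)).setLoD (qm
    192)).setLoW (qm 96)).setLoA (qm 2560)).setHiU (qm 160)).setLoD (qm 224)).setLoW (qm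
    112)).setLoA (qm 2816)).setHiU (qm 144)).setHiD (qm 240)).setLoA (qm 2944)).setLoA (qm 3008))
    (by decide +kernel))))
    (good_splitW (qm 120)
    (good_splitA (qm 2944)
    (good_of_check
    (R .u5 2357852 6586956 3632372 5068117 13331849 98899 2965818 11863286 7540069 (-203267)
    2965818 3145730 4561495 (-112646) 2774269 2871646 2871646 7503996)
    ((((((((((((((((((((((((root.setHiD (qm 2048)).setHiD (qm 1024)).setHiU (qm 512)).setLoA (qm
    2048)).setHiD (qm 512)).setHiU (qm 256)).setHiA (qm 3072)).setHiD (qm 256)).setLoU (qm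
    128)).setHiW (qm 128)).setLoD (qm 128)).setHiU (qm 192)).setLoW (qm 64)).setLoD (qm
    192)).setLoW (qm 96)).setLoA (qm 2560)).setHiU (qm 160)).setLoD (qm 224)).setLoW (qm
    112)).setLoA (qm 2816)).setHiU (qm 144)).setLoD (qm 240)).setHiW (qm 120)).setHiA (qm 2944))
    (by decide +kernel))
    (good_splitU (qm 136)
    (good_of_check
    (T 3187671 54594935 8897464 12317977 1741638 3979569 3716284 1169483 3686179 3920625 1730065
    3057101 2871646 56466058 15247765 13443071 24813840 15980037)
    (((((((((((((((((((((((((root.setHiD (qm 2048)).setHiD (qm 1024)).setHiU (qm 512)).setLoA (qm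
    2048)).setHiD (qm 512)).setHiU (qm 256)).setHiA (qm 3072)).setHiD (qm 256)).setLoU (qm
    128)).setHiW (qm 128)).setLoD (qm 128)).setHiU (qm 192)).setLoW (qm 64)).setLoD (qm
    192)).setLoW (qm 96)).setLoA (qm 2560)).setHiU (qm 160)).setLoD (qm 224)).setLoW (qm
    112)).setLoA (qm 2816)).setHiU (qm 144)).setLoD (qm 240)).setHiW (qm 120)).setLoA (qm
    2944)).setHiU (qm 136))
    (by decide +kernel))
    (good_splitA (qm 3008)
    (good_of_check
    (R .u5 2372940 6599207 3530031 5062656 13322016 76788 3057096 11863286 7799917 (-215809)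
    3057096 3145730 4295818 (-106628) 2774269 2871646 2871646 7379402)
    ((((((((((((((((((((((((((root.setHiD (qm 2048)).setHiD (qm 1024)).setHiU (qm 512)).setLoA (qm
    2048)).setHiD (qm 512)).setHiU (qm 256)).setHiA (qm 3072)).setHiD (qm 256)).setLoU (qm
    128)).setHiW (qm 128)).setLoD (qm 128)).setHiU (qm 192)).setLoW (qm 64)).setLoD (qm
    192)).setLoW (qm 96)).setLoA (qm 2560)).setHiU (qm 160)).setLoD (qm 224)).setLoW (qm
    112)).setLoA (qm 2816)).setHiU (qm 144)).setLoD (qm 240)).setHiW (qm 120)).setLoA (qm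
    2944)).setLoU (qm 136)).setHiA (qm 3008))
    (by decide +kernel))
    (good_of_check
    (T 3187671 53070045 8646781 12451149 1727543 4030933 3647035 1175047 3650870 3992918 1747629
    3145730 2871646 56221911 15671236 13064835 24813840 15962826)
    ((((((((((((((((((((((((((root.setHiD (qm 2048)).setHiD (qm 1024)).setHiU (qm 512)).setLoA (qm
    2048)).setHiD (qm 512)).setHiU (qm 256)).setHiA (qm 3072)).setHiD (qm 256)).setLoU (qm
    128)).setHiW (qm 128)).setLoD (qm 128)).setHiU (qm 192)).setLoW (qm 64)).setLoD (qm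
    192)).setLoW (qm 96)).setLoA (qm 2560)).setHiU (qm 160)).setLoD (qm 224)).setLoW (qm
    112)).setLoA (qm 2816)).setHiU (qm 144)).setLoD (qm 240)).setHiW (qm 120)).setLoA (qm
    2944)).setLoU (qm 136)).setLoA (qm 3008))
    (by decide +kernel)))))
    (good_splitU (qm 136)
    (good_splitA (qm 2944)
    (good_splitD (qm 248)
    (good_of_check
    (R .u5 2368761 6483117 3632372 5079040 13290838 93174 2965818 11863286 6794630 (-181651)
    2965818 3057101 5620088 (-144946) 2871641 2965823 2965823 7800869)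
    ((((((((((((((((((((((((((root.setHiD (qm 2048)).setHiD (qm 1024)).setHiU (qm 512)).setLoA (qm
    2048)).setHiD (qm 512)).setHiU (qm 256)).setHiA (qm 3072)).setHiD (qm 256)).setLoU (qm
    128)).setHiW (qm 128)).setLoD (qm 128)).setHiU (qm 192)).setLoW (qm 64)).setLoD (qm
    192)).setLoW (qm 96)).setLoA (qm 2560)).setHiU (qm 160)).setLoD (qm 224)).setLoW (qm
    112)).setLoA (qm 2816)).setHiU (qm 144)).setLoD (qm 240)).setLoW (qm 120)).setHiU (qm
    136)).setHiA (qm 2944)).setHiD (qm 248))
    (by decide +kernel))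
    (good_of_check
    (R .u5 2368763 6483117 3632372 5068117 13299268 90622 2965818 11863286 6794589 (-181650)
    2965818 3057101 5620049 (-144945) 2871641 2965823 2965823 7800846)
    ((((((((((((((((((((((((((root.setHiD (qm 2048)).setHiD (qm 1024)).setHiU (qm 512)).setLoA (qm
    2048)).setHiD (qm 512)).setHiU (qm 256)).setHiA (qm 3072)).setHiD (qm 256)).setLoU (qm
    128)).setHiW (qm 128)).setLoD (qm 128)).setHiU (qm 192)).setLoW (qm 64)).setLoD (qm
    192)).setLoW (qm 96)).setLoA (qm 2560)).setHiU (qm 160)).setLoD (qm 224)).setLoW (qm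
    112)).setLoA (qm 2816)).setHiU (qm 144)).setLoD (qm 240)).setLoW (qm 120)).setHiU (qm
    136)).setHiA (qm 2944)).setLoD (qm 248))
    (by decide +kernel)))
    (good_splitA (qm 3008)
    (good_of_check
    (T 2852127 54594935 8897464 12317977 1741638 3925643 3797173 1046379 3828991 3946908 1730065
    3057101 2965823 63406716 14408115 13542337 24791674 15980037)
    ((((((((((((((((((((((((((root.setHiD (qm 2048)).setHiD (qm 1024)).setHiU (qm 512)).setLoA (qm
    2048)).setHiD (qm 512)).setHiU (qm 256)).setHiA (qm 3072)).setHiD (qm 256)).setLoU (qm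
    128)).setHiW (qm 128)).setLoD (qm 128)).setHiU (qm 192)).setLoW (qm 64)).setLoD (qm
    192)).setLoW (qm 96)).setLoA (qm 2560)).setHiU (qm 160)).setLoD (qm 224)).setLoW (qm
    112)).setLoA (qm 2816)).setHiU (qm 144)).setLoD (qm 240)).setLoW (qm 120)).setHiU (qm
    136)).setLoA (qm 2944)).setHiA (qm 3008))
    (by decide +kernel))
    (good_of_check
    (T 3187671 52911627 8646781 12451149 1687939 3856869 3729285 1179615 3819721 3930822 1730065
    3057101 2965823 55941556 14460655 13627748 24813840 15980037)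
    ((((((((((((((((((((((((((root.setHiD (qm 2048)).setHiD (qm 1024)).setHiU (qm 512)).setLoA (qm
    2048)).setHiD (qm 512)).setHiU (qm 256)).setHiA (qm 3072)).setHiD (qm 256)).setLoU (qm
    128)).setHiW (qm 128)).setLoD (qm 128)).setHiU (qm 192)).setLoW (qm 64)).setLoD (qm
    192)).setLoW (qm 96)).setLoA (qm 2560)).setHiU (qm 160)).setLoD (qm 224)).setLoW (qm
    112)).setLoA (qm 2816)).setHiU (qm 144)).setLoD (qm 240)).setLoW (qm 120)).setHiU (qm
    136)).setLoA (qm 2944)).setLoA (qm 3008))
    (by decide +kernel))))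
    (good_splitD (qm 248)
    (good_splitW (qm 124)
    (good_of_check
    (R .u5 2383849 6495371 3424633 5068117 13285730 69650 3057096 11863286 7598331 (-211107)
    3057096 3145730 5044448 (-129774) 2871641 2919115 2919115 7485736)
    ((((((((((((((((((((((((((root.setHiD (qm 2048)).setHiD (qm 1024)).setHiU (qm 512)).setLoA (qm
    2048)).setHiD (qm 512)).setHiU (qm 256)).setHiA (qm 3072)).setHiD (qm 256)).setLoU (qm
    128)).setHiW (qm 128)).setLoD (qm 128)).setHiU (qm 192)).setLoW (qm 64)).setLoD (qm
    192)).setLoW (qm 96)).setLoA (qm 2560)).setHiU (qm 160)).setLoD (qm 224)).setLoW (qm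
    112)).setLoA (qm 2816)).setHiU (qm 144)).setLoD (qm 240)).setLoW (qm 120)).setLoU (qm
    136)).setHiD (qm 248)).setHiW (qm 124))
    (by decide +kernel))
    (good_of_check
    (R .u5 2390595 6433297 3424633 5068117 13265501 64635 3057096 11863286 7474543 (-208198)
    3057096 3145730 5527289 (-145233) 2919110 2965823 2919115 7431451)
    ((((((((((((((((((((((((((root.setHiD (qm 2048)).setHiD (qm 1024)).setHiU (qm 512)).setLoA (qm
    2048)).setHiD (qm 512)).setHiU (qm 256)).setHiA (qm 3072)).setHiD (qm 256)).setLoU (qm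
    128)).setHiW (qm 128)).setLoD (qm 128)).setHiU (qm 192)).setLoW (qm 64)).setLoD (qm
    192)).setLoW (qm 96)).setLoA (qm 2560)).setHiU (qm 160)).setLoD (qm 224)).setLoW (qm
    112)).setLoA (qm 2816)).setHiU (qm 144)).setLoD (qm 240)).setLoW (qm 120)).setLoU (qm
    136)).setHiD (qm 248)).setLoW (qm 124))
    (by decide +kernel)))
    (good_of_check
    (R .u5 2397337 6370418 3424633 5057195 13253922 57064 3057096 11863286 7351506 (-205290)
    3057096 3145730 5106621 (-133025) 2871641 2965823 2965823 7565292)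
    (((((((((((((((((((((((((root.setHiD (qm 2048)).setHiD (qm 1024)).setHiU (qm 512)).setLoA (qm
    2048)).setHiD (qm 512)).setHiU (qm 256)).setHiA (qm 3072)).setHiD (qm 256)).setLoU (qm
    128)).setHiW (qm 128)).setLoD (qm 128)).setHiU (qm 192)).setLoW (qm 64)).setLoD (qm
    192)).setLoW (qm 96)).setLoA (qm 2560)).setHiU (qm 160)).setLoD (qm 224)).setLoW (qm
    112)).setLoA (qm 2816)).setHiU (qm 144)).setLoD (qm 240)).setLoW (qm 120)).setLoU (qm
    136)).setLoD (qm 248))
    (by decide +kernel))))))
    (good_splitD (qm 240)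
    (good_splitW (qm 120)
    (good_splitA (qm 2944)
    (good_of_check
    (R .u5 2386425 6616940 3632372 5068117 13306113 59300 3145726 11863286 8991561 (-260641)
    3145726 3315891 4063765 (-101322) 2774269 2871646 2871646 7271020)
    ((((((((((((((((((((((((root.setHiD (qm 2048)).setHiD (qm 1024)).setHiU (qm 512)).setLoA (qm
    2048)).setHiD (qm 512)).setHiU (qm 256)).setHiA (qm 3072)).setHiD (qm 256)).setLoU (qm
    128)).setHiW (qm 128)).setLoD (qm 128)).setHiU (qm 192)).setLoW (qm 64)).setLoD (qm
    192)).setLoW (qm 96)).setLoA (qm 2560)).setHiU (qm 160)).setLoD (qm 224)).setLoW (qm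
    112)).setLoA (qm 2816)).setLoU (qm 144)).setHiD (qm 240)).setHiW (qm 120)).setHiA (qm 2944))
    (by decide +kernel))
    (good_splitD (qm 232)
    (good_splitW (qm 116)
    (good_splitU (qm 152)
    (good_of_check
    (T 2852127 54432450 8897464 12317977 1701017 4134699 3558301 1050531 3625331 4153697 1712320
    3231931 2823380 63146528 16020410 12151882 24813840 15988635)
    (((((((((((((((((((((((((((root.setHiD (qm 2048)).setHiD (qm 1024)).setHiU (qm 512)).setLoA
    (qm 2048)).setHiD (qm 512)).setHiU (qm 256)).setHiA (qm 3072)).setHiD (qm 256)).setLoU (qm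
    128)).setHiW (qm 128)).setLoD (qm 128)).setHiU (qm 192)).setLoW (qm 64)).setLoD (qm
    192)).setLoW (qm 96)).setLoA (qm 2560)).setHiU (qm 160)).setLoD (qm 224)).setLoW (qm
    112)).setLoA (qm 2816)).setLoU (qm 144)).setHiD (qm 240)).setHiW (qm 120)).setLoA (qm
    2944)).setHiD (qm 232)).setHiW (qm 116)).setHiU (qm 152))
    (by decide +kernel))
    (good_of_check
    (R .u5 2412414 6513104 3424633 5068117 13256994 31228 3231926 11863286 8978632 (-267346)
    3231926 3315891 3324229 (-82914) 2774269 2823380 2823380 6868290)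
    (((((((((((((((((((((((((((root.setHiD (qm 2048)).setHiD (qm 1024)).setHiU (qm 512)).setLoA
    (qm 2048)).setHiD (qm 512)).setHiU (qm 256)).setHiA (qm 3072)).setHiD (qm 256)).setLoU (qm
    128)).setHiW (qm 128)).setLoD (qm 128)).setHiU (qm 192)).setLoW (qm 64)).setLoD (qm
    192)).setLoW (qm 96)).setLoA (qm 2560)).setHiU (qm 160)).setLoD (qm 224)).setLoW (qm
    112)).setLoA (qm 2816)).setLoU (qm 144)).setHiD (qm 240)).setHiW (qm 120)).setLoA (qm
    2944)).setHiD (qm 232)).setHiW (qm 116)).setLoU (qm 152))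
    (by decide +kernel)))
    (good_of_check
    (R .t5n 2657053 6459902 3424633 5073579 13372151 69233 3094629 11849839 6660894 (-156217)
    3094629 3267457 415541 47323 2766331 2815580 2823380 8533904)
    ((((((((((((((((((((((((((root.setHiD (qm 2048)).setHiD (qm 1024)).setHiU (qm 512)).setLoA (qm
    2048)).setHiD (qm 512)).setHiU (qm 256)).setHiA (qm 3072)).setHiD (qm 256)).setLoU (qm
    128)).setHiW (qm 128)).setLoD (qm 128)).setHiU (qm 192)).setLoW (qm 64)).setLoD (qm
    192)).setLoW (qm 96)).setLoA (qm 2560)).setHiU (qm 160)).setLoD (qm 224)).setLoW (qm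
    112)).setLoA (qm 2816)).setLoU (qm 144)).setHiD (qm 240)).setHiW (qm 120)).setLoA (qm
    2944)).setHiD (qm 232)).setLoW (qm 116))
    (by decide +kernel)))
    (good_splitW (qm 116)
    (good_of_check
    (R .u5 2390594 6578085 3424633 5062656 13298270 54739 3145726 11863286 8916266 (-258883)
    3145726 3315891 3678940 (-91107) 2774269 2823380 2823380 7037880)
    ((((((((((((((((((((((((((root.setHiD (qm 2048)).setHiD (qm 1024)).setHiU (qm 512)).setLoA (qm
    2048)).setHiD (qm 512)).setHiU (qm 256)).setHiA (qm 3072)).setHiD (qm 256)).setLoU (qm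
    128)).setHiW (qm 128)).setLoD (qm 128)).setHiU (qm 192)).setLoW (qm 64)).setLoD (qm
    192)).setLoW (qm 96)).setLoA (qm 2560)).setHiU (qm 160)).setLoD (qm 224)).setLoW (qm
    112)).setLoA (qm 2816)).setLoU (qm 144)).setHiD (qm 240)).setHiW (qm 120)).setLoA (qm
    2944)).setLoD (qm 232)).setHiW (qm 116))
    (by decide +kernel))
    (good_of_check
    (R .u5 2390595 6578085 3424633 5062656 13298269 54738 3145726 11863286 8916251 (-258883)
    3145726 3315891 4307161 (-108899) 2823375 2871646 2871646 7237117)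
    ((((((((((((((((((((((((((root.setHiD (qm 2048)).setHiD (qm 1024)).setHiU (qm 512)).setLoA (qm
    2048)).setHiD (qm 512)).setHiU (qm 256)).setHiA (qm 3072)).setHiD (qm 256)).setLoU (qm
    128)).setHiW (qm 128)).setLoD (qm 128)).setHiU (qm 192)).setLoW (qm 64)).setLoD (qm
    192)).setLoW (qm 96)).setLoA (qm 2560)).setHiU (qm 160)).setLoD (qm 224)).setLoW (qm
    112)).setLoA (qm 2816)).setLoU (qm 144)).setHiD (qm 240)).setHiW (qm 120)).setLoA (qm
    2944)).setLoD (qm 232)).setLoW (qm 116))
    (by decide +kernel)))))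
    (good_of_check
    (R .t5n 2657056 6447651 3424633 5068117 13374081 68745 3092852 11849375 6611786 (-152914)
    3092852 3265774 1535788 16436 2813622 2909683 2871646 8744206)
    (((((((((((((((((((((((root.setHiD (qm 2048)).setHiD (qm 1024)).setHiU (qm 512)).setLoA (qm
    2048)).setHiD (qm 512)).setHiU (qm 256)).setHiA (qm 3072)).setHiD (qm 256)).setLoU (qm
    128)).setHiW (qm 128)).setLoD (qm 128)).setHiU (qm 192)).setLoW (qm 64)).setLoD (qm
    192)).setLoW (qm 96)).setLoA (qm 2560)).setHiU (qm 160)).setLoD (qm 224)).setLoW (qm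
    112)).setLoA (qm 2816)).setLoU (qm 144)).setHiD (qm 240)).setLoW (qm 120))
    (by decide +kernel)))
    (good_splitW (qm 120)
    (good_of_check
    (R .u5 2394762 6540519 3424633 5046272 13299009 47634 3145726 11863286 8841206 (-257123)
    3145726 3315891 3922897 (-98079) 2774269 2871646 2871646 7204768)
    (((((((((((((((((((((((root.setHiD (qm 2048)).setHiD (qm 1024)).setHiU (qm 512)).setLoA (qm
    2048)).setHiD (qm 512)).setHiU (qm 256)).setHiA (qm 3072)).setHiD (qm 256)).setLoU (qm
    128)).setHiW (qm 128)).setLoD (qm 128)).setHiU (qm 192)).setLoW (qm 64)).setLoD (qm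
    192)).setLoW (qm 96)).setLoA (qm 2560)).setHiU (qm 160)).setLoD (qm 224)).setLoW (qm
    112)).setLoA (qm 2816)).setLoU (qm 144)).setLoD (qm 240)).setHiW (qm 120))
    (by decide +kernel))
    (good_of_check
    (R .u5 2404080 6452331 3424633 5046272 13271864 40435 3145726 11863286 8674050 (-253179)
    3145726 3315891 4988190 (-130241) 2871641 2965823 2965823 7511355)
    (((((((((((((((((((((((root.setHiD (qm 2048)).setHiD (qm 1024)).setHiU (qm 512)).setLoA (qm
    2048)).setHiD (qm 512)).setHiU (qm 256)).setHiA (qm 3072)).setHiD (qm 256)).setLoU (qm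
    128)).setHiW (qm 128)).setLoD (qm 128)).setHiU (qm 192)).setLoW (qm 64)).setLoD (qm
    192)).setLoW (qm 96)).setLoA (qm 2560)).setHiU (qm 160)).setLoD (qm 224)).setLoW (qm
    112)).setLoA (qm 2816)).setLoU (qm 144)).setLoD (qm 240)).setLoW (qm 120))
    (by decide +kernel))))))))
    (good_splitD (qm 224)
    (good_splitW (qm 112)
    (good_splitU (qm 176)
    (good_splitD (qm 208)
    (good_splitW (qm 104)
    (good_splitA (qm 2816)
    (good_of_check
    (R .u5 2394762 6806929 3828857 5089963 13313561 43916 3315886 11863286 10477514 (-321042)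
    3315886 3477736 1478316 (-33564) 2568474 2673357 2673357 6372149)
    (((((((((((((((((((((((root.setHiD (qm 2048)).setHiD (qm 1024)).setHiU (qm 512)).setLoA (qm
    2048)).setHiD (qm 512)).setHiU (qm 256)).setHiA (qm 3072)).setHiD (qm 256)).setLoU (qm
    128)).setHiW (qm 128)).setLoD (qm 128)).setHiU (qm 192)).setLoW (qm 64)).setLoD (qm
    192)).setLoW (qm 96)).setLoA (qm 2560)).setLoU (qm 160)).setHiD (qm 224)).setHiW (qm
    112)).setHiU (qm 176)).setHiD (qm 208)).setHiW (qm 104)).setHiA (qm 2816))
    (by decide +kernel))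
    (good_splitD (qm 200)
    (good_splitW (qm 100)
    (good_splitD (qm 196)
    (good_splitD (qm 194)
    (good_of_check
    (R .t5n 2689835 6549395 3424633 5099520 13340113 29127 3275014 11851927 8481346 (-240636)
    3275014 3438788 (-1159228) 81183 2515487 2569549 2595096 7277365)
    (((((((((((((((((((((((((((root.setHiD (qm 2048)).setHiD (qm 1024)).setHiU (qm 512)).setLoA
    (qm 2048)).setHiD (qm 512)).setHiU (qm 256)).setHiA (qm 3072)).setHiD (qm 256)).setLoU (qm
    128)).setHiW (qm 128)).setLoD (qm 128)).setHiU (qm 192)).setLoW (qm 64)).setLoD (qm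
    192)).setLoW (qm 96)).setLoA (qm 2560)).setLoU (qm 160)).setHiD (qm 224)).setHiW (qm
    112)).setHiU (qm 176)).setHiD (qm 208)).setHiW (qm 104)).setLoA (qm 2816)).setHiD (qm
    200)).setHiW (qm 100)).setHiD (qm 196)).setHiD (qm 194))
    (by decide +kernel))
    (good_of_check
    (R .t5n 2694001 6508424 3424633 5096789 13330282 25915 3274175 11851695 8386311 (-237087)
    3274175 3437989 (-1184396) 82895 2514394 2568479 2621442 7365525)
    (((((((((((((((((((((((((((root.setHiD (qm 2048)).setHiD (qm 1024)).setHiU (qm 512)).setLoA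
    (qm 2048)).setHiD (qm 512)).setHiU (qm 256)).setHiA (qm 3072)).setHiD (qm 256)).setLoU (qm
    128)).setHiW (qm 128)).setLoD (qm 128)).setHiU (qm 192)).setLoW (qm 64)).setLoD (qm
    192)).setLoW (qm 96)).setLoA (qm 2560)).setLoU (qm 160)).setHiD (qm 224)).setHiW (qm
    112)).setHiU (qm 176)).setHiD (qm 208)).setHiW (qm 104)).setLoA (qm 2816)).setHiD (qm
    200)).setHiW (qm 100)).setHiD (qm 196)).setLoD (qm 194))
    (by decide +kernel)))
    (good_of_check
    (R .t5n 2694001 6497463 3424633 5092693 13331364 25671 3272496 11851231 8345661 (-234097)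
    3272496 3436389 (-1234925) 86327 2512207 2566337 2621442 7365525)
    ((((((((((((((((((((((((((root.setHiD (qm 2048)).setHiD (qm 1024)).setHiU (qm 512)).setLoA (qm
    2048)).setHiD (qm 512)).setHiU (qm 256)).setHiA (qm 3072)).setHiD (qm 256)).setLoU (qm
    128)).setHiW (qm 128)).setLoD (qm 128)).setHiU (qm 192)).setLoW (qm 64)).setLoD (qm
    192)).setLoW (qm 96)).setLoA (qm 2560)).setLoU (qm 160)).setHiD (qm 224)).setHiW (qm
    112)).setHiU (qm 176)).setHiD (qm 208)).setHiW (qm 104)).setLoA (qm 2816)).setHiD (qm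
    200)).setHiW (qm 100)).setLoD (qm 196))
    (by decide +kernel)))
    (good_of_check
    (R .t5n 2689835 6543915 3424633 5095424 13342239 28512 3274175 11851695 8461081 (-239146)
    3274175 3437989 (-1112602) 81142 2568474 2621442 2621442 7395006)
    (((((((((((((((((((((((((root.setHiD (qm 2048)).setHiD (qm 1024)).setHiU (qm 512)).setLoA (qm
    2048)).setHiD (qm 512)).setHiU (qm 256)).setHiA (qm 3072)).setHiD (qm 256)).setLoU (qm
    128)).setHiW (qm 128)).setLoD (qm 128)).setHiU (qm 192)).setLoW (qm 64)).setLoD (qm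
    192)).setLoW (qm 96)).setLoA (qm 2560)).setLoU (qm 160)).setHiD (qm 224)).setHiW (qm
    112)).setHiU (qm 176)).setHiD (qm 208)).setHiW (qm 104)).setLoA (qm 2816)).setHiD (qm
    200)).setLoW (qm 100))
    (by decide +kernel)))
    (good_splitW (qm 100)
    (good_splitD (qm 204)
    (good_of_check
    (R .t5n 2696576 6465382 3424633 5087232 13326574 23375 3270815 11850767 8258683 (-229819)
    3270815 3434789 (-1285710) 89768 2510018 2564194 2621442 7347371)
    ((((((((((((((((((((((((((root.setHiD (qm 2048)).setHiD (qm 1024)).setHiU (qm 512)).setLoA (qm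
    2048)).setHiD (qm 512)).setHiU (qm 256)).setHiA (qm 3072)).setHiD (qm 256)).setLoU (qm
    128)).setHiW (qm 128)).setLoD (qm 128)).setHiU (qm 192)).setLoW (qm 64)).setLoD (qm
    192)).setLoW (qm 96)).setLoA (qm 2560)).setLoU (qm 160)).setHiD (qm 224)).setHiW (qm
    112)).setHiU (qm 176)).setHiD (qm 208)).setHiW (qm 104)).setLoA (qm 2816)).setLoD (qm
    200)).setHiW (qm 100)).setHiD (qm 204))
    (by decide +kernel))
    (good_of_check
    (R .t5n 2700743 6420244 3424633 5081771 13317417 20055 3269134 11850303 8143054 (-224731)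
    3269134 3433188 (-1336754) 93219 2507827 2562049 2621442 7318104)
    ((((((((((((((((((((((((((root.setHiD (qm 2048)).setHiD (qm 1024)).setHiU (qm 512)).setLoA (qm
    2048)).setHiD (qm 512)).setHiU (qm 256)).setHiA (qm 3072)).setHiD (qm 256)).setLoU (qm
    128)).setHiW (qm 128)).setLoD (qm 128)).setHiU (qm 192)).setLoW (qm 64)).setLoD (qm
    192)).setLoW (qm 96)).setLoA (qm 2560)).setLoU (qm 160)).setHiD (qm 224)).setHiW (qm
    112)).setHiU (qm 176)).setHiD (qm 208)).setHiW (qm 104)).setLoA (qm 2816)).setLoD (qm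
    200)).setHiW (qm 100)).setLoD (qm 204))
    (by decide +kernel)))
    (good_of_check
    (R .t5n 2696576 6465382 3424633 5084501 13328679 22737 3270815 11850767 8258683 (-229819)
    3270815 3434789 (-1207522) 87859 2564189 2617245 2673357 7576952)
    (((((((((((((((((((((((((root.setHiD (qm 2048)).setHiD (qm 1024)).setHiU (qm 512)).setLoA (qm
    2048)).setHiD (qm 512)).setHiU (qm 256)).setHiA (qm 3072)).setHiD (qm 256)).setLoU (qm
    128)).setHiW (qm 128)).setLoD (qm 128)).setHiU (qm 192)).setLoW (qm 64)).setLoD (qm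
    192)).setLoW (qm 96)).setLoA (qm 2560)).setLoU (qm 160)).setHiD (qm 224)).setHiW (qm
    112)).setHiU (qm 176)).setHiD (qm 208)).setHiW (qm 104)).setLoA (qm 2816)).setLoD (qm
    200)).setLoW (qm 100))
    (by decide +kernel)))))
    (good_of_check
    (R .t5n 2685667 6569220 3424633 5089963 13355179 30914 3272496 11851231 8495396 (-238220)
    3272496 3436389 (-1028491) 81158 2619340 2722264 2673357 7655717)
    ((((((((((((((((((((((root.setHiD (qm 2048)).setHiD (qm 1024)).setHiU (qm 512)).setLoA (qm
    2048)).setHiD (qm 512)).setHiU (qm 256)).setHiA (qm 3072)).setHiD (qm 256)).setLoU (qm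
    128)).setHiW (qm 128)).setLoD (qm 128)).setHiU (qm 192)).setLoW (qm 64)).setLoD (qm
    192)).setLoW (qm 96)).setLoA (qm 2560)).setLoU (qm 160)).setHiD (qm 224)).setHiW (qm
    112)).setHiU (qm 176)).setHiD (qm 208)).setLoW (qm 104))
    (by decide +kernel)))
    (good_splitW (qm 104)
    (good_splitD (qm 216)
    (good_splitW (qm 100)
    (good_splitD (qm 212)
    (good_of_check
    (R .t5n 2703319 6390259 3424633 5076309 13312017 17981 3267452 11849839 8055820 (-220421)
    3267452 3431587 (-1388057) 96681 2505633 2559903 2621442 7300079)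
    (((((((((((((((((((((((((root.setHiD (qm 2048)).setHiD (qm 1024)).setHiU (qm 512)).setLoA (qm
    2048)).setHiD (qm 512)).setHiU (qm 256)).setHiA (qm 3072)).setHiD (qm 256)).setLoU (qm
    128)).setHiW (qm 128)).setLoD (qm 128)).setHiU (qm 192)).setLoW (qm 64)).setLoD (qm
    192)).setLoW (qm 96)).setLoA (qm 2560)).setLoU (qm 160)).setHiD (qm 224)).setHiW (qm
    112)).setHiU (qm 176)).setLoD (qm 208)).setHiW (qm 104)).setHiD (qm 216)).setHiW (qm
    100)).setHiD (qm 212))
    (by decide +kernel))
    (good_of_check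
    (R .u5 2412414 6642260 3424633 5070848 13279128 24787 3315886 11863286 10173472 (-314020)
    3315886 3477736 1003647 (-22724) 2568474 2621442 2621442 6023963)
    (((((((((((((((((((((((((root.setHiD (qm 2048)).setHiD (qm 1024)).setHiU (qm 512)).setLoA (qm
    2048)).setHiD (qm 512)).setHiU (qm 256)).setHiA (qm 3072)).setHiD (qm 256)).setLoU (qm
    128)).setHiW (qm 128)).setLoD (qm 128)).setHiU (qm 192)).setLoW (qm 64)).setLoD (qm
    192)).setLoW (qm 96)).setLoA (qm 2560)).setLoU (qm 160)).setHiD (qm 224)).setHiW (qm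
    112)).setHiU (qm 176)).setLoD (qm 208)).setHiW (qm 104)).setHiD (qm 216)).setHiW (qm
    100)).setLoD (qm 212))
    (by decide +kernel)))
    (good_of_check
    (R .t5n 2703319 6390259 3424633 5073579 13314097 17351 3267452 11849839 8055820 (-220421)
    3267452 3431587 (-1303370) 94613 2559898 2613040 2673357 7528737)
    ((((((((((((((((((((((((root.setHiD (qm 2048)).setHiD (qm 1024)).setHiU (qm 512)).setLoA (qm
    2048)).setHiD (qm 512)).setHiU (qm 256)).setHiA (qm 3072)).setHiD (qm 256)).setLoU (qm
    128)).setHiW (qm 128)).setLoD (qm 128)).setHiU (qm 192)).setLoW (qm 64)).setLoD (qm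
    192)).setLoW (qm 96)).setLoA (qm 2560)).setLoU (qm 160)).setHiD (qm 224)).setHiW (qm
    112)).setHiU (qm 176)).setLoD (qm 208)).setHiW (qm 104)).setHiD (qm 216)).setLoW (qm 100))
    (by decide +kernel)))
    (good_of_check
    (R .u5 2419157 6579378 3424633 5062656 13266188 17506 3315886 11863286 10057917 (-311314)
    3315886 3477736 1192149 (-27235) 2568474 2673357 2673357 6194104)
    (((((((((((((((((((((((root.setHiD (qm 2048)).setHiD (qm 1024)).setHiU (qm 512)).setLoA (qm
    2048)).setHiD (qm 512)).setHiU (qm 256)).setHiA (qm 3072)).setHiD (qm 256)).setLoU (qm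
    128)).setHiW (qm 128)).setLoD (qm 128)).setHiU (qm 192)).setLoW (qm 64)).setLoD (qm
    192)).setLoW (qm 96)).setLoA (qm 2560)).setLoU (qm 160)).setHiD (qm 224)).setHiW (qm
    112)).setHiU (qm 176)).setLoD (qm 208)).setHiW (qm 104)).setLoD (qm 216))
    (by decide +kernel)))
    (good_splitD (qm 216)
    (good_of_check
    (R .t5n 2707487 6364939 3424633 5073579 13305507 13691 3269134 11850303 8022281 (-221350)
    3269134 3433188 (-1147011) 88481 2615138 2718222 2774274 7937228)
    (((((((((((((((((((((((root.setHiD (qm 2048)).setHiD (qm 1024)).setHiU (qm 512)).setLoA (qm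
    2048)).setHiD (qm 512)).setHiU (qm 256)).setHiA (qm 3072)).setHiD (qm 256)).setLoU (qm
    128)).setHiW (qm 128)).setLoD (qm 128)).setHiU (qm 192)).setLoW (qm 64)).setLoD (qm
    192)).setLoW (qm 96)).setLoA (qm 2560)).setLoU (qm 160)).setHiD (qm 224)).setHiW (qm
    112)).setHiU (qm 176)).setLoD (qm 208)).setLoW (qm 104)).setHiD (qm 216))
    (by decide +kernel))
    (good_of_check
    (R .t5n 2711653 6311624 3424633 5062656 13297597 10174 3265769 11849375 7865417 (-213190)
    3265769 3429984 (-1236292) 95076 2610931 2714174 2774274 7906711)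
    (((((((((((((((((((((((root.setHiD (qm 2048)).setHiD (qm 1024)).setHiU (qm 512)).setLoA (qm
    2048)).setHiD (qm 512)).setHiU (qm 256)).setHiA (qm 3072)).setHiD (qm 256)).setLoU (qm
    128)).setHiW (qm 128)).setLoD (qm 128)).setHiU (qm 192)).setLoW (qm 64)).setLoD (qm
    192)).setLoW (qm 96)).setLoA (qm 2560)).setLoU (qm 160)).setHiD (qm 224)).setHiW (qm
    112)).setHiU (qm 176)).setLoD (qm 208)).setLoW (qm 104)).setLoD (qm 216))
    (by decide +kernel)))))
    (good_splitD (qm 208)
    (good_of_check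
    (R .t4n 3257524 4513668 3424633 5068117 13218439 (-129027) 3346828 11825574 2379112 33661
    3346828 3507250 0 0 0 0 2774274 8921791)
    (((((((((((((((((((((root.setHiD (qm 2048)).setHiD (qm 1024)).setHiU (qm 512)).setLoA (qm
    2048)).setHiD (qm 512)).setHiU (qm 256)).setHiA (qm 3072)).setHiD (qm 256)).setLoU (qm
    128)).setHiW (qm 128)).setLoD (qm 128)).setHiU (qm 192)).setLoW (qm 64)).setLoD (qm
    192)).setLoW (qm 96)).setLoA (qm 2560)).setLoU (qm 160)).setHiD (qm 224)).setHiW (qm
    112)).setLoU (qm 176)).setHiD (qm 208))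
    (by decide +kernel))
    (good_of_check
    (R .t4n 3268434 4254779 3424633 5046272 13206976 (-139062) 3336546 11822668 1784782 68915
    3336546 3497440 0 0 0 0 2774274 8858606)
    (((((((((((((((((((((root.setHiD (qm 2048)).setHiD (qm 1024)).setHiU (qm 512)).setLoA (qm
    2048)).setHiD (qm 512)).setHiU (qm 256)).setHiA (qm 3072)).setHiD (qm 256)).setLoU (qm
    128)).setHiW (qm 128)).setLoD (qm 128)).setHiU (qm 192)).setLoW (qm 64)).setLoD (qm
    192)).setLoW (qm 96)).setLoA (qm 2560)).setLoU (qm 160)).setHiD (qm 224)).setHiW (qm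
    112)).setLoU (qm 176)).setLoD (qm 208))
    (by decide +kernel))))
    (good_splitD (qm 208)
    (good_of_check
    (R .t5n 2685667 6588249 3424633 5079040 13367981 26869 3275854 11852159 9466185 (-278931)
    3275854 3595869 697782 29844 2726295 2920997 2568479 7187119)
    ((((((((((((((((((((root.setHiD (qm 2048)).setHiD (qm 1024)).setHiU (qm 512)).setLoA (qm
    2048)).setHiD (qm 512)).setHiU (qm 256)).setHiA (qm 3072)).setHiD (qm 256)).setLoU (qm
    128)).setHiW (qm 128)).setLoD (qm 128)).setHiU (qm 192)).setLoW (qm 64)).setLoD (qm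
    192)).setLoW (qm 96)).setLoA (qm 2560)).setLoU (qm 160)).setHiD (qm 224)).setLoW (qm
    112)).setHiD (qm 208))
    (by decide +kernel))
    (good_of_check
    (R .t5n 2700743 6420244 3424633 5057195 13336226 14372 3269134 11850303 9054703 (-260342)
    3269134 3589748 230165 50831 2718217 2913459 2774274 7986919)
    ((((((((((((((((((((root.setHiD (qm 2048)).setHiD (qm 1024)).setHiU (qm 512)).setLoA (qm
    2048)).setHiD (qm 512)).setHiU (qm 256)).setHiA (qm 3072)).setHiD (qm 256)).setLoU (qm
    128)).setHiW (qm 128)).setLoD (qm 128)).setHiU (qm 192)).setLoW (qm 64)).setLoD (qm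
    192)).setLoW (qm 96)).setLoA (qm 2560)).setLoU (qm 160)).setHiD (qm 224)).setLoW (qm
    112)).setLoD (qm 208))
    (by decide +kernel))))
    (good_splitW (qm 112)
    (good_splitW (qm 104)
    (good_splitU (qm 176)
    (good_of_check
    (R .u5 2430068 6479727 3424633 5035349 13255886 2638 3315886 11863286 9871700 (-306910)
    3315886 3477736 1073502 (-24589) 2568474 2673357 2673357 6116602)
    (((((((((((((((((((((root.setHiD (qm 2048)).setHiD (qm 1024)).setHiU (qm 512)).setLoA (qm
    2048)).setHiD (qm 512)).setHiU (qm 256)).setHiA (qm 3072)).setHiD (qm 256)).setLoU (qm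
    128)).setHiW (qm 128)).setLoD (qm 128)).setHiU (qm 192)).setLoW (qm 64)).setLoD (qm
    192)).setLoW (qm 96)).setLoA (qm 2560)).setLoU (qm 160)).setLoD (qm 224)).setHiW (qm
    112)).setHiW (qm 104)).setHiU (qm 176))
    (by decide +kernel))
    (good_of_check
    (R .t4n 3275177 3796973 3424633 5013504 13228069 (-153472) 3315886 11816854 917032 126933
    3315886 3477736 0 0 0 0 2673357 8459000)
    (((((((((((((((((((((root.setHiD (qm 2048)).setHiD (qm 1024)).setHiU (qm 512)).setLoA (qm
    2048)).setHiD (qm 512)).setHiU (qm 256)).setHiA (qm 3072)).setHiD (qm 256)).setLoU (qm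
    128)).setHiW (qm 128)).setLoD (qm 128)).setHiU (qm 192)).setLoW (qm 64)).setLoD (qm
    192)).setLoW (qm 96)).setLoA (qm 2560)).setLoU (qm 160)).setLoD (qm 224)).setHiW (qm
    112)).setHiW (qm 104)).setLoU (qm 176))
    (by decide +kernel)))
    (good_splitU (qm 176)
    (good_of_check
    (R .u5 2432643 6456516 3424633 5035349 13248408 667 3315886 11863286 9827877 (-305866) 3315886
    3477736 2125352 (-51378) 2673352 2774274 2774274 6515429)
    (((((((((((((((((((((root.setHiD (qm 2048)).setHiD (qm 1024)).setHiU (qm 512)).setLoA (qm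
    2048)).setHiD (qm 512)).setHiU (qm 256)).setHiA (qm 3072)).setHiD (qm 256)).setLoU (qm
    128)).setHiW (qm 128)).setLoD (qm 128)).setHiU (qm 192)).setLoW (qm 64)).setLoD (qm
    192)).setLoW (qm 96)).setLoA (qm 2560)).setLoU (qm 160)).setLoD (qm 224)).setHiW (qm
    112)).setLoW (qm 104)).setHiU (qm 176))
    (by decide +kernel))
    (good_of_check
    (R .u5 2454494 6494077 3424633 5013504 13247510 (-34515) 3477731 11863286 10837843 (-356226)
    3477731 3632376 1835908 (-44657) 2673352 2774274 2774274 6356342)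
    (((((((((((((((((((((root.setHiD (qm 2048)).setHiD (qm 1024)).setHiU (qm 512)).setLoA (qm
    2048)).setHiD (qm 512)).setHiU (qm 256)).setHiA (qm 3072)).setHiD (qm 256)).setLoU (qm
    128)).setHiW (qm 128)).setLoD (qm 128)).setHiU (qm 192)).setLoW (qm 64)).setLoD (qm
    192)).setLoW (qm 96)).setLoA (qm 2560)).setLoU (qm 160)).setLoD (qm 224)).setHiW (qm
    112)).setLoW (qm 104)).setLoU (qm 176))
    (by decide +kernel))))
    (good_splitD (qm 240)
    (good_splitW (qm 120)
    (good_of_check
    (R .t5n 2707490 6315015 3424633 5035349 13327239 7531 3262400 11848447 8786037 (-245492)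
    3262400 3583617 (-773488) 86590 2710115 2809717 2871646 8352439)
    (((((((((((((((((((((root.setHiD (qm 2048)).setHiD (qm 1024)).setHiU (qm 512)).setLoA (qm
    2048)).setHiD (qm 512)).setHiU (qm 256)).setHiA (qm 3072)).setHiD (qm 256)).setLoU (qm
    128)).setHiW (qm 128)).setLoD (qm 128)).setHiU (qm 192)).setLoW (qm 64)).setLoD (qm
    192)).setLoW (qm 96)).setLoA (qm 2560)).setLoU (qm 160)).setLoD (qm 224)).setLoW (qm
    112)).setHiD (qm 240)).setHiW (qm 120))
    (by decide +kernel))
    (good_of_check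
    (R .u5 2436839 6418951 3424633 5035349 13236448 (-2599) 3315886 11863286 10439620 (-330843)
    3315886 3632376 4428227 (-116903) 2871641 2965823 2871646 6877974)
    (((((((((((((((((((((root.setHiD (qm 2048)).setHiD (qm 1024)).setHiU (qm 512)).setLoA (qm
    2048)).setHiD (qm 512)).setHiU (qm 256)).setHiA (qm 3072)).setHiD (qm 256)).setLoU (qm
    128)).setHiW (qm 128)).setLoD (qm 128)).setHiU (qm 192)).setLoW (qm 64)).setLoD (qm
    192)).setLoW (qm 96)).setLoA (qm 2560)).setLoU (qm 160)).setLoD (qm 224)).setLoW (qm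
    112)).setHiD (qm 240)).setLoW (qm 120))
    (by decide +kernel)))
    (good_of_check
    (R .u5 2436839 6418951 3424633 5013504 13253164 (-7605) 3315886 11863286 10439620 (-330843)
    3315886 3632376 3835755 (-98388) 2774269 2965823 2965823 7252600)
    ((((((((((((((((((((root.setHiD (qm 2048)).setHiD (qm 1024)).setHiU (qm 512)).setLoA (qm
    2048)).setHiD (qm 512)).setHiU (qm 256)).setHiA (qm 3072)).setHiD (qm 256)).setLoU (qm
    128)).setHiW (qm 128)).setLoD (qm 128)).setHiU (qm 192)).setLoW (qm 64)).setLoD (qm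
    192)).setLoW (qm 96)).setLoA (qm 2560)).setLoU (qm 160)).setLoD (qm 224)).setLoW (qm
    112)).setLoD (qm 240))
    (by decide +kernel))))))

end Vale.Agent.P226.Cert
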