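import Vale.Agent.P226.CertBox
import Vale.Agent.P226.CertSound

/-! Part 11 of the cover (P226). -/

namespace Vale.Agent.P226.Cert

set_option maxHeartbeats 4000000 in
/-- One subtree of the cover. -/
theorem sub19_good : BoxGood
    ((((((((((((root.setHiD (qm 2048)).setHiD (qm 1024)).setHiU (qm 512)).setLoA (qm 2048)).setHiD
    (qm 512)).setHiU (qm 256)).setHiA (qm 3072)).setHiD (qm 256)).setLoU (qm 128)).setHiW (qm
    128)).setLoD (qm 128)).setLoU (qm 192)) :=
    (good_splitD (qm 192)
    (good_splitD (qm 160)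
    (good_of_check
    (R .t4n 3303746 5028683 3424633 5089963 13165085 (-173707) 3536513 11834287 8307713 (-276904)
    3536513 4111570 0 0 0 0 2965823 9307101)
    ((((((((((((((root.setHiD (qm 2048)).setHiD (qm 1024)).setHiU (qm 512)).setLoA (qm
    2048)).setHiD (qm 512)).setHiU (qm 256)).setHiA (qm 3072)).setHiD (qm 256)).setLoU (qm
    128)).setHiW (qm 128)).setLoD (qm 128)).setLoU (qm 192)).setHiD (qm 192)).setHiD (qm 160))
    (by decide +kernel))
    (good_of_check
    (R .t4n 3332308 4394167 3424633 5046272 13154882 (-206357) 3517028 11828479 7407760 (-220260)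
    3517028 4094823 0 0 0 0 2965823 9144336)
    ((((((((((((((root.setHiD (qm 2048)).setHiD (qm 1024)).setHiU (qm 512)).setLoA (qm
    2048)).setHiD (qm 512)).setHiU (qm 256)).setHiA (qm 3072)).setHiD (qm 256)).setLoU (qm
    128)).setHiW (qm 128)).setLoD (qm 128)).setLoU (qm 192)).setHiD (qm 192)).setLoD (qm 160))
    (by decide +kernel)))
    (good_splitD (qm 224)
    (good_of_check
    (R .t4n 3354130 3789398 3424633 5002581 13156985 (-233950) 3497435 11822668 6594531 (-165664)
    3497435 4078006 0 0 0 0 2965823 9022761)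
    ((((((((((((((root.setHiD (qm 2048)).setHiD (qm 1024)).setHiU (qm 512)).setLoA (qm
    2048)).setHiD (qm 512)).setHiU (qm 256)).setHiA (qm 3072)).setHiD (qm 256)).setLoU (qm
    128)).setHiW (qm 128)).setLoD (qm 128)).setLoU (qm 192)).setLoD (qm 192)).setHiD (qm 224))
    (by decide +kernel))
    (good_of_check
    (R .t4n 3374408 3149324 3424633 4958891 13164711 (-261096) 3477731 11816854 5781773 (-109829)
    3477731 4061120 0 0 0 0 2965823 8910763)
    ((((((((((((((root.setHiD (qm 2048)).setHiD (qm 1024)).setHiU (qm 512)).setLoA (qm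
    2048)).setHiD (qm 512)).setHiU (qm 256)).setHiA (qm 3072)).setHiD (qm 256)).setLoU (qm
    128)).setHiW (qm 128)).setLoD (qm 128)).setLoU (qm 192)).setLoD (qm 192)).setLoD (qm 224))
    (by decide +kernel))))

set_option maxHeartbeats 4000000 in
/-- One subtree of the cover. -/
theorem sub20_good : BoxGood
    ((((((((((root.setHiD (qm 2048)).setHiD (qm 1024)).setHiU (qm 512)).setLoA (qm 2048)).setHiD
    (qm 512)).setHiU (qm 256)).setHiA (qm 3072)).setHiD (qm 256)).setLoU (qm 128)).setLoW (qm
    128)) :=
    (good_splitW (qm 192)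
    (good_splitW (qm 160)
    (good_splitD (qm 192)
    (good_splitU (qm 192)
    (good_splitW (qm 144)
    (good_splitD (qm 160)
    (good_splitD (qm 144)
    (good_splitD (qm 136)
    (good_splitU (qm 160)
    (good_of_check
    (R .t5n 2614999 6785001 3424633 5215573 13367767 132446 2962109 11862359 7509284 (-215141)
    2962109 3312573 5598294 (-155423) 2962109 3053502 741458 439599)
    (((((((((((((((((((root.setHiD (qm 2048)).setHiD (qm 1024)).setHiU (qm 512)).setLoA (qm
    2048)).setHiD (qm 512)).setHiU (qm 256)).setHiA (qm 3072)).setHiD (qm 256)).setLoU (qm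
    128)).setLoW (qm 128)).setHiW (qm 192)).setHiW (qm 160)).setHiD (qm 192)).setHiU (qm
    192)).setHiW (qm 144)).setHiD (qm 160)).setHiD (qm 144)).setHiD (qm 136)).setHiU (qm 160))
    (by decide +kernel))
    (good_of_check
    (R .t5n 2711653 6593729 3424633 5171883 13275419 14562 3312568 11862359 9815265 (-328276)
    3312568 3629348 3744554 (-106163) 2962109 3053502 741458 383054)
    (((((((((((((((((((root.setHiD (qm 2048)).setHiD (qm 1024)).setHiU (qm 512)).setLoA (qm
    2048)).setHiD (qm 512)).setHiU (qm 256)).setHiA (qm 3072)).setHiD (qm 256)).setLoU (qm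
    128)).setLoW (qm 128)).setHiW (qm 192)).setHiW (qm 160)).setHiD (qm 192)).setHiU (qm
    192)).setHiW (qm 144)).setHiD (qm 160)).setHiD (qm 144)).setHiD (qm 136)).setLoU (qm 160))
    (by decide +kernel)))
    (good_splitU (qm 160)
    (good_of_check
    (R .t5n 2628490 6638875 3424633 5204651 13336632 121492 2958394 11861432 7145507 (-201859)
    2958394 3309253 5901418 (-162982) 2958394 3138732 1048578 1101111)
    (((((((((((((((((((root.setHiD (qm 2048)).setHiD (qm 1024)).setHiU (qm 512)).setLoA (qm
    2048)).setHiD (qm 512)).setHiU (qm 256)).setHiA (qm 3072)).setHiD (qm 256)).setLoU (qm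
    128)).setLoW (qm 128)).setHiW (qm 192)).setHiW (qm 160)).setHiD (qm 192)).setHiU (qm
    192)).setHiW (qm 144)).setHiD (qm 160)).setHiD (qm 144)).setLoD (qm 136)).setHiU (qm 160))
    (by decide +kernel))
    (good_of_check
    (R .t5n 2707490 6610168 3424633 5160960 13290601 16304 3309248 11861432 9815465 (-324685)
    3309248 3626317 4387272 (-122465) 2958394 3138732 1048578 989306)
    (((((((((((((((((((root.setHiD (qm 2048)).setHiD (qm 1024)).setHiU (qm 512)).setLoA (qm
    2048)).setHiD (qm 512)).setHiU (qm 256)).setHiA (qm 3072)).setHiD (qm 256)).setLoU (qm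
    128)).setLoW (qm 128)).setHiW (qm 192)).setHiW (qm 160)).setHiD (qm 192)).setHiU (qm
    192)).setHiW (qm 144)).setHiD (qm 160)).setHiD (qm 144)).setLoD (qm 136)).setLoU (qm 160))
    (by decide +kernel))))
    (good_of_check
    (R .t5n 2628490 6590343 3424633 5166421 13357404 115368 2950952 11859578 8990107 (-252706)
    2950952 3620248 5680579 (-149283) 2950952 3131718 1482913 2588332)
    (((((((((((((((((root.setHiD (qm 2048)).setHiD (qm 1024)).setHiU (qm 512)).setLoA (qm
    2048)).setHiD (qm 512)).setHiU (qm 256)).setHiA (qm 3072)).setHiD (qm 256)).setLoU (qm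
    128)).setLoW (qm 128)).setHiW (qm 192)).setHiW (qm 160)).setHiD (qm 192)).setHiU (qm
    192)).setHiW (qm 144)).setHiD (qm 160)).setLoD (qm 144))
    (by decide +kernel)))
    (good_splitU (qm 160)
    (good_of_check
    (R .t5n 2614999 6615647 3424633 5155499 13381067 129266 2936010 11855869 6797487 (-169103)
    2936010 3289257 5500162 (-128562) 2936010 3117643 2097154 5435492)
    (((((((((((((((((root.setHiD (qm 2048)).setHiD (qm 1024)).setHiU (qm 512)).setLoA (qm
    2048)).setHiD (qm 512)).setHiU (qm 256)).setHiA (qm 3072)).setHiD (qm 256)).setLoU (qm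
    128)).setLoW (qm 128)).setHiW (qm 192)).setHiW (qm 160)).setHiD (qm 192)).setHiU (qm
    192)).setHiW (qm 144)).setLoD (qm 160)).setHiU (qm 160))
    (by decide +kernel))
    (good_of_check
    (R .t5n 2689835 6636777 3424633 5111808 13349148 25755 3289252 11855869 9687716 (-299534)
    3289252 3608079 4049679 (-89523) 2936010 3117643 2097154 5010578)
    (((((((((((((((((root.setHiD (qm 2048)).setHiD (qm 1024)).setHiU (qm 512)).setLoA (qm
    2048)).setHiD (qm 512)).setHiU (qm 256)).setHiA (qm 3072)).setHiD (qm 256)).setLoU (qm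
    128)).setLoW (qm 128)).setHiW (qm 192)).setHiW (qm 160)).setHiD (qm 192)).setHiU (qm
    192)).setHiW (qm 144)).setLoD (qm 160)).setLoU (qm 160))
    (by decide +kernel))))
    (good_of_check
    (R .t5n 2683081 6423632 3424633 5133653 13298051 51286 3124684 11857723 8960369 (-267396)
    3124684 3614169 6983041 (-197880) 3124684 3295936 1816189 3786531)
    (((((((((((((((root.setHiD (qm 2048)).setHiD (qm 1024)).setHiU (qm 512)).setLoA (qm
    2048)).setHiD (qm 512)).setHiU (qm 256)).setHiA (qm 3072)).setHiD (qm 256)).setLoU (qm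
    128)).setLoW (qm 128)).setHiW (qm 192)).setHiW (qm 160)).setHiD (qm 192)).setHiU (qm
    192)).setLoW (qm 144))
    (by decide +kernel)))
    (good_of_check
    (R .t5n 2771363 6479727 3424633 5068117 13272824 (-72169) 3608074 11855869 12239747 (-445820)
    3608074 4173282 3885869 (-88656) 2936010 3289257 2097154 4591516)
    ((((((((((((((root.setHiD (qm 2048)).setHiD (qm 1024)).setHiU (qm 512)).setLoA (qm
    2048)).setHiD (qm 512)).setHiU (qm 256)).setHiA (qm 3072)).setHiD (qm 256)).setLoU (qm
    128)).setLoW (qm 128)).setHiW (qm 192)).setHiW (qm 160)).setHiD (qm 192)).setLoU (qm 192))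
    (by decide +kernel)))
    (good_splitU (qm 192)
    (good_splitD (qm 224)
    (good_splitD (qm 208)
    (good_of_check
    (R .t5n 2610832 6602593 3424633 5100885 13425142 122437 2928511 11854014 8796318 (-224228)
    2928511 3601979 6671318 (-157822) 2928511 3282565 2344690 6662138)
    ((((((((((((((((root.setHiD (qm 2048)).setHiD (qm 1024)).setHiU (qm 512)).setLoA (qm
    2048)).setHiD (qm 512)).setHiU (qm 256)).setHiA (qm 3072)).setHiD (qm 256)).setLoU (qm
    128)).setLoW (qm 128)).setHiW (qm 192)).setHiW (qm 160)).setLoD (qm 192)).setHiU (qm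
    192)).setHiD (qm 224)).setHiD (qm 208))
    (by decide +kernel))
    (good_of_check
    (R .t5n 2614999 6517289 3424633 5079040 13419714 118215 2920992 11852159 8541189 (-209680)
    2920992 3595869 6378382 (-142092) 2920992 3275859 2568479 7700672)
    ((((((((((((((((root.setHiD (qm 2048)).setHiD (qm 1024)).setHiU (qm 512)).setLoA (qm
    2048)).setHiD (qm 512)).setHiU (qm 256)).setHiA (qm 3072)).setHiD (qm 256)).setLoU (qm
    128)).setLoW (qm 128)).setHiW (qm 192)).setHiW (qm 160)).setLoD (qm 192)).setHiU (qm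
    192)).setHiD (qm 224)).setLoD (qm 208))
    (by decide +kernel)))
    (good_splitU (qm 160)
    (good_splitD (qm 240)
    (good_splitD (qm 232)
    (good_of_check
    (R .t5n 2621741 6410086 3424633 5084501 13397193 115056 2917226 11851231 6139385 (-131726)
    2917226 3272501 6139385 (-131726) 2917226 3272501 2673357 8136820)
    ((((((((((((((((((root.setHiD (qm 2048)).setHiD (qm 1024)).setHiU (qm 512)).setLoA (qm
    2048)).setHiD (qm 512)).setHiU (qm 256)).setHiA (qm 3072)).setHiD (qm 256)).setLoU (qm
    128)).setLoW (qm 128)).setHiW (qm 192)).setHiW (qm 160)).setLoD (qm 192)).setHiU (qm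
    192)).setLoD (qm 224)).setHiU (qm 160)).setHiD (qm 240)).setHiD (qm 232))
    (by decide +kernel))
    (good_splitU (qm 144)
    (good_of_check
    (R .t5n 2625914 6316393 3424633 5084501 13388284 111589 2913454 11850303 4591216 (-80170)
    2913454 3096410 4591216 (-80170) 2913454 3096410 2774274 8563141)
    (((((((((((((((((((root.setHiD (qm 2048)).setHiD (qm 1024)).setHiU (qm 512)).setLoA (qm
    2048)).setHiD (qm 512)).setHiU (qm 256)).setHiA (qm 3072)).setHiD (qm 256)).setLoU (qm
    128)).setLoW (qm 128)).setHiW (qm 192)).setHiW (qm 160)).setLoD (qm 192)).setHiU (qm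
    192)).setLoD (qm 224)).setHiU (qm 160)).setHiD (qm 240)).setLoD (qm 232)).setHiU (qm 144))
    (by decide +kernel))
    (good_of_check
    (R .u5 2430090 6217953 3424633 5062656 13181964 25139 3145726 11863286 8212619 (-242108)
    3145726 3315891 7219227 (-203304) 2965818 3315891 2774274 6533630)
    (((((((((((((((((((root.setHiD (qm 2048)).setHiD (qm 1024)).setHiU (qm 512)).setLoA (qm
    2048)).setHiD (qm 512)).setHiU (qm 256)).setHiA (qm 3072)).setHiD (qm 256)).setLoU (qm
    128)).setLoW (qm 128)).setHiW (qm 192)).setHiW (qm 160)).setLoD (qm 192)).setHiU (qm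
    192)).setLoD (qm 224)).setHiU (qm 160)).setHiD (qm 240)).setLoD (qm 232)).setLoU (qm 144))
    (by decide +kernel))))
    (good_splitU (qm 144)
    (good_splitD (qm 248)
    (good_splitD (qm 244)
    (good_of_check
    (R .u5 2379681 6381388 3424633 5076309 13260166 84448 2965818 11863286 7133828 (-193873)
    2965818 3145730 7133828 (-193873) 2965818 3145730 2823380 7123534)
    ((((((((((((((((((((root.setHiD (qm 2048)).setHiD (qm 1024)).setHiU (qm 512)).setLoA (qm
    2048)).setHiD (qm 512)).setHiU (qm 256)).setHiA (qm 3072)).setHiD (qm 256)).setLoU (qm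
    128)).setLoW (qm 128)).setHiW (qm 192)).setHiW (qm 160)).setLoD (qm 192)).setHiU (qm
    192)).setLoD (qm 224)).setHiU (qm 160)).setLoD (qm 240)).setHiU (qm 144)).setHiD (qm
    248)).setHiD (qm 244))
    (by decide +kernel))
    (good_of_check
    (R .u5 2377106 6404604 3424633 5070848 13272228 85029 2965818 11863286 7181358 (-194981)
    2965818 3145730 7181358 (-194981) 2965818 3145730 2871646 7345056)
    ((((((((((((((((((((root.setHiD (qm 2048)).setHiD (qm 1024)).setHiU (qm 512)).setLoA (qm
    2048)).setHiD (qm 512)).setHiU (qm 256)).setHiA (qm 3072)).setHiD (qm 256)).setLoU (qm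
    128)).setLoW (qm 128)).setHiW (qm 192)).setHiW (qm 160)).setLoD (qm 192)).setHiU (qm
    192)).setLoD (qm 224)).setHiU (qm 160)).setLoD (qm 240)).setHiU (qm 144)).setHiD (qm
    248)).setLoD (qm 244))
    (by decide +kernel)))
    (good_splitU (qm 136)
    (good_splitD (qm 252)
    (good_of_check
    (R .u5 2379681 6381388 3424633 5070848 13264321 83192 2965818 11863286 6592516 (-176957)
    2965818 3057101 6592516 (-176957) 2965818 3057101 2919115 7520151)
    (((((((((((((((((((((root.setHiD (qm 2048)).setHiD (qm 1024)).setHiU (qm 512)).setLoA (qm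
    2048)).setHiD (qm 512)).setHiU (qm 256)).setHiA (qm 3072)).setHiD (qm 256)).setLoU (qm
    128)).setLoW (qm 128)).setHiW (qm 192)).setHiW (qm 160)).setLoD (qm 192)).setHiU (qm
    192)).setLoD (qm 224)).setHiU (qm 160)).setLoD (qm 240)).setHiU (qm 144)).setLoD (qm
    248)).setHiU (qm 136)).setHiD (qm 252))
    (by decide +kernel))
    (good_of_check
    (R .u5 2379681 6381388 3424633 5065387 13268475 81937 2965818 11863286 6592516 (-176957)
    2965818 3057101 6592516 (-176957) 2965818 3057101 2965823 7710347)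
    (((((((((((((((((((((root.setHiD (qm 2048)).setHiD (qm 1024)).setHiU (qm 512)).setLoA (qm
    2048)).setHiD (qm 512)).setHiU (qm 256)).setHiA (qm 3072)).setHiD (qm 256)).setLoU (qm
    128)).setLoW (qm 128)).setHiW (qm 192)).setHiW (qm 160)).setLoD (qm 192)).setHiU (qm
    192)).setLoD (qm 224)).setHiU (qm 160)).setLoD (qm 240)).setHiU (qm 144)).setLoD (qm
    248)).setHiU (qm 136)).setLoD (qm 252))
    (by decide +kernel)))
    (good_of_check
    (R .u5 2401505 6332828 3424633 5057195 13241271 54067 3057096 11863286 7275785 (-203492)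
    3057096 3145730 6735440 (-184495) 2965818 3145730 2965823 7532555)
    ((((((((((((((((((((root.setHiD (qm 2048)).setHiD (qm 1024)).setHiU (qm 512)).setLoA (qm
    2048)).setHiD (qm 512)).setHiU (qm 256)).setHiA (qm 3072)).setHiD (qm 256)).setLoU (qm
    128)).setLoW (qm 128)).setHiW (qm 192)).setHiW (qm 160)).setLoD (qm 192)).setHiU (qm
    192)).setLoD (qm 224)).setHiU (qm 160)).setLoD (qm 240)).setHiU (qm 144)).setLoD (qm
    248)).setLoU (qm 136))
    (by decide +kernel))))
    (good_of_check
    (R .u5 2419182 6315009 3424633 5046272 13226869 29294 3145726 11863286 8405191 (-246761)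
    3145726 3315891 7411905 (-207960) 2965818 3315891 2965823 7390523)
    ((((((((((((((((((root.setHiD (qm 2048)).setHiD (qm 1024)).setHiU (qm 512)).setLoA (qm
    2048)).setHiD (qm 512)).setHiU (qm 256)).setHiA (qm 3072)).setHiD (qm 256)).setLoU (qm
    128)).setLoW (qm 128)).setHiW (qm 192)).setHiW (qm 160)).setLoD (qm 192)).setHiU (qm
    192)).setLoD (qm 224)).setHiU (qm 160)).setLoD (qm 240)).setLoU (qm 144))
    (by decide +kernel))))
    (good_of_check
    (R .t5n 2714233 6231021 3424633 5024427 13323895 (-1471) 3262400 11848447 8668877 (-242209)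
    3262400 3583617 4059806 (-62167) 2905897 3262405 2965823 8694034)
    ((((((((((((((((root.setHiD (qm 2048)).setHiD (qm 1024)).setHiU (qm 512)).setLoA (qm
    2048)).setHiD (qm 512)).setHiU (qm 256)).setHiA (qm 3072)).setHiD (qm 256)).setLoU (qm
    128)).setLoW (qm 128)).setHiW (qm 192)).setHiW (qm 160)).setLoD (qm 192)).setHiU (qm
    192)).setLoD (qm 224)).setLoU (qm 160))
    (by decide +kernel))))
    (good_of_check
    (R .t5n 2778121 6284216 3424633 4980736 13289981 (-85762) 3583612 11848447 11767911 (-407184)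
    3583612 4152152 2933771 (-29305) 2905897 3262405 2965823 8217209)
    ((((((((((((((root.setHiD (qm 2048)).setHiD (qm 1024)).setHiU (qm 512)).setLoA (qm
    2048)).setHiD (qm 512)).setHiU (qm 256)).setHiA (qm 3072)).setHiD (qm 256)).setLoU (qm
    128)).setLoW (qm 128)).setHiW (qm 192)).setHiW (qm 160)).setLoD (qm 192)).setLoU (qm 192))
    (by decide +kernel))))
    (good_splitD (qm 208)
    (good_of_check
    (R .t5n 2786458 5675087 3424633 5057195 13191730 (-69796) 3295931 11857723 10810305 (-367442)
    3295931 4178548 8185978 (-264930) 3295931 3614169 1816189 3365793)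
    (((((((((((((root.setHiD (qm 2048)).setHiD (qm 1024)).setHiU (qm 512)).setLoA (qm
    2048)).setHiD (qm 512)).setHiU (qm 256)).setHiA (qm 3072)).setHiD (qm 256)).setLoU (qm
    128)).setLoW (qm 128)).setHiW (qm 192)).setLoW (qm 160)).setHiD (qm 208))
    (by decide +kernel))
    (good_of_check
    (R .t5n 2806686 5155720 3424633 4991659 13204494 (-102302) 3275854 11852159 10171012 (-328238)
    3275854 4162730 7395006 (-219800) 3275854 3595869 2568479 6397326)
    (((((((((((((root.setHiD (qm 2048)).setHiD (qm 1024)).setHiU (qm 512)).setLoA (qm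
    2048)).setHiD (qm 512)).setHiU (qm 256)).setHiA (qm 3072)).setHiD (qm 256)).setLoU (qm
    128)).setLoW (qm 128)).setHiW (qm 192)).setLoW (qm 160)).setLoD (qm 208))
    (by decide +kernel))))
    (good_of_check
    (R .t5n 2945384 4528014 3424633 4980736 13011563 (-244249) 3608074 11855869 9830211 (-378136)
    3608074 4173282 9830211 (-378136) 3608074 4173282 2097154 3827956)
    (((((((((((root.setHiD (qm 2048)).setHiD (qm 1024)).setHiU (qm 512)).setLoA (qm 2048)).setHiD
    (qm 512)).setHiU (qm 256)).setHiA (qm 3072)).setHiD (qm 256)).setLoU (qm 128)).setLoW (qm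
    128)).setLoW (qm 192))
    (by decide +kernel)))

set_option maxHeartbeats 4000000 in
/-- One subtree of the cover. -/
theorem sub21_good : BoxGood
    ((((((((((root.setHiD (qm 2048)).setHiD (qm 1024)).setHiU (qm 512)).setLoA (qm 2048)).setHiD
    (qm 512)).setHiU (qm 256)).setHiA (qm 3072)).setLoD (qm 256)).setHiU (qm 128)).setHiU (qm 64)) :=
    (good_splitU (qm 32)
    (good_splitD (qm 384)
    (good_of_check
    (T 3523215 88336969 11863285 10273903 2990577 3864165 3864165 1045002 3363072 3363072 1782239
    1482913 1482913 63492013 11046426 11046426 24813840 16074366)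
    ((((((((((((root.setHiD (qm 2048)).setHiD (qm 1024)).setHiU (qm 512)).setLoA (qm 2048)).setHiD
    (qm 512)).setHiU (qm 256)).setHiA (qm 3072)).setLoD (qm 256)).setHiU (qm 128)).setHiU (qm
    64)).setHiU (qm 32)).setHiD (qm 384))
    (by decide +kernel))
    (good_of_check
    (R .u5 2249869 2766857 3424633 4958891 13463291 241823 0 11863286 0 42 0 1482913 0 42 0
    1482913 1482913 1985455)
    ((((((((((((root.setHiD (qm 2048)).setHiD (qm 1024)).setHiU (qm 512)).setLoA (qm 2048)).setHiD
    (qm 512)).setHiU (qm 256)).setHiA (qm 3072)).setLoD (qm 256)).setHiU (qm 128)).setHiU (qm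
    64)).setHiU (qm 32)).setLoD (qm 384))
    (by decide +kernel)))
    (good_splitD (qm 384)
    (good_splitA (qm 2560)
    (good_splitU (qm 48)
    (good_splitD (qm 320)
    (good_of_check
    (T 3523215 86768858 11863285 10273903 2598549 3885669 3885669 1104920 3375980 3375980 1676267
    1816189 1816189 59871881 12803902 12803902 24635960 16091457)
    (((((((((((((((root.setHiD (qm 2048)).setHiD (qm 1024)).setHiU (qm 512)).setLoA (qm
    2048)).setHiD (qm 512)).setHiU (qm 256)).setHiA (qm 3072)).setLoD (qm 256)).setHiU (qm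
    128)).setHiU (qm 64)).setLoU (qm 32)).setHiD (qm 384)).setHiA (qm 2560)).setHiU (qm
    48)).setHiD (qm 320))
    (by decide +kernel))
    (good_of_check
    (R .u3 3235687 756383 4194303 5057195 12998852 (-36243) 1482908 11863286 0 0 0 0 0 0 0 0
    1816189 5192220)
    (((((((((((((((root.setHiD (qm 2048)).setHiD (qm 1024)).setHiU (qm 512)).setLoA (qm
    2048)).setHiD (qm 512)).setHiU (qm 256)).setHiA (qm 3072)).setLoD (qm 256)).setHiU (qm
    128)).setHiU (qm 64)).setLoU (qm 32)).setHiD (qm 384)).setHiA (qm 2560)).setHiU (qm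
    48)).setLoD (qm 320))
    (by decide +kernel)))
    (good_splitW (qm 32)
    (good_of_check
    (R .u4 2447751 5815678 4194303 5079040 13561394 333827 1816184 11863286 0 202 1816184 2097154
    0 0 0 0 1482913 3266240)
    (((((((((((((((root.setHiD (qm 2048)).setHiD (qm 1024)).setHiU (qm 512)).setLoA (qm
    2048)).setHiD (qm 512)).setHiU (qm 256)).setHiA (qm 3072)).setLoD (qm 256)).setHiU (qm
    128)).setHiU (qm 64)).setLoU (qm 32)).setHiD (qm 384)).setHiA (qm 2560)).setLoU (qm
    48)).setHiW (qm 32))
    (by decide +kernel))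
    (good_splitD (qm 320)
    (good_splitD (qm 288)
    (good_of_check
    (T 2852127 86258453 11863285 10273903 2470948 4094792 4094792 908856 3368896 3368896 1639422
    2097154 2097154 73003061 14181247 14181247 24635960 16091457)
    (((((((((((((((((root.setHiD (qm 2048)).setHiD (qm 1024)).setHiU (qm 512)).setLoA (qm
    2048)).setHiD (qm 512)).setHiU (qm 256)).setHiA (qm 3072)).setLoD (qm 256)).setHiU (qm
    128)).setHiU (qm 64)).setLoU (qm 32)).setHiD (qm 384)).setHiA (qm 2560)).setLoU (qm
    48)).setLoW (qm 32)).setHiD (qm 320)).setHiD (qm 288))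
    (by decide +kernel))
    (good_splitA (qm 2304)
    (good_splitD (qm 304)
    (good_of_check
    (T 2852127 86768858 11863285 10273903 2598549 4232001 4232001 894459 3223997 3223997 1676267
    2097154 2097154 74178150 15239646 15239646 24546537 16040128)
    (((((((((((((((((((root.setHiD (qm 2048)).setHiD (qm 1024)).setHiU (qm 512)).setLoA (qm
    2048)).setHiD (qm 512)).setHiU (qm 256)).setHiA (qm 3072)).setLoD (qm 256)).setHiU (qm
    128)).setHiU (qm 64)).setLoU (qm 32)).setHiD (qm 384)).setHiA (qm 2560)).setLoU (qm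
    48)).setLoW (qm 32)).setHiD (qm 320)).setLoD (qm 288)).setHiA (qm 2304)).setHiD (qm 304))
    (by decide +kernel))
    (good_of_check
    (R .u5 2157423 6488598 4530365 5089963 13495020 393880 1816184 11863286 0 42 1816184 2097154 0
    42 1482908 2097154 2097154 5409513)
    (((((((((((((((((((root.setHiD (qm 2048)).setHiD (qm 1024)).setHiU (qm 512)).setLoA (qm
    2048)).setHiD (qm 512)).setHiU (qm 256)).setHiA (qm 3072)).setLoD (qm 256)).setHiU (qm
    128)).setHiU (qm 64)).setLoU (qm 32)).setHiD (qm 384)).setHiA (qm 2560)).setLoU (qm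
    48)).setLoW (qm 32)).setHiD (qm 320)).setLoD (qm 288)).setHiA (qm 2304)).setLoD (qm 304))
    (by decide +kernel)))
    (good_of_check
    (T 3187671 75511342 11097087 10897120 2359732 3816358 3816358 1051005 3612497 3612497 1712320
    2097154 2097154 63117610 12623204 12623204 24635960 16022982)
    ((((((((((((((((((root.setHiD (qm 2048)).setHiD (qm 1024)).setHiU (qm 512)).setLoA (qm
    2048)).setHiD (qm 512)).setHiU (qm 256)).setHiA (qm 3072)).setLoD (qm 256)).setHiU (qm
    128)).setHiU (qm 64)).setLoU (qm 32)).setHiD (qm 384)).setHiA (qm 2560)).setLoU (qm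
    48)).setLoW (qm 32)).setHiD (qm 320)).setLoD (qm 288)).setLoA (qm 2304))
    (by decide +kernel))))
    (good_splitU (qm 56)
    (good_of_check
    (R .u5 2185991 6009012 4194303 5040811 13497064 342853 1816184 11863286 0 42 1816184 1961709 0
    42 1482908 1961709 1961709 4490714)
    (((((((((((((((((root.setHiD (qm 2048)).setHiD (qm 1024)).setHiU (qm 512)).setLoA (qm
    2048)).setHiD (qm 512)).setHiU (qm 256)).setHiA (qm 3072)).setLoD (qm 256)).setHiU (qm
    128)).setHiU (qm 64)).setLoU (qm 32)).setHiD (qm 384)).setHiA (qm 2560)).setLoU (qm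
    48)).setLoW (qm 32)).setLoD (qm 320)).setHiU (qm 56))
    (by decide +kernel))
    (good_of_check
    (R .u5 2214563 5914060 4194303 5029888 13474164 300035 1961704 11863286 0 42 1961704 2097154 0
    42 1482908 2097154 2097154 4986681)
    (((((((((((((((((root.setHiD (qm 2048)).setHiD (qm 1024)).setHiU (qm 512)).setLoA (qm
    2048)).setHiD (qm 512)).setHiU (qm 256)).setHiA (qm 3072)).setLoD (qm 256)).setHiU (qm
    128)).setHiU (qm 64)).setLoU (qm 32)).setHiD (qm 384)).setHiA (qm 2560)).setLoU (qm
    48)).setLoW (qm 32)).setLoD (qm 320)).setLoU (qm 56))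
    (by decide +kernel))))))
    (good_of_check
    (T 3187671 67561829 10273906 11486573 2463194 3766473 3766473 1055735 3705739 3705739 1849517
    2097154 2097154 62846563 12090850 12090850 24813840 16005818)
    (((((((((((((root.setHiD (qm 2048)).setHiD (qm 1024)).setHiU (qm 512)).setLoA (qm
    2048)).setHiD (qm 512)).setHiU (qm 256)).setHiA (qm 3072)).setLoD (qm 256)).setHiU (qm
    128)).setHiU (qm 64)).setLoU (qm 32)).setHiD (qm 384)).setLoA (qm 2560))
    (by decide +kernel)))
    (good_of_check
    (R .u3 3349963 1692 3424633 4915200 12733260 (-99282) 1482908 11863286 0 0 0 0 0 0 0 0 2097154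
    5880024)
    ((((((((((((root.setHiD (qm 2048)).setHiD (qm 1024)).setHiU (qm 512)).setLoA (qm 2048)).setHiD
    (qm 512)).setHiU (qm 256)).setHiA (qm 3072)).setLoD (qm 256)).setHiU (qm 128)).setHiU (qm
    64)).setLoU (qm 32)).setLoD (qm 384))
    (by decide +kernel))))

set_option maxHeartbeats 4000000 in
/-- One subtree of the cover. -/
theorem sub22_good : BoxGood
    (((((((((((root.setHiD (qm 2048)).setHiD (qm 1024)).setHiU (qm 512)).setLoA (qm 2048)).setHiD
    (qm 512)).setHiU (qm 256)).setHiA (qm 3072)).setLoD (qm 256)).setHiU (qm 128)).setLoU (qm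
    64)).setHiW (qm 64)) :=
    (good_splitD (qm 384)
    (good_splitW (qm 32)
    (good_of_check
    (R .u4 2572932 4564280 3424633 5024427 13497823 157083 2097150 11863286 1355074 (-20971)
    2097150 2965823 0 0 0 0 1482913 2776967)
    (((((((((((((root.setHiD (qm 2048)).setHiD (qm 1024)).setHiU (qm 512)).setLoA (qm
    2048)).setHiD (qm 512)).setHiU (qm 256)).setHiA (qm 3072)).setLoD (qm 256)).setHiU (qm
    128)).setLoU (qm 64)).setHiW (qm 64)).setHiD (qm 384)).setHiW (qm 32))
    (by decide +kernel))
    (good_splitD (qm 320)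
    (good_splitU (qm 96)
    (good_splitA (qm 2560)
    (good_splitW (qm 48)
    (good_of_check
    (R .u5 2153257 6980397 4194303 5089963 13606276 365464 2097150 11863286 1777107 (-27725)
    2097150 2568479 0 42 1482908 1816189 1816189 3949362)
    (((((((((((((((((root.setHiD (qm 2048)).setHiD (qm 1024)).setHiU (qm 512)).setLoA (qm
    2048)).setHiD (qm 512)).setHiU (qm 256)).setHiA (qm 3072)).setLoD (qm 256)).setHiU (qm
    128)).setLoU (qm 64)).setHiW (qm 64)).setHiD (qm 384)).setLoW (qm 32)).setHiD (qm 320)).setHiU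
    (qm 96)).setHiA (qm 2560)).setHiW (qm 48))
    (by decide +kernel))
    (good_splitD (qm 288)
    (good_splitA (qm 2304)
    (good_of_check
    (R .u5 2135599 7166506 4530365 5111808 13641441 385795 2097150 11863286 2009998 (-31364)
    2097150 2568479 0 42 1816184 2097154 2097154 5581232)
    (((((((((((((((((((root.setHiD (qm 2048)).setHiD (qm 1024)).setHiU (qm 512)).setLoA (qm
    2048)).setHiD (qm 512)).setHiU (qm 256)).setHiA (qm 3072)).setLoD (qm 256)).setHiU (qm
    128)).setLoU (qm 64)).setHiW (qm 64)).setHiD (qm 384)).setLoW (qm 32)).setHiD (qm 320)).setHiU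
    (qm 96)).setHiA (qm 2560)).setLoW (qm 48)).setHiD (qm 288)).setHiA (qm 2304))
    (by decide +kernel))
    (good_of_check
    (T 2852127 75511342 11097087 10897120 2359732 4492020 3781258 940372 3016511 3731114 1712320
    2568479 2097154 70556464 18864374 11951511 24635960 16040128)
    (((((((((((((((((((root.setHiD (qm 2048)).setHiD (qm 1024)).setHiU (qm 512)).setLoA (qm
    2048)).setHiD (qm 512)).setHiU (qm 256)).setHiA (qm 3072)).setLoD (qm 256)).setHiU (qm
    128)).setLoU (qm 64)).setHiW (qm 64)).setHiD (qm 384)).setLoW (qm 32)).setHiD (qm 320)).setHiU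
    (qm 96)).setHiA (qm 2560)).setLoW (qm 48)).setHiD (qm 288)).setLoA (qm 2304))
    (by decide +kernel)))
    (good_of_check
    (R .u5 2179245 6717383 4194303 5068117 13543323 339650 2097150 11863286 1467738 (-22891)
    2097150 2568479 0 42 1816184 2097154 2097154 5244991)
    ((((((((((((((((((root.setHiD (qm 2048)).setHiD (qm 1024)).setHiU (qm 512)).setLoA (qm
    2048)).setHiD (qm 512)).setHiU (qm 256)).setHiA (qm 3072)).setLoD (qm 256)).setHiU (qm
    128)).setLoU (qm 64)).setHiW (qm 64)).setHiD (qm 384)).setLoW (qm 32)).setHiD (qm 320)).setHiU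
    (qm 96)).setHiA (qm 2560)).setLoW (qm 48)).setLoD (qm 288))
    (by decide +kernel))))
    (good_of_check
    (T 3187671 66747831 10273906 11486573 2259695 4191058 3547271 1082212 3339426 3899232 1782239
    2568479 2097154 61305490 16205992 11083683 24813840 16005818)
    ((((((((((((((((root.setHiD (qm 2048)).setHiD (qm 1024)).setHiU (qm 512)).setLoA (qm
    2048)).setHiD (qm 512)).setHiU (qm 256)).setHiA (qm 3072)).setLoD (qm 256)).setHiU (qm
    128)).setLoU (qm 64)).setHiW (qm 64)).setHiD (qm 384)).setLoW (qm 32)).setHiD (qm 320)).setHiU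
    (qm 96)).setLoA (qm 2560))
    (by decide +kernel)))
    (good_splitW (qm 48)
    (good_of_check
    (R .u5 2264948 6760424 3424633 5046272 13483991 209506 2568474 11863286 5583303 (-125331)
    2568474 2965823 0 42 1482908 1816189 1816189 3321073)
    ((((((((((((((((root.setHiD (qm 2048)).setHiD (qm 1024)).setHiU (qm 512)).setLoA (qm
    2048)).setHiD (qm 512)).setHiU (qm 256)).setHiA (qm 3072)).setLoD (qm 256)).setHiU (qm
    128)).setLoU (qm 64)).setHiW (qm 64)).setHiD (qm 384)).setLoW (qm 32)).setHiD (qm 320)).setLoU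
    (qm 96)).setHiW (qm 48))
    (by decide +kernel))
    (good_splitD (qm 288)
    (good_splitW (qm 56)
    (good_of_check
    (R .u5 2264948 6760424 3424633 5068117 13466386 214812 2568474 11863286 5583303 (-125331)
    2568474 2965823 0 42 1816184 1961709 1961709 3995685)
    ((((((((((((((((((root.setHiD (qm 2048)).setHiD (qm 1024)).setHiU (qm 512)).setLoA (qm
    2048)).setHiD (qm 512)).setHiU (qm 256)).setHiA (qm 3072)).setLoD (qm 256)).setHiU (qm
    128)).setLoU (qm 64)).setHiW (qm 64)).setHiD (qm 384)).setLoW (qm 32)).setHiD (qm 320)).setLoU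
    (qm 96)).setLoW (qm 48)).setHiD (qm 288)).setHiW (qm 56))
    (by decide +kernel))
    (good_splitU (qm 112)
    (good_of_check
    (R .u5 2264972 6760424 3424633 5079040 13457442 217476 2568474 11863286 4186027 (-92584)
    2568474 2774274 0 42 1961704 2097154 2097154 4644460)
    (((((((((((((((((((root.setHiD (qm 2048)).setHiD (qm 1024)).setHiU (qm 512)).setLoA (qm
    2048)).setHiD (qm 512)).setHiU (qm 256)).setHiA (qm 3072)).setLoD (qm 256)).setHiU (qm
    128)).setLoU (qm 64)).setHiW (qm 64)).setHiD (qm 384)).setLoW (qm 32)).setHiD (qm 320)).setLoU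
    (qm 96)).setLoW (qm 48)).setHiD (qm 288)).setLoW (qm 56)).setHiU (qm 112))
    (by decide +kernel))
    (good_of_check
    (R .u5 2313771 6668861 3424633 5057195 13404742 150719 2774269 11863286 6015580 (-148231)
    2774269 2965823 0 42 1961704 2097154 2097154 4338188)
    (((((((((((((((((((root.setHiD (qm 2048)).setHiD (qm 1024)).setHiU (qm 512)).setLoA (qm
    2048)).setHiD (qm 512)).setHiU (qm 256)).setHiA (qm 3072)).setLoD (qm 256)).setHiU (qm
    128)).setLoU (qm 64)).setHiW (qm 64)).setHiD (qm 384)).setLoW (qm 32)).setHiD (qm 320)).setLoU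
    (qm 96)).setLoW (qm 48)).setHiD (qm 288)).setLoW (qm 56)).setLoU (qm 112))
    (by decide +kernel))))
    (good_of_check
    (R .u5 2271721 6692072 3424633 5024427 13480346 199162 2568474 11863286 5452059 (-122611)
    2568474 2965823 0 42 1816184 2097154 2097154 4601756)
    (((((((((((((((((root.setHiD (qm 2048)).setHiD (qm 1024)).setHiU (qm 512)).setLoA (qm
    2048)).setHiD (qm 512)).setHiU (qm 256)).setHiA (qm 3072)).setLoD (qm 256)).setHiU (qm
    128)).setLoU (qm 64)).setHiW (qm 64)).setHiD (qm 384)).setLoW (qm 32)).setHiD (qm 320)).setLoU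
    (qm 96)).setLoW (qm 48)).setLoD (qm 288))
    (by decide +kernel)))))
    (good_splitW (qm 48)
    (good_of_check
    (R .u5 2254037 5490587 3424633 4980736 13500671 223426 2097150 11863286 3288533 (-51341)
    2097150 2965823 0 42 1482908 1816189 1816189 3377622)
    (((((((((((((((root.setHiD (qm 2048)).setHiD (qm 1024)).setHiU (qm 512)).setLoA (qm
    2048)).setHiD (qm 512)).setHiU (qm 256)).setHiA (qm 3072)).setLoD (qm 256)).setHiU (qm
    128)).setLoU (qm 64)).setHiW (qm 64)).setHiD (qm 384)).setLoW (qm 32)).setLoD (qm 320)).setHiW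
    (qm 48))
    (by decide +kernel))
    (good_splitU (qm 96)
    (good_splitW (qm 56)
    (good_of_check
    (R .u5 2264948 5331456 3424633 5002581 13465777 215299 2097150 11863286 702056 (-10927)
    2097150 2568479 0 42 1816184 1961709 1961709 3995685)
    (((((((((((((((((root.setHiD (qm 2048)).setHiD (qm 1024)).setHiU (qm 512)).setLoA (qm
    2048)).setHiD (qm 512)).setHiU (qm 256)).setHiA (qm 3072)).setLoD (qm 256)).setHiU (qm
    128)).setLoU (qm 64)).setHiW (qm 64)).setHiD (qm 384)).setLoW (qm 32)).setLoD (qm 320)).setLoW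
    (qm 48)).setHiU (qm 96)).setHiW (qm 56))
    (by decide +kernel))
    (good_splitD (qm 352)
    (good_of_check
    (R .u5 2271721 5328060 3424633 5024427 13413759 219769 2097150 11863286 656546 (-10216)
    2097150 2568479 0 42 1961704 2097154 2097154 4601756)
    ((((((((((((((((((root.setHiD (qm 2048)).setHiD (qm 1024)).setHiU (qm 512)).setLoA (qm
    2048)).setHiD (qm 512)).setHiU (qm 256)).setHiA (qm 3072)).setLoD (qm 256)).setHiU (qm
    128)).setLoU (qm 64)).setHiW (qm 64)).setHiD (qm 384)).setLoW (qm 32)).setLoD (qm 320)).setLoW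
    (qm 48)).setHiU (qm 96)).setLoW (qm 56)).setHiD (qm 352))
    (by decide +kernel))
    (good_of_check
    (R .u5 2300284 4814190 3424633 4980736 13413238 171292 2097150 11863286 486016 (-7551) 2097150
    2568479 0 42 1961704 2097154 2097154 4420709)
    ((((((((((((((((((root.setHiD (qm 2048)).setHiD (qm 1024)).setHiU (qm 512)).setLoA (qm
    2048)).setHiD (qm 512)).setHiU (qm 256)).setHiA (qm 3072)).setLoD (qm 256)).setHiU (qm
    128)).setLoU (qm 64)).setHiW (qm 64)).setHiD (qm 384)).setLoW (qm 32)).setLoD (qm 320)).setLoW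
    (qm 48)).setHiU (qm 96)).setLoW (qm 56)).setLoD (qm 352))
    (by decide +kernel))))
    (good_of_check
    (R .u5 2309059 6125104 3424633 4958891 13462404 141578 2568474 11863286 4751936 (-107892)
    2568474 2965823 0 42 1816184 2097154 2097154 4366182)
    ((((((((((((((((root.setHiD (qm 2048)).setHiD (qm 1024)).setHiU (qm 512)).setLoA (qm
    2048)).setHiD (qm 512)).setHiU (qm 256)).setHiA (qm 3072)).setLoD (qm 256)).setHiU (qm
    128)).setLoU (qm 64)).setHiW (qm 64)).setHiD (qm 384)).setLoW (qm 32)).setLoD (qm 320)).setLoW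
    (qm 48)).setLoU (qm 96))
    (by decide +kernel))))))
    (good_of_check
    (R .u5 2404080 2825566 3424633 4849664 13401651 1938 2097150 11863286 1638210 (-25554) 2097150
    2965823 0 42 0 2097154 2097154 3826677)
    ((((((((((((root.setHiD (qm 2048)).setHiD (qm 1024)).setHiU (qm 512)).setLoA (qm 2048)).setHiD
    (qm 512)).setHiU (qm 256)).setHiA (qm 3072)).setLoD (qm 256)).setHiU (qm 128)).setLoU (qm
    64)).setHiW (qm 64)).setLoD (qm 384))
    (by decide +kernel)))

end Vale.Agent.P226.Cert
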