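import Vale.Agent.P226.CertBox
import Vale.Agent.P226.CertSound

/-! Part 12 of the cover (P226). -/

namespace Vale.Agent.P226.Cert

set_option maxHeartbeats 4000000 in
/-- One subtree of the cover. -/
theorem sub23_good : BoxGood
    (((((((((((root.setHiD (qm 2048)).setHiD (qm 1024)).setHiU (qm 512)).setLoA (qm 2048)).setHiD
    (qm 512)).setHiU (qm 256)).setHiA (qm 3072)).setLoD (qm 256)).setHiU (qm 128)).setLoU (qm
    64)).setLoW (qm 64)) :=
    (good_splitW (qm 96)
    (good_splitD (qm 384)
    (good_splitW (qm 80)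
    (good_splitD (qm 320)
    (good_splitU (qm 96)
    (good_splitA (qm 2560)
    (good_splitW (qm 72)
    (good_splitD (qm 288)
    (good_splitA (qm 2304)
    (good_splitU (qm 80)
    (good_of_check
    (R .u5 2133024 7195217 4530365 5122731 13639948 390842 2097150 11863286 575482 (-8949) 2097150
    2344690 104069 (-1584) 2097150 2224368 2224368 6302675)
    (((((((((((((((((((((root.setHiD (qm 2048)).setHiD (qm 1024)).setHiU (qm 512)).setLoA (qm
    2048)).setHiD (qm 512)).setHiU (qm 256)).setHiA (qm 3072)).setLoD (qm 256)).setHiU (qm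
    128)).setLoU (qm 64)).setLoW (qm 64)).setHiW (qm 96)).setHiD (qm 384)).setHiW (qm 80)).setHiD
    (qm 320)).setHiU (qm 96)).setHiA (qm 2560)).setHiW (qm 72)).setHiD (qm 288)).setHiA (qm
    2304)).setHiU (qm 80))
    (by decide +kernel))
    (good_of_check
    (R .u5 2181820 7175371 4530365 5100885 13605099 316146 2344685 11863286 2614769 (-49998)
    2344685 2568479 10575 (-123) 2097150 2224368 2224368 5895064)
    (((((((((((((((((((((root.setHiD (qm 2048)).setHiD (qm 1024)).setHiU (qm 512)).setLoA (qm
    2048)).setHiD (qm 512)).setHiU (qm 256)).setHiA (qm 3072)).setLoD (qm 256)).setHiU (qm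
    128)).setLoU (qm 64)).setLoW (qm 64)).setHiW (qm 96)).setHiD (qm 384)).setHiW (qm 80)).setHiD
    (qm 320)).setHiU (qm 96)).setHiA (qm 2560)).setHiW (qm 72)).setHiD (qm 288)).setHiA (qm
    2304)).setLoU (qm 80))
    (by decide +kernel)))
    (good_splitA (qm 2432)
    (good_of_check
    (T 2852127 75511342 11097087 10897120 2359732 4492020 3958949 940372 3016511 3576788 1712320
    2568479 2224368 70556464 18864374 13348429 24591289 16040128)
    (((((((((((((((((((((root.setHiD (qm 2048)).setHiD (qm 1024)).setHiU (qm 512)).setLoA (qm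
    2048)).setHiD (qm 512)).setHiU (qm 256)).setHiA (qm 3072)).setLoD (qm 256)).setHiU (qm
    128)).setLoU (qm 64)).setLoW (qm 64)).setHiW (qm 96)).setHiD (qm 384)).setHiW (qm 80)).setHiD
    (qm 320)).setHiU (qm 96)).setHiA (qm 2560)).setHiW (qm 72)).setHiD (qm 288)).setLoA (qm
    2304)).setHiA (qm 2432))
    (by decide +kernel))
    (good_of_check
    (T 3187671 70501083 10693420 11195727 2203161 4243125 3733135 1080009 3263128 3729860 1712320
    2568479 2224368 61381805 16785027 12451185 24635960 16040128)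
    (((((((((((((((((((((root.setHiD (qm 2048)).setHiD (qm 1024)).setHiU (qm 512)).setLoA (qm
    2048)).setHiD (qm 512)).setHiU (qm 256)).setHiA (qm 3072)).setLoD (qm 256)).setHiU (qm
    128)).setLoU (qm 64)).setLoW (qm 64)).setHiW (qm 96)).setHiD (qm 384)).setHiW (qm 80)).setHiD
    (qm 320)).setHiU (qm 96)).setHiA (qm 2560)).setHiW (qm 72)).setHiD (qm 288)).setLoA (qm
    2304)).setLoA (qm 2432))
    (by decide +kernel))))
    (good_splitW (qm 68)
    (good_of_check
    (R .u5 2179245 6717383 4194303 5068117 13543323 339650 2097150 11863286 1467738 (-22891)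
    2097150 2568479 0 42 2097150 2161697 2161697 5584828)
    ((((((((((((((((((((root.setHiD (qm 2048)).setHiD (qm 1024)).setHiU (qm 512)).setLoA (qm
    2048)).setHiD (qm 512)).setHiU (qm 256)).setHiA (qm 3072)).setLoD (qm 256)).setHiU (qm
    128)).setLoU (qm 64)).setLoW (qm 64)).setHiW (qm 96)).setHiD (qm 384)).setHiW (qm 80)).setHiD
    (qm 320)).setHiU (qm 96)).setHiA (qm 2560)).setHiW (qm 72)).setLoD (qm 288)).setHiW (qm 68))
    (by decide +kernel))
    (good_of_check
    (R .u5 2192732 6697550 4194303 5065387 13528464 320677 2161692 11863286 1511068 (-25043)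
    2161692 2568479 8704 (-102) 2161692 2224368 2224368 5806144)
    ((((((((((((((((((((root.setHiD (qm 2048)).setHiD (qm 1024)).setHiU (qm 512)).setLoA (qm
    2048)).setHiD (qm 512)).setHiU (qm 256)).setHiA (qm 3072)).setLoD (qm 256)).setHiU (qm
    128)).setLoU (qm 64)).setLoW (qm 64)).setHiW (qm 96)).setHiD (qm 384)).setHiW (qm 80)).setHiD
    (qm 320)).setHiU (qm 96)).setHiA (qm 2560)).setHiW (qm 72)).setLoD (qm 288)).setLoW (qm 68))
    (by decide +kernel))))
    (good_splitD (qm 288)
    (good_splitU (qm 84)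
    (good_splitA (qm 2304)
    (good_of_check
    (R .u5 2168334 7070260 4530365 5114539 13587724 344729 2224363 11863286 972721 (-17009)
    2224363 2402592 644137 (-11233) 2224363 2344690 2344690 6641924)
    (((((((((((((((((((((root.setHiD (qm 2048)).setHiD (qm 1024)).setHiU (qm 512)).setLoA (qm
    2048)).setHiD (qm 512)).setHiU (qm 256)).setHiA (qm 3072)).setLoD (qm 256)).setHiU (qm
    128)).setLoU (qm 64)).setLoW (qm 64)).setHiW (qm 96)).setHiD (qm 384)).setHiW (qm 80)).setHiD
    (qm 320)).setHiU (qm 96)).setHiA (qm 2560)).setLoW (qm 72)).setHiD (qm 288)).setHiU (qm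
    84)).setHiA (qm 2304))
    (by decide +kernel))
    (good_of_check
    (T 2852127 75175736 11097087 10897120 2275830 4133290 4044840 949572 3418845 3504896 1685353
    2402592 2344690 69872870 15057326 14263062 24635960 16044412)
    (((((((((((((((((((((root.setHiD (qm 2048)).setHiD (qm 1024)).setHiU (qm 512)).setLoA (qm
    2048)).setHiD (qm 512)).setHiU (qm 256)).setHiA (qm 3072)).setLoD (qm 256)).setHiU (qm
    128)).setLoU (qm 64)).setLoW (qm 64)).setHiW (qm 96)).setHiD (qm 384)).setHiW (qm 80)).setHiD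
    (qm 320)).setHiU (qm 96)).setHiA (qm 2560)).setLoW (qm 72)).setHiD (qm 288)).setHiU (qm
    84)).setLoA (qm 2304))
    (by decide +kernel)))
    (good_of_check
    (R .u5 2214554 6946219 4194303 5098155 13530252 281911 2402587 11863286 2439096 (-48472)
    2402587 2568479 269730 (-4699) 2224363 2344690 2344690 6249833)
    ((((((((((((((((((((root.setHiD (qm 2048)).setHiD (qm 1024)).setHiU (qm 512)).setLoA (qm
    2048)).setHiD (qm 512)).setHiU (qm 256)).setHiA (qm 3072)).setLoD (qm 256)).setHiU (qm
    128)).setLoU (qm 64)).setLoW (qm 64)).setHiW (qm 96)).setHiD (qm 384)).setHiW (qm 80)).setHiD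
    (qm 320)).setHiU (qm 96)).setHiA (qm 2560)).setLoW (qm 72)).setHiD (qm 288)).setLoU (qm 84))
    (by decide +kernel)))
    (good_of_check
    (R .u5 2203643 6705133 4194303 5062656 13521222 303869 2224363 11863286 1615133 (-28346)
    2224363 2568479 341959 (-5966) 2224363 2344690 2344690 6340356)
    (((((((((((((((((((root.setHiD (qm 2048)).setHiD (qm 1024)).setHiU (qm 512)).setLoA (qm
    2048)).setHiD (qm 512)).setHiU (qm 256)).setHiA (qm 3072)).setLoD (qm 256)).setHiU (qm
    128)).setLoU (qm 64)).setLoW (qm 64)).setHiW (qm 96)).setHiD (qm 384)).setHiW (qm 80)).setHiD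
    (qm 320)).setHiU (qm 96)).setHiA (qm 2560)).setLoW (qm 72)).setLoD (qm 288))
    (by decide +kernel))))
    (good_splitA (qm 2816)
    (good_of_check
    (T 3187671 66747831 10273906 11486573 2259695 4191058 3869165 1082212 3339426 3641726 1782239
    2568479 2344690 61305490 16205992 13404862 24725060 16005818)
    ((((((((((((((((((root.setHiD (qm 2048)).setHiD (qm 1024)).setHiU (qm 512)).setLoA (qm
    2048)).setHiD (qm 512)).setHiU (qm 256)).setHiA (qm 3072)).setLoD (qm 256)).setHiU (qm
    128)).setLoU (qm 64)).setLoW (qm 64)).setHiW (qm 96)).setHiD (qm 384)).setHiW (qm 80)).setHiD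
    (qm 320)).setHiU (qm 96)).setLoA (qm 2560)).setHiA (qm 2816))
    (by decide +kernel))
    (good_of_check
    (T 3523215 58671874 9378750 12047220 1986290 3726953 3436843 1251848 3756021 3974194 1782239
    2568479 2344690 52565566 13487001 11601170 24813840 16005818)
    ((((((((((((((((((root.setHiD (qm 2048)).setHiD (qm 1024)).setHiU (qm 512)).setLoA (qm
    2048)).setHiD (qm 512)).setHiU (qm 256)).setHiA (qm 3072)).setLoD (qm 256)).setHiU (qm
    128)).setLoU (qm 64)).setLoW (qm 64)).setHiW (qm 96)).setHiD (qm 384)).setHiW (qm 80)).setHiD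
    (qm 320)).setHiU (qm 96)).setLoA (qm 2560)).setLoA (qm 2816))
    (by decide +kernel))))
    (good_splitD (qm 288)
    (good_splitA (qm 2560)
    (good_of_check
    (R .u5 2256614 6845782 4194303 5068117 13491457 221438 2568474 11863286 5746530 (-128698)
    2568474 2965823 42019 (-614) 2097150 2344690 2344690 5914668)
    ((((((((((((((((((root.setHiD (qm 2048)).setHiD (qm 1024)).setHiU (qm 512)).setLoA (qm
    2048)).setHiD (qm 512)).setHiU (qm 256)).setHiA (qm 3072)).setLoD (qm 256)).setHiU (qm
    128)).setLoU (qm 64)).setLoW (qm 64)).setHiW (qm 96)).setHiD (qm 384)).setHiW (qm 80)).setHiD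
    (qm 320)).setLoU (qm 96)).setHiD (qm 288)).setHiA (qm 2560))
    (by decide +kernel))
    (good_splitA (qm 2816)
    (good_splitA (qm 2688)
    (good_of_check
    (R .u5 2264948 6760475 4015739 5068117 13466372 214817 2568474 11863286 5583303 (-125331)
    2568474 2965823 31212 (-445) 2097150 2344690 2344690 5851440)
    ((((((((((((((((((((root.setHiD (qm 2048)).setHiD (qm 1024)).setHiU (qm 512)).setLoA (qm
    2048)).setHiD (qm 512)).setHiU (qm 256)).setHiA (qm 3072)).setLoD (qm 256)).setHiU (qm
    128)).setLoU (qm 64)).setLoW (qm 64)).setHiW (qm 96)).setHiD (qm 384)).setHiW (qm 80)).setHiD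
    (qm 320)).setLoU (qm 96)).setHiD (qm 288)).setLoA (qm 2560)).setHiA (qm 2816)).setHiA (qm
    2688))
    (by decide +kernel))
    (good_of_check
    (T 2852127 62541509 9836516 11770235 2117293 4472021 3588999 991782 3141384 4012197 1782239
    2965823 2344690 66899061 18928271 11417269 24725060 15971434)
    ((((((((((((((((((((root.setHiD (qm 2048)).setHiD (qm 1024)).setHiU (qm 512)).setLoA (qm
    2048)).setHiD (qm 512)).setHiU (qm 256)).setHiA (qm 3072)).setLoD (qm 256)).setHiU (qm
    128)).setLoU (qm 64)).setLoW (qm 64)).setHiW (qm 96)).setHiD (qm 384)).setHiW (qm 80)).setHiD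
    (qm 320)).setLoU (qm 96)).setHiD (qm 288)).setLoA (qm 2560)).setHiA (qm 2816)).setLoA (qm
    2688))
    (by decide +kernel)))
    (good_of_check
    (T 3187671 58671874 9378750 12047220 1986290 4249868 3401027 1132624 3357467 4100363 1782239
    2965823 2344690 58514598 17230084 11006262 24813840 15971434)
    (((((((((((((((((((root.setHiD (qm 2048)).setHiD (qm 1024)).setHiU (qm 512)).setLoA (qm
    2048)).setHiD (qm 512)).setHiU (qm 256)).setHiA (qm 3072)).setLoD (qm 256)).setHiU (qm
    128)).setLoU (qm 64)).setLoW (qm 64)).setHiW (qm 96)).setHiD (qm 384)).setHiW (qm 80)).setHiD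
    (qm 320)).setLoU (qm 96)).setHiD (qm 288)).setLoA (qm 2560)).setLoA (qm 2816))
    (by decide +kernel))))
    (good_of_check
    (R .u5 2289373 6477641 3424633 5024427 13435032 183033 2568474 11863286 5116043 (-115590)
    2568474 2965823 10446 (-121) 2097150 2344690 2344690 5667585)
    (((((((((((((((((root.setHiD (qm 2048)).setHiD (qm 1024)).setHiU (qm 512)).setLoA (qm
    2048)).setHiD (qm 512)).setHiU (qm 256)).setHiA (qm 3072)).setLoD (qm 256)).setHiU (qm
    128)).setLoU (qm 64)).setLoW (qm 64)).setHiW (qm 96)).setHiD (qm 384)).setHiW (qm 80)).setHiD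
    (qm 320)).setLoU (qm 96)).setLoD (qm 288))
    (by decide +kernel))))
    (good_splitU (qm 96)
    (good_splitW (qm 72)
    (good_splitD (qm 352)
    (good_splitW (qm 68)
    (good_splitW (qm 66)
    (good_of_check
    (R .u5 2267547 5388841 3424633 5024427 13421446 224547 2097150 11863286 684351 (-10650)
    2097150 2568479 0 42 2097150 2129670 2129670 4785000)
    ((((((((((((((((((((root.setHiD (qm 2048)).setHiD (qm 1024)).setHiU (qm 512)).setLoA (qm
    2048)).setHiD (qm 512)).setHiU (qm 256)).setHiA (qm 3072)).setLoD (qm 256)).setHiU (qm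
    128)).setLoU (qm 64)).setLoW (qm 64)).setHiW (qm 96)).setHiD (qm 384)).setHiW (qm 80)).setLoD
    (qm 320)).setHiU (qm 96)).setHiW (qm 72)).setHiD (qm 352)).setHiW (qm 68)).setHiW (qm 66))
    (by decide +kernel))
    (good_of_check
    (R .u5 2271721 5426418 3424633 5023061 13415168 219368 2129665 11863286 700316 (-11242)
    2129665 2568479 0 42 2129665 2161697 2161697 4912420)
    ((((((((((((((((((((root.setHiD (qm 2048)).setHiD (qm 1024)).setHiU (qm 512)).setLoA (qm
    2048)).setHiD (qm 512)).setHiU (qm 256)).setHiA (qm 3072)).setLoD (qm 256)).setHiU (qm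
    128)).setLoU (qm 64)).setLoW (qm 64)).setHiW (qm 96)).setHiD (qm 384)).setHiW (qm 80)).setLoD
    (qm 320)).setHiU (qm 96)).setHiW (qm 72)).setHiD (qm 352)).setHiW (qm 68)).setLoW (qm 66))
    (by decide +kernel)))
    (good_splitU (qm 82)
    (good_of_check
    (R .u5 2271721 5522665 3424633 5031253 13411059 220608 2161692 11863286 72876 (-1167) 2161692
    2373817 0 42 2161692 2224368 2224368 5216100)
    ((((((((((((((((((((root.setHiD (qm 2048)).setHiD (qm 1024)).setHiU (qm 512)).setLoA (qm
    2048)).setHiD (qm 512)).setHiU (qm 256)).setHiA (qm 3072)).setLoD (qm 256)).setHiU (qm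
    128)).setLoU (qm 64)).setLoW (qm 64)).setHiW (qm 96)).setHiD (qm 384)).setHiW (qm 80)).setLoD
    (qm 320)).setHiU (qm 96)).setHiW (qm 72)).setHiD (qm 352)).setLoW (qm 68)).setHiU (qm 82))
    (by decide +kernel))
    (good_of_check
    (R .u5 2274296 6098496 3424633 5012139 13448096 204846 2373812 11863286 1394805 (-27650)
    2373812 2568479 0 42 2161692 2224368 2224368 5197650)
    ((((((((((((((((((((root.setHiD (qm 2048)).setHiD (qm 1024)).setHiU (qm 512)).setLoA (qm
    2048)).setHiD (qm 512)).setHiU (qm 256)).setHiA (qm 3072)).setLoD (qm 256)).setHiU (qm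
    128)).setLoU (qm 64)).setLoW (qm 64)).setHiW (qm 96)).setHiD (qm 384)).setHiW (qm 80)).setLoD
    (qm 320)).setHiU (qm 96)).setHiW (qm 72)).setHiD (qm 352)).setLoW (qm 68)).setLoU (qm 82))
    (by decide +kernel))))
    (good_of_check
    (R .u5 2313771 4619586 3424633 4980736 13387574 156302 2097150 11863286 416876 (-6471) 2097150
    2568479 0 42 2097150 2224368 2224368 4928989)
    ((((((((((((((((((root.setHiD (qm 2048)).setHiD (qm 1024)).setHiU (qm 512)).setLoA (qm
    2048)).setHiD (qm 512)).setHiU (qm 256)).setHiA (qm 3072)).setLoD (qm 256)).setHiU (qm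
    128)).setLoU (qm 64)).setLoW (qm 64)).setHiW (qm 96)).setHiD (qm 384)).setHiW (qm 80)).setLoD
    (qm 320)).setHiU (qm 96)).setHiW (qm 72)).setLoD (qm 352))
    (by decide +kernel)))
    (good_splitW (qm 76)
    (good_splitW (qm 74)
    (good_of_check
    (R .u5 2289373 5377879 3424633 4997120 13423976 186542 2224363 11863286 729572 (-12782)
    2224363 2568479 0 42 2224363 2255050 2255050 5239576)
    (((((((((((((((((((root.setHiD (qm 2048)).setHiD (qm 1024)).setHiU (qm 512)).setLoA (qm
    2048)).setHiD (qm 512)).setHiU (qm 256)).setHiA (qm 3072)).setLoD (qm 256)).setHiU (qm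
    128)).setLoU (qm 64)).setLoW (qm 64)).setHiW (qm 96)).setHiD (qm 384)).setHiW (qm 80)).setLoD
    (qm 320)).setHiU (qm 96)).setLoW (qm 72)).setHiW (qm 76)).setHiW (qm 74))
    (by decide +kernel))
    (good_of_check
    (R .u5 2285207 5539103 3424633 4995755 13433607 190709 2255045 11863286 831727 (-14984)
    2255045 2568479 0 42 2255045 2285321 2285321 5414458)
    (((((((((((((((((((root.setHiD (qm 2048)).setHiD (qm 1024)).setHiU (qm 512)).setLoA (qm
    2048)).setHiD (qm 512)).setHiU (qm 256)).setHiA (qm 3072)).setLoD (qm 256)).setHiU (qm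
    128)).setLoU (qm 64)).setLoW (qm 64)).setHiW (qm 96)).setHiD (qm 384)).setHiW (qm 80)).setLoD
    (qm 320)).setHiU (qm 96)).setLoW (qm 72)).setHiW (qm 76)).setLoW (qm 74))
    (by decide +kernel)))
    (good_splitD (qm 352)
    (good_of_check
    (R .u5 2282629 5678473 3424633 5016235 13425366 197536 2285316 11863286 939858 (-17396)
    2285316 2568479 58957 (-1051) 2285316 2344690 2344690 5718157)
    (((((((((((((((((((root.setHiD (qm 2048)).setHiD (qm 1024)).setHiU (qm 512)).setLoA (qm
    2048)).setHiD (qm 512)).setHiU (qm 256)).setHiA (qm 3072)).setLoD (qm 256)).setHiU (qm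
    128)).setLoU (qm 64)).setLoW (qm 64)).setHiW (qm 96)).setHiD (qm 384)).setHiW (qm 80)).setLoD
    (qm 320)).setHiU (qm 96)).setLoW (qm 72)).setLoW (qm 76)).setHiD (qm 352))
    (by decide +kernel))
    (good_of_check
    (R .u5 2315800 5097040 3424633 4972544 13414694 144600 2285316 11863286 651321 (-12043)
    2285316 2568479 5968 (-68) 2285316 2344690 2344690 5477710)
    (((((((((((((((((((root.setHiD (qm 2048)).setHiD (qm 1024)).setHiU (qm 512)).setLoA (qm
    2048)).setHiD (qm 512)).setHiU (qm 256)).setHiA (qm 3072)).setLoD (qm 256)).setHiU (qm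
    128)).setLoU (qm 64)).setLoW (qm 64)).setHiW (qm 96)).setHiD (qm 384)).setHiW (qm 80)).setLoD
    (qm 320)).setHiU (qm 96)).setLoW (qm 72)).setLoW (qm 76)).setLoD (qm 352))
    (by decide +kernel)))))
    (good_of_check
    (R .u5 2330878 5797946 3424633 4958891 13420507 117544 2568474 11863286 4361836 (-99540)
    2568474 2965823 163 40 2097150 2344690 2344690 5371137)
    ((((((((((((((((root.setHiD (qm 2048)).setHiD (qm 1024)).setHiU (qm 512)).setLoA (qm
    2048)).setHiD (qm 512)).setHiU (qm 256)).setHiA (qm 3072)).setLoD (qm 256)).setHiU (qm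
    128)).setLoU (qm 64)).setLoW (qm 64)).setHiW (qm 96)).setHiD (qm 384)).setHiW (qm 80)).setLoD
    (qm 320)).setLoU (qm 96))
    (by decide +kernel))))
    (good_splitD (qm 320)
    (good_splitU (qm 104)
    (good_splitA (qm 2560)
    (good_splitW (qm 88)
    (good_splitD (qm 288)
    (good_splitW (qm 84)
    (good_splitD (qm 272)
    (good_of_check
    (R .u5 2199475 6985877 4194303 5106347 13546619 303032 2344685 11863286 3113335 (-60034)
    2344685 2673357 1191409 (-22496) 2344685 2402592 2402592 6670145)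
    (((((((((((((((((((((root.setHiD (qm 2048)).setHiD (qm 1024)).setHiU (qm 512)).setLoA (qm
    2048)).setHiD (qm 512)).setHiU (qm 256)).setHiA (qm 3072)).setLoD (qm 256)).setHiU (qm
    128)).setLoU (qm 64)).setLoW (qm 64)).setHiW (qm 96)).setHiD (qm 384)).setLoW (qm 80)).setHiD
    (qm 320)).setHiU (qm 104)).setHiA (qm 2560)).setHiW (qm 88)).setHiD (qm 288)).setHiW (qm
    84)).setHiD (qm 272))
    (by decide +kernel))
    (good_of_check
    (R .u5 2203642 6942832 4194303 5084501 13552079 294148 2344685 11863286 3040344 (-58669)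
    2344685 2673357 1137562 (-21505) 2344685 2402592 2402592 6634402)
    (((((((((((((((((((((root.setHiD (qm 2048)).setHiD (qm 1024)).setHiU (qm 512)).setLoA (qm
    2048)).setHiD (qm 512)).setHiU (qm 256)).setHiA (qm 3072)).setLoD (qm 256)).setHiU (qm
    128)).setLoU (qm 64)).setLoW (qm 64)).setHiW (qm 96)).setHiD (qm 384)).setLoW (qm 80)).setHiD
    (qm 320)).setHiU (qm 104)).setHiA (qm 2560)).setHiW (qm 88)).setHiD (qm 288)).setHiW (qm
    84)).setLoD (qm 272))
    (by decide +kernel)))
    (good_of_check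
    (R .u5 2214563 6946219 4194303 5092693 13534765 280525 2402587 11863286 3223182 (-64552)
    2402587 2673357 1678999 (-32885) 2402587 2459131 2459131 6827116)
    ((((((((((((((((((((root.setHiD (qm 2048)).setHiD (qm 1024)).setHiU (qm 512)).setLoA (qm
    2048)).setHiD (qm 512)).setHiU (qm 256)).setHiA (qm 3072)).setLoD (qm 256)).setHiU (qm
    128)).setLoU (qm 64)).setLoW (qm 64)).setHiW (qm 96)).setHiD (qm 384)).setLoW (qm 80)).setHiD
    (qm 320)).setHiU (qm 104)).setHiA (qm 2560)).setHiW (qm 88)).setHiD (qm 288)).setLoW (qm 84))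
    (by decide +kernel)))
    (good_of_check
    (R .u5 2218729 6787094 4194303 5051733 13531879 274340 2344685 11863286 2783019 (-53835)
    2344685 2673357 1285215 (-24581) 2344685 2459131 2459131 6789697)
    (((((((((((((((((((root.setHiD (qm 2048)).setHiD (qm 1024)).setHiU (qm 512)).setLoA (qm
    2048)).setHiD (qm 512)).setHiU (qm 256)).setHiA (qm 3072)).setLoD (qm 256)).setHiU (qm
    128)).setLoU (qm 64)).setLoW (qm 64)).setHiW (qm 96)).setHiD (qm 384)).setLoW (qm 80)).setHiD
    (qm 320)).setHiU (qm 104)).setHiA (qm 2560)).setHiW (qm 88)).setLoD (qm 288))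
    (by decide +kernel)))
    (good_splitD (qm 288)
    (good_of_check
    (R .u5 2232215 6877862 4194303 5089963 13505536 258975 2459126 11863286 3286695 (-68053)
    2459126 2673357 2517189 (-51521) 2459126 2568479 2568479 7210419)
    (((((((((((((((((((root.setHiD (qm 2048)).setHiD (qm 1024)).setHiU (qm 512)).setLoA (qm
    2048)).setHiD (qm 512)).setHiU (qm 256)).setHiA (qm 3072)).setLoD (qm 256)).setHiU (qm
    128)).setLoU (qm 64)).setLoW (qm 64)).setHiW (qm 96)).setHiD (qm 384)).setLoW (qm 80)).setHiD
    (qm 320)).setHiU (qm 104)).setHiA (qm 2560)).setLoW (qm 88)).setHiD (qm 288))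
    (by decide +kernel))
    (good_of_check
    (R .u5 2236385 6835618 4194303 5046272 13528209 245004 2459126 11863286 3212432 (-66593)
    2459126 2673357 2448104 (-50172) 2459126 2568479 2568479 7174311)
    (((((((((((((((((((root.setHiD (qm 2048)).setHiD (qm 1024)).setHiU (qm 512)).setLoA (qm
    2048)).setHiD (qm 512)).setHiU (qm 256)).setHiA (qm 3072)).setLoD (qm 256)).setHiU (qm
    128)).setLoU (qm 64)).setLoW (qm 64)).setHiW (qm 96)).setHiD (qm 384)).setLoW (qm 80)).setHiD
    (qm 320)).setHiU (qm 104)).setHiA (qm 2560)).setLoW (qm 88)).setLoD (qm 288))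
    (by decide +kernel))))
    (good_splitA (qm 2816)
    (good_splitD (qm 288)
    (good_splitA (qm 2688)
    (good_of_check
    (T 2852127 66150089 10273906 11486573 2110259 4133866 3978205 984721 3496483 3648780 1730065
    2673357 2568479 67378805 15429587 14122197 24680550 16014402)
    ((((((((((((((((((((root.setHiD (qm 2048)).setHiD (qm 1024)).setHiU (qm 512)).setLoA (qm
    2048)).setHiD (qm 512)).setHiU (qm 256)).setHiA (qm 3072)).setLoD (qm 256)).setHiU (qm
    128)).setLoU (qm 64)).setLoW (qm 64)).setHiW (qm 96)).setHiD (qm 384)).setLoW (qm 80)).setHiD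
    (qm 320)).setHiU (qm 104)).setLoA (qm 2560)).setHiA (qm 2816)).setHiD (qm 288)).setHiA (qm
    2688))
    (by decide +kernel))
    (good_of_check
    (T 3187671 61981436 9836516 11770235 1977275 3920176 3770722 1125310 3657636 3787480 1730065
    2673357 2568479 58832280 14392664 13308261 24725060 16014402)
    ((((((((((((((((((((root.setHiD (qm 2048)).setHiD (qm 1024)).setHiU (qm 512)).setLoA (qm
    2048)).setHiD (qm 512)).setHiU (qm 256)).setHiA (qm 3072)).setLoD (qm 256)).setHiU (qm
    128)).setLoU (qm 64)).setLoW (qm 64)).setHiW (qm 96)).setHiD (qm 384)).setLoW (qm 80)).setHiD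
    (qm 320)).setHiU (qm 104)).setLoA (qm 2560)).setHiA (qm 2816)).setHiD (qm 288)).setLoA (qm
    2688))
    (by decide +kernel)))
    (good_splitW (qm 88)
    (good_splitA (qm 2688)
    (good_splitU (qm 92)
    (good_of_check
    (T 2852127 66647459 10273906 11486573 2234602 4038176 3959760 971109 3578132 3652325 1773650
    2514399 2459131 68323246 14386584 13741107 24680550 15958521)
    ((((((((((((((((((((((root.setHiD (qm 2048)).setHiD (qm 1024)).setHiU (qm 512)).setLoA (qm
    2048)).setHiD (qm 512)).setHiU (qm 256)).setHiA (qm 3072)).setLoD (qm 256)).setHiU (qm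
    128)).setLoU (qm 64)).setLoW (qm 64)).setHiW (qm 96)).setHiD (qm 384)).setLoW (qm 80)).setHiD
    (qm 320)).setHiU (qm 104)).setLoA (qm 2560)).setHiA (qm 2816)).setLoD (qm 288)).setHiW (qm
    88)).setHiA (qm 2688)).setHiU (qm 92))
    (by decide +kernel))
    (good_of_check
    (R .u5 2249870 6806928 4015739 5043541 13511159 227034 2514394 11863286 3347382 (-71342)
    2514394 2673357 907629 (-17480) 2344685 2459131 2459131 6528252)
    ((((((((((((((((((((((root.setHiD (qm 2048)).setHiD (qm 1024)).setHiU (qm 512)).setLoA (qm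
    2048)).setHiD (qm 512)).setHiU (qm 256)).setHiA (qm 3072)).setLoD (qm 256)).setHiU (qm
    128)).setLoU (qm 64)).setLoW (qm 64)).setHiW (qm 96)).setHiD (qm 384)).setLoW (qm 80)).setHiD
    (qm 320)).setHiU (qm 104)).setLoA (qm 2560)).setHiA (qm 2816)).setLoD (qm 288)).setHiW (qm
    88)).setHiA (qm 2688)).setLoU (qm 92))
    (by decide +kernel)))
    (good_of_check
    (T 3187671 62730456 9836516 11770235 2164530 4130910 3828390 1102606 3436378 3716122 1799294
    2673357 2459131 60165223 15842893 13363084 24725060 15945597)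
    (((((((((((((((((((((root.setHiD (qm 2048)).setHiD (qm 1024)).setHiU (qm 512)).setLoA (qm
    2048)).setHiD (qm 512)).setHiU (qm 256)).setHiA (qm 3072)).setLoD (qm 256)).setHiU (qm
    128)).setLoU (qm 64)).setLoW (qm 64)).setHiW (qm 96)).setHiD (qm 384)).setLoW (qm 80)).setHiD
    (qm 320)).setHiU (qm 104)).setLoA (qm 2560)).setHiA (qm 2816)).setLoD (qm 288)).setHiW (qm
    88)).setLoA (qm 2688))
    (by decide +kernel)))
    (good_splitD (qm 304)
    (good_of_check
    (R .u5 2256614 6629993 3828857 5057195 13456296 232336 2459126 11863286 2862851 (-59671)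
    2459126 2673357 2125101 (-43820) 2459126 2568479 2568479 6999474)
    (((((((((((((((((((((root.setHiD (qm 2048)).setHiD (qm 1024)).setHiU (qm 512)).setLoA (qm
    2048)).setHiD (qm 512)).setHiU (qm 256)).setHiA (qm 3072)).setLoD (qm 256)).setHiU (qm
    128)).setLoU (qm 64)).setLoW (qm 64)).setHiW (qm 96)).setHiD (qm 384)).setLoW (qm 80)).setHiD
    (qm 320)).setHiU (qm 104)).setLoA (qm 2560)).setHiA (qm 2816)).setLoD (qm 288)).setLoW (qm
    88)).setHiD (qm 304))
    (by decide +kernel))
    (good_of_check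
    (R .u5 2267547 6521971 3828857 5035349 13438958 219227 2459126 11863286 2681439 (-56046)
    2459126 2673357 1959073 (-40527) 2459126 2568479 2568479 6906555)
    (((((((((((((((((((((root.setHiD (qm 2048)).setHiD (qm 1024)).setHiU (qm 512)).setLoA (qm
    2048)).setHiD (qm 512)).setHiU (qm 256)).setHiA (qm 3072)).setLoD (qm 256)).setHiU (qm
    128)).setLoU (qm 64)).setLoW (qm 64)).setHiW (qm 96)).setHiD (qm 384)).setLoW (qm 80)).setHiD
    (qm 320)).setHiU (qm 104)).setLoA (qm 2560)).setHiA (qm 2816)).setLoD (qm 288)).setLoW (qm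
    88)).setLoD (qm 304))
    (by decide +kernel)))))
    (good_of_check
    (T 3187671 58849130 9378750 12047220 2030604 3875318 3733417 1127228 3718475 3839969 1799294
    2673357 2568479 58822886 14026365 13017347 24813840 15980037)
    ((((((((((((((((((root.setHiD (qm 2048)).setHiD (qm 1024)).setHiU (qm 512)).setLoA (qm
    2048)).setHiD (qm 512)).setHiU (qm 256)).setHiA (qm 3072)).setLoD (qm 256)).setHiU (qm
    128)).setLoU (qm 64)).setLoW (qm 64)).setHiW (qm 96)).setHiD (qm 384)).setLoW (qm 80)).setHiD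
    (qm 320)).setHiU (qm 104)).setLoA (qm 2560)).setLoA (qm 2816))
    (by decide +kernel))))
    (good_splitD (qm 288)
    (good_splitA (qm 2560)
    (good_of_check
    (R .u5 2271721 6897701 4194303 5062656 13490037 196187 2673352 11863286 6159441 (-144717)
    2673352 2965823 1289160 (-25043) 2344685 2568479 2568479 6871899)
    ((((((((((((((((((root.setHiD (qm 2048)).setHiD (qm 1024)).setHiU (qm 512)).setLoA (qm
    2048)).setHiD (qm 512)).setHiU (qm 256)).setHiA (qm 3072)).setLoD (qm 256)).setHiU (qm
    128)).setLoU (qm 64)).setLoW (qm 64)).setHiW (qm 96)).setHiD (qm 384)).setLoW (qm 80)).setHiD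
    (qm 320)).setLoU (qm 104)).setHiD (qm 288)).setHiA (qm 2560))
    (by decide +kernel))
    (good_splitA (qm 2816)
    (good_splitW (qm 88)
    (good_of_check
    (R .u5 2289373 6720771 3828857 5062656 13436370 182393 2673352 11863286 5813068 (-137372)
    2673352 2965823 521804 (-10108) 2344685 2459131 2459131 6212404)
    ((((((((((((((((((((root.setHiD (qm 2048)).setHiD (qm 1024)).setHiU (qm 512)).setLoA (qm
    2048)).setHiD (qm 512)).setHiU (qm 256)).setHiA (qm 3072)).setLoD (qm 256)).setHiU (qm
    128)).setLoU (qm 64)).setLoW (qm 64)).setHiW (qm 96)).setHiD (qm 384)).setLoW (qm 80)).setHiD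
    (qm 320)).setLoU (qm 104)).setHiD (qm 288)).setLoA (qm 2560)).setHiA (qm 2816)).setHiW (qm
    88))
    (by decide +kernel))
    (good_of_check
    (R .u5 2293540 6677726 3828857 5062656 13423919 179101 2673352 11863286 5732426 (-135648)
    2673352 2965823 1589087 (-33114) 2459126 2568479 2568479 6692722)
    ((((((((((((((((((((root.setHiD (qm 2048)).setHiD (qm 1024)).setHiU (qm 512)).setLoA (qm
    2048)).setHiD (qm 512)).setHiU (qm 256)).setHiA (qm 3072)).setLoD (qm 256)).setHiU (qm
    128)).setLoU (qm 64)).setLoW (qm 64)).setHiW (qm 96)).setHiD (qm 384)).setLoW (qm 80)).setHiD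
    (qm 320)).setLoU (qm 104)).setHiD (qm 288)).setLoA (qm 2560)).setHiA (qm 2816)).setLoW (qm
    88))
    (by decide +kernel)))
    (good_splitA (qm 2944)
    (good_of_check
    (T 3187671 58671874 9378750 12047220 1986290 4249868 3683974 1132624 3357467 3886229 1782239
    2965823 2568479 58514598 17230084 12768301 24769490 15962826)
    ((((((((((((((((((((root.setHiD (qm 2048)).setHiD (qm 1024)).setHiU (qm 512)).setLoA (qm
    2048)).setHiD (qm 512)).setHiU (qm 256)).setHiA (qm 3072)).setLoD (qm 256)).setHiU (qm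
    128)).setLoU (qm 64)).setLoW (qm 64)).setHiW (qm 96)).setHiD (qm 384)).setLoW (qm 80)).setHiD
    (qm 320)).setLoU (qm 104)).setHiD (qm 288)).setLoA (qm 2560)).setLoA (qm 2816)).setHiA (qm
    2944))
    (by decide +kernel))
    (good_of_check
    (T 3187671 55088263 8897464 12317977 1864970 3990291 3458962 1155030 3659467 4104165 1782239
    2965823 2568479 57329382 15188299 11680799 24813840 15962826)
    ((((((((((((((((((((root.setHiD (qm 2048)).setHiD (qm 1024)).setHiU (qm 512)).setLoA (qm
    2048)).setHiD (qm 512)).setHiU (qm 256)).setHiA (qm 3072)).setLoD (qm 256)).setHiU (qm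
    128)).setLoU (qm 64)).setLoW (qm 64)).setHiW (qm 96)).setHiD (qm 384)).setLoW (qm 80)).setHiD
    (qm 320)).setLoU (qm 104)).setHiD (qm 288)).setLoA (qm 2560)).setLoA (qm 2816)).setLoA (qm
    2944))
    (by decide +kernel)))))
    (good_splitW (qm 88)
    (good_of_check
    (R .u5 2302315 6592435 3424633 5018965 13430933 162301 2673352 11863286 5564047 (-132033)
    2673352 2965823 418962 (-8122) 2344685 2459131 2459131 6111576)
    ((((((((((((((((((root.setHiD (qm 2048)).setHiD (qm 1024)).setHiU (qm 512)).setLoA (qm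
    2048)).setHiD (qm 512)).setHiU (qm 256)).setHiA (qm 3072)).setLoD (qm 256)).setHiU (qm
    128)).setLoU (qm 64)).setLoW (qm 64)).setHiW (qm 96)).setHiD (qm 384)).setLoW (qm 80)).setHiD
    (qm 320)).setLoU (qm 104)).setLoD (qm 288)).setHiW (qm 88))
    (by decide +kernel))
    (good_of_check
    (R .u5 2309059 6526156 3424633 5018965 13409882 157382 2673352 11863286 5435990 (-129268)
    2673352 2965823 1385250 (-28985) 2459126 2568479 2568479 6567226)
    ((((((((((((((((((root.setHiD (qm 2048)).setHiD (qm 1024)).setHiU (qm 512)).setLoA (qm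
    2048)).setHiD (qm 512)).setHiU (qm 256)).setHiA (qm 3072)).setLoD (qm 256)).setHiU (qm
    128)).setLoU (qm 64)).setLoW (qm 64)).setHiW (qm 96)).setHiD (qm 384)).setLoW (qm 80)).setHiD
    (qm 320)).setLoU (qm 104)).setLoD (qm 288)).setLoW (qm 88))
    (by decide +kernel)))))
    (good_splitW (qm 88)
    (good_splitW (qm 84)
    (good_splitW (qm 82)
    (good_of_check
    (R .u5 2304885 5467371 3424633 4969813 13437330 156202 2344685 11863286 3525245 (-68795)
    2344685 2965823 126368 (-2410) 2344685 2373817 2373817 5692103)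
    ((((((((((((((((((root.setHiD (qm 2048)).setHiD (qm 1024)).setHiU (qm 512)).setLoA (qm
    2048)).setHiD (qm 512)).setHiU (qm 256)).setHiA (qm 3072)).setLoD (qm 256)).setHiU (qm
    128)).setLoU (qm 64)).setLoW (qm 64)).setHiW (qm 96)).setHiD (qm 384)).setLoW (qm 80)).setLoD
    (qm 320)).setHiW (qm 88)).setHiW (qm 84)).setHiW (qm 82))
    (by decide +kernel))
    (good_of_check
    (R .u5 2309057 5506225 3424633 4968448 13431143 151053 2373812 11863286 3606288 (-72090)
    2373812 2965823 252606 (-4951) 2373812 2402592 2402592 5796224)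
    ((((((((((((((((((root.setHiD (qm 2048)).setHiD (qm 1024)).setHiU (qm 512)).setLoA (qm
    2048)).setHiD (qm 512)).setHiU (qm 256)).setHiA (qm 3072)).setLoD (qm 256)).setHiU (qm
    128)).setLoU (qm 64)).setLoW (qm 64)).setHiW (qm 96)).setHiD (qm 384)).setLoW (qm 80)).setLoD
    (qm 320)).setHiW (qm 88)).setHiW (qm 84)).setLoW (qm 82))
    (by decide +kernel)))
    (good_splitU (qm 106)
    (good_of_check
    (R .u5 2304885 5670902 3424633 4982101 13430560 158231 2402587 11863286 1969409 (-40132)
    2402587 2698940 597153 (-11991) 2402587 2459131 2459131 6092151)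
    ((((((((((((((((((root.setHiD (qm 2048)).setHiD (qm 1024)).setHiU (qm 512)).setLoA (qm
    2048)).setHiD (qm 512)).setHiU (qm 256)).setHiA (qm 3072)).setLoD (qm 256)).setHiU (qm
    128)).setLoU (qm 64)).setLoW (qm 64)).setHiW (qm 96)).setHiD (qm 384)).setLoW (qm 80)).setLoD
    (qm 320)).setHiW (qm 88)).setLoW (qm 84)).setHiU (qm 106))
    (by decide +kernel))
    (good_of_check
    (R .u5 2344363 5991281 3424633 4952064 13419935 95114 2698935 11863286 4949486 (-120153)
    2698935 2965823 290889 (-5878) 2402587 2459131 2459131 5798928)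
    ((((((((((((((((((root.setHiD (qm 2048)).setHiD (qm 1024)).setHiU (qm 512)).setLoA (qm
    2048)).setHiD (qm 512)).setHiU (qm 256)).setHiA (qm 3072)).setLoD (qm 256)).setHiU (qm
    128)).setLoU (qm 64)).setLoW (qm 64)).setHiW (qm 96)).setHiD (qm 384)).setLoW (qm 80)).setLoD
    (qm 320)).setHiW (qm 88)).setLoW (qm 84)).setLoU (qm 106))
    (by decide +kernel))))
    (good_splitW (qm 92)
    (good_of_check
    (R .u5 2322545 5526120 3424633 4964352 13431362 128180 2459126 11863286 3851041 (-82141)
    2459126 2965823 928626 (-19355) 2459126 2514399 2514399 6213137)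
    (((((((((((((((((root.setHiD (qm 2048)).setHiD (qm 1024)).setHiU (qm 512)).setLoA (qm
    2048)).setHiD (qm 512)).setHiU (qm 256)).setHiA (qm 3072)).setLoD (qm 256)).setHiU (qm
    128)).setLoU (qm 64)).setLoW (qm 64)).setHiW (qm 96)).setHiD (qm 384)).setLoW (qm 80)).setLoD
    (qm 320)).setLoW (qm 88)).setHiW (qm 92))
    (by decide +kernel))
    (good_of_check
    (R .u5 2333454 5563678 3424633 4961621 13412818 115509 2514394 11863286 3989209 (-88332)
    2514394 2965823 1368859 (-29476) 2514394 2568479 2568479 6376325)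
    (((((((((((((((((root.setHiD (qm 2048)).setHiD (qm 1024)).setHiU (qm 512)).setLoA (qm
    2048)).setHiD (qm 512)).setHiU (qm 256)).setHiA (qm 3072)).setLoD (qm 256)).setHiU (qm
    128)).setLoU (qm 64)).setLoW (qm 64)).setHiW (qm 96)).setHiD (qm 384)).setLoW (qm 80)).setLoD
    (qm 320)).setLoW (qm 88)).setLoW (qm 92))
    (by decide +kernel))))))
    (good_splitW (qm 80)
    (good_of_check
    (R .u5 2401505 2863124 3424633 4849664 13406686 4668 2097150 11863286 1660467 (-25902) 2097150
    2965823 0 42 2097150 2344690 2344690 4904615)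
    ((((((((((((((root.setHiD (qm 2048)).setHiD (qm 1024)).setHiU (qm 512)).setLoA (qm
    2048)).setHiD (qm 512)).setHiU (qm 256)).setHiA (qm 3072)).setLoD (qm 256)).setHiU (qm
    128)).setLoU (qm 64)).setLoW (qm 64)).setHiW (qm 96)).setLoD (qm 384)).setHiW (qm 80))
    (by decide +kernel))
    (good_of_check
    (R .u5 2412414 3442391 3424633 4838741 13405925 (-12890) 2344685 11863286 2090042 (-40779)
    2344685 2965823 193676 (-3740) 2344685 2568479 2568479 5797716)
    ((((((((((((((root.setHiD (qm 2048)).setHiD (qm 1024)).setHiU (qm 512)).setLoA (qm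
    2048)).setHiD (qm 512)).setHiU (qm 256)).setHiA (qm 3072)).setLoD (qm 256)).setHiU (qm
    128)).setLoU (qm 64)).setLoW (qm 64)).setHiW (qm 96)).setLoD (qm 384)).setLoW (qm 80))
    (by decide +kernel))))
    (good_splitD (qm 384)
    (good_splitD (qm 320)
    (good_splitW (qm 112)
    (good_splitA (qm 2560)
    (good_splitW (qm 104)
    (good_splitD (qm 288)
    (good_of_check
    (R .u5 2264948 6760475 4194303 5068117 13466372 214817 2568474 11863286 5583303 (-125331)
    2568474 2965823 3450176 (-75336) 2568474 2673357 2673357 7419941)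
    ((((((((((((((((((root.setHiD (qm 2048)).setHiD (qm 1024)).setHiU (qm 512)).setLoA (qm
    2048)).setHiD (qm 512)).setHiU (qm 256)).setHiA (qm 3072)).setLoD (qm 256)).setHiU (qm
    128)).setLoU (qm 64)).setLoW (qm 64)).setLoW (qm 96)).setHiD (qm 384)).setHiD (qm 320)).setHiW
    (qm 112)).setHiA (qm 2560)).setHiW (qm 104)).setHiD (qm 288))
    (by decide +kernel))
    (good_of_check
    (R .u5 2267553 6735116 4194303 5024427 13493154 202353 2568474 11863286 5532671 (-124283)
    2568474 2965823 3403705 (-74386) 2568474 2673357 2673357 7397834)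
    ((((((((((((((((((root.setHiD (qm 2048)).setHiD (qm 1024)).setHiU (qm 512)).setLoA (qm
    2048)).setHiD (qm 512)).setHiU (qm 256)).setHiA (qm 3072)).setLoD (qm 256)).setHiU (qm
    128)).setLoU (qm 64)).setLoW (qm 64)).setLoW (qm 96)).setHiD (qm 384)).setHiD (qm 320)).setHiW
    (qm 112)).setHiA (qm 2560)).setHiW (qm 104)).setLoD (qm 288))
    (by decide +kernel)))
    (good_of_check
    (R .u5 2293540 6677726 4194303 5040811 13441309 173865 2673352 11863286 5732426 (-135648)
    2673352 2965823 4379399 (-101294) 2673352 2774274 2774274 7628885)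
    (((((((((((((((((root.setHiD (qm 2048)).setHiD (qm 1024)).setHiU (qm 512)).setLoA (qm
    2048)).setHiD (qm 512)).setHiU (qm 256)).setHiA (qm 3072)).setLoD (qm 256)).setHiU (qm
    128)).setLoU (qm 64)).setLoW (qm 64)).setLoW (qm 96)).setHiD (qm 384)).setHiD (qm 320)).setHiW
    (qm 112)).setHiA (qm 2560)).setLoW (qm 104))
    (by decide +kernel)))
    (good_splitD (qm 288)
    (good_splitU (qm 112)
    (good_splitA (qm 2816)
    (good_splitW (qm 104)
    (good_splitA (qm 2688)
    (good_splitW (qm 100)
    (good_of_check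
    (R .u5 2264948 6760475 4015739 5079040 13457569 217479 2568474 11863286 4186476 (-92593)
    2568474 2774274 3078908 (-66635) 2568474 2621442 2621442 7177916)
    ((((((((((((((((((((((root.setHiD (qm 2048)).setHiD (qm 1024)).setHiU (qm 512)).setLoA (qm
    2048)).setHiD (qm 512)).setHiU (qm 256)).setHiA (qm 3072)).setLoD (qm 256)).setHiU (qm
    128)).setLoU (qm 64)).setLoW (qm 64)).setLoW (qm 96)).setHiD (qm 384)).setHiD (qm 320)).setHiW
    (qm 112)).setLoA (qm 2560)).setHiD (qm 288)).setHiU (qm 112)).setHiA (qm 2816)).setHiW (qm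
    104)).setHiA (qm 2688)).setHiW (qm 100))
    (by decide +kernel))
    (good_of_check
    (R .u5 2278463 6728344 4015739 5076309 13438983 200101 2621438 11863286 4300520 (-97379)
    2621438 2774274 3575957 (-79689) 2621438 2673357 2673357 7303934)
    ((((((((((((((((((((((root.setHiD (qm 2048)).setHiD (qm 1024)).setHiU (qm 512)).setLoA (qm
    2048)).setHiD (qm 512)).setHiU (qm 256)).setHiA (qm 3072)).setLoD (qm 256)).setHiU (qm
    128)).setLoU (qm 64)).setLoW (qm 64)).setLoW (qm 96)).setHiD (qm 384)).setHiD (qm 320)).setHiW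
    (qm 112)).setLoA (qm 2560)).setHiD (qm 288)).setHiU (qm 112)).setHiA (qm 2816)).setHiW (qm
    104)).setHiA (qm 2688)).setLoW (qm 100))
    (by decide +kernel)))
    (good_splitA (qm 2752)
    (good_of_check
    (T 2852127 62167009 9836516 11770235 2023668 4071718 3925429 1001937 3597067 3737499 1747629
    2774274 2673357 66221055 15067029 13914492 24702815 15988635)
    ((((((((((((((((((((((root.setHiD (qm 2048)).setHiD (qm 1024)).setHiU (qm 512)).setLoA (qm
    2048)).setHiD (qm 512)).setHiU (qm 256)).setHiA (qm 3072)).setLoD (qm 256)).setHiU (qm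
    128)).setLoU (qm 64)).setLoW (qm 64)).setLoW (qm 96)).setHiD (qm 384)).setHiD (qm 320)).setHiW
    (qm 112)).setLoA (qm 2560)).setHiD (qm 288)).setHiU (qm 112)).setHiA (qm 2816)).setHiW (qm
    104)).setLoA (qm 2688)).setHiA (qm 2752))
    (by decide +kernel))
    (good_of_check
    (T 3187671 60205270 9610359 11909532 1959809 3992204 3847033 1131677 3607310 3738747 1747629
    2774274 2673357 58514838 15001818 13907197 24725060 15988635)
    ((((((((((((((((((((((root.setHiD (qm 2048)).setHiD (qm 1024)).setHiU (qm 512)).setLoA (qm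
    2048)).setHiD (qm 512)).setHiU (qm 256)).setHiA (qm 3072)).setLoD (qm 256)).setHiU (qm
    128)).setLoU (qm 64)).setLoW (qm 64)).setLoW (qm 96)).setHiD (qm 384)).setHiD (qm 320)).setHiW
    (qm 112)).setLoA (qm 2560)).setHiD (qm 288)).setHiU (qm 112)).setHiA (qm 2816)).setHiW (qm
    104)).setLoA (qm 2688)).setLoA (qm 2752))
    (by decide +kernel))))
    (good_splitU (qm 108)
    (good_splitD (qm 272)
    (good_of_check
    (R .u5 2296116 6653221 3828857 5087232 13396248 183133 2673352 11863286 3978507 (-91312)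
    2673352 2724283 3978507 (-91312) 2673352 2724283 2724283 7383614)
    ((((((((((((((((((((((root.setHiD (qm 2048)).setHiD (qm 1024)).setHiU (qm 512)).setLoA (qm
    2048)).setHiD (qm 512)).setHiU (qm 256)).setHiA (qm 3072)).setLoD (qm 256)).setHiU (qm
    128)).setLoU (qm 64)).setLoW (qm 64)).setLoW (qm 96)).setHiD (qm 384)).setHiD (qm 320)).setHiW
    (qm 112)).setLoA (qm 2560)).setHiD (qm 288)).setHiU (qm 112)).setHiA (qm 2816)).setLoW (qm
    104)).setHiU (qm 108)).setHiD (qm 272))
    (by decide +kernel))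
    (good_of_check
    (R .u5 2296116 6653221 3828857 5065387 13413574 177890 2673352 11863286 3978507 (-91312)
    2673352 2724283 3978507 (-91312) 2673352 2724283 2724283 7383614)
    ((((((((((((((((((((((root.setHiD (qm 2048)).setHiD (qm 1024)).setHiU (qm 512)).setLoA (qm
    2048)).setHiD (qm 512)).setHiU (qm 256)).setHiA (qm 3072)).setLoD (qm 256)).setHiU (qm
    128)).setLoU (qm 64)).setLoW (qm 64)).setLoW (qm 96)).setHiD (qm 384)).setHiD (qm 320)).setHiW
    (qm 112)).setLoA (qm 2560)).setHiD (qm 288)).setHiU (qm 112)).setHiA (qm 2816)).setLoW (qm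
    104)).setHiU (qm 108)).setLoD (qm 272))
    (by decide +kernel)))
    (good_of_check
    (R .u5 2311192 6601300 3828857 5070848 13382713 161782 2724278 11863286 4404719 (-103914)
    2724278 2774274 4056704 (-94398) 2673352 2774274 2774274 7476706)
    (((((((((((((((((((((root.setHiD (qm 2048)).setHiD (qm 1024)).setHiU (qm 512)).setLoA (qm
    2048)).setHiD (qm 512)).setHiU (qm 256)).setHiA (qm 3072)).setLoD (qm 256)).setHiU (qm
    128)).setLoU (qm 64)).setLoW (qm 64)).setLoW (qm 96)).setHiD (qm 384)).setHiD (qm 320)).setHiW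
    (qm 112)).setLoA (qm 2560)).setHiD (qm 288)).setHiU (qm 112)).setHiA (qm 2816)).setLoW (qm
    104)).setLoU (qm 108))
    (by decide +kernel))))
    (good_of_check
    (T 3187671 58320545 9378750 12047220 1898458 3867229 3867229 1143100 3742476 3742476 1747629
    2774274 2774274 57898801 14176776 14176776 24813840 15988635)
    (((((((((((((((((((root.setHiD (qm 2048)).setHiD (qm 1024)).setHiU (qm 512)).setLoA (qm
    2048)).setHiD (qm 512)).setHiU (qm 256)).setHiA (qm 3072)).setLoD (qm 256)).setHiU (qm
    128)).setLoU (qm 64)).setLoW (qm 64)).setLoW (qm 96)).setHiD (qm 384)).setHiD (qm 320)).setHiW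
    (qm 112)).setLoA (qm 2560)).setHiD (qm 288)).setHiU (qm 112)).setLoA (qm 2816))
    (by decide +kernel)))
    (good_splitA (qm 2816)
    (good_splitW (qm 104)
    (good_of_check
    (R .u5 2317939 6627899 3828857 5057195 13392041 147558 2774269 11863286 5935691 (-146476)
    2774269 2965823 2558324 (-56817) 2568474 2673357 2673357 6971867)
    ((((((((((((((((((((root.setHiD (qm 2048)).setHiD (qm 1024)).setHiU (qm 512)).setLoA (qm
    2048)).setHiD (qm 512)).setHiU (qm 256)).setHiA (qm 3072)).setLoD (qm 256)).setHiU (qm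
    128)).setLoU (qm 64)).setLoW (qm 64)).setLoW (qm 96)).setHiD (qm 384)).setHiD (qm 320)).setHiW
    (qm 112)).setLoA (qm 2560)).setHiD (qm 288)).setLoU (qm 112)).setHiA (qm 2816)).setHiW (qm
    104))
    (by decide +kernel))
    (good_of_check
    (R .u5 2324681 6561648 3828857 5057195 13371585 142460 2774269 11863286 5807307 (-143646)
    2774269 2965823 3816909 (-89221) 2673352 2774274 2774274 7362963)
    ((((((((((((((((((((root.setHiD (qm 2048)).setHiD (qm 1024)).setHiU (qm 512)).setLoA (qm
    2048)).setHiD (qm 512)).setHiU (qm 256)).setHiA (qm 3072)).setLoD (qm 256)).setHiU (qm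
    128)).setLoU (qm 64)).setLoW (qm 64)).setLoW (qm 96)).setHiD (qm 384)).setHiD (qm 320)).setHiW
    (qm 112)).setLoA (qm 2560)).setHiD (qm 288)).setLoU (qm 112)).setHiA (qm 2816)).setLoW (qm
    104))
    (by decide +kernel)))
    (good_splitA (qm 2944)
    (good_splitD (qm 272)
    (good_splitU (qm 120)
    (good_of_check
    (T 3187671 58146454 9378750 12047220 1854935 3958036 3817829 1148184 3665566 3791419 1730065
    2871646 2774274 57590561 14906042 13893564 24769490 15980037)
    ((((((((((((((((((((((root.setHiD (qm 2048)).setHiD (qm 1024)).setHiU (qm 512)).setLoA (qm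
    2048)).setHiD (qm 512)).setHiU (qm 256)).setHiA (qm 3072)).setLoD (qm 256)).setHiU (qm
    128)).setLoU (qm 64)).setLoW (qm 64)).setLoW (qm 96)).setHiD (qm 384)).setHiD (qm 320)).setHiW
    (qm 112)).setLoA (qm 2560)).setHiD (qm 288)).setLoU (qm 112)).setLoA (qm 2816)).setHiA (qm
    2944)).setHiD (qm 272)).setHiU (qm 120))
    (by decide +kernel))
    (good_of_check
    (R .u5 2340197 6590341 3632372 5062656 13355898 121137 2871641 11863286 6151411 (-157028)
    2871641 2965823 2883512 (-65189) 2568474 2774274 2774274 7234064)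
    ((((((((((((((((((((((root.setHiD (qm 2048)).setHiD (qm 1024)).setHiU (qm 512)).setLoA (qm
    2048)).setHiD (qm 512)).setHiU (qm 256)).setHiA (qm 3072)).setLoD (qm 256)).setHiU (qm
    128)).setLoU (qm 64)).setLoW (qm 64)).setLoW (qm 96)).setHiD (qm 384)).setHiD (qm 320)).setHiW
    (qm 112)).setLoA (qm 2560)).setHiD (qm 288)).setLoU (qm 112)).setLoA (qm 2816)).setHiA (qm
    2944)).setHiD (qm 272)).setLoU (qm 120))
    (by decide +kernel)))
    (good_of_check
    (R .u5 2326711 6541820 3632372 5046272 13373929 138373 2774269 11863286 5768844 (-142795)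
    2774269 2965823 3101595 (-69862) 2568474 2774274 2774274 7345823)
    (((((((((((((((((((((root.setHiD (qm 2048)).setHiD (qm 1024)).setHiU (qm 512)).setLoA (qm
    2048)).setHiD (qm 512)).setHiU (qm 256)).setHiA (qm 3072)).setLoD (qm 256)).setHiU (qm
    128)).setLoU (qm 64)).setLoW (qm 64)).setLoW (qm 96)).setHiD (qm 384)).setHiD (qm 320)).setHiW
    (qm 112)).setLoA (qm 2560)).setHiD (qm 288)).setLoU (qm 112)).setLoA (qm 2816)).setHiA (qm
    2944)).setLoD (qm 272))
    (by decide +kernel)))
    (good_of_check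
    (T 3187671 55088263 8897464 12317977 1864970 3990291 3724626 1155030 3659467 3896088 1782239
    2965823 2774274 57329382 15188299 13313772 24813840 15954214)
    ((((((((((((((((((((root.setHiD (qm 2048)).setHiD (qm 1024)).setHiU (qm 512)).setLoA (qm
    2048)).setHiD (qm 512)).setHiU (qm 256)).setHiA (qm 3072)).setLoD (qm 256)).setHiU (qm
    128)).setLoU (qm 64)).setLoW (qm 64)).setLoW (qm 96)).setHiD (qm 384)).setHiD (qm 320)).setHiW
    (qm 112)).setLoA (qm 2560)).setHiD (qm 288)).setLoU (qm 112)).setLoA (qm 2816)).setLoA (qm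
    2944))
    (by decide +kernel)))))
    (good_splitW (qm 104)
    (good_splitU (qm 112)
    (good_splitD (qm 304)
    (good_splitA (qm 2816)
    (good_of_check
    (R .u5 2278462 6625807 3828857 5046272 13441650 199451 2568474 11863286 3937403 (-87450)
    2568474 2774274 3211988 (-70448) 2568474 2673357 2673357 7303946)
    (((((((((((((((((((((root.setHiD (qm 2048)).setHiD (qm 1024)).setHiU (qm 512)).setLoA (qm
    2048)).setHiD (qm 512)).setHiU (qm 256)).setHiA (qm 3072)).setLoD (qm 256)).setHiU (qm
    128)).setLoU (qm 64)).setLoW (qm 64)).setLoW (qm 96)).setHiD (qm 384)).setHiD (qm 320)).setHiW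
    (qm 112)).setLoA (qm 2560)).setLoD (qm 288)).setHiW (qm 104)).setHiU (qm 112)).setHiD (qm
    304)).setHiA (qm 2816))
    (by decide +kernel))
    (good_of_check
    (T 3187671 58671874 9378750 12047220 1986290 3966921 3825447 1132624 3640876 3767819 1782239
    2774274 2673357 58514598 14790841 13738749 24813840 15936975)
    (((((((((((((((((((((root.setHiD (qm 2048)).setHiD (qm 1024)).setHiU (qm 512)).setLoA (qm
    2048)).setHiD (qm 512)).setHiU (qm 256)).setHiA (qm 3072)).setLoD (qm 256)).setHiU (qm
    128)).setLoU (qm 64)).setLoW (qm 64)).setLoW (qm 96)).setHiD (qm 384)).setHiD (qm 320)).setHiW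
    (qm 112)).setLoA (qm 2560)).setLoD (qm 288)).setHiW (qm 104)).setHiU (qm 112)).setHiD (qm
    304)).setLoA (qm 2816))
    (by decide +kernel)))
    (good_splitW (qm 100)
    (good_of_check
    (R .u5 2309059 6187982 3424633 5024427 13397946 160995 2568474 11863286 3397480 (-76147)
    2568474 2774274 2354057 (-51691) 2568474 2621442 2621442 6810339)
    (((((((((((((((((((((root.setHiD (qm 2048)).setHiD (qm 1024)).setHiU (qm 512)).setLoA (qm
    2048)).setHiD (qm 512)).setHiU (qm 256)).setHiA (qm 3072)).setLoD (qm 256)).setHiU (qm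
    128)).setLoU (qm 64)).setLoW (qm 64)).setLoW (qm 96)).setHiD (qm 384)).setHiD (qm 320)).setHiW
    (qm 112)).setLoA (qm 2560)).setLoD (qm 288)).setHiW (qm 104)).setHiU (qm 112)).setLoD (qm
    304)).setHiW (qm 100))
    (by decide +kernel))
    (good_of_check
    (R .u5 2322545 6171542 3424633 5021696 13376195 144909 2621438 11863286 3510699 (-80635)
    2621438 2774274 2823135 (-63848) 2621438 2673357 2673357 6934597)
    (((((((((((((((((((((root.setHiD (qm 2048)).setHiD (qm 1024)).setHiU (qm 512)).setLoA (qm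
    2048)).setHiD (qm 512)).setHiU (qm 256)).setHiA (qm 3072)).setLoD (qm 256)).setHiU (qm
    128)).setLoU (qm 64)).setLoW (qm 64)).setLoW (qm 96)).setHiD (qm 384)).setHiD (qm 320)).setHiW
    (qm 112)).setLoA (qm 2560)).setLoD (qm 288)).setHiW (qm 104)).setHiU (qm 112)).setLoD (qm
    304)).setLoW (qm 100))
    (by decide +kernel))))
    (good_of_check
    (R .u5 2333454 6463291 3424633 5013504 13381941 124756 2774269 11863286 5641819 (-139976)
    2774269 2965823 2319209 (-51750) 2568474 2673357 2673357 6846475)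
    (((((((((((((((((((root.setHiD (qm 2048)).setHiD (qm 1024)).setHiU (qm 512)).setLoA (qm
    2048)).setHiD (qm 512)).setHiU (qm 256)).setHiA (qm 3072)).setLoD (qm 256)).setHiU (qm
    128)).setLoU (qm 64)).setLoW (qm 64)).setLoW (qm 96)).setHiD (qm 384)).setHiD (qm 320)).setHiW
    (qm 112)).setLoA (qm 2560)).setLoD (qm 288)).setHiW (qm 104)).setLoU (qm 112))
    (by decide +kernel)))
    (good_splitW (qm 108)
    (good_splitD (qm 304)
    (good_splitW (qm 106)
    (good_of_check
    (R .u5 2322545 6341741 3424633 5029888 13373062 145844 2673352 11863286 5183404 (-123777)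
    2673352 2965823 3338242 (-76927) 2673352 2698940 2698940 7047860)
    (((((((((((((((((((((root.setHiD (qm 2048)).setHiD (qm 1024)).setHiU (qm 512)).setLoA (qm
    2048)).setHiD (qm 512)).setHiU (qm 256)).setHiA (qm 3072)).setLoD (qm 256)).setHiU (qm
    128)).setLoU (qm 64)).setLoW (qm 64)).setLoW (qm 96)).setHiD (qm 384)).setHiD (qm 320)).setHiW
    (qm 112)).setLoA (qm 2560)).setLoD (qm 288)).setLoW (qm 104)).setHiW (qm 108)).setHiD (qm
    304)).setHiW (qm 106))
    (by decide +kernel))
    (good_of_check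
    (R .u5 2326712 6364951 3424633 5028523 13367486 140542 2698935 11863286 5273479 (-127315)
    2698935 2965823 3610610 (-84282) 2698935 2724283 2724283 7126335)
    (((((((((((((((((((((root.setHiD (qm 2048)).setHiD (qm 1024)).setHiU (qm 512)).setLoA (qm
    2048)).setHiD (qm 512)).setHiU (qm 256)).setHiA (qm 3072)).setLoD (qm 256)).setHiU (qm
    128)).setLoU (qm 64)).setLoW (qm 64)).setLoW (qm 96)).setHiD (qm 384)).setHiD (qm 320)).setHiW
    (qm 112)).setLoA (qm 2560)).setLoD (qm 288)).setLoW (qm 104)).setHiW (qm 108)).setHiD (qm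
    304)).setLoW (qm 106))
    (by decide +kernel)))
    (good_of_check
    (R .u5 2340197 6089630 3424633 5008043 13354685 121879 2673352 11863286 4860074 (-116674)
    2673352 2965823 3211761 (-74822) 2673352 2724283 2724283 7015825)
    ((((((((((((((((((((root.setHiD (qm 2048)).setHiD (qm 1024)).setHiU (qm 512)).setLoA (qm
    2048)).setHiD (qm 512)).setHiU (qm 256)).setHiA (qm 3072)).setLoD (qm 256)).setHiU (qm
    128)).setLoU (qm 64)).setLoW (qm 64)).setLoW (qm 96)).setHiD (qm 384)).setHiD (qm 320)).setHiW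
    (qm 112)).setLoA (qm 2560)).setLoD (qm 288)).setLoW (qm 104)).setHiW (qm 108)).setLoD (qm
    304))
    (by decide +kernel)))
    (good_splitD (qm 304)
    (good_of_check
    (R .u5 2337622 6291881 3424633 5027157 13348645 127973 2724278 11863286 5237134 (-128029)
    2724278 2965823 3930322 (-93572) 2724278 2774274 2774274 7255988)
    ((((((((((((((((((((root.setHiD (qm 2048)).setHiD (qm 1024)).setHiU (qm 512)).setLoA (qm
    2048)).setHiD (qm 512)).setHiU (qm 256)).setHiA (qm 3072)).setLoD (qm 256)).setHiU (qm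
    128)).setLoU (qm 64)).setLoW (qm 64)).setLoW (qm 96)).setHiD (qm 384)).setHiD (qm 320)).setHiW
    (qm 112)).setLoA (qm 2560)).setLoD (qm 288)).setLoW (qm 104)).setLoW (qm 108)).setHiD (qm
    304))
    (by decide +kernel))
    (good_of_check
    (R .u5 2351109 6100589 3424633 5005312 13338295 108631 2724278 11863286 4990784 (-122534)
    2724278 2965823 3696690 (-88413) 2724278 2774274 2774274 7145560)
    ((((((((((((((((((((root.setHiD (qm 2048)).setHiD (qm 1024)).setHiU (qm 512)).setLoA (qm
    2048)).setHiD (qm 512)).setHiU (qm 256)).setHiA (qm 3072)).setLoD (qm 256)).setHiU (qm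
    128)).setLoU (qm 64)).setLoW (qm 64)).setLoW (qm 96)).setHiD (qm 384)).setHiD (qm 320)).setHiW
    (qm 112)).setLoA (qm 2560)).setLoD (qm 288)).setLoW (qm 104)).setLoW (qm 108)).setLoD (qm
    304))
    (by decide +kernel)))))))
    (good_splitA (qm 2560)
    (good_of_check
    (R .u5 2322543 6582771 4194303 5035349 13395162 138931 2774269 11863286 5847907 (-144542)
    2774269 2965823 5847907 (-144542) 2774269 2965823 2965823 8198756)
    ((((((((((((((((root.setHiD (qm 2048)).setHiD (qm 1024)).setHiU (qm 512)).setLoA (qm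
    2048)).setHiD (qm 512)).setHiU (qm 256)).setHiA (qm 3072)).setLoD (qm 256)).setHiU (qm
    128)).setLoU (qm 64)).setLoW (qm 64)).setLoW (qm 96)).setHiD (qm 384)).setHiD (qm 320)).setLoW
    (qm 112)).setHiA (qm 2560))
    (by decide +kernel))
    (good_splitD (qm 288)
    (good_splitW (qm 120)
    (good_splitA (qm 2816)
    (good_splitD (qm 272)
    (good_of_check
    (R .u5 2322545 6582771 3828857 5068117 13369436 146674 2774269 11863286 5847866 (-144542)
    2774269 2965823 5207334 (-127027) 2774269 2871646 2871646 7802991)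
    ((((((((((((((((((((root.setHiD (qm 2048)).setHiD (qm 1024)).setHiU (qm 512)).setLoA (qm
    2048)).setHiD (qm 512)).setHiU (qm 256)).setHiA (qm 3072)).setLoD (qm 256)).setHiU (qm
    128)).setLoU (qm 64)).setLoW (qm 64)).setLoW (qm 96)).setHiD (qm 384)).setHiD (qm 320)).setLoW
    (qm 112)).setLoA (qm 2560)).setHiD (qm 288)).setHiW (qm 120)).setHiA (qm 2816)).setHiD (qm
    272))
    (by decide +kernel))
    (good_of_check
    (R .u5 2326711 6541820 3828857 5046272 13373929 138373 2774269 11863286 5768844 (-142795)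
    2774269 2965823 5129409 (-125310) 2774269 2871646 2871646 7766744)
    ((((((((((((((((((((root.setHiD (qm 2048)).setHiD (qm 1024)).setHiU (qm 512)).setLoA (qm
    2048)).setHiD (qm 512)).setHiU (qm 256)).setHiA (qm 3072)).setLoD (qm 256)).setHiU (qm
    128)).setLoU (qm 64)).setLoW (qm 64)).setLoW (qm 96)).setHiD (qm 384)).setHiD (qm 320)).setLoW
    (qm 112)).setLoA (qm 2560)).setHiD (qm 288)).setHiW (qm 120)).setHiA (qm 2816)).setLoD (qm
    272))
    (by decide +kernel)))
    (good_splitD (qm 272)
    (good_splitA (qm 2944)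
    (good_splitA (qm 2880)
    (good_splitU (qm 120)
    (good_of_check
    (T 2852127 58146454 9378750 12047220 1854935 3907358 3907358 1027323 3803731 3803731 1730065
    2871646 2871646 64584657 14087604 14087604 24747285 15980037)
    (((((((((((((((((((((((root.setHiD (qm 2048)).setHiD (qm 1024)).setHiU (qm 512)).setLoA (qm
    2048)).setHiD (qm 512)).setHiU (qm 256)).setHiA (qm 3072)).setLoD (qm 256)).setHiU (qm
    128)).setLoU (qm 64)).setLoW (qm 64)).setLoW (qm 96)).setHiD (qm 384)).setHiD (qm 320)).setLoW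
    (qm 112)).setLoA (qm 2560)).setHiD (qm 288)).setHiW (qm 120)).setLoA (qm 2816)).setHiD (qm
    272)).setHiA (qm 2944)).setHiA (qm 2880)).setHiU (qm 120))
    (by decide +kernel))
    (good_of_check
    (R .u5 2351109 6484413 3731908 5062656 13323163 112859 2871641 11863286 5946355 (-152396)
    2871641 2965823 4682260 (-115362) 2774269 2871646 2871646 7559689)
    (((((((((((((((((((((((root.setHiD (qm 2048)).setHiD (qm 1024)).setHiU (qm 512)).setLoA (qm
    2048)).setHiD (qm 512)).setHiU (qm 256)).setHiA (qm 3072)).setLoD (qm 256)).setHiU (qm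
    128)).setLoU (qm 64)).setLoW (qm 64)).setLoW (qm 96)).setHiD (qm 384)).setHiD (qm 320)).setLoW
    (qm 112)).setLoA (qm 2560)).setHiD (qm 288)).setHiW (qm 120)).setLoA (qm 2816)).setHiD (qm
    272)).setHiA (qm 2944)).setHiA (qm 2880)).setLoU (qm 120))
    (by decide +kernel)))
    (good_splitA (qm 2912)
    (good_of_check
    (T 2852127 56506796 9141275 12183351 1839416 3966933 3833964 1032629 3763066 3886640 1747629
    2965823 2871646 64252815 14564698 13626159 24758390 15971434)
    (((((((((((((((((((((((root.setHiD (qm 2048)).setHiD (qm 1024)).setHiU (qm 512)).setLoA (qm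
    2048)).setHiD (qm 512)).setHiU (qm 256)).setHiA (qm 3072)).setLoD (qm 256)).setHiU (qm
    128)).setLoU (qm 64)).setLoW (qm 64)).setLoW (qm 96)).setHiD (qm 384)).setHiD (qm 320)).setLoW
    (qm 112)).setLoA (qm 2560)).setHiD (qm 288)).setHiW (qm 120)).setLoA (qm 2816)).setHiD (qm
    272)).setHiA (qm 2944)).setLoA (qm 2880)).setHiA (qm 2912))
    (by decide +kernel))
    (good_of_check
    (T 2852127 55624764 9020193 12250849 1810704 3905012 3774118 1037430 3832205 3950557 1747629
    2965823 2871646 63955463 14168058 13284641 24769490 15971434)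
    (((((((((((((((((((((((root.setHiD (qm 2048)).setHiD (qm 1024)).setHiU (qm 512)).setLoA (qm
    2048)).setHiD (qm 512)).setHiU (qm 256)).setHiA (qm 3072)).setLoD (qm 256)).setHiU (qm
    128)).setLoU (qm 64)).setLoW (qm 64)).setLoW (qm 96)).setHiD (qm 384)).setHiD (qm 320)).setLoW
    (qm 112)).setLoA (qm 2560)).setHiD (qm 288)).setHiW (qm 120)).setLoA (qm 2816)).setHiD (qm
    272)).setHiA (qm 2944)).setLoA (qm 2880)).setLoA (qm 2912))
    (by decide +kernel))))
    (good_of_check
    (T 3187671 54758393 8897464 12317977 1782502 3895097 3763060 1164755 3759133 3875359 1747629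
    2965823 2871646 56754866 14587720 13687700 24813840 15971434)
    (((((((((((((((((((((root.setHiD (qm 2048)).setHiD (qm 1024)).setHiU (qm 512)).setLoA (qm
    2048)).setHiD (qm 512)).setHiU (qm 256)).setHiA (qm 3072)).setLoD (qm 256)).setHiU (qm
    128)).setLoU (qm 64)).setLoW (qm 64)).setLoW (qm 96)).setHiD (qm 384)).setHiD (qm 320)).setLoW
    (qm 112)).setLoA (qm 2560)).setHiD (qm 288)).setHiW (qm 120)).setLoA (qm 2816)).setHiD (qm
    272)).setLoA (qm 2944))
    (by decide +kernel)))
    (good_splitW (qm 116)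
    (good_splitA (qm 2944)
    (good_of_check
    (R .u5 2326712 6541820 3632372 5046272 13373924 138373 2774269 11863286 5768828 (-142794)
    2774269 2965823 4799260 (-116283) 2774269 2823380 2823380 7559728)
    ((((((((((((((((((((((root.setHiD (qm 2048)).setHiD (qm 1024)).setHiU (qm 512)).setLoA (qm
    2048)).setHiD (qm 512)).setHiU (qm 256)).setHiA (qm 3072)).setLoD (qm 256)).setHiU (qm
    128)).setLoU (qm 64)).setLoW (qm 64)).setLoW (qm 96)).setHiD (qm 384)).setHiD (qm 320)).setLoW
    (qm 112)).setLoA (qm 2560)).setHiD (qm 288)).setHiW (qm 120)).setLoA (qm 2816)).setLoD (qm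
    272)).setHiW (qm 116)).setHiA (qm 2944))
    (by decide +kernel))
    (good_splitA (qm 3008)
    (good_of_check
    (T 3187671 55088263 8897464 12317977 1864970 3990291 3791043 1155030 3659467 3839803 1782239
    2965823 2823380 57329382 15188299 13755627 24791674 15936975)
    (((((((((((((((((((((((root.setHiD (qm 2048)).setHiD (qm 1024)).setHiU (qm 512)).setLoA (qm
    2048)).setHiD (qm 512)).setHiU (qm 256)).setHiA (qm 3072)).setLoD (qm 256)).setHiU (qm
    128)).setLoU (qm 64)).setLoW (qm 64)).setLoW (qm 96)).setHiD (qm 384)).setHiD (qm 320)).setLoW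
    (qm 112)).setLoA (qm 2560)).setHiD (qm 288)).setHiW (qm 120)).setLoA (qm 2816)).setLoD (qm
    272)).setHiW (qm 116)).setLoA (qm 2944)).setHiA (qm 3008))
    (by decide +kernel))
    (good_of_check
    (T 3187671 53389744 8646781 12451149 1807468 3867260 3674155 1165659 3793263 3958896 1782239
    2965823 2823380 56778506 14389597 13114217 24813840 15936975)
    (((((((((((((((((((((((root.setHiD (qm 2048)).setHiD (qm 1024)).setHiU (qm 512)).setLoA (qm
    2048)).setHiD (qm 512)).setHiU (qm 256)).setHiA (qm 3072)).setLoD (qm 256)).setHiU (qm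
    128)).setLoU (qm 64)).setLoW (qm 64)).setLoW (qm 96)).setHiD (qm 384)).setHiD (qm 320)).setLoW
    (qm 112)).setLoA (qm 2560)).setHiD (qm 288)).setHiW (qm 120)).setLoA (qm 2816)).setLoD (qm
    272)).setHiW (qm 116)).setLoA (qm 2944)).setLoA (qm 3008))
    (by decide +kernel))))
    (good_splitW (qm 118)
    (good_of_check
    (R .u5 2348534 6422338 3424633 5043541 13327709 115946 2823375 11863286 5681049 (-143691)
    2823375 2965823 4893330 (-121383) 2823375 2847615 2847615 7479571)
    ((((((((((((((((((((((root.setHiD (qm 2048)).setHiD (qm 1024)).setHiU (qm 512)).setLoA (qm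
    2048)).setHiD (qm 512)).setHiU (qm 256)).setHiA (qm 3072)).setLoD (qm 256)).setHiU (qm
    128)).setLoU (qm 64)).setLoW (qm 64)).setLoW (qm 96)).setHiD (qm 384)).setHiD (qm 320)).setLoW
    (qm 112)).setLoA (qm 2560)).setHiD (qm 288)).setHiW (qm 120)).setLoA (qm 2816)).setLoD (qm
    272)).setLoW (qm 116)).setHiW (qm 118))
    (by decide +kernel))
    (good_of_check
    (R .u5 2355276 6402511 3424633 5042176 13317128 107908 2847610 11863286 5713266 (-145774)
    2847610 2965823 5091387 (-127859) 2847610 2871646 2871646 7524522)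
    ((((((((((((((((((((((root.setHiD (qm 2048)).setHiD (qm 1024)).setHiU (qm 512)).setLoA (qm
    2048)).setHiD (qm 512)).setHiU (qm 256)).setHiA (qm 3072)).setLoD (qm 256)).setHiU (qm
    128)).setLoU (qm 64)).setLoW (qm 64)).setLoW (qm 96)).setHiD (qm 384)).setHiD (qm 320)).setLoW
    (qm 112)).setLoA (qm 2560)).setHiD (qm 288)).setHiW (qm 120)).setLoA (qm 2816)).setLoD (qm
    272)).setLoW (qm 116)).setLoW (qm 118))
    (by decide +kernel))))))
    (good_splitA (qm 2816)
    (good_of_check
    (R .u5 2351109 6484413 3828857 5051733 13331606 110314 2871641 11863286 5946355 (-152396)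
    2871641 2965823 5946355 (-152396) 2871641 2965823 2965823 7950269)
    (((((((((((((((((((root.setHiD (qm 2048)).setHiD (qm 1024)).setHiU (qm 512)).setLoA (qm
    2048)).setHiD (qm 512)).setHiU (qm 256)).setHiA (qm 3072)).setLoD (qm 256)).setHiU (qm
    128)).setLoU (qm 64)).setLoW (qm 64)).setLoW (qm 96)).setHiD (qm 384)).setHiD (qm 320)).setLoW
    (qm 112)).setLoA (qm 2560)).setHiD (qm 288)).setLoW (qm 120)).setHiA (qm 2816))
    (by decide +kernel))
    (good_splitD (qm 272)
    (good_splitW (qm 124)
    (good_splitA (qm 2944)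
    (good_of_check
    (R .u5 2351109 6484413 3632372 5062656 13323163 112859 2871641 11863286 5946355 (-152396)
    2871641 2965823 5640014 (-143421) 2871641 2919115 2919115 7758214)
    ((((((((((((((((((((((root.setHiD (qm 2048)).setHiD (qm 1024)).setHiU (qm 512)).setLoA (qm
    2048)).setHiD (qm 512)).setHiU (qm 256)).setHiA (qm 3072)).setLoD (qm 256)).setHiU (qm
    128)).setLoU (qm 64)).setLoW (qm 64)).setLoW (qm 96)).setHiD (qm 384)).setHiD (qm 320)).setLoW
    (qm 112)).setLoA (qm 2560)).setHiD (qm 288)).setLoW (qm 120)).setLoA (qm 2816)).setHiD (qm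
    272)).setHiW (qm 124)).setHiA (qm 2944))
    (by decide +kernel))
    (good_of_check
    (T 3187671 54758393 8897464 12317977 1782502 3895097 3829078 1164755 3759133 3818189 1747629
    2965823 2919115 56754866 14587720 14129004 24813840 15962826)
    ((((((((((((((((((((((root.setHiD (qm 2048)).setHiD (qm 1024)).setHiU (qm 512)).setLoA (qm
    2048)).setHiD (qm 512)).setHiU (qm 256)).setHiA (qm 3072)).setLoD (qm 256)).setHiU (qm
    128)).setLoU (qm 64)).setLoW (qm 64)).setLoW (qm 96)).setHiD (qm 384)).setHiD (qm 320)).setLoW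
    (qm 112)).setLoA (qm 2560)).setHiD (qm 288)).setLoW (qm 120)).setLoA (qm 2816)).setHiD (qm
    272)).setHiW (qm 124)).setLoA (qm 2944))
    (by decide +kernel)))
    (good_splitD (qm 264)
    (good_splitA (qm 2944)
    (good_of_check
    (R .u5 2366186 6425724 3632372 5065387 13292680 96994 2919110 11863286 5971876 (-155549)
    2919110 2965823 5971876 (-155549) 2919110 2965823 2965823 7822855)
    (((((((((((((((((((((((root.setHiD (qm 2048)).setHiD (qm 1024)).setHiU (qm 512)).setLoA (qm
    2048)).setHiD (qm 512)).setHiU (qm 256)).setHiA (qm 3072)).setLoD (qm 256)).setHiU (qm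
    128)).setLoU (qm 64)).setLoW (qm 64)).setLoW (qm 96)).setHiD (qm 384)).setHiD (qm 320)).setLoW
    (qm 112)).setLoA (qm 2560)).setHiD (qm 288)).setLoW (qm 120)).setLoA (qm 2816)).setHiD (qm
    272)).setLoW (qm 124)).setHiD (qm 264)).setHiA (qm 2944))
    (by decide +kernel))
    (good_of_check
    (T 3187671 54594935 8897464 12317977 1741638 3847927 3847927 1169483 3807211 3807211 1730065
    2965823 2965823 56466058 14309700 14309700 24813840 15967131)
    (((((((((((((((((((((((root.setHiD (qm 2048)).setHiD (qm 1024)).setHiU (qm 512)).setLoA (qm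
    2048)).setHiD (qm 512)).setHiU (qm 256)).setHiA (qm 3072)).setLoD (qm 256)).setHiU (qm
    128)).setLoU (qm 64)).setLoW (qm 64)).setLoW (qm 96)).setHiD (qm 384)).setHiD (qm 320)).setLoW
    (qm 112)).setLoA (qm 2560)).setHiD (qm 288)).setLoW (qm 120)).setLoA (qm 2816)).setHiD (qm
    272)).setLoW (qm 124)).setHiD (qm 264)).setLoA (qm 2944))
    (by decide +kernel)))
    (good_of_check
    (R .u5 2366197 6425724 3424633 5054464 13300985 94471 2919110 11863286 5971666 (-155544)
    2919110 2965823 5971666 (-155544) 2919110 2965823 2965823 7822727)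
    ((((((((((((((((((((((root.setHiD (qm 2048)).setHiD (qm 1024)).setHiU (qm 512)).setLoA (qm
    2048)).setHiD (qm 512)).setHiU (qm 256)).setHiA (qm 3072)).setLoD (qm 256)).setHiU (qm
    128)).setLoU (qm 64)).setLoW (qm 64)).setLoW (qm 96)).setHiD (qm 384)).setHiD (qm 320)).setLoW
    (qm 112)).setLoA (qm 2560)).setHiD (qm 288)).setLoW (qm 120)).setLoA (qm 2816)).setHiD (qm
    272)).setLoW (qm 124)).setLoD (qm 264))
    (by decide +kernel))))
    (good_splitU (qm 124)
    (good_of_check
    (R .u5 2357862 6420244 3424633 5043541 13317335 103469 2871641 11863286 5515149 (-140586)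
    2871641 2919115 5515149 (-140586) 2871641 2919115 2919115 7700553)
    (((((((((((((((((((((root.setHiD (qm 2048)).setHiD (qm 1024)).setHiU (qm 512)).setLoA (qm
    2048)).setHiD (qm 512)).setHiU (qm 256)).setHiA (qm 3072)).setLoD (qm 256)).setHiU (qm
    128)).setLoU (qm 64)).setLoW (qm 64)).setLoW (qm 96)).setHiD (qm 384)).setHiD (qm 320)).setLoW
    (qm 112)).setLoA (qm 2560)).setHiD (qm 288)).setLoW (qm 120)).setLoA (qm 2816)).setLoD (qm
    272)).setHiU (qm 124))
    (by decide +kernel))
    (good_of_check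
    (R .u5 2368773 6402511 3424633 5038080 13305436 88904 2919110 11863286 5924166 (-154450)
    2919110 2965823 5619880 (-144941) 2871641 2965823 2965823 7800730)
    (((((((((((((((((((((root.setHiD (qm 2048)).setHiD (qm 1024)).setHiU (qm 512)).setLoA (qm
    2048)).setHiD (qm 512)).setHiU (qm 256)).setHiA (qm 3072)).setLoD (qm 256)).setHiU (qm
    128)).setLoU (qm 64)).setLoW (qm 64)).setLoW (qm 96)).setHiD (qm 384)).setHiD (qm 320)).setLoW
    (qm 112)).setLoA (qm 2560)).setHiD (qm 288)).setLoW (qm 120)).setLoA (qm 2816)).setLoD (qm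
    272)).setLoU (qm 124))
    (by decide +kernel))))))
    (good_splitU (qm 120)
    (good_splitD (qm 304)
    (good_of_check
    (R .u5 2348534 6295185 3424633 5029888 13328685 115772 2774269 11863286 4728709 (-116403)
    2774269 2871646 4728709 (-116403) 2774269 2871646 2871646 7581749)
    (((((((((((((((((((root.setHiD (qm 2048)).setHiD (qm 1024)).setHiU (qm 512)).setLoA (qm
    2048)).setHiD (qm 512)).setHiU (qm 256)).setHiA (qm 3072)).setLoD (qm 256)).setHiU (qm
    128)).setLoU (qm 64)).setLoW (qm 64)).setLoW (qm 96)).setHiD (qm 384)).setHiD (qm 320)).setLoW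
    (qm 112)).setLoA (qm 2560)).setLoD (qm 288)).setHiU (qm 120)).setHiD (qm 304))
    (by decide +kernel))
    (good_of_check
    (R .u5 2366186 5994667 3424633 5008043 13323393 87851 2774269 11863286 4413968 (-109312)
    2774269 2871646 4413968 (-109312) 2774269 2871646 2871646 7434321)
    (((((((((((((((((((root.setHiD (qm 2048)).setHiD (qm 1024)).setHiU (qm 512)).setLoA (qm
    2048)).setHiD (qm 512)).setHiU (qm 256)).setHiA (qm 3072)).setLoD (qm 256)).setHiU (qm
    128)).setLoU (qm 64)).setLoW (qm 64)).setLoW (qm 96)).setHiD (qm 384)).setHiD (qm 320)).setLoW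
    (qm 112)).setLoA (qm 2560)).setLoD (qm 288)).setHiU (qm 120)).setLoD (qm 304))
    (by decide +kernel)))
    (good_of_check
    (R .u5 2377106 6152505 3424633 5008043 13306666 74804 2871641 11863286 5468234 (-141446)
    2871641 2965823 4845902 (-121998) 2774269 2965823 2965823 7732087)
    ((((((((((((((((((root.setHiD (qm 2048)).setHiD (qm 1024)).setHiU (qm 512)).setLoA (qm
    2048)).setHiD (qm 512)).setHiU (qm 256)).setHiA (qm 3072)).setLoD (qm 256)).setHiU (qm
    128)).setLoU (qm 64)).setLoW (qm 64)).setLoW (qm 96)).setHiD (qm 384)).setHiD (qm 320)).setLoW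
    (qm 112)).setLoA (qm 2560)).setLoD (qm 288)).setLoU (qm 120))
    (by decide +kernel))))))
    (good_splitW (qm 112)
    (good_splitW (qm 104)
    (good_of_check
    (R .u5 2348534 5533687 3424633 4958891 13386644 98224 2568474 11863286 4056909 (-92937)
    2568474 2965823 2096752 (-46996) 2568474 2673357 2673357 6726902)
    ((((((((((((((((root.setHiD (qm 2048)).setHiD (qm 1024)).setHiU (qm 512)).setLoA (qm
    2048)).setHiD (qm 512)).setHiU (qm 256)).setHiA (qm 3072)).setLoD (qm 256)).setHiU (qm
    128)).setLoU (qm 64)).setLoW (qm 64)).setLoW (qm 96)).setHiD (qm 384)).setLoD (qm 320)).setHiW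
    (qm 112)).setHiW (qm 104))
    (by decide +kernel))
    (good_of_check
    (R .u5 2368773 5531600 3424633 4953429 13373443 68444 2673352 11863286 4354719 (-105405)
    2673352 2965823 3075711 (-72930) 2673352 2774274 2774274 7002649)
    ((((((((((((((((root.setHiD (qm 2048)).setHiD (qm 1024)).setHiU (qm 512)).setLoA (qm
    2048)).setHiD (qm 512)).setHiU (qm 256)).setHiA (qm 3072)).setLoD (qm 256)).setHiU (qm
    128)).setLoU (qm 64)).setLoW (qm 64)).setLoW (qm 96)).setHiD (qm 384)).setLoD (qm 320)).setHiW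
    (qm 112)).setLoW (qm 104))
    (by decide +kernel)))
    (good_of_check
    (R .u5 2397337 5472855 3424633 4947968 13322554 36576 2774269 11863286 4493206 (-113856)
    2774269 2965823 4493206 (-113856) 2774269 2965823 2965823 7565292)
    (((((((((((((((root.setHiD (qm 2048)).setHiD (qm 1024)).setHiU (qm 512)).setLoA (qm
    2048)).setHiD (qm 512)).setHiU (qm 256)).setHiA (qm 3072)).setLoD (qm 256)).setHiU (qm
    128)).setLoU (qm 64)).setLoW (qm 64)).setLoW (qm 96)).setHiD (qm 384)).setLoD (qm 320)).setLoW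
    (qm 112))
    (by decide +kernel))))
    (good_of_check
    (R .u5 2441009 3766189 3424633 4827819 13373675 (-49834) 2568474 11863286 2627614 (-61129)
    2568474 2965823 2627614 (-61129) 2568474 2965823 2965823 7219888)
    (((((((((((((root.setHiD (qm 2048)).setHiD (qm 1024)).setHiU (qm 512)).setLoA (qm
    2048)).setHiD (qm 512)).setHiU (qm 256)).setHiA (qm 3072)).setLoD (qm 256)).setHiU (qm
    128)).setLoU (qm 64)).setLoW (qm 64)).setLoW (qm 96)).setLoD (qm 384))
    (by decide +kernel))))

end Vale.Agent.P226.Cert
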