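import Vale.Agent.P226.CertBox
import Vale.Agent.P226.CertSound

/-! Part 13 of the cover (P226). -/

namespace Vale.Agent.P226.Cert

set_option maxHeartbeats 4000000 in
/-- One subtree of the cover. -/
theorem sub24_good : BoxGood
    (((((((((root.setHiD (qm 2048)).setHiD (qm 1024)).setHiU (qm 512)).setLoA (qm 2048)).setHiD
    (qm 512)).setHiU (qm 256)).setHiA (qm 3072)).setLoD (qm 256)).setLoU (qm 128)) :=
    (good_splitW (qm 128)
    (good_splitW (qm 64)
    (good_of_check
    (R .u4 2789034 4100882 3424633 4805973 13444494 (-149922) 2965818 11863286 9422269 (-291343)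
    2965818 4194306 0 0 0 0 2097154 4506229)
    (((((((((((root.setHiD (qm 2048)).setHiD (qm 1024)).setHiU (qm 512)).setLoA (qm 2048)).setHiD
    (qm 512)).setHiU (qm 256)).setHiA (qm 3072)).setLoD (qm 256)).setLoU (qm 128)).setHiW (qm
    128)).setHiW (qm 64))
    (by decide +kernel))
    (good_splitD (qm 384)
    (good_splitW (qm 96)
    (good_splitU (qm 192)
    (good_splitD (qm 320)
    (good_splitW (qm 80)
    (good_of_check
    (R .u5 2372940 6443455 3424633 4980736 13353970 67372 2965818 11863286 9879388 (-278677)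
    2965818 3632376 0 42 2097150 2344690 2344690 5087085)
    ((((((((((((((((root.setHiD (qm 2048)).setHiD (qm 1024)).setHiU (qm 512)).setLoA (qm
    2048)).setHiD (qm 512)).setHiU (qm 256)).setHiA (qm 3072)).setLoD (qm 256)).setLoU (qm
    128)).setHiW (qm 128)).setLoW (qm 64)).setHiD (qm 384)).setHiW (qm 96)).setHiU (qm
    192)).setHiD (qm 320)).setHiW (qm 80))
    (by decide +kernel))
    (good_splitW (qm 88)
    (good_of_check
    (R .u5 2368773 6483112 3424633 4980736 13366751 70396 2965818 11863286 9953105 (-280355)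
    2965818 3632376 82511 (-1569) 2344685 2459131 2459131 5625339)
    (((((((((((((((((root.setHiD (qm 2048)).setHiD (qm 1024)).setHiU (qm 512)).setLoA (qm
    2048)).setHiD (qm 512)).setHiU (qm 256)).setHiA (qm 3072)).setLoD (qm 256)).setLoU (qm
    128)).setHiW (qm 128)).setLoW (qm 64)).setHiD (qm 384)).setHiW (qm 96)).setHiU (qm
    192)).setHiD (qm 320)).setLoW (qm 80)).setHiW (qm 88))
    (by decide +kernel))
    (good_splitU (qm 160)
    (good_of_check
    (R .u5 2368763 6483112 3424633 5002581 13349918 75420 2965818 11863286 8324285 (-229453)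
    2965818 3315891 725722 (-15388) 2459126 2568479 2568479 6110186)
    ((((((((((((((((((root.setHiD (qm 2048)).setHiD (qm 1024)).setHiU (qm 512)).setLoA (qm
    2048)).setHiD (qm 512)).setHiU (qm 256)).setHiA (qm 3072)).setLoD (qm 256)).setLoU (qm
    128)).setHiW (qm 128)).setLoW (qm 64)).setHiD (qm 384)).setHiW (qm 96)).setHiU (qm
    192)).setHiD (qm 320)).setLoW (qm 80)).setLoW (qm 88)).setHiU (qm 160))
    (by decide +kernel))
    (good_of_check
    (R .u5 2436839 6418951 3424633 4958891 13294954 (-20025) 3315886 11863286 10439620 (-330843)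
    3315886 3632376 231772 (-4935) 2459126 2568479 2568479 5631386)
    ((((((((((((((((((root.setHiD (qm 2048)).setHiD (qm 1024)).setHiU (qm 512)).setLoA (qm
    2048)).setHiD (qm 512)).setHiU (qm 256)).setHiA (qm 3072)).setLoD (qm 256)).setLoU (qm
    128)).setHiW (qm 128)).setLoW (qm 64)).setHiD (qm 384)).setHiW (qm 96)).setHiU (qm
    192)).setHiD (qm 320)).setLoW (qm 80)).setLoW (qm 88)).setLoU (qm 160))
    (by decide +kernel)))))
    (good_of_check
    (R .u5 2419158 5672994 3424633 4893355 13355270 (-8951) 2965818 11863286 9073016 (-259867)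
    2965818 3632376 84874 (-1284) 2097150 2568479 2568479 5750977)
    (((((((((((((((root.setHiD (qm 2048)).setHiD (qm 1024)).setHiU (qm 512)).setLoA (qm
    2048)).setHiD (qm 512)).setHiU (qm 256)).setHiA (qm 3072)).setLoD (qm 256)).setLoU (qm
    128)).setHiW (qm 128)).setLoW (qm 64)).setHiD (qm 384)).setHiW (qm 96)).setHiU (qm
    192)).setLoD (qm 320))
    (by decide +kernel)))
    (good_of_check
    (R .t4n 3378579 1619767 3424633 4849664 13232242 (-282377) 3397772 11793569 3726346 68177
    3397772 3992861 0 0 0 0 2568479 7536563)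
    ((((((((((((((root.setHiD (qm 2048)).setHiD (qm 1024)).setHiU (qm 512)).setLoA (qm
    2048)).setHiD (qm 512)).setHiU (qm 256)).setHiA (qm 3072)).setLoD (qm 256)).setLoU (qm
    128)).setHiW (qm 128)).setLoW (qm 64)).setHiD (qm 384)).setHiW (qm 96)).setLoU (qm 192))
    (by decide +kernel)))
    (good_splitD (qm 320)
    (good_splitU (qm 192)
    (good_splitU (qm 160)
    (good_splitA (qm 2560)
    (good_of_check
    (R .u5 2348534 6676432 4194303 5002581 13411777 90422 2965818 11863286 8699910 (-238031)
    2965818 3315891 4056909 (-92937) 2568474 2965823 2965823 7972659)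
    (((((((((((((((((root.setHiD (qm 2048)).setHiD (qm 1024)).setHiU (qm 512)).setLoA (qm
    2048)).setHiD (qm 512)).setHiU (qm 256)).setHiA (qm 3072)).setLoD (qm 256)).setLoU (qm
    128)).setHiW (qm 128)).setLoW (qm 64)).setHiD (qm 384)).setLoW (qm 96)).setHiD (qm
    320)).setHiU (qm 192)).setHiU (qm 160)).setHiA (qm 2560))
    (by decide +kernel))
    (good_splitD (qm 288)
    (good_splitW (qm 112)
    (good_splitW (qm 104)
    (good_of_check
    (R .u5 2368763 6483117 3424633 5024427 13333034 80465 2965818 11863286 8324285 (-229453)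
    2965818 3315891 1814138 (-40898) 2568474 2673357 2673357 6569245)
    ((((((((((((((((((((root.setHiD (qm 2048)).setHiD (qm 1024)).setHiU (qm 512)).setLoA (qm
    2048)).setHiD (qm 512)).setHiU (qm 256)).setHiA (qm 3072)).setLoD (qm 256)).setLoU (qm
    128)).setHiW (qm 128)).setLoW (qm 64)).setHiD (qm 384)).setLoW (qm 96)).setHiD (qm
    320)).setHiU (qm 192)).setHiU (qm 160)).setLoA (qm 2560)).setHiD (qm 288)).setHiW (qm
    112)).setHiW (qm 104))
    (by decide +kernel))
    (good_splitU (qm 144)
    (good_of_check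
    (R .u5 2372940 6443462 3424633 5035349 13312019 79895 2965818 11863286 7258479 (-196774)
    2965818 3145730 3009148 (-71446) 2673352 2774274 2774274 6970229)
    (((((((((((((((((((((root.setHiD (qm 2048)).setHiD (qm 1024)).setHiU (qm 512)).setLoA (qm
    2048)).setHiD (qm 512)).setHiU (qm 256)).setHiA (qm 3072)).setLoD (qm 256)).setLoU (qm
    128)).setHiW (qm 128)).setLoW (qm 64)).setHiD (qm 384)).setLoW (qm 96)).setHiD (qm
    320)).setHiU (qm 192)).setHiU (qm 160)).setLoA (qm 2560)).setHiD (qm 288)).setHiW (qm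
    112)).setLoW (qm 104)).setHiU (qm 144))
    (by decide +kernel))
    (good_of_check
    (R .u5 2394762 6540519 3424633 5013504 13324558 39975 3145726 11863286 8841206 (-257123)
    3145726 3315891 2670783 (-63841) 2673352 2774274 2774274 6800608)
    (((((((((((((((((((((root.setHiD (qm 2048)).setHiD (qm 1024)).setHiU (qm 512)).setLoA (qm
    2048)).setHiD (qm 512)).setHiU (qm 256)).setHiA (qm 3072)).setLoD (qm 256)).setLoU (qm
    128)).setHiW (qm 128)).setLoW (qm 64)).setHiD (qm 384)).setLoW (qm 96)).setHiD (qm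
    320)).setHiU (qm 192)).setHiU (qm 160)).setLoA (qm 2560)).setHiD (qm 288)).setHiW (qm
    112)).setLoW (qm 104)).setLoU (qm 144))
    (by decide +kernel))))
    (good_splitU (qm 144)
    (good_splitD (qm 272)
    (good_splitW (qm 120)
    (good_of_check
    (R .u5 2377106 6404604 3424633 5046272 13290992 79372 2965818 11863286 7181358 (-194981)
    2965818 3145730 4223571 (-104981) 2774269 2871646 2871646 7345056)
    ((((((((((((((((((((((root.setHiD (qm 2048)).setHiD (qm 1024)).setHiU (qm 512)).setLoA (qm
    2048)).setHiD (qm 512)).setHiU (qm 256)).setHiA (qm 3072)).setLoD (qm 256)).setLoU (qm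
    128)).setHiW (qm 128)).setLoW (qm 64)).setHiD (qm 384)).setLoW (qm 96)).setHiD (qm
    320)).setHiU (qm 192)).setHiU (qm 160)).setLoA (qm 2560)).setHiD (qm 288)).setLoW (qm
    112)).setHiU (qm 144)).setHiD (qm 272)).setHiW (qm 120))
    (by decide +kernel))
    (good_splitU (qm 136)
    (good_splitD (qm 264)
    (good_splitW (qm 124)
    (good_of_check
    (R .u5 2377106 6404604 3424633 5057195 13282652 81883 2965818 11863286 6639989 (-178063)
    2965818 3057101 5165053 (-132564) 2871641 2919115 2919115 7541729)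
    (((((((((((((((((((((((((root.setHiD (qm 2048)).setHiD (qm 1024)).setHiU (qm 512)).setLoA (qm
    2048)).setHiD (qm 512)).setHiU (qm 256)).setHiA (qm 3072)).setLoD (qm 256)).setLoU (qm
    128)).setHiW (qm 128)).setLoW (qm 64)).setHiD (qm 384)).setLoW (qm 96)).setHiD (qm
    320)).setHiU (qm 192)).setHiU (qm 160)).setLoA (qm 2560)).setHiD (qm 288)).setLoW (qm
    112)).setHiU (qm 144)).setHiD (qm 272)).setLoW (qm 120)).setHiU (qm 136)).setHiD (qm
    264)).setHiW (qm 124))
    (by decide +kernel))
    (good_of_check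
    (R .u5 2379681 6381388 3424633 5057195 13274707 80057 2965818 11863286 6592516 (-176957)
    2965818 3057101 5724506 (-149832) 2919110 2965823 2965823 7710347)
    (((((((((((((((((((((((((root.setHiD (qm 2048)).setHiD (qm 1024)).setHiU (qm 512)).setLoA (qm
    2048)).setHiD (qm 512)).setHiU (qm 256)).setHiA (qm 3072)).setLoD (qm 256)).setLoU (qm
    128)).setHiW (qm 128)).setLoW (qm 64)).setHiD (qm 384)).setLoW (qm 96)).setHiD (qm
    320)).setHiU (qm 192)).setHiU (qm 160)).setLoA (qm 2560)).setHiD (qm 288)).setLoW (qm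
    112)).setHiU (qm 144)).setHiD (qm 272)).setLoW (qm 120)).setHiU (qm 136)).setHiD (qm
    264)).setLoW (qm 124))
    (by decide +kernel)))
    (good_of_check
    (R .u5 2379681 6381388 3424633 5046272 13283016 77555 2965818 11863286 6592516 (-176957)
    2965818 3057101 5421685 (-140369) 2871641 2965823 2965823 7710347)
    ((((((((((((((((((((((((root.setHiD (qm 2048)).setHiD (qm 1024)).setHiU (qm 512)).setLoA (qm
    2048)).setHiD (qm 512)).setHiU (qm 256)).setHiA (qm 3072)).setLoD (qm 256)).setLoU (qm
    128)).setHiW (qm 128)).setLoW (qm 64)).setHiD (qm 384)).setLoW (qm 96)).setHiD (qm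
    320)).setHiU (qm 192)).setHiU (qm 160)).setLoA (qm 2560)).setHiD (qm 288)).setLoW (qm
    112)).setHiU (qm 144)).setHiD (qm 272)).setLoW (qm 120)).setHiU (qm 136)).setLoD (qm 264))
    (by decide +kernel)))
    (good_of_check
    (R .u5 2401505 6332828 3424633 5040811 13253640 50345 3057096 11863286 7275785 (-203492)
    3057096 3145730 5033296 (-131303) 2871641 2965823 2965823 7532555)
    (((((((((((((((((((((((root.setHiD (qm 2048)).setHiD (qm 1024)).setHiU (qm 512)).setLoA (qm
    2048)).setHiD (qm 512)).setHiU (qm 256)).setHiA (qm 3072)).setLoD (qm 256)).setLoU (qm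
    128)).setHiW (qm 128)).setLoW (qm 64)).setHiD (qm 384)).setLoW (qm 96)).setHiD (qm
    320)).setHiU (qm 192)).setHiU (qm 160)).setLoA (qm 2560)).setHiD (qm 288)).setLoW (qm
    112)).setHiU (qm 144)).setHiD (qm 272)).setLoW (qm 120)).setLoU (qm 136))
    (by decide +kernel))))
    (good_of_check
    (R .u5 2379681 6381376 3424633 5024427 13299635 72566 2965818 11863286 7133828 (-193873)
    2965818 3145730 4800421 (-120954) 2774269 2965823 2965823 7710347)
    (((((((((((((((((((((root.setHiD (qm 2048)).setHiD (qm 1024)).setHiU (qm 512)).setLoA (qm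
    2048)).setHiD (qm 512)).setHiU (qm 256)).setHiA (qm 3072)).setLoD (qm 256)).setLoU (qm
    128)).setHiW (qm 128)).setLoW (qm 64)).setHiD (qm 384)).setLoW (qm 96)).setHiD (qm
    320)).setHiU (qm 192)).setHiU (qm 160)).setLoA (qm 2560)).setHiD (qm 288)).setLoW (qm
    112)).setHiU (qm 144)).setLoD (qm 272))
    (by decide +kernel)))
    (good_of_check
    (R .u5 2412414 6377191 3424633 5013504 13271729 26856 3145726 11863286 8525374 (-249641)
    3145726 3315891 4237317 (-107881) 2774269 2965823 2965823 7443890)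
    ((((((((((((((((((((root.setHiD (qm 2048)).setHiD (qm 1024)).setHiU (qm 512)).setLoA (qm
    2048)).setHiD (qm 512)).setHiU (qm 256)).setHiA (qm 3072)).setLoD (qm 256)).setLoU (qm
    128)).setHiW (qm 128)).setLoW (qm 64)).setHiD (qm 384)).setLoW (qm 96)).setHiD (qm
    320)).setHiU (qm 192)).setHiU (qm 160)).setLoA (qm 2560)).setHiD (qm 288)).setLoW (qm
    112)).setLoU (qm 144))
    (by decide +kernel))))
    (good_splitW (qm 112)
    (good_of_check
    (R .u5 2379683 6359460 3424633 4980736 13338310 60946 2965818 11863286 8123745 (-224808)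
    2965818 3315891 2286019 (-52201) 2568474 2774274 2774274 6916943)
    (((((((((((((((((((root.setHiD (qm 2048)).setHiD (qm 1024)).setHiU (qm 512)).setLoA (qm
    2048)).setHiD (qm 512)).setHiU (qm 256)).setHiA (qm 3072)).setLoD (qm 256)).setLoU (qm
    128)).setHiW (qm 128)).setLoW (qm 64)).setHiD (qm 384)).setLoW (qm 96)).setHiD (qm
    320)).setHiU (qm 192)).setHiU (qm 160)).setLoA (qm 2560)).setLoD (qm 288)).setHiW (qm 112))
    (by decide +kernel))
    (good_of_check
    (R .u5 2397337 6112850 3424633 4980736 13304030 42116 2965818 11863286 7802912 (-217284)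
    2965818 3315891 4493206 (-113856) 2774269 2965823 2965823 7565292)
    (((((((((((((((((((root.setHiD (qm 2048)).setHiD (qm 1024)).setHiU (qm 512)).setLoA (qm
    2048)).setHiD (qm 512)).setHiU (qm 256)).setHiA (qm 3072)).setLoD (qm 256)).setLoU (qm
    128)).setHiW (qm 128)).setLoW (qm 64)).setHiD (qm 384)).setLoW (qm 96)).setHiD (qm
    320)).setHiU (qm 192)).setHiU (qm 160)).setLoA (qm 2560)).setLoD (qm 288)).setLoW (qm 112))
    (by decide +kernel)))))
    (good_splitW (qm 112)
    (good_of_check
    (R .u5 2436839 6418951 3424633 4958891 13294954 (-20025) 3315886 11863286 10439620 (-330843)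
    3315886 3632376 1535565 (-35492) 2568474 2774274 2774274 6483532)
    (((((((((((((((((root.setHiD (qm 2048)).setHiD (qm 1024)).setHiU (qm 512)).setLoA (qm
    2048)).setHiD (qm 512)).setHiU (qm 256)).setHiA (qm 3072)).setLoD (qm 256)).setLoU (qm
    128)).setHiW (qm 128)).setLoW (qm 64)).setHiD (qm 384)).setLoW (qm 96)).setHiD (qm
    320)).setHiU (qm 192)).setLoU (qm 160)).setHiW (qm 112))
    (by decide +kernel))
    (good_of_check
    (R .u5 2436840 6418951 3424633 4958891 13294950 (-20025) 3315886 11863286 10439606 (-330842)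
    3315886 3632376 3835741 (-98388) 2774269 2965823 2965823 7252589)
    (((((((((((((((((root.setHiD (qm 2048)).setHiD (qm 1024)).setHiU (qm 512)).setLoA (qm
    2048)).setHiD (qm 512)).setHiU (qm 256)).setHiA (qm 3072)).setLoD (qm 256)).setLoU (qm
    128)).setHiW (qm 128)).setLoW (qm 64)).setHiD (qm 384)).setLoW (qm 96)).setHiD (qm
    320)).setHiU (qm 192)).setLoU (qm 160)).setLoW (qm 112))
    (by decide +kernel))))
    (good_of_check
    (R .u5 2518376 6116239 3424633 4893355 13201338 (-123268) 3632371 11863286 12296670 (-447371)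
    3632371 4194306 1669318 (-39057) 2568474 2965823 2965823 6648604)
    (((((((((((((((root.setHiD (qm 2048)).setHiD (qm 1024)).setHiU (qm 512)).setLoA (qm
    2048)).setHiD (qm 512)).setHiU (qm 256)).setHiA (qm 3072)).setLoD (qm 256)).setLoU (qm
    128)).setHiW (qm 128)).setLoW (qm 64)).setHiD (qm 384)).setLoW (qm 96)).setHiD (qm
    320)).setLoU (qm 192))
    (by decide +kernel)))
    (good_splitU (qm 192)
    (good_of_check
    (R .u5 2425924 5572544 3424633 4893355 13342562 (-16219) 2965818 11863286 8956774 (-257087)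
    2965818 3632376 2840588 (-65956) 2568474 2965823 2965823 7337820)
    (((((((((((((((root.setHiD (qm 2048)).setHiD (qm 1024)).setHiU (qm 512)).setLoA (qm
    2048)).setHiD (qm 512)).setHiU (qm 256)).setHiA (qm 3072)).setLoD (qm 256)).setLoU (qm
    128)).setHiW (qm 128)).setLoW (qm 64)).setHiD (qm 384)).setLoW (qm 96)).setLoD (qm
    320)).setHiU (qm 192))
    (by decide +kernel))
    (good_of_check
    (R .u5 2546939 5688633 3424633 4805973 13219335 (-173501) 3632371 11863286 11903194 (-438342)
    3632371 4194306 1375436 (-32192) 2568474 2965823 2965823 6449498)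
    (((((((((((((((root.setHiD (qm 2048)).setHiD (qm 1024)).setHiU (qm 512)).setLoA (qm
    2048)).setHiD (qm 512)).setHiU (qm 256)).setHiA (qm 3072)).setLoD (qm 256)).setLoU (qm
    128)).setHiW (qm 128)).setLoW (qm 64)).setHiD (qm 384)).setLoW (qm 96)).setLoD (qm
    320)).setLoU (qm 192))
    (by decide +kernel)))))
    (good_of_check
    (R .u5 2529286 3665669 3424633 4718592 13320733 (-174959) 2965818 11863286 9695349 (-290791)
    2965818 4194306 777326 (-12103) 2097150 2965823 2965823 6572483)
    ((((((((((((root.setHiD (qm 2048)).setHiD (qm 1024)).setHiU (qm 512)).setLoA (qm 2048)).setHiD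
    (qm 512)).setHiU (qm 256)).setHiA (qm 3072)).setLoD (qm 256)).setLoU (qm 128)).setHiW (qm
    128)).setLoW (qm 64)).setLoD (qm 384))
    (by decide +kernel))))
    (good_splitW (qm 192)
    (good_splitD (qm 384)
    (good_splitW (qm 160)
    (good_splitU (qm 192)
    (good_splitD (qm 320)
    (good_splitU (qm 160)
    (good_splitA (qm 2560)
    (good_of_check
    (R .u5 2377106 6404604 4194303 5002581 13324349 69382 2965818 11863286 8170924 (-225905)
    2965818 3315891 8170924 (-225905) 2965818 3315891 3315891 9074801)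
    (((((((((((((((((root.setHiD (qm 2048)).setHiD (qm 1024)).setHiU (qm 512)).setLoA (qm
    2048)).setHiD (qm 512)).setHiU (qm 256)).setHiA (qm 3072)).setLoD (qm 256)).setLoU (qm
    128)).setLoW (qm 128)).setHiW (qm 192)).setHiD (qm 384)).setHiW (qm 160)).setHiU (qm
    192)).setHiD (qm 320)).setHiU (qm 160)).setHiA (qm 2560))
    (by decide +kernel))
    (good_splitW (qm 144)
    (good_splitD (qm 288)
    (good_splitU (qm 144)
    (good_splitA (qm 2816)
    (good_of_check
    (R .u5 2377106 6404604 3828857 5035349 13299331 76866 2965818 11863286 7181358 (-194981)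
    2965818 3145730 7181358 (-194981) 2965818 3145730 3145730 8440613)
    (((((((((((((((((((((root.setHiD (qm 2048)).setHiD (qm 1024)).setHiU (qm 512)).setLoA (qm
    2048)).setHiD (qm 512)).setHiU (qm 256)).setHiA (qm 3072)).setLoD (qm 256)).setLoU (qm
    128)).setLoW (qm 128)).setHiW (qm 192)).setHiD (qm 384)).setHiW (qm 160)).setHiU (qm
    192)).setHiD (qm 320)).setHiU (qm 160)).setLoA (qm 2560)).setHiW (qm 144)).setHiD (qm
    288)).setHiU (qm 144)).setHiA (qm 2816))
    (by decide +kernel))
    (good_splitW (qm 136)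
    (good_splitD (qm 272)
    (good_splitU (qm 136)
    (good_splitW (qm 132)
    (good_splitD (qm 264)
    (good_splitW (qm 130)
    (good_of_check
    (R .u5 2379681 6381388 3424633 5057195 13274707 80057 2965818 11863286 6592516 (-176957)
    2965818 3057101 6166568 (-163646) 2965818 2988904 2988904 7802797)
    (((((((((((((((((((((((((((root.setHiD (qm 2048)).setHiD (qm 1024)).setHiU (qm 512)).setLoA
    (qm 2048)).setHiD (qm 512)).setHiU (qm 256)).setHiA (qm 3072)).setLoD (qm 256)).setLoU (qm
    128)).setLoW (qm 128)).setHiW (qm 192)).setHiD (qm 384)).setHiW (qm 160)).setHiU (qm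
    192)).setHiD (qm 320)).setHiU (qm 160)).setLoA (qm 2560)).setHiW (qm 144)).setHiD (qm
    288)).setHiU (qm 144)).setLoA (qm 2816)).setHiW (qm 136)).setHiD (qm 272)).setHiU (qm
    136)).setHiW (qm 132)).setHiD (qm 264)).setHiW (qm 130))
    (by decide +kernel))
    (good_of_check
    (R .u5 2386425 6358134 3424633 5055829 13263624 72251 2988899 11863286 6610581 (-178772)
    2988899 3057101 6330605 (-169886) 2988899 3011808 3011808 7839003)
    (((((((((((((((((((((((((((root.setHiD (qm 2048)).setHiD (qm 1024)).setHiU (qm 512)).setLoA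
    (qm 2048)).setHiD (qm 512)).setHiU (qm 256)).setHiA (qm 3072)).setLoD (qm 256)).setLoU (qm
    128)).setLoW (qm 128)).setHiW (qm 192)).setHiD (qm 384)).setHiW (qm 160)).setHiU (qm
    192)).setHiD (qm 320)).setHiU (qm 160)).setLoA (qm 2560)).setHiW (qm 144)).setHiD (qm
    288)).setHiU (qm 144)).setLoA (qm 2816)).setHiW (qm 136)).setHiD (qm 272)).setHiU (qm
    136)).setHiW (qm 132)).setHiD (qm 264)).setLoW (qm 130))
    (by decide +kernel)))
    (good_of_check
    (R .u5 2379683 6381388 3424633 5046272 13283011 77555 2965818 11863286 6592492 (-176957)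
    2965818 3057101 6310377 (-168140) 2965818 3011808 3011808 7895661)
    ((((((((((((((((((((((((((root.setHiD (qm 2048)).setHiD (qm 1024)).setHiU (qm 512)).setLoA (qm
    2048)).setHiD (qm 512)).setHiU (qm 256)).setHiA (qm 3072)).setLoD (qm 256)).setLoU (qm
    128)).setLoW (qm 128)).setHiW (qm 192)).setHiD (qm 384)).setHiW (qm 160)).setHiU (qm
    192)).setHiD (qm 320)).setHiU (qm 160)).setLoA (qm 2560)).setHiW (qm 144)).setHiD (qm
    288)).setHiU (qm 144)).setLoA (qm 2816)).setHiW (qm 136)).setHiD (qm 272)).setHiU (qm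
    136)).setHiW (qm 132)).setLoD (qm 264))
    (by decide +kernel)))
    (good_splitD (qm 264)
    (good_of_check
    (R .u5 2390595 6358134 3424633 5054464 13260213 66361 3011803 11863286 6674227 (-181625)
    3011803 3057101 6674227 (-181625) 3011803 3057101 3011808 7804290)
    ((((((((((((((((((((((((((root.setHiD (qm 2048)).setHiD (qm 1024)).setHiU (qm 512)).setLoA (qm
    2048)).setHiD (qm 512)).setHiU (qm 256)).setHiA (qm 3072)).setLoD (qm 256)).setLoU (qm
    128)).setLoW (qm 128)).setHiW (qm 192)).setHiD (qm 384)).setHiW (qm 160)).setHiU (qm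
    192)).setHiD (qm 320)).setHiU (qm 160)).setLoA (qm 2560)).setHiW (qm 144)).setHiD (qm
    288)).setHiU (qm 144)).setLoA (qm 2816)).setHiW (qm 136)).setHiD (qm 272)).setHiU (qm
    136)).setLoW (qm 132)).setHiD (qm 264))
    (by decide +kernel))
    (good_of_check
    (R .u5 2394762 6318396 3424633 5043541 13256260 60744 3011803 11863286 6598265 (-179833)
    3011803 3057101 6598265 (-179833) 3011803 3057101 3057101 7948212)
    ((((((((((((((((((((((((((root.setHiD (qm 2048)).setHiD (qm 1024)).setHiU (qm 512)).setLoA (qm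
    2048)).setHiD (qm 512)).setHiU (qm 256)).setHiA (qm 3072)).setLoD (qm 256)).setLoU (qm
    128)).setLoW (qm 128)).setHiW (qm 192)).setHiD (qm 384)).setHiW (qm 160)).setHiU (qm
    192)).setHiD (qm 320)).setHiU (qm 160)).setLoA (qm 2560)).setHiW (qm 144)).setHiD (qm
    288)).setHiU (qm 144)).setLoA (qm 2816)).setHiW (qm 136)).setHiD (qm 272)).setHiU (qm
    136)).setLoW (qm 132)).setLoD (qm 264))
    (by decide +kernel))))
    (good_of_check
    (R .u5 2404080 6309530 3424633 5040811 13245842 48498 3057096 11863286 7229126 (-202381)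
    3057096 3145730 6148776 (-166510) 2965818 3057101 3057101 7870558)
    ((((((((((((((((((((((((root.setHiD (qm 2048)).setHiD (qm 1024)).setHiU (qm 512)).setLoA (qm
    2048)).setHiD (qm 512)).setHiU (qm 256)).setHiA (qm 3072)).setLoD (qm 256)).setLoU (qm
    128)).setLoW (qm 128)).setHiW (qm 192)).setHiD (qm 384)).setHiW (qm 160)).setHiU (qm
    192)).setHiD (qm 320)).setHiU (qm 160)).setLoA (qm 2560)).setHiW (qm 144)).setHiD (qm
    288)).setHiU (qm 144)).setLoA (qm 2816)).setHiW (qm 136)).setHiD (qm 272)).setLoU (qm 136))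
    (by decide +kernel)))
    (good_of_check
    (R .u5 2390595 6254234 3424633 5024427 13272810 62699 2965818 11863286 6933607 (-189180)
    2965818 3145730 6392671 (-172276) 2965818 3057101 3057101 7982971)
    (((((((((((((((((((((((root.setHiD (qm 2048)).setHiD (qm 1024)).setHiU (qm 512)).setLoA (qm
    2048)).setHiD (qm 512)).setHiU (qm 256)).setHiA (qm 3072)).setLoD (qm 256)).setLoU (qm
    128)).setLoW (qm 128)).setHiW (qm 192)).setHiD (qm 384)).setHiW (qm 160)).setHiU (qm
    192)).setHiD (qm 320)).setHiU (qm 160)).setLoA (qm 2560)).setHiW (qm 144)).setHiD (qm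
    288)).setHiU (qm 144)).setLoA (qm 2816)).setHiW (qm 136)).setLoD (qm 272))
    (by decide +kernel)))
    (good_splitD (qm 272)
    (good_of_check
    (R .u5 2404080 6309530 3424633 5040811 13245842 48498 3057096 11863286 7229126 (-202381)
    3057096 3145730 7229126 (-202381) 3057096 3145730 3057101 7870558)
    (((((((((((((((((((((((root.setHiD (qm 2048)).setHiD (qm 1024)).setHiU (qm 512)).setLoA (qm
    2048)).setHiD (qm 512)).setHiU (qm 256)).setHiA (qm 3072)).setLoD (qm 256)).setLoU (qm
    128)).setLoW (qm 128)).setHiW (qm 192)).setHiD (qm 384)).setHiW (qm 160)).setHiU (qm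
    192)).setHiD (qm 320)).setHiU (qm 160)).setLoA (qm 2560)).setHiW (qm 144)).setHiD (qm
    288)).setHiU (qm 144)).setLoA (qm 2816)).setLoW (qm 136)).setHiD (qm 272))
    (by decide +kernel))
    (good_of_check
    (R .u5 2415015 6190062 3424633 5018965 13234007 34243 3057096 11863286 7032133 (-197664)
    3057096 3145730 7032133 (-197664) 3057096 3145730 3145730 8120613)
    (((((((((((((((((((((((root.setHiD (qm 2048)).setHiD (qm 1024)).setHiU (qm 512)).setLoA (qm
    2048)).setHiD (qm 512)).setHiU (qm 256)).setHiA (qm 3072)).setLoD (qm 256)).setLoU (qm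
    128)).setLoW (qm 128)).setHiW (qm 192)).setHiD (qm 384)).setHiW (qm 160)).setHiU (qm
    192)).setHiD (qm 320)).setHiU (qm 160)).setLoA (qm 2560)).setHiW (qm 144)).setHiD (qm
    288)).setHiU (qm 144)).setLoA (qm 2816)).setLoW (qm 136)).setLoD (qm 272))
    (by decide +kernel)))))
    (good_splitD (qm 272)
    (good_of_check
    (R .u5 2425924 6254233 3424633 5024427 13223060 19513 3145726 11863286 8286010 (-243887)
    3145726 3315891 6299222 (-174039) 2965818 3145730 3145730 8030850)
    (((((((((((((((((((((root.setHiD (qm 2048)).setHiD (qm 1024)).setHiU (qm 512)).setLoA (qm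
    2048)).setHiD (qm 512)).setHiU (qm 256)).setHiA (qm 3072)).setLoD (qm 256)).setLoU (qm
    128)).setLoW (qm 128)).setHiW (qm 192)).setHiD (qm 384)).setHiW (qm 160)).setHiU (qm
    192)).setHiD (qm 320)).setHiU (qm 160)).setLoA (qm 2560)).setHiW (qm 144)).setHiD (qm
    288)).setLoU (qm 144)).setHiD (qm 272))
    (by decide +kernel))
    (good_of_check
    (R .u5 2430097 6198929 3424633 5002581 13231103 10308 3145726 11863286 8212496 (-242105)
    3145726 3315891 6225712 (-172257) 2965818 3145730 3145730 7996833)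
    (((((((((((((((((((((root.setHiD (qm 2048)).setHiD (qm 1024)).setHiU (qm 512)).setLoA (qm
    2048)).setHiD (qm 512)).setHiU (qm 256)).setHiA (qm 3072)).setLoD (qm 256)).setLoU (qm
    128)).setLoW (qm 128)).setHiW (qm 192)).setHiD (qm 384)).setHiW (qm 160)).setHiU (qm
    192)).setHiD (qm 320)).setHiU (qm 160)).setLoA (qm 2560)).setHiW (qm 144)).setHiD (qm
    288)).setLoU (qm 144)).setLoD (qm 272))
    (by decide +kernel))))
    (good_splitW (qm 136)
    (good_of_check
    (R .u5 2412414 5901797 3424633 4980736 13274806 26117 2965818 11863286 7532334 (-210850)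
    2965818 3315891 5999756 (-162957) 2965818 3057101 3057101 7803396)
    ((((((((((((((((((((root.setHiD (qm 2048)).setHiD (qm 1024)).setHiU (qm 512)).setLoA (qm
    2048)).setHiD (qm 512)).setHiU (qm 256)).setHiA (qm 3072)).setLoD (qm 256)).setLoU (qm
    128)).setLoW (qm 128)).setHiW (qm 192)).setHiD (qm 384)).setHiW (qm 160)).setHiU (qm
    192)).setHiD (qm 320)).setHiU (qm 160)).setLoA (qm 2560)).setHiW (qm 144)).setLoD (qm
    288)).setHiW (qm 136))
    (by decide +kernel))
    (good_of_check
    (R .u5 2436839 5847757 3424633 4975275 13233882 (-1488) 3057096 11863286 7610964 (-220348)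
    3057096 3315891 6644550 (-188260) 3057096 3145730 3145730 7941983)
    ((((((((((((((((((((root.setHiD (qm 2048)).setHiD (qm 1024)).setHiU (qm 512)).setLoA (qm
    2048)).setHiD (qm 512)).setHiU (qm 256)).setHiA (qm 3072)).setLoD (qm 256)).setLoU (qm
    128)).setLoW (qm 128)).setHiW (qm 192)).setHiD (qm 384)).setHiW (qm 160)).setHiU (qm
    192)).setHiD (qm 320)).setHiU (qm 160)).setLoA (qm 2560)).setHiW (qm 144)).setLoD (qm
    288)).setLoW (qm 136))
    (by decide +kernel))))
    (good_splitD (qm 288)
    (good_of_check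
    (R .u5 2443584 6019973 3424633 5013504 13196635 (-1330) 3145726 11863286 7976333 (-236336)
    3145726 3315891 7976333 (-236336) 3145726 3315891 3145730 7887463)
    (((((((((((((((((((root.setHiD (qm 2048)).setHiD (qm 1024)).setHiU (qm 512)).setLoA (qm
    2048)).setHiD (qm 512)).setHiU (qm 256)).setHiA (qm 3072)).setLoD (qm 256)).setLoU (qm
    128)).setLoW (qm 128)).setHiW (qm 192)).setHiD (qm 384)).setHiW (qm 160)).setHiU (qm
    192)).setHiD (qm 320)).setHiU (qm 160)).setLoA (qm 2560)).setLoW (qm 144)).setHiD (qm 288))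
    (by decide +kernel))
    (good_of_check
    (R .u5 2461236 5728297 3424633 4969813 13206196 (-32948) 3145726 11863286 7670537 (-228764)
    3145726 3315891 7670537 (-228764) 3145726 3315891 3315891 8360373)
    (((((((((((((((((((root.setHiD (qm 2048)).setHiD (qm 1024)).setHiU (qm 512)).setLoA (qm
    2048)).setHiD (qm 512)).setHiU (qm 256)).setHiA (qm 3072)).setLoD (qm 256)).setLoU (qm
    128)).setLoW (qm 128)).setHiW (qm 192)).setHiD (qm 384)).setHiW (qm 160)).setHiU (qm
    192)).setHiD (qm 320)).setHiU (qm 160)).setLoA (qm 2560)).setLoW (qm 144)).setLoD (qm 288))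
    (by decide +kernel)))))
    (good_splitW (qm 144)
    (good_of_check
    (R .u5 2454493 6259712 3424633 4958891 13242330 (-32882) 3315886 11863286 10148022 (-323890)
    3315886 3632376 5802286 (-161887) 2965818 3145730 3145730 7800196)
    (((((((((((((((((root.setHiD (qm 2048)).setHiD (qm 1024)).setHiU (qm 512)).setLoA (qm
    2048)).setHiD (qm 512)).setHiU (qm 256)).setHiA (qm 3072)).setLoD (qm 256)).setLoU (qm
    128)).setLoW (qm 128)).setHiW (qm 192)).setHiD (qm 384)).setHiW (qm 160)).setHiU (qm
    192)).setHiD (qm 320)).setLoU (qm 160)).setHiW (qm 144))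
    (by decide +kernel))
    (good_splitD (qm 288)
    (good_of_check
    (R .u5 2469573 6101884 3424633 4980736 13187062 (-40677) 3315886 11863286 9900604 (-317882)
    3315886 3632376 7527447 (-225181) 3145726 3315891 3145730 7682368)
    ((((((((((((((((((root.setHiD (qm 2048)).setHiD (qm 1024)).setHiU (qm 512)).setLoA (qm
    2048)).setHiD (qm 512)).setHiU (qm 256)).setHiA (qm 3072)).setLoD (qm 256)).setLoU (qm
    128)).setLoW (qm 128)).setHiW (qm 192)).setHiD (qm 384)).setHiW (qm 160)).setHiU (qm
    192)).setHiD (qm 320)).setLoU (qm 160)).setLoW (qm 144)).setHiD (qm 288))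
    (by decide +kernel))
    (good_of_check
    (R .u5 2489812 5789076 3424633 4937045 13189392 (-74008) 3315886 11863286 9571077 (-309726)
    3315886 3632376 7183766 (-216471) 3145726 3315891 3315891 8131859)
    ((((((((((((((((((root.setHiD (qm 2048)).setHiD (qm 1024)).setHiU (qm 512)).setLoA (qm
    2048)).setHiD (qm 512)).setHiU (qm 256)).setHiA (qm 3072)).setLoD (qm 256)).setLoU (qm
    128)).setLoW (qm 128)).setHiW (qm 192)).setHiD (qm 384)).setHiW (qm 160)).setHiU (qm
    192)).setHiD (qm 320)).setLoU (qm 160)).setLoW (qm 144)).setLoD (qm 288))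
    (by decide +kernel)))))
    (good_splitW (qm 144)
    (good_of_check
    (R .u5 2454493 5154427 3424633 4893355 13287317 (-46224) 2965818 11863286 8471308 (-245294)
    2965818 3632376 5802286 (-161887) 2965818 3145730 3145730 7800196)
    ((((((((((((((((root.setHiD (qm 2048)).setHiD (qm 1024)).setHiU (qm 512)).setLoA (qm
    2048)).setHiD (qm 512)).setHiU (qm 256)).setHiA (qm 3072)).setLoD (qm 256)).setLoU (qm
    128)).setLoW (qm 128)).setHiW (qm 192)).setHiD (qm 384)).setHiW (qm 160)).setHiU (qm
    192)).setLoD (qm 320)).setHiW (qm 144))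
    (by decide +kernel))
    (good_of_check
    (R .u5 2498145 5070442 3424633 4882432 13226030 (-98283) 3145726 11863286 8638773 (-268956)
    3145726 3632376 7043799 (-212883) 3145726 3315891 3315891 8066882)
    ((((((((((((((((root.setHiD (qm 2048)).setHiD (qm 1024)).setHiU (qm 512)).setLoA (qm
    2048)).setHiD (qm 512)).setHiU (qm 256)).setHiA (qm 3072)).setLoD (qm 256)).setLoU (qm
    128)).setLoW (qm 128)).setHiW (qm 192)).setHiD (qm 384)).setHiW (qm 160)).setHiU (qm
    192)).setLoD (qm 320)).setLoW (qm 144))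
    (by decide +kernel))))
    (good_splitD (qm 320)
    (good_of_check
    (R .u5 2522544 6063013 3424633 4893355 13193172 (-127478) 3632371 11863286 12239128 (-446076)
    3632371 4194306 5660154 (-164128) 2965818 3315891 3315891 7877814)
    (((((((((((((((root.setHiD (qm 2048)).setHiD (qm 1024)).setHiU (qm 512)).setLoA (qm
    2048)).setHiD (qm 512)).setHiU (qm 256)).setHiA (qm 3072)).setLoD (qm 256)).setLoU (qm
    128)).setLoW (qm 128)).setHiW (qm 192)).setHiD (qm 384)).setHiW (qm 160)).setLoU (qm
    192)).setHiD (qm 320))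
    (by decide +kernel))
    (good_of_check
    (R .u5 2568765 5399020 3424633 4805973 13175600 (-194960) 3632371 11863286 11603996 (-431204)
    3632371 4194306 4934773 (-144998) 2965818 3315891 3315891 7533472)
    (((((((((((((((root.setHiD (qm 2048)).setHiD (qm 1024)).setHiU (qm 512)).setLoA (qm
    2048)).setHiD (qm 512)).setHiU (qm 256)).setHiA (qm 3072)).setLoD (qm 256)).setLoU (qm
    128)).setLoW (qm 128)).setHiW (qm 192)).setHiD (qm 384)).setHiW (qm 160)).setLoU (qm
    192)).setLoD (qm 320))
    (by decide +kernel))))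
    (good_splitD (qm 320)
    (good_of_check
    (R .t5n 2806688 4685863 3424633 4915200 13279591 (-123595) 3248891 11844735 9704004 (-286028)
    3248891 4141546 6771795 (-171489) 3248891 3571324 3315891 9340424)
    ((((((((((((((root.setHiD (qm 2048)).setHiD (qm 1024)).setHiU (qm 512)).setLoA (qm
    2048)).setHiD (qm 512)).setHiU (qm 256)).setHiA (qm 3072)).setLoD (qm 256)).setLoU (qm
    128)).setLoW (qm 128)).setHiW (qm 192)).setHiD (qm 384)).setLoW (qm 160)).setHiD (qm 320))
    (by decide +kernel))
    (good_of_check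
    (R .u5 2553688 4685864 3424633 4827819 13186440 (-174606) 3315886 11863286 10724199 (-368261)
    3315886 4194306 8551521 (-283390) 3315886 3632376 3632376 8663527)
    ((((((((((((((root.setHiD (qm 2048)).setHiD (qm 1024)).setHiU (qm 512)).setLoA (qm
    2048)).setHiD (qm 512)).setHiU (qm 256)).setHiA (qm 3072)).setLoD (qm 256)).setLoU (qm
    128)).setLoW (qm 128)).setHiW (qm 192)).setHiD (qm 384)).setLoW (qm 160)).setLoD (qm 320))
    (by decide +kernel))))
    (good_splitW (qm 160)
    (good_of_check
    (R .u5 2533452 3600214 3424633 4718592 13312474 (-179131) 2965818 11863286 9633483 (-289198)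
    2965818 4194306 5485518 (-159574) 2965818 3315891 3315891 7795244)
    (((((((((((((root.setHiD (qm 2048)).setHiD (qm 1024)).setHiU (qm 512)).setLoA (qm
    2048)).setHiD (qm 512)).setHiU (qm 256)).setHiA (qm 3072)).setLoD (qm 256)).setLoU (qm
    128)).setLoW (qm 128)).setHiW (qm 192)).setLoD (qm 384)).setHiW (qm 160))
    (by decide +kernel))
    (good_of_check
    (R .u5 2608255 3655508 3424633 4696747 13199101 (-262738) 3315886 11863286 9946748 (-347825)
    3315886 4194306 7707724 (-260363) 3315886 3632376 3632376 8252704)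
    (((((((((((((root.setHiD (qm 2048)).setHiD (qm 1024)).setHiU (qm 512)).setLoA (qm
    2048)).setHiD (qm 512)).setHiU (qm 256)).setHiA (qm 3072)).setLoD (qm 256)).setLoU (qm
    128)).setLoW (qm 128)).setHiW (qm 192)).setLoD (qm 384)).setLoW (qm 160))
    (by decide +kernel))))
    (good_splitD (qm 384)
    (good_of_check
    (R .t5n 2916792 4061483 3424633 4849664 13176541 (-249985) 3558982 11841021 9414226 (-311866)
    3558982 4130913 9414226 (-311866) 3558982 4130913 3632376 9598876)
    ((((((((((((root.setHiD (qm 2048)).setHiD (qm 1024)).setHiU (qm 512)).setLoA (qm 2048)).setHiD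
    (qm 512)).setHiU (qm 256)).setHiA (qm 3072)).setLoD (qm 256)).setLoU (qm 128)).setLoW (qm
    128)).setLoW (qm 192)).setHiD (qm 384))
    (by decide +kernel))
    (good_of_check
    (R .u5 2718399 3036624 3424633 4674901 13005765 (-374164) 3632371 11863286 9595459 (-377444)
    3632371 4194306 9595459 (-377444) 3632371 4194306 4194306 8970552)
    ((((((((((((root.setHiD (qm 2048)).setHiD (qm 1024)).setHiU (qm 512)).setLoA (qm 2048)).setHiD
    (qm 512)).setHiU (qm 256)).setHiA (qm 3072)).setLoD (qm 256)).setLoU (qm 128)).setLoW (qm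
    128)).setLoW (qm 192)).setLoD (qm 384))
    (by decide +kernel)))))

set_option maxHeartbeats 4000000 in
/-- One subtree of the cover. -/
theorem sub25_good : BoxGood
    (((((((((root.setHiD (qm 2048)).setHiD (qm 1024)).setHiU (qm 512)).setLoA (qm 2048)).setHiD
    (qm 512)).setHiU (qm 256)).setLoA (qm 3072)).setHiD (qm 256)).setHiU (qm 128)) :=
    (good_splitA (qm 3584)
    (good_splitA (qm 3328)
    (good_of_check
    (T 3187671 51130568 8388609 12582911 1597833 3570465 3570465 1193777 4087414 4087414 1712320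
    2965823 2965823 55164715 12826961 12826961 24902303 16777216)
    (((((((((((root.setHiD (qm 2048)).setHiD (qm 1024)).setHiU (qm 512)).setLoA (qm 2048)).setHiD
    (qm 512)).setHiU (qm 256)).setLoA (qm 3072)).setHiD (qm 256)).setHiU (qm 128)).setHiA (qm
    3584)).setHiA (qm 3328))
    (by decide +kernel))
    (good_of_check
    (T 3523215 45089695 7264749 13096709 1409055 3192669 3192669 1359344 4338462 4338462 1712320
    2965823 2965823 47549349 11674143 11674143 24990453 16777216)
    (((((((((((root.setHiD (qm 2048)).setHiD (qm 1024)).setHiU (qm 512)).setLoA (qm 2048)).setHiD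
    (qm 512)).setHiU (qm 256)).setLoA (qm 3072)).setHiD (qm 256)).setHiU (qm 128)).setHiA (qm
    3584)).setLoA (qm 3328))
    (by decide +kernel)))
    (good_of_check
    (T 2684355 39547403 5931643 13591097 1235859 2707119 2707119 1063276 5008420 5008420 1712320
    2965823 2965823 62375204 9228626 9228626 25165824 16777216)
    ((((((((((root.setHiD (qm 2048)).setHiD (qm 1024)).setHiU (qm 512)).setLoA (qm 2048)).setHiD
    (qm 512)).setHiU (qm 256)).setLoA (qm 3072)).setHiD (qm 256)).setHiU (qm 128)).setLoA (qm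
    3584))
    (by decide +kernel)))

end Vale.Agent.P226.Cert
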