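import Vale.Agent.P226.CertBox
import Vale.Agent.P226.CertSound

/-! Part 14 of the cover (P226). -/

namespace Vale.Agent.P226.Cert

set_option maxHeartbeats 4000000 in
/-- One subtree of the cover. -/
theorem sub26_good : BoxGood
    (((((((((((root.setHiD (qm 2048)).setHiD (qm 1024)).setHiU (qm 512)).setLoA (qm 2048)).setHiD
    (qm 512)).setHiU (qm 256)).setLoA (qm 3072)).setHiD (qm 256)).setLoU (qm 128)).setHiW (qm
    128)).setHiD (qm 128)) :=
    (good_splitU (qm 192)
    (good_splitA (qm 3584)
    (good_splitA (qm 3328)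
    (good_splitA (qm 3200)
    (good_of_check
    (T 2852127 49941485 8388609 12582911 1300562 4121055 3180892 1096848 3722171 4528742 1563127
    3632376 2965823 60000059 16176288 10894826 24858111 16312014)
    (((((((((((((((root.setHiD (qm 2048)).setHiD (qm 1024)).setHiU (qm 512)).setLoA (qm
    2048)).setHiD (qm 512)).setHiU (qm 256)).setLoA (qm 3072)).setHiD (qm 256)).setLoU (qm
    128)).setHiW (qm 128)).setHiD (qm 128)).setHiU (qm 192)).setHiA (qm 3584)).setHiA (qm
    3328)).setHiA (qm 3200))
    (by decide +kernel))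
    (good_of_check
    (T 2852127 46911666 7846826 12842379 1221660 3871041 2987915 1111820 4014621 4702152 1563127
    3632376 2965823 59105038 14558172 10246824 24902303 16312014)
    (((((((((((((((root.setHiD (qm 2048)).setHiD (qm 1024)).setHiU (qm 512)).setLoA (qm
    2048)).setHiD (qm 512)).setHiU (qm 256)).setLoA (qm 3072)).setHiD (qm 256)).setLoU (qm
    128)).setHiW (qm 128)).setHiD (qm 128)).setHiU (qm 192)).setHiA (qm 3584)).setHiA (qm
    3328)).setLoA (qm 3200))
    (by decide +kernel)))
    (good_of_check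
    (T 3187671 44041098 7264749 13096709 1146906 3695583 2846025 1258591 4114556 4719109 1563127
    3632376 2965823 51215449 14055961 10186399 24990453 16312014)
    ((((((((((((((root.setHiD (qm 2048)).setHiD (qm 1024)).setHiU (qm 512)).setLoA (qm
    2048)).setHiD (qm 512)).setHiU (qm 256)).setLoA (qm 3072)).setHiD (qm 256)).setLoU (qm
    128)).setHiW (qm 128)).setHiD (qm 128)).setHiU (qm 192)).setHiA (qm 3584)).setLoA (qm 3328))
    (by decide +kernel)))
    (good_splitD (qm 64)
    (good_of_check
    (T 3523215 37749794 5931643 13591097 786457 3026360 1533093 1450047 4633230 5298623 1398104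
    3632376 2097154 41337772 11797307 6419055 25165824 16379281)
    ((((((((((((((root.setHiD (qm 2048)).setHiD (qm 1024)).setHiU (qm 512)).setLoA (qm
    2048)).setHiD (qm 512)).setHiU (qm 256)).setLoA (qm 3072)).setHiD (qm 256)).setLoU (qm
    128)).setHiW (qm 128)).setHiD (qm 128)).setHiU (qm 192)).setLoA (qm 3584)).setHiD (qm 64))
    (by decide +kernel))
    (good_of_check
    (T 3523215 38627696 5931643 13591097 1005932 3297926 2533929 1424247 4398839 4855534 1563127
    3632376 2965823 43926861 12750982 9718067 25165824 16244470)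
    ((((((((((((((root.setHiD (qm 2048)).setHiD (qm 1024)).setHiU (qm 512)).setLoA (qm
    2048)).setHiD (qm 512)).setHiU (qm 256)).setLoA (qm 3072)).setHiD (qm 256)).setLoU (qm
    128)).setHiW (qm 128)).setHiD (qm 128)).setHiU (qm 192)).setLoA (qm 3584)).setLoD (qm 64))
    (by decide +kernel))))
    (good_splitD (qm 64)
    (good_splitD (qm 32)
    (good_splitU (qm 224)
    (good_splitA (qm 3584)
    (good_splitA (qm 3328)
    (good_splitA (qm 3200)
    (good_of_check
    (R .t4n 3246596 6384778 3203451 5286571 13156786 (-101062) 3613403 11857492 9294752 (-379395)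
    3613403 3905860 0 0 0 0 1482913 3739222)
    ((((((((((((((((((root.setHiD (qm 2048)).setHiD (qm 1024)).setHiU (qm 512)).setLoA (qm
    2048)).setHiD (qm 512)).setHiU (qm 256)).setLoA (qm 3072)).setHiD (qm 256)).setLoU (qm
    128)).setHiW (qm 128)).setHiD (qm 128)).setLoU (qm 192)).setHiD (qm 64)).setHiD (qm
    32)).setHiU (qm 224)).setHiA (qm 3584)).setHiA (qm 3328)).setHiA (qm 3200))
    (by decide +kernel))
    (good_of_check
    (T 2852127 45845492 7846826 12842379 955117 3975813 1386647 1135576 3957231 5451249 1398104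
    3923415 1482913 56663990 15302849 4486923 24902303 16312014)
    ((((((((((((((((((root.setHiD (qm 2048)).setHiD (qm 1024)).setHiU (qm 512)).setLoA (qm
    2048)).setHiD (qm 512)).setHiU (qm 256)).setLoA (qm 3072)).setHiD (qm 256)).setLoU (qm
    128)).setHiW (qm 128)).setHiD (qm 128)).setLoU (qm 192)).setHiD (qm 64)).setHiD (qm
    32)).setHiU (qm 224)).setHiA (qm 3584)).setHiA (qm 3328)).setLoA (qm 3200))
    (by decide +kernel)))
    (good_splitA (qm 3456)
    (good_of_check
    (T 3187671 43040164 7264749 13096709 896673 3802551 1311801 1283962 4066278 5390765 1398104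
    3923415 1482913 48615953 14745144 4583847 24946417 16312014)
    ((((((((((((((((((root.setHiD (qm 2048)).setHiD (qm 1024)).setHiU (qm 512)).setLoA (qm
    2048)).setHiD (qm 512)).setHiU (qm 256)).setLoA (qm 3072)).setHiD (qm 256)).setLoU (qm
    128)).setHiW (qm 128)).setHiD (qm 128)).setLoU (qm 192)).setHiD (qm 64)).setHiD (qm
    32)).setHiU (qm 224)).setHiA (qm 3584)).setLoA (qm 3328)).setHiA (qm 3456))
    (by decide +kernel))
    (good_of_check
    (T 3187671 40354901 6631778 13346192 840730 3565311 1229958 1298199 4312897 5460986 1398104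
    3923415 1482913 47926966 13581984 4471604 24990453 16312014)
    ((((((((((((((((((root.setHiD (qm 2048)).setHiD (qm 1024)).setHiU (qm 512)).setLoA (qm
    2048)).setHiD (qm 512)).setHiU (qm 256)).setLoA (qm 3072)).setHiD (qm 256)).setLoU (qm
    128)).setHiW (qm 128)).setHiD (qm 128)).setLoU (qm 192)).setHiD (qm 64)).setHiD (qm
    32)).setHiU (qm 224)).setHiA (qm 3584)).setLoA (qm 3328)).setLoA (qm 3456))
    (by decide +kernel))))
    (good_splitA (qm 3840)
    (good_of_check
    (T 3187671 37749794 5931643 13591097 786457 3335153 1150559 1311947 4534647 5528334 1398104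
    3923415 1482913 47274122 12640559 4367729 25078293 16312014)
    (((((((((((((((((root.setHiD (qm 2048)).setHiD (qm 1024)).setHiU (qm 512)).setLoA (qm
    2048)).setHiD (qm 512)).setHiU (qm 256)).setLoA (qm 3072)).setHiD (qm 256)).setLoU (qm
    128)).setHiW (qm 128)).setHiD (qm 128)).setLoU (qm 192)).setHiD (qm 64)).setHiD (qm
    32)).setHiU (qm 224)).setLoA (qm 3584)).setHiA (qm 3840))
    (by decide +kernel))
    (good_of_check
    (T 3523215 32537635 4194305 14068122 677870 2930280 999645 1479095 4774440 5515275 1398104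
    3923415 1482913 40219613 11720375 4387590 25165824 16312014)
    (((((((((((((((((root.setHiD (qm 2048)).setHiD (qm 1024)).setHiU (qm 512)).setLoA (qm
    2048)).setHiD (qm 512)).setHiU (qm 256)).setLoA (qm 3072)).setHiD (qm 256)).setLoU (qm
    128)).setHiW (qm 128)).setHiD (qm 128)).setLoU (qm 192)).setHiD (qm 64)).setHiD (qm
    32)).setHiU (qm 224)).setLoA (qm 3584)).setLoA (qm 3840))
    (by decide +kernel))))
    (good_splitD (qm 16)
    (good_splitA (qm 3584)
    (good_of_check
    (R .t4n 3407141 5712652 2421581 5253803 12981198 (-253665) 3914642 11860389 10059349 (-475507)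
    3914642 4186106 0 0 0 0 1048578 1791880)
    (((((((((((((((((root.setHiD (qm 2048)).setHiD (qm 1024)).setHiU (qm 512)).setLoA (qm
    2048)).setHiD (qm 512)).setHiU (qm 256)).setLoA (qm 3072)).setHiD (qm 256)).setLoU (qm
    128)).setHiW (qm 128)).setHiD (qm 128)).setLoU (qm 192)).setHiD (qm 64)).setHiD (qm
    32)).setLoU (qm 224)).setHiD (qm 16)).setHiA (qm 3584))
    (by decide +kernel))
    (good_splitD (qm 8)
    (good_splitA (qm 3840)
    (good_splitU (qm 240)
    (good_of_check
    (T 3187671 37642854 5931643 13591097 759722 3482732 850491 1314695 4426264 5591400 1376085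
    4061120 741458 46911621 13280912 2203123 25078293 16286718)
    ((((((((((((((((((((root.setHiD (qm 2048)).setHiD (qm 1024)).setHiU (qm 512)).setLoA (qm
    2048)).setHiD (qm 512)).setHiU (qm 256)).setLoA (qm 3072)).setHiD (qm 256)).setLoU (qm
    128)).setHiW (qm 128)).setHiD (qm 128)).setLoU (qm 192)).setHiD (qm 64)).setHiD (qm
    32)).setLoU (qm 224)).setHiD (qm 16)).setLoA (qm 3584)).setHiD (qm 8)).setHiA (qm
    3840)).setHiU (qm 240))
    (by decide +kernel))
    (good_splitD (qm 4)
    (good_splitD (qm 2)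
    (good_splitU (qm 248)
    (good_of_check
    (R .t4n 3503768 5123642 1712316 5257899 12880236 (-344726) 4060057 11862924 9183423 (-460770)
    4060057 4127210 0 0 0 0 370730 225404)
    (((((((((((((((((((((((root.setHiD (qm 2048)).setHiD (qm 1024)).setHiU (qm 512)).setLoA (qm
    2048)).setHiD (qm 512)).setHiU (qm 256)).setLoA (qm 3072)).setHiD (qm 256)).setLoU (qm
    128)).setHiW (qm 128)).setHiD (qm 128)).setLoU (qm 192)).setHiD (qm 64)).setHiD (qm
    32)).setLoU (qm 224)).setHiD (qm 16)).setLoA (qm 3584)).setHiD (qm 8)).setHiA (qm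
    3840)).setLoU (qm 240)).setHiD (qm 4)).setHiD (qm 2)).setHiU (qm 248))
    (by decide +kernel))
    (good_of_check
    (R .t4n 3532334 4984345 1712316 5246976 12862480 (-374928) 4127205 11862924 9431161 (-484202)
    4127205 4193282 0 0 0 0 370730 220124)
    (((((((((((((((((((((((root.setHiD (qm 2048)).setHiD (qm 1024)).setHiU (qm 512)).setLoA (qm
    2048)).setHiD (qm 512)).setHiU (qm 256)).setLoA (qm 3072)).setHiD (qm 256)).setLoU (qm
    128)).setHiW (qm 128)).setHiD (qm 128)).setLoU (qm 192)).setHiD (qm 64)).setHiD (qm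
    32)).setLoU (qm 224)).setHiD (qm 16)).setLoA (qm 3584)).setHiD (qm 8)).setHiA (qm
    3840)).setLoU (qm 240)).setHiD (qm 4)).setHiD (qm 2)).setLoU (qm 248))
    (by decide +kernel)))
    (good_of_check
    (R .t4n 3506345 5088159 1712316 5249707 12881485 (-348282) 4058999 11862562 9448875 (-476239)
    4058999 4192258 0 0 0 0 524290 442167)
    ((((((((((((((((((((((root.setHiD (qm 2048)).setHiD (qm 1024)).setHiU (qm 512)).setLoA (qm
    2048)).setHiD (qm 512)).setHiU (qm 256)).setLoA (qm 3072)).setHiD (qm 256)).setLoU (qm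
    128)).setHiW (qm 128)).setHiD (qm 128)).setLoU (qm 192)).setHiD (qm 64)).setHiD (qm
    32)).setLoU (qm 224)).setHiD (qm 16)).setLoA (qm 3584)).setHiD (qm 8)).setHiA (qm
    3840)).setLoU (qm 240)).setHiD (qm 4)).setLoD (qm 2))
    (by decide +kernel)))
    (good_of_check
    (R .t4n 3506345 5068330 1712316 5245611 12883284 (-348717) 4056882 11861837 9411450 (-472464)
    4056882 4190208 0 0 0 0 741458 863358)
    (((((((((((((((((((((root.setHiD (qm 2048)).setHiD (qm 1024)).setHiU (qm 512)).setLoA (qm
    2048)).setHiD (qm 512)).setHiU (qm 256)).setLoA (qm 3072)).setHiD (qm 256)).setLoU (qm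
    128)).setHiW (qm 128)).setHiD (qm 128)).setLoU (qm 192)).setHiD (qm 64)).setHiD (qm
    32)).setLoU (qm 224)).setHiD (qm 16)).setLoA (qm 3584)).setHiD (qm 8)).setHiA (qm
    3840)).setLoU (qm 240)).setLoD (qm 4))
    (by decide +kernel))))
    (good_splitA (qm 3968)
    (good_of_check
    (T 3523215 32630335 4194305 14068122 701045 3282561 781720 1476227 4531864 5542631 1419781
    4194306 741458 40566346 13017402 2241651 25122098 16269832)
    ((((((((((((((((((((root.setHiD (qm 2048)).setHiD (qm 1024)).setHiU (qm 512)).setLoA (qm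
    2048)).setHiD (qm 512)).setHiU (qm 256)).setLoA (qm 3072)).setHiD (qm 256)).setLoU (qm
    128)).setHiW (qm 128)).setHiD (qm 128)).setLoU (qm 192)).setHiD (qm 64)).setHiD (qm
    32)).setLoU (qm 224)).setHiD (qm 16)).setLoA (qm 3584)).setHiD (qm 8)).setLoA (qm
    3840)).setHiA (qm 3968))
    (by decide +kernel))
    (good_of_check
    (T 3523215 29727963 2965822 14300669 638689 2990587 712188 1490396 4768921 5597711 1419781
    4194306 741458 40034825 12107420 2198210 25165824 16269832)
    ((((((((((((((((((((root.setHiD (qm 2048)).setHiD (qm 1024)).setHiU (qm 512)).setLoA (qm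
    2048)).setHiD (qm 512)).setHiU (qm 256)).setLoA (qm 3072)).setHiD (qm 256)).setLoU (qm
    128)).setHiW (qm 128)).setHiD (qm 128)).setLoU (qm 192)).setHiD (qm 64)).setHiD (qm
    32)).setLoU (qm 224)).setHiD (qm 16)).setLoA (qm 3584)).setHiD (qm 8)).setLoA (qm
    3840)).setLoA (qm 3968))
    (by decide +kernel))))
    (good_splitU (qm 240)
    (good_splitA (qm 3840)
    (good_of_check
    (T 3187671 37749794 5931643 13591097 786457 3517203 968509 1311947 4392049 5563823 1398104
    4061120 1048578 47274122 13426735 3113672 25078293 16269832)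
    ((((((((((((((((((((root.setHiD (qm 2048)).setHiD (qm 1024)).setHiU (qm 512)).setLoA (qm
    2048)).setHiD (qm 512)).setHiU (qm 256)).setLoA (qm 3072)).setHiD (qm 256)).setLoU (qm
    128)).setHiW (qm 128)).setHiD (qm 128)).setLoU (qm 192)).setHiD (qm 64)).setHiD (qm
    32)).setLoU (qm 224)).setHiD (qm 16)).setLoA (qm 3584)).setLoD (qm 8)).setHiU (qm 240)).setHiA
    (qm 3840))
    (by decide +kernel))
    (good_of_check
    (T 3523215 32537635 4194305 14068122 677870 3091166 838759 1479095 4671397 5542150 1398104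
    4061120 1048578 40219613 12296858 3137563 25165824 16269832)
    ((((((((((((((((((((root.setHiD (qm 2048)).setHiD (qm 1024)).setHiU (qm 512)).setLoA (qm
    2048)).setHiD (qm 512)).setHiU (qm 256)).setLoA (qm 3072)).setHiD (qm 256)).setLoU (qm
    128)).setHiW (qm 128)).setHiD (qm 128)).setLoU (qm 192)).setHiD (qm 64)).setHiD (qm
    32)).setLoU (qm 224)).setHiD (qm 16)).setLoA (qm 3584)).setLoD (qm 8)).setHiU (qm 240)).setLoA
    (qm 3840))
    (by decide +kernel)))
    (good_splitD (qm 12)
    (good_of_check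
    (R .t4n 3532334 0 0 5240149 12852428 (-371463) 4054764 11861113 9006070 (-453989) 4054764
    4188158 0 0 0 0 908096 1238341)
    ((((((((((((((((((((root.setHiD (qm 2048)).setHiD (qm 1024)).setHiU (qm 512)).setLoA (qm
    2048)).setHiD (qm 512)).setHiU (qm 256)).setLoA (qm 3072)).setHiD (qm 256)).setLoU (qm
    128)).setHiW (qm 128)).setHiD (qm 128)).setLoU (qm 192)).setHiD (qm 64)).setHiD (qm
    32)).setLoU (qm 224)).setHiD (qm 16)).setLoA (qm 3584)).setLoD (qm 8)).setLoU (qm 240)).setHiD
    (qm 12))
    (by decide +kernel))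
    (good_of_check
    (R .t4n 3532334 0 0 5234688 12852039 (-371212) 4052645 11860389 8967844 (-450136) 4052645
    4186106 0 0 0 0 1048578 1617759)
    ((((((((((((((((((((root.setHiD (qm 2048)).setHiD (qm 1024)).setHiU (qm 512)).setLoA (qm
    2048)).setHiD (qm 512)).setHiU (qm 256)).setLoA (qm 3072)).setHiD (qm 256)).setLoU (qm
    128)).setHiW (qm 128)).setHiD (qm 128)).setLoU (qm 192)).setHiD (qm 64)).setHiD (qm
    32)).setLoU (qm 224)).setHiD (qm 16)).setLoA (qm 3584)).setLoD (qm 8)).setLoU (qm 240)).setLoD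
    (qm 12))
    (by decide +kernel))))))
    (good_splitD (qm 24)
    (good_splitD (qm 20)
    (good_splitD (qm 18)
    (good_splitD (qm 17)
    (good_splitA (qm 3584)
    (good_of_check
    (R .t4n 3402975 5748120 2421581 5242197 12994807 (-252593) 3914094 11860208 10109811 (-476766)
    3914094 4185593 0 0 0 0 1080850 1899476)
    (((((((((((((((((((((root.setHiD (qm 2048)).setHiD (qm 1024)).setHiU (qm 512)).setLoA (qm
    2048)).setHiD (qm 512)).setHiU (qm 256)).setLoA (qm 3072)).setHiD (qm 256)).setLoU (qm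
    128)).setHiW (qm 128)).setHiD (qm 128)).setLoU (qm 192)).setHiD (qm 64)).setHiD (qm
    32)).setLoU (qm 224)).setLoD (qm 16)).setHiD (qm 24)).setHiD (qm 20)).setHiD (qm 18)).setHiD
    (qm 17)).setHiA (qm 3584))
    (by decide +kernel))
    (good_splitA (qm 3840)
    (good_of_check
    (R .t4n 3453381 5120256 1712316 5242197 12956435 (-304726) 3914094 11860208 9376714 (-449190)
    3914094 4185593 0 0 0 0 1080850 1823042)
    ((((((((((((((((((((((root.setHiD (qm 2048)).setHiD (qm 1024)).setHiU (qm 512)).setLoA (qm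
    2048)).setHiD (qm 512)).setHiU (qm 256)).setLoA (qm 3072)).setHiD (qm 256)).setLoU (qm
    128)).setHiW (qm 128)).setHiD (qm 128)).setLoU (qm 192)).setHiD (qm 64)).setHiD (qm
    32)).setLoU (qm 224)).setLoD (qm 16)).setHiD (qm 24)).setHiD (qm 20)).setHiD (qm 18)).setHiD
    (qm 17)).setLoA (qm 3584)).setHiA (qm 3840))
    (by decide +kernel))
    (good_splitA (qm 3968)
    (good_of_check
    (T 3523215 32735256 4194305 14068122 727275 3317092 899257 1472962 4499376 5515885 1443779
    4194306 1080850 40943354 13149319 3260061 25122098 16243412)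
    (((((((((((((((((((((((root.setHiD (qm 2048)).setHiD (qm 1024)).setHiU (qm 512)).setLoA (qm
    2048)).setHiD (qm 512)).setHiU (qm 256)).setLoA (qm 3072)).setHiD (qm 256)).setLoU (qm
    128)).setHiW (qm 128)).setHiD (qm 128)).setLoU (qm 192)).setHiD (qm 64)).setHiD (qm
    32)).setLoU (qm 224)).setLoD (qm 16)).setHiD (qm 24)).setHiD (qm 20)).setHiD (qm 18)).setHiD
    (qm 17)).setLoA (qm 3584)).setLoA (qm 3840)).setHiA (qm 3968))
    (by decide +kernel))
    (good_of_check
    (T 3523215 29823551 2965822 14300669 662586 3022047 819271 1487256 4741065 5573819 1443779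
    4194306 1080850 40406154 12209750 3194119 25165824 16243412)
    (((((((((((((((((((((((root.setHiD (qm 2048)).setHiD (qm 1024)).setHiU (qm 512)).setLoA (qm
    2048)).setHiD (qm 512)).setHiU (qm 256)).setLoA (qm 3072)).setHiD (qm 256)).setLoU (qm
    128)).setHiW (qm 128)).setHiD (qm 128)).setLoU (qm 192)).setHiD (qm 64)).setHiD (qm
    32)).setLoU (qm 224)).setLoD (qm 16)).setHiD (qm 24)).setHiD (qm 20)).setHiD (qm 18)).setHiD
    (qm 17)).setLoA (qm 3584)).setLoA (qm 3840)).setLoA (qm 3968))
    (by decide +kernel)))))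
    (good_of_check
    (R .t4n 3481944 0 0 5240832 12952478 (-339465) 3913545 11860027 8946353 (-431735) 3913545
    4185080 0 0 0 0 1112185 1875136)
    ((((((((((((((((((((root.setHiD (qm 2048)).setHiD (qm 1024)).setHiU (qm 512)).setLoA (qm
    2048)).setHiD (qm 512)).setHiU (qm 256)).setLoA (qm 3072)).setHiD (qm 256)).setLoU (qm
    128)).setHiW (qm 128)).setHiD (qm 128)).setLoU (qm 192)).setHiD (qm 64)).setHiD (qm
    32)).setLoU (qm 224)).setLoD (qm 16)).setHiD (qm 24)).setHiD (qm 20)).setHiD (qm 18)).setLoD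
    (qm 17))
    (by decide +kernel)))
    (good_of_check
    (R .t4n 3481944 0 0 5238784 12952296 (-339344) 3912447 11859665 8926001 (-429750) 3912447
    4184054 0 0 0 0 1172346 2060874)
    (((((((((((((((((((root.setHiD (qm 2048)).setHiD (qm 1024)).setHiU (qm 512)).setLoA (qm
    2048)).setHiD (qm 512)).setHiU (qm 256)).setLoA (qm 3072)).setHiD (qm 256)).setLoU (qm
    128)).setHiW (qm 128)).setHiD (qm 128)).setLoU (qm 192)).setHiD (qm 64)).setHiD (qm
    32)).setLoU (qm 224)).setLoD (qm 16)).setHiD (qm 24)).setHiD (qm 20)).setLoD (qm 18))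
    (by decide +kernel)))
    (good_of_check
    (R .t4n 3481944 0 0 5234688 12951933 (-339103) 3910251 11858940 8885196 (-425771) 3910251
    4182000 0 0 0 0 1284241 2421278)
    ((((((((((((((((((root.setHiD (qm 2048)).setHiD (qm 1024)).setHiU (qm 512)).setLoA (qm
    2048)).setHiD (qm 512)).setHiU (qm 256)).setLoA (qm 3072)).setHiD (qm 256)).setLoU (qm
    128)).setHiW (qm 128)).setHiD (qm 128)).setLoU (qm 192)).setHiD (qm 64)).setHiD (qm
    32)).setLoU (qm 224)).setLoD (qm 16)).setHiD (qm 24)).setLoD (qm 20))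
    (by decide +kernel)))
    (good_of_check
    (R .t4n 3486110 0 0 5226496 12946209 (-342294) 3905855 11857492 8741228 (-415291) 3905855
    4177890 0 0 0 0 1482913 3092648)
    (((((((((((((((((root.setHiD (qm 2048)).setHiD (qm 1024)).setHiU (qm 512)).setLoA (qm
    2048)).setHiD (qm 512)).setHiU (qm 256)).setLoA (qm 3072)).setHiD (qm 256)).setLoU (qm
    128)).setHiW (qm 128)).setHiD (qm 128)).setLoU (qm 192)).setHiD (qm 64)).setHiD (qm
    32)).setLoU (qm 224)).setLoD (qm 16)).setLoD (qm 24))
    (by decide +kernel)))))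
    (good_splitU (qm 224)
    (good_splitA (qm 3584)
    (good_splitD (qm 48)
    (good_splitA (qm 3328)
    (good_of_check
    (R .t4n 3253354 6277444 2965819 5253803 13155067 (-108815) 3603882 11854594 8969852 (-357723)
    3603882 3897053 0 0 0 0 1816189 5121371)
    ((((((((((((((((((root.setHiD (qm 2048)).setHiD (qm 1024)).setHiU (qm 512)).setLoA (qm
    2048)).setHiD (qm 512)).setHiU (qm 256)).setLoA (qm 3072)).setHiD (qm 256)).setLoU (qm
    128)).setHiW (qm 128)).setHiD (qm 128)).setLoU (qm 192)).setHiD (qm 64)).setLoD (qm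
    32)).setHiU (qm 224)).setHiA (qm 3584)).setHiD (qm 48)).setHiA (qm 3328))
    (by decide +kernel))
    (good_of_check
    (T 3187671 43286107 7264749 13096709 958159 3880642 1584407 1277911 3981716 5303141 1441132
    3923415 1816189 49324521 15175160 5668517 24990453 16261382)
    ((((((((((((((((((root.setHiD (qm 2048)).setHiD (qm 1024)).setHiU (qm 512)).setLoA (qm
    2048)).setHiD (qm 512)).setHiU (qm 256)).setLoA (qm 3072)).setHiD (qm 256)).setLoU (qm
    128)).setHiW (qm 128)).setHiD (qm 128)).setLoU (qm 192)).setHiD (qm 64)).setLoD (qm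
    32)).setHiU (qm 224)).setHiA (qm 3584)).setHiD (qm 48)).setLoA (qm 3328))
    (by decide +kernel)))
    (good_of_check
    (R .t4n 3310487 5545943 2421581 5231957 13094813 (-163727) 3594335 11851695 7748801 (-302529)
    3594335 3888226 0 0 0 0 2097154 6051204)
    (((((((((((((((((root.setHiD (qm 2048)).setHiD (qm 1024)).setHiU (qm 512)).setLoA (qm
    2048)).setHiD (qm 512)).setHiU (qm 256)).setLoA (qm 3072)).setHiD (qm 256)).setLoU (qm
    128)).setHiW (qm 128)).setHiD (qm 128)).setLoU (qm 192)).setHiD (qm 64)).setLoD (qm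
    32)).setHiU (qm 224)).setHiA (qm 3584)).setLoD (qm 48))
    (by decide +kernel)))
    (good_splitA (qm 3840)
    (good_of_check
    (T 3187671 38183700 5931643 13591097 894933 3472924 1631504 1300585 4402628 5372650 1482913
    3923415 2097154 48604376 13189849 6257629 25078293 16244470)
    (((((((((((((((((root.setHiD (qm 2048)).setHiD (qm 1024)).setHiU (qm 512)).setLoA (qm
    2048)).setHiD (qm 512)).setHiU (qm 256)).setLoA (qm 3072)).setHiD (qm 256)).setLoU (qm
    128)).setHiW (qm 128)).setHiD (qm 128)).setLoU (qm 192)).setHiD (qm 64)).setLoD (qm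
    32)).setHiU (qm 224)).setLoA (qm 3584)).setHiA (qm 3840))
    (by decide +kernel))
    (good_of_check
    (T 3523215 32911631 4194305 14068122 771369 3049669 1422314 1467430 4671947 5390341 1482913
    3923415 2097154 41543420 12102027 6219929 25165824 16244470)
    (((((((((((((((((root.setHiD (qm 2048)).setHiD (qm 1024)).setHiU (qm 512)).setLoA (qm
    2048)).setHiD (qm 512)).setHiU (qm 256)).setLoA (qm 3072)).setHiD (qm 256)).setLoU (qm
    128)).setHiW (qm 128)).setHiD (qm 128)).setLoU (qm 192)).setHiD (qm 64)).setLoD (qm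
    32)).setHiU (qm 224)).setLoA (qm 3584)).setLoA (qm 3840))
    (by decide +kernel))))
    (good_splitD (qm 48)
    (good_of_check
    (R .t4n 3488685 0 0 5210112 12941640 (-343587) 3897048 11854594 8536564 (-397558) 3897048
    4169658 0 0 0 0 1816189 4290228)
    ((((((((((((((((root.setHiD (qm 2048)).setHiD (qm 1024)).setHiU (qm 512)).setLoA (qm
    2048)).setHiD (qm 512)).setHiU (qm 256)).setLoA (qm 3072)).setHiD (qm 256)).setLoU (qm
    128)).setHiW (qm 128)).setHiD (qm 128)).setLoU (qm 192)).setHiD (qm 64)).setLoD (qm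
    32)).setLoU (qm 224)).setHiD (qm 48))
    (by decide +kernel))
    (good_of_check
    (R .t4n 3495434 0 0 5188267 12932017 (-348528) 3888221 11851695 8266123 (-376984) 3888221
    4161409 0 0 0 0 2097154 5301717)
    ((((((((((((((((root.setHiD (qm 2048)).setHiD (qm 1024)).setHiU (qm 512)).setLoA (qm
    2048)).setHiD (qm 512)).setHiU (qm 256)).setLoA (qm 3072)).setHiD (qm 256)).setLoU (qm
    128)).setHiW (qm 128)).setHiD (qm 128)).setLoU (qm 192)).setHiD (qm 64)).setLoD (qm
    32)).setLoU (qm 224)).setLoD (qm 48))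
    (by decide +kernel)))))
    (good_splitD (qm 96)
    (good_splitU (qm 224)
    (good_splitD (qm 80)
    (good_splitA (qm 3584)
    (good_of_check
    (R .t4n 3325566 5213148 2421581 5210112 13101679 (-184989) 3584763 11848795 7254992 (-273369)
    3584763 3879379 0 0 0 0 2344690 6960788)
    (((((((((((((((((root.setHiD (qm 2048)).setHiD (qm 1024)).setHiU (qm 512)).setLoA (qm
    2048)).setHiD (qm 512)).setHiU (qm 256)).setLoA (qm 3072)).setHiD (qm 256)).setLoU (qm
    128)).setHiW (qm 128)).setHiD (qm 128)).setLoU (qm 192)).setLoD (qm 64)).setHiD (qm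
    96)).setHiU (qm 224)).setHiD (qm 80)).setHiA (qm 3584))
    (by decide +kernel))
    (good_splitA (qm 3840)
    (good_of_check
    (T 3523215 38404415 5931643 13591097 950112 3608648 1899591 1430956 4173101 5137755 1523548
    3923415 2344690 43330446 14225284 7430704 25078293 16193626)
    ((((((((((((((((((root.setHiD (qm 2048)).setHiD (qm 1024)).setHiU (qm 512)).setLoA (qm
    2048)).setHiD (qm 512)).setHiU (qm 256)).setLoA (qm 3072)).setHiD (qm 256)).setLoU (qm
    128)).setHiW (qm 128)).setHiD (qm 128)).setLoU (qm 192)).setLoD (qm 64)).setHiD (qm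
    96)).setHiU (qm 224)).setHiD (qm 80)).setLoA (qm 3584)).setHiA (qm 3840))
    (by decide +kernel))
    (good_of_check
    (T 3523215 33101871 4194305 14068122 818929 3110398 1637312 1461403 4618679 5314051 1523548
    3923415 2344690 42148402 12307150 6994504 25165824 16193626)
    ((((((((((((((((((root.setHiD (qm 2048)).setHiD (qm 1024)).setHiU (qm 512)).setLoA (qm
    2048)).setHiD (qm 512)).setHiU (qm 256)).setLoA (qm 3072)).setHiD (qm 256)).setLoU (qm
    128)).setHiW (qm 128)).setHiD (qm 128)).setLoU (qm 192)).setLoD (qm 64)).setHiD (qm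
    96)).setHiU (qm 224)).setHiD (qm 80)).setLoA (qm 3584)).setLoA (qm 3840))
    (by decide +kernel))))
    (good_splitW (qm 48)
    (good_of_check
    (R .t4n 3382745 0 0 5188267 13086004 (-253013) 3575165 11845895 5979117 (-212208) 3575165
    3870512 0 0 0 0 1816189 4640729)
    (((((((((((((((((root.setHiD (qm 2048)).setHiD (qm 1024)).setHiU (qm 512)).setLoA (qm
    2048)).setHiD (qm 512)).setHiU (qm 256)).setLoA (qm 3072)).setHiD (qm 256)).setLoU (qm
    128)).setHiW (qm 128)).setHiD (qm 128)).setLoU (qm 192)).setLoD (qm 64)).setHiD (qm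
    96)).setHiU (qm 224)).setLoD (qm 80)).setHiW (qm 48))
    (by decide +kernel))
    (good_splitU (qm 208)
    (good_splitA (qm 3584)
    (good_splitA (qm 3328)
    (good_of_check
    (R .t4n 3281921 5724905 2965819 5199189 13134042 (-137843) 3575165 11845895 6781658 (-236131)
    3575165 3725769 0 0 0 0 2568479 8035831)
    ((((((((((((((((((((root.setHiD (qm 2048)).setHiD (qm 1024)).setHiU (qm 512)).setLoA (qm
    2048)).setHiD (qm 512)).setHiU (qm 256)).setLoA (qm 3072)).setHiD (qm 256)).setLoU (qm
    128)).setHiW (qm 128)).setHiD (qm 128)).setLoU (qm 192)).setLoD (qm 64)).setHiD (qm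
    96)).setHiU (qm 224)).setLoD (qm 80)).setLoW (qm 48)).setHiU (qm 208)).setHiA (qm
    3584)).setHiA (qm 3328))
    (by decide +kernel))
    (good_of_check
    (T 3187671 43786525 7264749 13096709 1083263 3828370 2350237 1265231 4007786 4988936 1523548
    3780697 2568479 50618555 14831611 8390637 24990453 16176643)
    ((((((((((((((((((((root.setHiD (qm 2048)).setHiD (qm 1024)).setHiU (qm 512)).setLoA (qm
    2048)).setHiD (qm 512)).setHiU (qm 256)).setLoA (qm 3072)).setHiD (qm 256)).setLoU (qm
    128)).setHiW (qm 128)).setHiD (qm 128)).setLoU (qm 192)).setLoD (qm 64)).setHiD (qm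
    96)).setHiU (qm 224)).setLoD (qm 80)).setLoW (qm 48)).setHiU (qm 208)).setHiA (qm
    3584)).setLoA (qm 3328))
    (by decide +kernel)))
    (good_of_check
    (T 3523215 38404415 5931643 13591097 950112 3418753 2089486 1430956 4322960 5066932 1523548
    3780697 2568479 43330446 13323288 8166816 25165824 16176643)
    (((((((((((((((((((root.setHiD (qm 2048)).setHiD (qm 1024)).setHiU (qm 512)).setLoA (qm
    2048)).setHiD (qm 512)).setHiU (qm 256)).setLoA (qm 3072)).setHiD (qm 256)).setLoU (qm
    128)).setHiW (qm 128)).setHiD (qm 128)).setLoU (qm 192)).setLoD (qm 64)).setHiD (qm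
    96)).setHiU (qm 224)).setLoD (qm 80)).setLoW (qm 48)).setHiU (qm 208)).setLoA (qm 3584))
    (by decide +kernel)))
    (good_splitD (qm 88)
    (good_of_check
    (R .t4n 3464290 0 0 5182805 13010001 (-332860) 3730372 11847345 5798527 (-224775) 3730372
    3874948 0 0 0 0 2459131 6741795)
    (((((((((((((((((((root.setHiD (qm 2048)).setHiD (qm 1024)).setHiU (qm 512)).setLoA (qm
    2048)).setHiD (qm 512)).setHiU (qm 256)).setLoA (qm 3072)).setHiD (qm 256)).setLoU (qm
    128)).setHiW (qm 128)).setHiD (qm 128)).setLoU (qm 192)).setLoD (qm 64)).setHiD (qm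
    96)).setHiU (qm 224)).setLoD (qm 80)).setLoW (qm 48)).setLoU (qm 208)).setHiD (qm 88))
    (by decide +kernel))
    (good_of_check
    (R .t4n 3471032 0 0 5171883 13001066 (-338296) 3725764 11845895 5566635 (-209889) 3725764
    3870512 0 0 0 0 2568479 7094555)
    (((((((((((((((((((root.setHiD (qm 2048)).setHiD (qm 1024)).setHiU (qm 512)).setLoA (qm
    2048)).setHiD (qm 512)).setHiU (qm 256)).setLoA (qm 3072)).setHiD (qm 256)).setLoU (qm
    128)).setHiW (qm 128)).setHiD (qm 128)).setLoU (qm 192)).setLoD (qm 64)).setHiD (qm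
    96)).setHiU (qm 224)).setLoD (qm 80)).setLoW (qm 48)).setLoU (qm 208)).setLoD (qm 88))
    (by decide +kernel))))))
    (good_of_check
    (R .t4n 3506345 0 0 5155499 12977527 (-375129) 3870507 11845895 7753537 (-336452) 3870507
    4144863 0 0 0 0 2568479 6934084)
    (((((((((((((((root.setHiD (qm 2048)).setHiD (qm 1024)).setHiU (qm 512)).setLoA (qm
    2048)).setHiD (qm 512)).setHiU (qm 256)).setLoA (qm 3072)).setHiD (qm 256)).setLoU (qm
    128)).setHiW (qm 128)).setHiD (qm 128)).setLoU (qm 192)).setLoD (qm 64)).setHiD (qm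
    96)).setLoU (qm 224))
    (by decide +kernel)))
    (good_splitW (qm 64)
    (good_of_check
    (R .t4n 3392063 0 0 5133653 13139703 (-280312) 3555892 11840093 7233095 (-254158) 3555892
    4128250 0 0 0 0 2097154 5705763)
    (((((((((((((((root.setHiD (qm 2048)).setHiD (qm 1024)).setHiU (qm 512)).setLoA (qm
    2048)).setHiD (qm 512)).setHiU (qm 256)).setLoA (qm 3072)).setHiD (qm 256)).setLoU (qm
    128)).setHiW (qm 128)).setHiD (qm 128)).setLoU (qm 192)).setLoD (qm 64)).setLoD (qm
    96)).setHiW (qm 64))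
    (by decide +kernel))
    (good_splitU (qm 224)
    (good_splitD (qm 112)
    (good_splitU (qm 208)
    (good_splitA (qm 3584)
    (good_splitA (qm 3328)
    (good_of_check
    (R .t4n 3299578 5438671 2965819 5177344 13117501 (-155004) 3565541 11842994 6194683 (-203038)
    3565541 3716535 0 0 0 0 2774274 8683118)
    ((((((((((((((((((((root.setHiD (qm 2048)).setHiD (qm 1024)).setHiU (qm 512)).setLoA (qm
    2048)).setHiD (qm 512)).setHiU (qm 256)).setLoA (qm 3072)).setHiD (qm 256)).setLoU (qm
    128)).setHiW (qm 128)).setHiD (qm 128)).setLoU (qm 192)).setLoD (qm 64)).setLoD (qm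
    96)).setLoW (qm 64)).setHiU (qm 224)).setHiD (qm 112)).setHiU (qm 208)).setHiA (qm
    3584)).setHiA (qm 3328))
    (by decide +kernel))
    (good_of_check
    (T 3187671 44041098 7264749 13096709 1146906 3907973 2633635 1258591 3921444 4836151 1563127
    3780697 2774274 51215449 15285227 9352351 24990453 16142622)
    ((((((((((((((((((((root.setHiD (qm 2048)).setHiD (qm 1024)).setHiU (qm 512)).setLoA (qm
    2048)).setHiD (qm 512)).setHiU (qm 256)).setLoA (qm 3072)).setHiD (qm 256)).setLoU (qm
    128)).setHiW (qm 128)).setHiD (qm 128)).setLoU (qm 192)).setLoD (qm 64)).setLoD (qm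
    96)).setLoW (qm 64)).setHiU (qm 224)).setHiD (qm 112)).setHiU (qm 208)).setHiA (qm
    3584)).setLoA (qm 3328))
    (by decide +kernel)))
    (good_of_check
    (T 3523215 38627696 5931643 13591097 1005932 3488925 2342929 1424247 4256778 4945684 1563127
    3780697 2774274 43926861 13622008 9003816 25165824 16142622)
    (((((((((((((((((((root.setHiD (qm 2048)).setHiD (qm 1024)).setHiU (qm 512)).setLoA (qm
    2048)).setHiD (qm 512)).setHiU (qm 256)).setLoA (qm 3072)).setHiD (qm 256)).setLoU (qm
    128)).setHiW (qm 128)).setHiD (qm 128)).setLoU (qm 192)).setLoD (qm 64)).setLoD (qm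
    96)).setLoW (qm 64)).setHiU (qm 224)).setHiD (qm 112)).setHiU (qm 208)).setLoA (qm 3584))
    (by decide +kernel)))
    (good_splitD (qm 104)
    (good_of_check
    (R .t4n 3475199 0 0 5160960 12995246 (-341458) 3721150 11844445 5378981 (-196834) 3721150
    3866071 0 0 0 0 2673357 7432368)
    (((((((((((((((((((root.setHiD (qm 2048)).setHiD (qm 1024)).setHiU (qm 512)).setLoA (qm
    2048)).setHiD (qm 512)).setHiU (qm 256)).setLoA (qm 3072)).setHiD (qm 256)).setLoU (qm
    128)).setHiW (qm 128)).setHiD (qm 128)).setLoU (qm 192)).setLoD (qm 64)).setLoD (qm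
    96)).setLoW (qm 64)).setHiU (qm 224)).setHiD (qm 112)).setLoU (qm 208)).setHiD (qm 104))
    (by decide +kernel))
    (good_of_check
    (R .t4n 3481943 0 0 5150037 12986253 (-346859) 3716530 11842994 5143443 (-181625) 3716530
    3861625 0 0 0 0 2774274 7735988)
    (((((((((((((((((((root.setHiD (qm 2048)).setHiD (qm 1024)).setHiU (qm 512)).setLoA (qm
    2048)).setHiD (qm 512)).setHiU (qm 256)).setLoA (qm 3072)).setHiD (qm 256)).setLoU (qm
    128)).setHiW (qm 128)).setHiD (qm 128)).setLoU (qm 192)).setLoD (qm 64)).setLoD (qm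
    96)).setLoW (qm 64)).setHiU (qm 224)).setHiD (qm 112)).setLoU (qm 208)).setLoD (qm 104))
    (by decide +kernel))))
    (good_splitU (qm 208)
    (good_splitA (qm 3584)
    (good_splitA (qm 3328)
    (good_of_check
    (R .t4n 3318823 5059471 2965819 5155499 13113994 (-178440) 3555892 11840093 5565579 (-167736)
    3555892 3707279 0 0 0 0 2965823 9221033)
    ((((((((((((((((((((root.setHiD (qm 2048)).setHiD (qm 1024)).setHiU (qm 512)).setLoA (qm
    2048)).setHiD (qm 512)).setHiU (qm 256)).setLoA (qm 3072)).setHiD (qm 256)).setLoU (qm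
    128)).setHiW (qm 128)).setHiD (qm 128)).setLoU (qm 192)).setLoD (qm 64)).setLoD (qm
    96)).setLoW (qm 64)).setHiU (qm 224)).setLoD (qm 112)).setHiU (qm 208)).setHiA (qm
    3584)).setHiA (qm 3328))
    (by decide +kernel))
    (good_splitA (qm 3456)
    (good_of_check
    (T 3187671 44298648 7264749 13096709 1211294 3988507 2920349 1251743 3831549 4661659 1601729
    3780697 2965823 51785296 15777800 10393180 24946417 16108530)
    (((((((((((((((((((((root.setHiD (qm 2048)).setHiD (qm 1024)).setHiU (qm 512)).setLoA (qm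
    2048)).setHiD (qm 512)).setHiU (qm 256)).setLoA (qm 3072)).setHiD (qm 256)).setLoU (qm
    128)).setHiW (qm 128)).setHiD (qm 128)).setLoU (qm 192)).setLoD (qm 64)).setLoD (qm
    96)).setLoW (qm 64)).setHiU (qm 224)).setLoD (qm 112)).setHiU (qm 208)).setHiA (qm
    3584)).setLoA (qm 3328)).setHiA (qm 3456))
    (by decide +kernel))
    (good_of_check
    (T 3187671 41534869 6631778 13346192 1135722 3739666 2738150 1267363 4102763 4811313 1601729
    3780697 2965823 51031836 14353549 9866479 24990453 16108530)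
    (((((((((((((((((((((root.setHiD (qm 2048)).setHiD (qm 1024)).setHiU (qm 512)).setLoA (qm
    2048)).setHiD (qm 512)).setHiU (qm 256)).setLoA (qm 3072)).setHiD (qm 256)).setLoU (qm
    128)).setHiW (qm 128)).setHiD (qm 128)).setLoU (qm 192)).setLoD (qm 64)).setLoD (qm
    96)).setLoW (qm 64)).setHiU (qm 224)).setLoD (qm 112)).setHiU (qm 208)).setHiA (qm
    3584)).setLoA (qm 3328)).setLoA (qm 3456))
    (by decide +kernel))))
    (good_splitA (qm 3840)
    (good_of_check
    (T 3523215 38853589 5931643 13591097 1062405 3559919 2599337 1417358 4188421 4808586 1601729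
    3780697 2965823 44496334 13940248 9875736 25078293 16108530)
    ((((((((((((((((((((root.setHiD (qm 2048)).setHiD (qm 1024)).setHiU (qm 512)).setLoA (qm
    2048)).setHiD (qm 512)).setHiU (qm 256)).setLoA (qm 3072)).setHiD (qm 256)).setLoU (qm
    128)).setHiW (qm 128)).setHiD (qm 128)).setLoU (qm 192)).setLoD (qm 64)).setLoD (qm
    96)).setLoW (qm 64)).setHiU (qm 224)).setLoD (qm 112)).setHiU (qm 208)).setLoA (qm
    3584)).setHiA (qm 3840))
    (by decide +kernel))
    (good_of_check
    (T 3523215 33489028 4194305 14068122 915718 3068397 2240445 1448940 4619406 5062570 1601729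
    3780697 2965823 43266219 12089990 9063644 25165824 16108530)
    ((((((((((((((((((((root.setHiD (qm 2048)).setHiD (qm 1024)).setHiU (qm 512)).setLoA (qm
    2048)).setHiD (qm 512)).setHiU (qm 256)).setLoA (qm 3072)).setHiD (qm 256)).setLoU (qm
    128)).setHiW (qm 128)).setHiD (qm 128)).setLoU (qm 192)).setLoD (qm 64)).setLoD (qm
    96)).setLoW (qm 64)).setHiU (qm 224)).setLoD (qm 112)).setHiU (qm 208)).setLoA (qm
    3584)).setLoA (qm 3840))
    (by decide +kernel))))
    (good_splitD (qm 120)
    (good_of_check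
    (R .t4n 3486110 0 0 5139115 12980393 (-349995) 3711905 11841543 4952626 (-168298) 3711905
    3857173 0 0 0 0 2871646 8030181)
    (((((((((((((((((((root.setHiD (qm 2048)).setHiD (qm 1024)).setHiU (qm 512)).setLoA (qm
    2048)).setHiD (qm 512)).setHiU (qm 256)).setLoA (qm 3072)).setHiD (qm 256)).setLoU (qm
    128)).setHiW (qm 128)).setHiD (qm 128)).setLoU (qm 192)).setLoD (qm 64)).setLoD (qm
    96)).setLoW (qm 64)).setHiU (qm 224)).setLoD (qm 112)).setLoU (qm 208)).setHiD (qm 120))
    (by decide +kernel))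
    (good_splitD (qm 124)
    (good_of_check
    (R .t4n 3492859 0 0 5130923 12971719 (-355613) 3709590 11840818 4771918 (-157835) 3709590
    3854946 0 0 0 0 2919115 8147203)
    ((((((((((((((((((((root.setHiD (qm 2048)).setHiD (qm 1024)).setHiU (qm 512)).setLoA (qm
    2048)).setHiD (qm 512)).setHiU (qm 256)).setLoA (qm 3072)).setHiD (qm 256)).setLoU (qm
    128)).setHiW (qm 128)).setHiD (qm 128)).setLoU (qm 192)).setLoD (qm 64)).setLoD (qm
    96)).setLoW (qm 64)).setHiU (qm 224)).setLoD (qm 112)).setLoU (qm 208)).setLoD (qm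
    120)).setHiD (qm 124))
    (by decide +kernel))
    (good_of_check
    (R .t4n 3495434 0 0 5125461 12968167 (-357596) 3707274 11840093 4666412 (-150673) 3707274
    3852717 0 0 0 0 2965823 8279423)
    ((((((((((((((((((((root.setHiD (qm 2048)).setHiD (qm 1024)).setHiU (qm 512)).setLoA (qm
    2048)).setHiD (qm 512)).setHiU (qm 256)).setLoA (qm 3072)).setHiD (qm 256)).setLoU (qm
    128)).setHiW (qm 128)).setHiD (qm 128)).setLoU (qm 192)).setLoD (qm 64)).setLoD (qm
    96)).setLoW (qm 64)).setHiU (qm 224)).setLoD (qm 112)).setLoU (qm 208)).setLoD (qm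
    120)).setLoD (qm 124))
    (by decide +kernel))))))
    (good_of_check
    (R .t4n 3528164 0 0 5111808 12947032 (-391759) 3852712 11840093 7056213 (-287158) 3852712
    4128250 0 0 0 0 2965823 8118484)
    ((((((((((((((((root.setHiD (qm 2048)).setHiD (qm 1024)).setHiU (qm 512)).setLoA (qm
    2048)).setHiD (qm 512)).setHiU (qm 256)).setLoA (qm 3072)).setHiD (qm 256)).setLoU (qm
    128)).setHiW (qm 128)).setHiD (qm 128)).setLoU (qm 192)).setLoD (qm 64)).setLoD (qm
    96)).setLoW (qm 64)).setLoU (qm 224))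
    (by decide +kernel)))))))

set_option maxHeartbeats 4000000 in
/-- One subtree of the cover. -/
theorem sub27_good : BoxGood
    ((((((((((((((root.setHiD (qm 2048)).setHiD (qm 1024)).setHiU (qm 512)).setLoA (qm
    2048)).setHiD (qm 512)).setHiU (qm 256)).setLoA (qm 3072)).setHiD (qm 256)).setLoU (qm
    128)).setHiW (qm 128)).setLoD (qm 128)).setHiU (qm 192)).setHiA (qm 3584)).setHiU (qm 160)) :=
    (good_splitA (qm 3328)
    (good_splitA (qm 3200)
    (good_splitD (qm 192)
    (good_of_check
    (T 3187671 50529032 8388609 12582911 1447449 3884230 3396874 1210398 3843366 4243759 1639422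
    3315891 2965823 54037288 14895071 12091337 24858111 16142622)
    (((((((((((((((((root.setHiD (qm 2048)).setHiD (qm 1024)).setHiU (qm 512)).setLoA (qm
    2048)).setHiD (qm 512)).setHiU (qm 256)).setLoA (qm 3072)).setHiD (qm 256)).setLoU (qm
    128)).setHiW (qm 128)).setLoD (qm 128)).setHiU (qm 192)).setHiA (qm 3584)).setHiU (qm
    160)).setHiA (qm 3328)).setHiA (qm 3200)).setHiD (qm 192))
    (by decide +kernel))
    (good_splitU (qm 144)
    (good_of_check
    (T 3187671 51436739 8388609 12582911 1674376 3906876 3658821 1185018 3788487 4004363 1747629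
    3145730 2965823 55712023 14844520 13243268 24858111 16022982)
    ((((((((((((((((((root.setHiD (qm 2048)).setHiD (qm 1024)).setHiU (qm 512)).setLoA (qm
    2048)).setHiD (qm 512)).setHiU (qm 256)).setLoA (qm 3072)).setHiD (qm 256)).setLoU (qm
    128)).setHiW (qm 128)).setLoD (qm 128)).setHiU (qm 192)).setHiA (qm 3584)).setHiU (qm
    160)).setHiA (qm 3328)).setHiA (qm 3200)).setLoD (qm 192)).setHiU (qm 144))
    (by decide +kernel))
    (good_splitD (qm 224)
    (good_of_check
    (T 3187671 51130568 8388609 12582911 1597833 4063623 3570465 1193777 3648553 4087414 1712320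
    3315891 2965823 55164715 16048653 12826961 24858111 16022982)
    (((((((((((((((((((root.setHiD (qm 2048)).setHiD (qm 1024)).setHiU (qm 512)).setLoA (qm
    2048)).setHiD (qm 512)).setHiU (qm 256)).setLoA (qm 3072)).setHiD (qm 256)).setLoU (qm
    128)).setHiW (qm 128)).setLoD (qm 128)).setHiU (qm 192)).setHiA (qm 3584)).setHiU (qm
    160)).setHiA (qm 3328)).setHiA (qm 3200)).setLoD (qm 192)).setLoU (qm 144)).setHiD (qm 224))
    (by decide +kernel))
    (good_splitW (qm 64)
    (good_of_check
    (T 3187671 51746598 8388609 12582911 1751840 4247338 2750041 1175945 3434092 4596578 1782239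
    3315891 2097154 56252216 17464430 8303801 24858111 15954214)
    ((((((((((((((((((((root.setHiD (qm 2048)).setHiD (qm 1024)).setHiU (qm 512)).setLoA (qm
    2048)).setHiD (qm 512)).setHiU (qm 256)).setLoA (qm 3072)).setHiD (qm 256)).setLoU (qm
    128)).setHiW (qm 128)).setLoD (qm 128)).setHiU (qm 192)).setHiA (qm 3584)).setHiU (qm
    160)).setHiA (qm 3328)).setHiA (qm 3200)).setLoD (qm 192)).setLoU (qm 144)).setLoD (qm
    224)).setHiW (qm 64))
    (by decide +kernel))
    (good_splitW (qm 96)
    (good_of_check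
    (T 3187671 51746598 8388609 12582911 1751840 4247338 3249140 1175945 3434092 4296580 1782239
    3315891 2568479 56252216 17464430 10826231 24858111 15954214)
    (((((((((((((((((((((root.setHiD (qm 2048)).setHiD (qm 1024)).setHiU (qm 512)).setLoA (qm
    2048)).setHiD (qm 512)).setHiU (qm 256)).setLoA (qm 3072)).setHiD (qm 256)).setLoU (qm
    128)).setHiW (qm 128)).setLoD (qm 128)).setHiU (qm 192)).setHiA (qm 3584)).setHiU (qm
    160)).setHiA (qm 3328)).setHiA (qm 3200)).setLoD (qm 192)).setLoU (qm 144)).setLoD (qm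
    224)).setLoW (qm 64)).setHiW (qm 96))
    (by decide +kernel))
    (good_splitW (qm 112)
    (good_splitA (qm 3136)
    (good_splitA (qm 3104)
    (good_splitA (qm 3088)
    (good_of_check
    (T 2852127 51746598 8388609 12582911 1751840 4187206 3456597 1052161 3585674 4252288 1782239
    3315891 2774274 63060011 16447017 11575863 24819378 15954214)
    (((((((((((((((((((((((((root.setHiD (qm 2048)).setHiD (qm 1024)).setHiU (qm 512)).setLoA (qm
    2048)).setHiD (qm 512)).setHiU (qm 256)).setLoA (qm 3072)).setHiD (qm 256)).setLoU (qm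
    128)).setHiW (qm 128)).setLoD (qm 128)).setHiU (qm 192)).setHiA (qm 3584)).setHiU (qm
    160)).setHiA (qm 3328)).setHiA (qm 3200)).setLoD (qm 192)).setLoU (qm 144)).setLoD (qm
    224)).setLoW (qm 64)).setLoW (qm 96)).setHiW (qm 112)).setHiA (qm 3136)).setHiA (qm
    3104)).setHiA (qm 3088))
    (by decide +kernel))
    (good_of_check
    (T 3187671 51343895 8322815 12615636 1738207 4214285 3471462 1178466 3474696 4144130 1782239
    3315891 2774274 56124236 17183678 12068159 24824915 15954214)
    (((((((((((((((((((((((((root.setHiD (qm 2048)).setHiD (qm 1024)).setHiU (qm 512)).setLoA (qm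
    2048)).setHiD (qm 512)).setHiU (qm 256)).setLoA (qm 3072)).setHiD (qm 256)).setLoU (qm
    128)).setHiW (qm 128)).setLoD (qm 128)).setHiU (qm 192)).setHiA (qm 3584)).setHiU (qm
    160)).setHiA (qm 3328)).setHiA (qm 3200)).setLoD (qm 192)).setLoU (qm 144)).setLoD (qm
    224)).setLoW (qm 64)).setLoW (qm 96)).setHiW (qm 112)).setHiA (qm 3136)).setHiA (qm
    3104)).setLoA (qm 3088))
    (by decide +kernel)))
    (good_of_check
    (T 3187671 50944277 8256497 12648277 1724679 4181485 3444444 1180968 3514456 4169605 1782239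
    3315891 2774274 55997611 16914682 11949597 24835985 15954214)
    ((((((((((((((((((((((((root.setHiD (qm 2048)).setHiD (qm 1024)).setHiU (qm 512)).setLoA (qm
    2048)).setHiD (qm 512)).setHiU (qm 256)).setLoA (qm 3072)).setHiD (qm 256)).setLoU (qm
    128)).setHiW (qm 128)).setLoD (qm 128)).setHiU (qm 192)).setHiA (qm 3584)).setHiU (qm
    160)).setHiA (qm 3328)).setHiA (qm 3200)).setLoD (qm 192)).setLoU (qm 144)).setLoD (qm
    224)).setLoW (qm 64)).setLoW (qm 96)).setHiW (qm 112)).setHiA (qm 3136)).setLoA (qm 3104))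
    (by decide +kernel)))
    (good_of_check
    (T 3187671 50154001 8122236 12713307 1697924 4116619 3391011 1185914 3591586 4219456 1782239
    3315891 2774274 55748434 16408991 11722273 24858111 15954214)
    (((((((((((((((((((((((root.setHiD (qm 2048)).setHiD (qm 1024)).setHiU (qm 512)).setLoA (qm
    2048)).setHiD (qm 512)).setHiU (qm 256)).setLoA (qm 3072)).setHiD (qm 256)).setLoU (qm
    128)).setHiW (qm 128)).setLoD (qm 128)).setHiU (qm 192)).setHiA (qm 3584)).setHiU (qm
    160)).setHiA (qm 3328)).setHiA (qm 3200)).setLoD (qm 192)).setLoU (qm 144)).setLoD (qm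
    224)).setLoW (qm 64)).setLoW (qm 96)).setHiW (qm 112)).setLoA (qm 3136))
    (by decide +kernel)))
    (good_splitD (qm 240)
    (good_splitU (qm 152)
    (good_of_check
    (T 3187671 51283196 8388609 12582911 1635990 3985483 3614511 1189436 3719921 4046318 1730065
    3231931 2965823 55439430 15437824 13030649 24858111 15980037)
    ((((((((((((((((((((((((root.setHiD (qm 2048)).setHiD (qm 1024)).setHiU (qm 512)).setLoA (qm
    2048)).setHiD (qm 512)).setHiU (qm 256)).setLoA (qm 3072)).setHiD (qm 256)).setLoU (qm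
    128)).setHiW (qm 128)).setLoD (qm 128)).setHiU (qm 192)).setHiA (qm 3584)).setHiU (qm
    160)).setHiA (qm 3328)).setHiA (qm 3200)).setLoD (qm 192)).setLoU (qm 144)).setLoD (qm
    224)).setLoW (qm 64)).setLoW (qm 96)).setLoW (qm 112)).setHiD (qm 240)).setHiU (qm 152))
    (by decide +kernel))
    (good_splitW (qm 120)
    (good_splitA (qm 3136)
    (good_of_check
    (T 2852127 51436739 8388609 12582911 1674376 4095159 3489964 1060279 3694870 4239424 1747629
    3315891 2871646 62574108 15763600 11881269 24835985 15962826)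
    ((((((((((((((((((((((((((root.setHiD (qm 2048)).setHiD (qm 1024)).setHiU (qm 512)).setLoA (qm
    2048)).setHiD (qm 512)).setHiU (qm 256)).setLoA (qm 3072)).setHiD (qm 256)).setLoU (qm
    128)).setHiW (qm 128)).setLoD (qm 128)).setHiU (qm 192)).setHiA (qm 3584)).setHiU (qm
    160)).setHiA (qm 3328)).setHiA (qm 3200)).setLoD (qm 192)).setLoU (qm 144)).setLoD (qm
    224)).setLoW (qm 64)).setLoW (qm 96)).setLoW (qm 112)).setHiD (qm 240)).setLoU (qm
    152)).setHiW (qm 120)).setHiA (qm 3136))
    (by decide +kernel))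
    (good_of_check
    (T 3187671 49853677 8122236 12713307 1622844 4027055 3426003 1194692 3692938 4206544 1747629
    3315891 2871646 55223290 15775351 12030241 24858111 15962826)
    ((((((((((((((((((((((((((root.setHiD (qm 2048)).setHiD (qm 1024)).setHiU (qm 512)).setLoA (qm
    2048)).setHiD (qm 512)).setHiU (qm 256)).setLoA (qm 3072)).setHiD (qm 256)).setLoU (qm
    128)).setHiW (qm 128)).setLoD (qm 128)).setHiU (qm 192)).setHiA (qm 3584)).setHiU (qm
    160)).setHiA (qm 3328)).setHiA (qm 3200)).setLoD (qm 192)).setLoU (qm 144)).setLoD (qm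
    224)).setLoW (qm 64)).setLoW (qm 96)).setLoW (qm 112)).setHiD (qm 240)).setLoU (qm
    152)).setHiW (qm 120)).setLoA (qm 3136))
    (by decide +kernel)))
    (good_of_check
    (R .t5n 2694001 6243284 3203451 5062656 13327101 27486 3180486 11849375 6538793 (-157883)
    3180486 3265774 905766 33761 2813622 2909683 2871646 8455198)
    (((((((((((((((((((((((((root.setHiD (qm 2048)).setHiD (qm 1024)).setHiU (qm 512)).setLoA (qm
    2048)).setHiD (qm 512)).setHiU (qm 256)).setLoA (qm 3072)).setHiD (qm 256)).setLoU (qm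
    128)).setHiW (qm 128)).setLoD (qm 128)).setHiU (qm 192)).setHiA (qm 3584)).setHiU (qm
    160)).setHiA (qm 3328)).setHiA (qm 3200)).setLoD (qm 192)).setLoU (qm 144)).setLoD (qm
    224)).setLoW (qm 64)).setLoW (qm 96)).setLoW (qm 112)).setHiD (qm 240)).setLoU (qm
    152)).setLoW (qm 120))
    (by decide +kernel))))
    (good_splitW (qm 120)
    (good_splitU (qm 152)
    (good_splitA (qm 3136)
    (good_of_check
    (T 3187671 51591203 8388609 12582911 1712992 4076596 3578996 1180522 3619213 4062422 1765019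
    3231931 2871646 55982817 16059121 12715031 24835985 15945597)
    ((((((((((((((((((((((((((root.setHiD (qm 2048)).setHiD (qm 1024)).setHiU (qm 512)).setLoA (qm
    2048)).setHiD (qm 512)).setHiU (qm 256)).setLoA (qm 3072)).setHiD (qm 256)).setLoU (qm
    128)).setHiW (qm 128)).setLoD (qm 128)).setHiU (qm 192)).setHiA (qm 3584)).setHiU (qm
    160)).setHiA (qm 3328)).setHiA (qm 3200)).setLoD (qm 192)).setLoU (qm 144)).setLoD (qm
    224)).setLoW (qm 64)).setLoW (qm 96)).setLoW (qm 112)).setLoD (qm 240)).setHiW (qm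
    120)).setHiU (qm 152)).setHiA (qm 3136))
    (by decide +kernel))
    (good_of_check
    (T 3187671 50003388 8122236 12713307 1660271 3951131 3468845 1190340 3760842 4168370 1765019
    3231931 2871646 55486753 15194770 12206502 24858111 15945597)
    ((((((((((((((((((((((((((root.setHiD (qm 2048)).setHiD (qm 1024)).setHiU (qm 512)).setLoA (qm
    2048)).setHiD (qm 512)).setHiU (qm 256)).setLoA (qm 3072)).setHiD (qm 256)).setLoU (qm
    128)).setHiW (qm 128)).setLoD (qm 128)).setHiU (qm 192)).setHiA (qm 3584)).setHiU (qm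
    160)).setHiA (qm 3328)).setHiA (qm 3200)).setLoD (qm 192)).setLoU (qm 144)).setLoD (qm
    224)).setLoW (qm 64)).setLoW (qm 96)).setLoW (qm 112)).setLoD (qm 240)).setHiW (qm
    120)).setHiU (qm 152)).setLoA (qm 3136))
    (by decide +kernel)))
    (good_of_check
    (R .u5 2415015 6488598 3203451 5040811 13270416 22901 3231926 11863286 8932664 (-266251)
    3231926 3315891 3589145 (-90326) 2774269 2871646 2871646 7044897)
    (((((((((((((((((((((((((root.setHiD (qm 2048)).setHiD (qm 1024)).setHiU (qm 512)).setLoA (qm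
    2048)).setHiD (qm 512)).setHiU (qm 256)).setLoA (qm 3072)).setHiD (qm 256)).setLoU (qm
    128)).setHiW (qm 128)).setLoD (qm 128)).setHiU (qm 192)).setHiA (qm 3584)).setHiU (qm
    160)).setHiA (qm 3328)).setHiA (qm 3200)).setLoD (qm 192)).setLoU (qm 144)).setLoD (qm
    224)).setLoW (qm 64)).setLoW (qm 96)).setLoW (qm 112)).setLoD (qm 240)).setHiW (qm
    120)).setLoU (qm 152))
    (by decide +kernel)))
    (good_splitU (qm 152)
    (good_splitA (qm 3136)
    (good_splitD (qm 248)
    (good_of_check
    (T 3187671 51436739 8388609 12582911 1674376 4030903 3658821 1185018 3670166 4004363 1747629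
    3231931 2965823 55712023 15740583 13243268 24835985 15954214)
    (((((((((((((((((((((((((((root.setHiD (qm 2048)).setHiD (qm 1024)).setHiU (qm 512)).setLoA
    (qm 2048)).setHiD (qm 512)).setHiU (qm 256)).setLoA (qm 3072)).setHiD (qm 256)).setLoU (qm
    128)).setHiW (qm 128)).setLoD (qm 128)).setHiU (qm 192)).setHiA (qm 3584)).setHiU (qm
    160)).setHiA (qm 3328)).setHiA (qm 3200)).setLoD (qm 192)).setLoU (qm 144)).setLoD (qm
    224)).setLoW (qm 64)).setLoW (qm 96)).setLoW (qm 112)).setLoD (qm 240)).setLoW (qm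
    120)).setHiU (qm 152)).setHiA (qm 3136)).setHiD (qm 248))
    (by decide +kernel))
    (good_of_check
    (R .u5 2412414 6377191 3315887 5046272 13246818 34324 3145726 11863286 8072116 (-233706)
    3145726 3231931 4843298 (-126818) 2871641 2965823 2965823 7443890)
    (((((((((((((((((((((((((((root.setHiD (qm 2048)).setHiD (qm 1024)).setHiU (qm 512)).setLoA
    (qm 2048)).setHiD (qm 512)).setHiU (qm 256)).setLoA (qm 3072)).setHiD (qm 256)).setLoU (qm
    128)).setHiW (qm 128)).setLoD (qm 128)).setHiU (qm 192)).setHiA (qm 3584)).setHiU (qm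
    160)).setHiA (qm 3328)).setHiA (qm 3200)).setLoD (qm 192)).setLoU (qm 144)).setLoD (qm
    224)).setLoW (qm 64)).setLoW (qm 96)).setLoW (qm 112)).setLoD (qm 240)).setLoW (qm
    120)).setHiU (qm 152)).setHiA (qm 3136)).setLoD (qm 248))
    (by decide +kernel)))
    (good_of_check
    (T 3187671 50003388 8122236 12713307 1660271 3951131 3589417 1190340 3760842 4075149 1765019
    3231931 2965823 55486753 15194770 12887285 24858111 15945597)
    ((((((((((((((((((((((((((root.setHiD (qm 2048)).setHiD (qm 1024)).setHiU (qm 512)).setLoA (qm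
    2048)).setHiD (qm 512)).setHiU (qm 256)).setLoA (qm 3072)).setHiD (qm 256)).setLoU (qm
    128)).setHiW (qm 128)).setLoD (qm 128)).setHiU (qm 192)).setHiA (qm 3584)).setHiU (qm
    160)).setHiA (qm 3328)).setHiA (qm 3200)).setLoD (qm 192)).setLoU (qm 144)).setLoD (qm
    224)).setLoW (qm 64)).setLoW (qm 96)).setLoW (qm 112)).setLoD (qm 240)).setLoW (qm
    120)).setHiU (qm 152)).setLoA (qm 3136))
    (by decide +kernel)))
    (good_splitD (qm 248)
    (good_of_check
    (R .t5n 2707489 6037705 3203451 5046272 13314765 11280 3177027 11848447 6193393 (-144217)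
    3177027 3262405 564079 47403 2809712 2905902 2965823 8746205)
    ((((((((((((((((((((((((((root.setHiD (qm 2048)).setHiD (qm 1024)).setHiU (qm 512)).setLoA (qm
    2048)).setHiD (qm 512)).setHiU (qm 256)).setLoA (qm 3072)).setHiD (qm 256)).setLoU (qm
    128)).setHiW (qm 128)).setLoD (qm 128)).setHiU (qm 192)).setHiA (qm 3584)).setHiU (qm
    160)).setHiA (qm 3328)).setHiA (qm 3200)).setLoD (qm 192)).setLoU (qm 144)).setLoD (qm
    224)).setLoW (qm 64)).setLoW (qm 96)).setLoW (qm 112)).setLoD (qm 240)).setLoW (qm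
    120)).setLoU (qm 152)).setHiD (qm 248))
    (by decide +kernel))
    (good_of_check
    (R .u5 2430097 6352655 3203451 5035349 13230369 10278 3231926 11863286 8667534 (-259880)
    3231926 3315891 4541340 (-119621) 2871641 2965823 2965823 7304703)
    ((((((((((((((((((((((((((root.setHiD (qm 2048)).setHiD (qm 1024)).setHiU (qm 512)).setLoA (qm
    2048)).setHiD (qm 512)).setHiU (qm 256)).setLoA (qm 3072)).setHiD (qm 256)).setLoU (qm
    128)).setHiW (qm 128)).setLoD (qm 128)).setHiU (qm 192)).setHiA (qm 3584)).setHiU (qm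
    160)).setHiA (qm 3328)).setHiA (qm 3200)).setLoD (qm 192)).setLoU (qm 144)).setLoD (qm
    224)).setLoW (qm 64)).setLoW (qm 96)).setLoW (qm 112)).setLoD (qm 240)).setLoW (qm
    120)).setLoU (qm 152)).setLoD (qm 248))
    (by decide +kernel))))))))))))
    (good_splitA (qm 3264)
    (good_of_check
    (T 3187671 48607268 7846826 12842379 1645561 3989664 3520844 1195588 3737159 4143485 1782239
    3315891 2965823 55265386 15509348 12556136 24880216 16074366)
    (((((((((((((((((root.setHiD (qm 2048)).setHiD (qm 1024)).setHiU (qm 512)).setLoA (qm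
    2048)).setHiD (qm 512)).setHiU (qm 256)).setLoA (qm 3072)).setHiD (qm 256)).setLoU (qm
    128)).setHiW (qm 128)).setLoD (qm 128)).setHiU (qm 192)).setHiA (qm 3584)).setHiU (qm
    160)).setHiA (qm 3328)).setLoA (qm 3200)).setHiA (qm 3264))
    (by decide +kernel))
    (good_of_check
    (T 3187671 47101790 7561391 12970167 1594594 3866095 3411795 1204989 3872584 4246605 1782239
    3315891 2965823 54801386 14731941 12078498 24902303 16074366)
    (((((((((((((((((root.setHiD (qm 2048)).setHiD (qm 1024)).setHiU (qm 512)).setLoA (qm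
    2048)).setHiD (qm 512)).setHiU (qm 256)).setLoA (qm 3072)).setHiD (qm 256)).setLoU (qm
    128)).setHiW (qm 128)).setLoD (qm 128)).setHiU (qm 192)).setHiA (qm 3584)).setHiU (qm
    160)).setHiA (qm 3328)).setLoA (qm 3200)).setLoA (qm 3264))
    (by decide +kernel))))
    (good_of_check
    (T 3187671 45632944 7264749 13096709 1544868 3745533 3305401 1214138 3999287 4344238 1782239
    3315891 2965823 54354875 14052217 11649354 24990453 16074366)
    (((((((((((((((root.setHiD (qm 2048)).setHiD (qm 1024)).setHiU (qm 512)).setLoA (qm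
    2048)).setHiD (qm 512)).setHiU (qm 256)).setLoA (qm 3072)).setHiD (qm 256)).setLoU (qm
    128)).setHiW (qm 128)).setLoD (qm 128)).setHiU (qm 192)).setHiA (qm 3584)).setHiU (qm
    160)).setLoA (qm 3328))
    (by decide +kernel)))

end Vale.Agent.P226.Cert
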