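import Vale.Agent.P226.CertBox
import Vale.Agent.P226.CertSound

/-! Part 15 of the cover (P226). -/

namespace Vale.Agent.P226.Cert

set_option maxHeartbeats 4000000 in
/-- One subtree of the cover. -/
theorem sub28_good : BoxGood
    (((((((((((((((root.setHiD (qm 2048)).setHiD (qm 1024)).setHiU (qm 512)).setLoA (qm
    2048)).setHiD (qm 512)).setHiU (qm 256)).setLoA (qm 3072)).setHiD (qm 256)).setLoU (qm
    128)).setHiW (qm 128)).setLoD (qm 128)).setHiU (qm 192)).setHiA (qm 3584)).setLoU (qm
    160)).setHiD (qm 192)) :=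
    (good_splitA (qm 3328)
    (good_splitU (qm 176)
    (good_splitA (qm 3200)
    (good_splitA (qm 3136)
    (good_splitA (qm 3104)
    (good_splitA (qm 3088)
    (good_of_check
    (T 2852127 50828020 8388609 12582911 1522196 4153544 3435904 1075683 3654702 4306342 1676267
    3477736 2965823 61587284 16319452 11813352 24819378 16091457)
    (((((((((((((((((((((root.setHiD (qm 2048)).setHiD (qm 1024)).setHiU (qm 512)).setLoA (qm
    2048)).setHiD (qm 512)).setHiU (qm 256)).setLoA (qm 3072)).setHiD (qm 256)).setLoU (qm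
    128)).setHiW (qm 128)).setLoD (qm 128)).setHiU (qm 192)).setHiA (qm 3584)).setLoU (qm
    160)).setHiD (qm 192)).setHiA (qm 3328)).setHiU (qm 176)).setHiA (qm 3200)).setHiA (qm
    3136)).setHiA (qm 3104)).setHiA (qm 3088))
    (by decide +kernel))
    (good_of_check
    (T 2852127 50432465 8322815 12615636 1510350 4121220 3409165 1077749 3694186 4332159 1676267
    3477736 2965823 61463895 16077768 11701279 24824915 16091457)
    (((((((((((((((((((((root.setHiD (qm 2048)).setHiD (qm 1024)).setHiU (qm 512)).setLoA (qm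
    2048)).setHiD (qm 512)).setHiU (qm 256)).setLoA (qm 3072)).setHiD (qm 256)).setLoU (qm
    128)).setHiW (qm 128)).setLoD (qm 128)).setHiU (qm 192)).setHiA (qm 3584)).setLoU (qm
    160)).setHiD (qm 192)).setHiA (qm 3328)).setHiU (qm 176)).setHiA (qm 3200)).setHiA (qm
    3136)).setHiA (qm 3104)).setLoA (qm 3088))
    (by decide +kernel)))
    (good_of_check
    (T 2852127 50039941 8256497 12648277 1498594 4089143 3382630 1079800 3732891 4357604 1676267
    3477736 2965823 61341733 15845562 11592272 24835985 16091457)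
    ((((((((((((((((((((root.setHiD (qm 2048)).setHiD (qm 1024)).setHiU (qm 512)).setLoA (qm
    2048)).setHiD (qm 512)).setHiU (qm 256)).setLoA (qm 3072)).setHiD (qm 256)).setLoU (qm
    128)).setHiW (qm 128)).setLoD (qm 128)).setHiU (qm 192)).setHiA (qm 3584)).setLoU (qm
    160)).setHiD (qm 192)).setHiA (qm 3328)).setHiU (qm 176)).setHiA (qm 3200)).setHiA (qm
    3136)).setLoA (qm 3104))
    (by decide +kernel)))
    (good_of_check
    (T 3187671 49263693 8122236 12713307 1475347 4088682 3375955 1211374 3652768 4268366 1676267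
    3477736 2965823 54145667 16331417 11980956 24858111 16091457)
    (((((((((((((((((((root.setHiD (qm 2048)).setHiD (qm 1024)).setHiU (qm 512)).setLoA (qm
    2048)).setHiD (qm 512)).setHiU (qm 256)).setLoA (qm 3072)).setHiD (qm 256)).setLoU (qm
    128)).setHiW (qm 128)).setLoD (qm 128)).setHiU (qm 192)).setHiA (qm 3584)).setLoU (qm
    160)).setHiD (qm 192)).setHiA (qm 3328)).setHiU (qm 176)).setHiA (qm 3200)).setLoA (qm 3136))
    (by decide +kernel)))
    (good_of_check
    (T 3187671 47744417 7846826 12842379 1429848 3962589 3271842 1220270 3797118 4364025 1676267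
    3477736 2965823 53701258 15470222 11564989 24902303 16091457)
    ((((((((((((((((((root.setHiD (qm 2048)).setHiD (qm 1024)).setHiU (qm 512)).setLoA (qm
    2048)).setHiD (qm 512)).setHiU (qm 256)).setLoA (qm 3072)).setHiD (qm 256)).setLoU (qm
    128)).setHiW (qm 128)).setLoD (qm 128)).setHiU (qm 192)).setHiA (qm 3584)).setLoU (qm
    160)).setHiD (qm 192)).setHiA (qm 3328)).setHiU (qm 176)).setLoA (qm 3200))
    (by decide +kernel)))
    (good_splitW (qm 64)
    (good_of_check
    (R .t4n 3233110 4932418 2965819 5122731 13229907 (-101481) 3357079 11828479 3265660 (-12881)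
    3357079 3517033 0 0 0 0 2097154 6402285)
    ((((((((((((((((((root.setHiD (qm 2048)).setHiD (qm 1024)).setHiU (qm 512)).setLoA (qm
    2048)).setHiD (qm 512)).setHiU (qm 256)).setLoA (qm 3072)).setHiD (qm 256)).setLoU (qm
    128)).setHiW (qm 128)).setLoD (qm 128)).setHiU (qm 192)).setHiA (qm 3584)).setLoU (qm
    160)).setHiD (qm 192)).setHiA (qm 3328)).setLoU (qm 176)).setHiW (qm 64))
    (by decide +kernel))
    (good_splitD (qm 160)
    (good_splitA (qm 3200)
    (good_splitU (qm 184)
    (good_splitA (qm 3136)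
    (good_of_check
    (T 2852127 50380853 8388609 12582911 1410404 4137156 3307276 1086545 3688626 4420709 1620685
    3555897 2965823 60814430 16249414 11327996 24835985 16099996)
    ((((((((((((((((((((((root.setHiD (qm 2048)).setHiD (qm 1024)).setHiU (qm 512)).setLoA (qm
    2048)).setHiD (qm 512)).setHiU (qm 256)).setLoA (qm 3072)).setHiD (qm 256)).setLoU (qm
    128)).setHiW (qm 128)).setLoD (qm 128)).setHiU (qm 192)).setHiA (qm 3584)).setLoU (qm
    160)).setHiD (qm 192)).setHiA (qm 3328)).setLoU (qm 176)).setLoW (qm 64)).setHiD (qm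
    160)).setHiA (qm 3200)).setHiU (qm 184)).setHiA (qm 3136))
    (by decide +kernel))
    (good_of_check
    (T 3187671 48830288 8122236 12713307 1366996 4075083 3250883 1223160 3682906 4375735 1620685
    3555897 2965823 53302142 16284132 11515464 24858111 16099996)
    ((((((((((((((((((((((root.setHiD (qm 2048)).setHiD (qm 1024)).setHiU (qm 512)).setLoA (qm
    2048)).setHiD (qm 512)).setHiU (qm 256)).setLoA (qm 3072)).setHiD (qm 256)).setLoU (qm
    128)).setHiW (qm 128)).setLoD (qm 128)).setHiU (qm 192)).setHiA (qm 3584)).setLoU (qm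
    160)).setHiD (qm 192)).setHiA (qm 3328)).setLoU (qm 176)).setLoW (qm 64)).setHiD (qm
    160)).setHiA (qm 3200)).setHiU (qm 184)).setLoA (qm 3136))
    (by decide +kernel)))
    (good_splitD (qm 144)
    (good_splitA (qm 3136)
    (good_of_check
    (R .t4n 3253339 5510410 3315887 5150037 13172245 (-110846) 3467837 11837190 4582408 (-103367)
    3467837 3546221 0 0 0 0 2965823 9602603)
    (((((((((((((((((((((((root.setHiD (qm 2048)).setHiD (qm 1024)).setHiU (qm 512)).setLoA (qm
    2048)).setHiD (qm 512)).setHiU (qm 256)).setLoA (qm 3072)).setHiD (qm 256)).setLoU (qm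
    128)).setHiW (qm 128)).setLoD (qm 128)).setHiU (qm 192)).setHiA (qm 3584)).setLoU (qm
    160)).setHiD (qm 192)).setHiA (qm 3328)).setLoU (qm 176)).setLoW (qm 64)).setHiD (qm
    160)).setHiA (qm 3200)).setLoU (qm 184)).setHiD (qm 144)).setHiA (qm 3136))
    (by decide +kernel))
    (good_of_check
    (T 2852127 48687510 8122236 12713307 1331302 4080976 3164419 1097803 3773175 4550093 1601729
    3632376 2965823 60083503 15877034 10811979 24858111 16099996)
    (((((((((((((((((((((((root.setHiD (qm 2048)).setHiD (qm 1024)).setHiU (qm 512)).setLoA (qm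
    2048)).setHiD (qm 512)).setHiU (qm 256)).setLoA (qm 3072)).setHiD (qm 256)).setLoU (qm
    128)).setHiW (qm 128)).setLoD (qm 128)).setHiU (qm 192)).setHiA (qm 3584)).setLoU (qm
    160)).setHiD (qm 192)).setHiA (qm 3328)).setLoU (qm 176)).setLoW (qm 64)).setHiD (qm
    160)).setHiA (qm 3200)).setLoU (qm 184)).setHiD (qm 144)).setLoA (qm 3136))
    (by decide +kernel)))
    (good_splitW (qm 96)
    (good_of_check
    (R .t4n 3268434 5175545 3203451 5128192 13171766 (-130031) 3457914 11834287 3957864 (-68004)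
    3457914 3536518 0 0 0 0 2568479 8107864)
    (((((((((((((((((((((((root.setHiD (qm 2048)).setHiD (qm 1024)).setHiU (qm 512)).setLoA (qm
    2048)).setHiD (qm 512)).setHiU (qm 256)).setLoA (qm 3072)).setHiD (qm 256)).setLoU (qm
    128)).setHiW (qm 128)).setLoD (qm 128)).setHiU (qm 192)).setHiA (qm 3584)).setLoU (qm
    160)).setHiD (qm 192)).setHiA (qm 3328)).setLoU (qm 176)).setLoW (qm 64)).setHiD (qm
    160)).setHiA (qm 3200)).setLoU (qm 184)).setLoD (qm 144)).setHiW (qm 96))
    (by decide +kernel))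
    (good_of_check
    (R .t5n 2749543 6538427 3203451 5128192 13259090 (-35758) 3531068 11855869 9962955 (-332313)
    3531068 3608079 (-180970) 39329 2533996 2936015 2097154 4699475)
    (((((((((((((((((((((((root.setHiD (qm 2048)).setHiD (qm 1024)).setHiU (qm 512)).setLoA (qm
    2048)).setHiD (qm 512)).setHiU (qm 256)).setLoA (qm 3072)).setHiD (qm 256)).setLoU (qm
    128)).setHiW (qm 128)).setLoD (qm 128)).setHiU (qm 192)).setHiA (qm 3584)).setLoU (qm
    160)).setHiD (qm 192)).setHiA (qm 3328)).setLoU (qm 176)).setLoW (qm 64)).setHiD (qm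
    160)).setHiA (qm 3200)).setLoU (qm 184)).setLoD (qm 144)).setLoW (qm 96))
    (by decide +kernel)))))
    (good_of_check
    (T 3187671 47463568 7846826 12842379 1359636 4106373 3190795 1227968 3663728 4432292 1639422
    3632376 2965823 53154151 16528693 11280407 24902303 16091457)
    ((((((((((((((((((((root.setHiD (qm 2048)).setHiD (qm 1024)).setHiU (qm 512)).setLoA (qm
    2048)).setHiD (qm 512)).setHiU (qm 256)).setLoA (qm 3072)).setHiD (qm 256)).setLoU (qm
    128)).setHiW (qm 128)).setLoD (qm 128)).setHiU (qm 192)).setHiA (qm 3584)).setLoU (qm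
    160)).setHiD (qm 192)).setHiA (qm 3328)).setLoU (qm 176)).setLoW (qm 64)).setHiD (qm
    160)).setLoA (qm 3200))
    (by decide +kernel)))
    (good_splitW (qm 96)
    (good_splitD (qm 176)
    (good_of_check
    (R .t4n 3271010 4584106 2965819 5111808 13185857 (-137529) 3367298 11831383 2744498 (-2888)
    3367298 3526789 0 0 0 0 2568479 8094017)
    (((((((((((((((((((((root.setHiD (qm 2048)).setHiD (qm 1024)).setHiU (qm 512)).setLoA (qm
    2048)).setHiD (qm 512)).setHiU (qm 256)).setLoA (qm 3072)).setHiD (qm 256)).setLoU (qm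
    128)).setHiW (qm 128)).setLoD (qm 128)).setHiU (qm 192)).setHiA (qm 3584)).setLoU (qm
    160)).setHiD (qm 192)).setHiA (qm 3328)).setLoU (qm 176)).setLoW (qm 64)).setLoD (qm
    160)).setHiW (qm 96)).setHiD (qm 176))
    (by decide +kernel))
    (good_of_check
    (R .t4n 3281921 4220608 2965819 5089963 13202560 (-156506) 3357079 11828479 2162806 31612
    3357079 3517033 0 0 0 0 2568479 8035831)
    (((((((((((((((((((((root.setHiD (qm 2048)).setHiD (qm 1024)).setHiU (qm 512)).setLoA (qm
    2048)).setHiD (qm 512)).setHiU (qm 256)).setLoA (qm 3072)).setHiD (qm 256)).setLoU (qm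
    128)).setHiW (qm 128)).setLoD (qm 128)).setHiU (qm 192)).setHiA (qm 3584)).setLoU (qm
    160)).setHiD (qm 192)).setHiA (qm 3328)).setLoU (qm 176)).setLoW (qm 64)).setLoD (qm
    160)).setHiW (qm 96)).setLoD (qm 176))
    (by decide +kernel)))
    (good_splitW (qm 112)
    (good_splitD (qm 176)
    (good_splitA (qm 3200)
    (good_splitW (qm 104)
    (good_of_check
    (R .t4n 3253339 4888077 3203451 5111808 13190706 (-115815) 3367298 11831383 3140852 (-18816)
    3367298 3526789 0 0 0 0 2673357 8581283)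
    ((((((((((((((((((((((((root.setHiD (qm 2048)).setHiD (qm 1024)).setHiU (qm 512)).setLoA (qm
    2048)).setHiD (qm 512)).setHiU (qm 256)).setLoA (qm 3072)).setHiD (qm 256)).setLoU (qm
    128)).setHiW (qm 128)).setLoD (qm 128)).setHiU (qm 192)).setHiA (qm 3584)).setLoU (qm
    160)).setHiD (qm 192)).setHiA (qm 3328)).setLoU (qm 176)).setLoW (qm 64)).setLoD (qm
    160)).setLoW (qm 96)).setHiW (qm 112)).setHiD (qm 176)).setHiA (qm 3200)).setHiW (qm 104))
    (by decide +kernel))
    (good_of_check
    (R .t5n 2740219 6470862 3203451 5111808 13267822 (-24531) 3449159 11854941 9647214 (-312289)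
    3449159 3605031 (-721545) 56249 2636077 2738372 2224368 5305122)
    ((((((((((((((((((((((((root.setHiD (qm 2048)).setHiD (qm 1024)).setHiU (qm 512)).setLoA (qm
    2048)).setHiD (qm 512)).setHiU (qm 256)).setLoA (qm 3072)).setHiD (qm 256)).setLoU (qm
    128)).setHiW (qm 128)).setLoD (qm 128)).setHiU (qm 192)).setHiA (qm 3584)).setLoU (qm
    160)).setHiD (qm 192)).setHiA (qm 3328)).setLoU (qm 176)).setLoW (qm 64)).setLoD (qm
    160)).setLoW (qm 96)).setHiW (qm 112)).setHiD (qm 176)).setHiA (qm 3200)).setLoW (qm 104))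
    (by decide +kernel)))
    (good_of_check
    (T 2852127 47744417 7846826 12842379 1429848 4126260 3002756 1091820 3721812 4651683 1676267
    3632376 2774274 60632374 16178421 9984131 24902303 16040128)
    (((((((((((((((((((((((root.setHiD (qm 2048)).setHiD (qm 1024)).setHiU (qm 512)).setLoA (qm
    2048)).setHiD (qm 512)).setHiU (qm 256)).setLoA (qm 3072)).setHiD (qm 256)).setLoU (qm
    128)).setHiW (qm 128)).setLoD (qm 128)).setHiU (qm 192)).setHiA (qm 3584)).setLoU (qm
    160)).setHiD (qm 192)).setHiA (qm 3328)).setLoU (qm 176)).setLoW (qm 64)).setLoD (qm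
    160)).setLoW (qm 96)).setHiW (qm 112)).setHiD (qm 176)).setLoA (qm 3200))
    (by decide +kernel)))
    (good_splitW (qm 104)
    (good_splitD (qm 184)
    (good_of_check
    (R .t4n 3286088 4336687 2965819 5095424 13169678 (-151743) 3362192 11829931 2236976 23169
    3362192 3521915 0 0 0 0 2673357 8398643)
    ((((((((((((((((((((((((root.setHiD (qm 2048)).setHiD (qm 1024)).setHiU (qm 512)).setLoA (qm
    2048)).setHiD (qm 512)).setHiU (qm 256)).setLoA (qm 3072)).setHiD (qm 256)).setLoU (qm
    128)).setHiW (qm 128)).setLoD (qm 128)).setHiU (qm 192)).setHiA (qm 3584)).setLoU (qm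
    160)).setHiD (qm 192)).setHiA (qm 3328)).setLoU (qm 176)).setLoW (qm 64)).setLoD (qm
    160)).setLoW (qm 96)).setHiW (qm 112)).setLoD (qm 176)).setHiW (qm 104)).setHiD (qm 184))
    (by decide +kernel))
    (good_of_check
    (R .t4n 3292830 4081308 2965819 5084501 13189468 (-166535) 3357079 11828479 1914066 41847
    3357079 3517033 0 0 0 0 2673357 8362473)
    ((((((((((((((((((((((((root.setHiD (qm 2048)).setHiD (qm 1024)).setHiU (qm 512)).setLoA (qm
    2048)).setHiD (qm 512)).setHiU (qm 256)).setLoA (qm 3072)).setHiD (qm 256)).setLoU (qm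
    128)).setHiW (qm 128)).setLoD (qm 128)).setHiU (qm 192)).setHiA (qm 3584)).setLoU (qm
    160)).setHiD (qm 192)).setHiA (qm 3328)).setLoU (qm 176)).setLoW (qm 64)).setLoD (qm
    160)).setLoW (qm 96)).setHiW (qm 112)).setLoD (qm 176)).setHiW (qm 104)).setLoD (qm 184))
    (by decide +kernel)))
    (good_of_check
    (R .t5n 2736052 6466676 2965819 5089963 13287641 (-24057) 3442778 11853086 9580470 (-303315)
    3442778 3598926 (-890014) 69057 2627721 2730330 2459131 6365977)
    (((((((((((((((((((((((root.setHiD (qm 2048)).setHiD (qm 1024)).setHiU (qm 512)).setLoA (qm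
    2048)).setHiD (qm 512)).setHiU (qm 256)).setLoA (qm 3072)).setHiD (qm 256)).setLoU (qm
    128)).setHiW (qm 128)).setLoD (qm 128)).setHiU (qm 192)).setHiA (qm 3584)).setLoU (qm
    160)).setHiD (qm 192)).setHiA (qm 3328)).setLoU (qm 176)).setLoW (qm 64)).setLoD (qm
    160)).setLoW (qm 96)).setHiW (qm 112)).setLoD (qm 176)).setLoW (qm 104))
    (by decide +kernel))))
    (good_of_check
    (R .t5n 2736052 6486505 2965819 5100885 13283098 (-22833) 3445970 11854014 9648600 (-308765)
    3445970 3601979 249173 33801 2734349 2928516 2344690 5860655)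
    (((((((((((((((((((((root.setHiD (qm 2048)).setHiD (qm 1024)).setHiU (qm 512)).setLoA (qm
    2048)).setHiD (qm 512)).setHiU (qm 256)).setLoA (qm 3072)).setHiD (qm 256)).setLoU (qm
    128)).setHiW (qm 128)).setLoD (qm 128)).setHiU (qm 192)).setHiA (qm 3584)).setLoU (qm
    160)).setHiD (qm 192)).setHiA (qm 3328)).setLoU (qm 176)).setLoW (qm 64)).setLoD (qm
    160)).setLoW (qm 96)).setLoW (qm 112))
    (by decide +kernel)))))))
    (good_splitA (qm 3456)
    (good_splitA (qm 3392)
    (good_of_check
    (T 3187671 45089695 7264749 13096709 1409055 4018415 3148629 1229882 3768083 4477662 1712320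
    3632376 2965823 53370603 15906570 11096683 24924369 16074366)
    ((((((((((((((((((root.setHiD (qm 2048)).setHiD (qm 1024)).setHiU (qm 512)).setLoA (qm
    2048)).setHiD (qm 512)).setHiU (qm 256)).setLoA (qm 3072)).setHiD (qm 256)).setLoU (qm
    128)).setHiW (qm 128)).setLoD (qm 128)).setHiU (qm 192)).setHiA (qm 3584)).setLoU (qm
    160)).setHiD (qm 192)).setLoA (qm 3328)).setHiA (qm 3456)).setHiA (qm 3392))
    (by decide +kernel))
    (good_of_check
    (T 3187671 43669847 6955468 13222039 1364685 3891878 3049481 1238347 3909321 4563293 1712320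
    3632376 2965823 52961416 15114249 10761203 24946417 16074366)
    ((((((((((((((((((root.setHiD (qm 2048)).setHiD (qm 1024)).setHiU (qm 512)).setLoA (qm
    2048)).setHiD (qm 512)).setHiU (qm 256)).setLoA (qm 3072)).setHiD (qm 256)).setLoU (qm
    128)).setHiW (qm 128)).setLoD (qm 128)).setHiU (qm 192)).setHiA (qm 3584)).setLoU (qm
    160)).setHiD (qm 192)).setLoA (qm 3328)).setHiA (qm 3456)).setLoA (qm 3392))
    (by decide +kernel)))
    (good_of_check
    (T 3187671 42276563 6631778 13346192 1321145 3767708 2952188 1246618 4041781 4645178 1712320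
    3632376 2965823 52565694 14419286 10453592 24990453 16074366)
    (((((((((((((((((root.setHiD (qm 2048)).setHiD (qm 1024)).setHiU (qm 512)).setLoA (qm
    2048)).setHiD (qm 512)).setHiU (qm 256)).setLoA (qm 3072)).setHiD (qm 256)).setLoU (qm
    128)).setHiW (qm 128)).setLoD (qm 128)).setHiU (qm 192)).setHiA (qm 3584)).setLoU (qm
    160)).setHiD (qm 192)).setLoA (qm 3328)).setLoA (qm 3456))
    (by decide +kernel))))

set_option maxHeartbeats 4000000 in
/-- One subtree of the cover. -/
theorem sub29_good : BoxGood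
    ((((((((((((((((root.setHiD (qm 2048)).setHiD (qm 1024)).setHiU (qm 512)).setLoA (qm
    2048)).setHiD (qm 512)).setHiU (qm 256)).setLoA (qm 3072)).setHiD (qm 256)).setLoU (qm
    128)).setHiW (qm 128)).setLoD (qm 128)).setHiU (qm 192)).setHiA (qm 3584)).setLoU (qm
    160)).setLoD (qm 192)).setHiW (qm 64)) :=
    (good_splitD (qm 224)
    (good_of_check
    (R .t4n 3292830 2677391 2421581 5068117 13235321 (-179848) 3167496 11822668 (-301657) 163692
    3167496 3497440 0 0 0 0 2097154 6127851)
    (((((((((((((((((root.setHiD (qm 2048)).setHiD (qm 1024)).setHiU (qm 512)).setLoA (qm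
    2048)).setHiD (qm 512)).setHiU (qm 256)).setLoA (qm 3072)).setHiD (qm 256)).setLoU (qm
    128)).setHiW (qm 128)).setLoD (qm 128)).setHiU (qm 192)).setHiA (qm 3584)).setLoU (qm
    160)).setLoD (qm 192)).setHiW (qm 64)).setHiD (qm 224))
    (by decide +kernel))
    (good_of_check
    (R .t4n 3332308 1847273 2421581 5024427 13188428 (-215061) 3145726 11816854 (-1357152) 227819
    3145726 3477736 0 0 0 0 2097154 5956195)
    (((((((((((((((((root.setHiD (qm 2048)).setHiD (qm 1024)).setHiU (qm 512)).setLoA (qm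
    2048)).setHiD (qm 512)).setHiU (qm 256)).setLoA (qm 3072)).setHiD (qm 256)).setLoU (qm
    128)).setHiW (qm 128)).setLoD (qm 128)).setHiU (qm 192)).setHiA (qm 3584)).setLoU (qm
    160)).setLoD (qm 192)).setHiW (qm 64)).setLoD (qm 224))
    (by decide +kernel)))

set_option maxHeartbeats 4000000 in
/-- One subtree of the cover. -/
theorem sub30_good : BoxGood
    (((((((((((((((((root.setHiD (qm 2048)).setHiD (qm 1024)).setHiU (qm 512)).setLoA (qm
    2048)).setHiD (qm 512)).setHiU (qm 256)).setLoA (qm 3072)).setHiD (qm 256)).setLoU (qm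
    128)).setHiW (qm 128)).setLoD (qm 128)).setHiU (qm 192)).setHiA (qm 3584)).setLoU (qm
    160)).setLoD (qm 192)).setLoW (qm 64)).setHiW (qm 96)) :=
    (good_splitD (qm 224)
    (good_splitU (qm 176)
    (good_splitA (qm 3328)
    (good_splitA (qm 3200)
    (good_splitA (qm 3136)
    (good_splitA (qm 3104)
    (good_of_check
    (T 2852127 51436739 8388609 12582911 1674376 4337237 3126847 1060279 3425020 4498240 1747629
    3477736 2568479 62574108 17828105 10022676 24824915 15988635)
    (((((((((((((((((((((((root.setHiD (qm 2048)).setHiD (qm 1024)).setHiU (qm 512)).setLoA (qm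
    2048)).setHiD (qm 512)).setHiU (qm 256)).setLoA (qm 3072)).setHiD (qm 256)).setLoU (qm
    128)).setHiW (qm 128)).setLoD (qm 128)).setHiU (qm 192)).setHiA (qm 3584)).setLoU (qm
    160)).setLoD (qm 192)).setLoW (qm 64)).setHiW (qm 96)).setHiD (qm 224)).setHiU (qm
    176)).setHiA (qm 3328)).setHiA (qm 3200)).setHiA (qm 3136)).setHiA (qm 3104))
    (by decide +kernel))
    (good_of_check
    (T 2852127 50639221 8256497 12648277 1648415 4269989 3078365 1064639 3512737 4541355 1747629
    3477736 2568479 62315458 17230429 9861927 24835985 15988635)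
    (((((((((((((((((((((((root.setHiD (qm 2048)).setHiD (qm 1024)).setHiU (qm 512)).setLoA (qm
    2048)).setHiD (qm 512)).setHiU (qm 256)).setLoA (qm 3072)).setHiD (qm 256)).setLoU (qm
    128)).setHiW (qm 128)).setLoD (qm 128)).setHiU (qm 192)).setHiA (qm 3584)).setLoU (qm
    160)).setLoD (qm 192)).setLoW (qm 64)).setHiW (qm 96)).setHiD (qm 224)).setHiU (qm
    176)).setHiA (qm 3328)).setHiA (qm 3200)).setHiA (qm 3136)).setLoA (qm 3104))
    (by decide +kernel)))
    (good_of_check
    (T 3187671 49853677 8122236 12713307 1622844 4267476 3065372 1194692 3439720 4451431 1747629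
    3477736 2568479 55223290 17726002 10201451 24858111 15988635)
    ((((((((((((((((((((((root.setHiD (qm 2048)).setHiD (qm 1024)).setHiU (qm 512)).setLoA (qm
    2048)).setHiD (qm 512)).setHiU (qm 256)).setLoA (qm 3072)).setHiD (qm 256)).setLoU (qm
    128)).setHiW (qm 128)).setLoD (qm 128)).setHiU (qm 192)).setHiA (qm 3584)).setLoU (qm
    160)).setLoD (qm 192)).setLoW (qm 64)).setHiW (qm 96)).setHiD (qm 224)).setHiU (qm
    176)).setHiA (qm 3328)).setHiA (qm 3200)).setLoA (qm 3136))
    (by decide +kernel)))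
    (good_of_check
    (T 3187671 48316207 7846826 12842379 1572796 4135869 2970837 1204089 3600501 4531940 1747629
    3477736 2568479 54754092 16659344 9896715 24902303 15988635)
    (((((((((((((((((((((root.setHiD (qm 2048)).setHiD (qm 1024)).setHiU (qm 512)).setLoA (qm
    2048)).setHiD (qm 512)).setHiU (qm 256)).setLoA (qm 3072)).setHiD (qm 256)).setLoU (qm
    128)).setHiW (qm 128)).setLoD (qm 128)).setHiU (qm 192)).setHiA (qm 3584)).setLoU (qm
    160)).setLoD (qm 192)).setLoW (qm 64)).setHiW (qm 96)).setHiD (qm 224)).setHiU (qm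
    176)).setHiA (qm 3328)).setLoA (qm 3200))
    (by decide +kernel)))
    (good_of_check
    (T 3187671 45359693 7264749 13096709 1476555 3882791 2789049 1222132 3887639 4682110 1747629
    3477736 2568479 53868212 14961540 9361980 24990453 15988635)
    ((((((((((((((((((((root.setHiD (qm 2048)).setHiD (qm 1024)).setHiU (qm 512)).setLoA (qm
    2048)).setHiD (qm 512)).setHiU (qm 256)).setLoA (qm 3072)).setHiD (qm 256)).setLoU (qm
    128)).setHiW (qm 128)).setLoD (qm 128)).setHiU (qm 192)).setHiA (qm 3584)).setLoU (qm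
    160)).setLoD (qm 192)).setLoW (qm 64)).setHiW (qm 96)).setHiD (qm 224)).setHiU (qm
    176)).setLoA (qm 3328))
    (by decide +kernel)))
    (good_splitD (qm 208)
    (good_of_check
    (R .t4n 3336478 3244287 2421581 5068117 13163482 (-214235) 3346828 11825574 557668 109575
    3346828 3507250 0 0 0 0 2568479 7748607)
    ((((((((((((((((((((root.setHiD (qm 2048)).setHiD (qm 1024)).setHiU (qm 512)).setLoA (qm
    2048)).setHiD (qm 512)).setHiU (qm 256)).setLoA (qm 3072)).setHiD (qm 256)).setLoU (qm
    128)).setHiW (qm 128)).setLoD (qm 128)).setHiU (qm 192)).setHiA (qm 3584)).setLoU (qm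
    160)).setLoD (qm 192)).setLoW (qm 64)).setHiW (qm 96)).setHiD (qm 224)).setLoU (qm
    176)).setHiD (qm 208))
    (by decide +kernel))
    (good_of_check
    (R .t4n 3350003 2764791 2421581 5046272 13188519 (-238688) 3336546 11822668 (-106778) 148803
    3336546 3497440 0 0 0 0 2568479 7679661)
    ((((((((((((((((((((root.setHiD (qm 2048)).setHiD (qm 1024)).setHiU (qm 512)).setLoA (qm
    2048)).setHiD (qm 512)).setHiU (qm 256)).setLoA (qm 3072)).setHiD (qm 256)).setLoU (qm
    128)).setHiW (qm 128)).setLoD (qm 128)).setHiU (qm 192)).setHiA (qm 3584)).setLoU (qm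
    160)).setLoD (qm 192)).setLoW (qm 64)).setHiW (qm 96)).setHiD (qm 224)).setLoU (qm
    176)).setLoD (qm 208))
    (by decide +kernel))))
    (good_splitU (qm 176)
    (good_splitA (qm 3328)
    (good_splitW (qm 80)
    (good_of_check
    (R .u4 2821770 5377879 2965819 5035349 13170036 (-115998) 3315886 11863286 7156601 (-247646)
    3315886 3477736 0 0 0 0 2344690 5376922)
    (((((((((((((((((((((root.setHiD (qm 2048)).setHiD (qm 1024)).setHiU (qm 512)).setLoA (qm
    2048)).setHiD (qm 512)).setHiU (qm 256)).setLoA (qm 3072)).setHiD (qm 256)).setLoU (qm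
    128)).setHiW (qm 128)).setLoD (qm 128)).setHiU (qm 192)).setHiA (qm 3584)).setLoU (qm
    160)).setLoD (qm 192)).setLoW (qm 64)).setHiW (qm 96)).setLoD (qm 224)).setHiU (qm
    176)).setHiA (qm 3328)).setHiW (qm 80))
    (by decide +kernel))
    (good_splitA (qm 3200)
    (good_splitD (qm 240)
    (good_splitU (qm 168)
    (good_of_check
    (T 2852127 51591203 8388609 12582911 1712992 4262447 3169824 1056256 3507020 4463142 1765019
    3397777 2568479 62815543 17122868 10156301 24858111 15945597)
    ((((((((((((((((((((((((root.setHiD (qm 2048)).setHiD (qm 1024)).setHiU (qm 512)).setLoA (qm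
    2048)).setHiD (qm 512)).setHiU (qm 256)).setLoA (qm 3072)).setHiD (qm 256)).setLoU (qm
    128)).setHiW (qm 128)).setLoD (qm 128)).setHiU (qm 192)).setHiA (qm 3584)).setLoU (qm
    160)).setLoD (qm 192)).setLoW (qm 64)).setHiW (qm 96)).setLoD (qm 224)).setHiU (qm
    176)).setHiA (qm 3328)).setLoW (qm 80)).setHiA (qm 3200)).setHiD (qm 240)).setHiU (qm 168))
    (by decide +kernel))
    (good_of_check
    (R .t4n 3261691 3750481 3203451 5040811 13208161 (-130288) 3242540 11819761 (-1406423) 216676
    3242540 3326237 0 0 0 0 2568479 8145700)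
    ((((((((((((((((((((((((root.setHiD (qm 2048)).setHiD (qm 1024)).setHiU (qm 512)).setLoA (qm
    2048)).setHiD (qm 512)).setHiU (qm 256)).setLoA (qm 3072)).setHiD (qm 256)).setLoU (qm
    128)).setHiW (qm 128)).setLoD (qm 128)).setHiU (qm 192)).setHiA (qm 3584)).setLoU (qm
    160)).setLoD (qm 192)).setLoW (qm 64)).setHiW (qm 96)).setLoD (qm 224)).setHiU (qm
    176)).setHiA (qm 3328)).setLoW (qm 80)).setHiA (qm 3200)).setHiD (qm 240)).setLoU (qm 168))
    (by decide +kernel)))
    (good_of_check
    (R .u5 2432673 6456516 3203451 5024427 13256781 (-1893) 3315886 11863286 9827371 (-305854)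
    3315886 3477736 127873 (-2455) 2344685 2568479 2568479 5658316)
    (((((((((((((((((((((((root.setHiD (qm 2048)).setHiD (qm 1024)).setHiU (qm 512)).setLoA (qm
    2048)).setHiD (qm 512)).setHiU (qm 256)).setLoA (qm 3072)).setHiD (qm 256)).setLoU (qm
    128)).setHiW (qm 128)).setLoD (qm 128)).setHiU (qm 192)).setHiA (qm 3584)).setLoU (qm
    160)).setLoD (qm 192)).setLoW (qm 64)).setHiW (qm 96)).setLoD (qm 224)).setHiU (qm
    176)).setHiA (qm 3328)).setLoW (qm 80)).setHiA (qm 3200)).setLoD (qm 240))
    (by decide +kernel)))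
    (good_splitA (qm 3264)
    (good_of_check
    (T 2852127 48901858 7846826 12842379 1719208 4250839 3100099 1061873 3540270 4534552 1816189
    3477736 2568479 62483282 17048444 9887047 24880216 15919718)
    (((((((((((((((((((((((root.setHiD (qm 2048)).setHiD (qm 1024)).setHiU (qm 512)).setLoA (qm
    2048)).setHiD (qm 512)).setHiU (qm 256)).setLoA (qm 3072)).setHiD (qm 256)).setLoU (qm
    128)).setHiW (qm 128)).setLoD (qm 128)).setHiU (qm 192)).setHiA (qm 3584)).setLoU (qm
    160)).setLoD (qm 192)).setLoW (qm 64)).setHiW (qm 96)).setLoD (qm 224)).setHiU (qm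
    176)).setHiA (qm 3328)).setLoW (qm 80)).setLoA (qm 3200)).setHiA (qm 3264))
    (by decide +kernel))
    (good_of_check
    (T 3187671 47387256 7561391 12970167 1665961 4179755 3037123 1196480 3550020 4486743 1816189
    3477736 2568479 55292141 16984626 10066171 24902303 15919718)
    (((((((((((((((((((((((root.setHiD (qm 2048)).setHiD (qm 1024)).setHiU (qm 512)).setLoA (qm
    2048)).setHiD (qm 512)).setHiU (qm 256)).setLoA (qm 3072)).setHiD (qm 256)).setLoU (qm
    128)).setHiW (qm 128)).setLoD (qm 128)).setHiU (qm 192)).setHiA (qm 3584)).setLoU (qm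
    160)).setLoD (qm 192)).setLoW (qm 64)).setHiW (qm 96)).setLoD (qm 224)).setHiU (qm
    176)).setHiA (qm 3328)).setLoW (qm 80)).setLoA (qm 3200)).setLoA (qm 3264))
    (by decide +kernel)))))
    (good_of_check
    (T 3187671 45909508 7264749 13096709 1614009 4049412 2942412 1205891 3703292 4566107 1816189
    3477736 2568479 54832939 16022723 9771297 24990453 15919718)
    ((((((((((((((((((((root.setHiD (qm 2048)).setHiD (qm 1024)).setHiU (qm 512)).setLoA (qm
    2048)).setHiD (qm 512)).setHiU (qm 256)).setLoA (qm 3072)).setHiD (qm 256)).setLoU (qm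
    128)).setHiW (qm 128)).setLoD (qm 128)).setHiU (qm 192)).setHiA (qm 3584)).setLoU (qm
    160)).setLoD (qm 192)).setLoW (qm 64)).setHiW (qm 96)).setLoD (qm 224)).setHiU (qm
    176)).setLoA (qm 3328))
    (by decide +kernel)))
    (good_of_check
    (R .t4n 3378579 2081595 2421581 5013504 13152909 (-263031) 3315886 11816854 (-1251488) 219612
    3315886 3477736 0 0 0 0 2568479 7536563)
    (((((((((((((((((((root.setHiD (qm 2048)).setHiD (qm 1024)).setHiU (qm 512)).setLoA (qm
    2048)).setHiD (qm 512)).setHiU (qm 256)).setLoA (qm 3072)).setHiD (qm 256)).setLoU (qm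
    128)).setHiW (qm 128)).setLoD (qm 128)).setHiU (qm 192)).setHiA (qm 3584)).setLoU (qm
    160)).setLoD (qm 192)).setLoW (qm 64)).setHiW (qm 96)).setLoD (qm 224)).setLoU (qm 176))
    (by decide +kernel))))

set_option maxHeartbeats 4000000 in
/-- One subtree of the cover. -/
theorem sub31_good : BoxGood
    ((((((((((((((((((root.setHiD (qm 2048)).setHiD (qm 1024)).setHiU (qm 512)).setLoA (qm
    2048)).setHiD (qm 512)).setHiU (qm 256)).setLoA (qm 3072)).setHiD (qm 256)).setLoU (qm
    128)).setHiW (qm 128)).setLoD (qm 128)).setHiU (qm 192)).setHiA (qm 3584)).setLoU (qm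
    160)).setLoD (qm 192)).setLoW (qm 64)).setLoW (qm 96)).setHiD (qm 224)) :=
    (good_splitW (qm 112)
    (good_splitU (qm 176)
    (good_splitA (qm 3328)
    (good_splitA (qm 3200)
    (good_splitU (qm 168)
    (good_splitA (qm 3136)
    (good_of_check
    (T 2852127 51283196 8388609 12582911 1635990 4170224 3325480 1064232 3620390 4368618 1730065
    3397777 2774274 62330916 16385618 11077323 24835985 15997229)
    ((((((((((((((((((((((((root.setHiD (qm 2048)).setHiD (qm 1024)).setHiU (qm 512)).setLoA (qm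
    2048)).setHiD (qm 512)).setHiU (qm 256)).setLoA (qm 3072)).setHiD (qm 256)).setLoU (qm
    128)).setHiW (qm 128)).setLoD (qm 128)).setHiU (qm 192)).setHiA (qm 3584)).setLoU (qm
    160)).setLoD (qm 192)).setLoW (qm 64)).setLoW (qm 96)).setHiD (qm 224)).setHiW (qm
    112)).setHiU (qm 176)).setHiA (qm 3328)).setHiA (qm 3200)).setHiU (qm 168)).setHiA (qm 3136))
    (by decide +kernel))
    (good_of_check
    (T 3187671 49704860 8122236 12713307 1585639 4102525 3263564 1198970 3622331 4328408 1730065
    3397777 2774274 54957797 16373375 11246165 24858111 15997229)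
    ((((((((((((((((((((((((root.setHiD (qm 2048)).setHiD (qm 1024)).setHiU (qm 512)).setLoA (qm
    2048)).setHiD (qm 512)).setHiU (qm 256)).setLoA (qm 3072)).setHiD (qm 256)).setLoU (qm
    128)).setHiW (qm 128)).setLoD (qm 128)).setHiU (qm 192)).setHiA (qm 3584)).setLoU (qm
    160)).setLoD (qm 192)).setLoW (qm 64)).setLoW (qm 96)).setHiD (qm 224)).setHiW (qm
    112)).setHiU (qm 176)).setHiA (qm 3328)).setHiA (qm 3200)).setHiU (qm 168)).setLoA (qm 3136))
    (by decide +kernel)))
    (good_splitA (qm 3136)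
    (good_splitD (qm 208)
    (good_splitW (qm 104)
    (good_of_check
    (T 2852127 51130568 8388609 12582911 1597833 4244843 3161977 1068117 3542851 4488445 1712320
    3477736 2673357 62085577 17031519 10337991 24835985 15997229)
    ((((((((((((((((((((((((((root.setHiD (qm 2048)).setHiD (qm 1024)).setHiU (qm 512)).setLoA (qm
    2048)).setHiD (qm 512)).setHiU (qm 256)).setLoA (qm 3072)).setHiD (qm 256)).setLoU (qm
    128)).setHiW (qm 128)).setLoD (qm 128)).setHiU (qm 192)).setHiA (qm 3584)).setLoU (qm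
    160)).setLoD (qm 192)).setLoW (qm 64)).setLoW (qm 96)).setHiD (qm 224)).setHiW (qm
    112)).setHiU (qm 176)).setHiA (qm 3328)).setHiA (qm 3200)).setLoU (qm 168)).setHiA (qm
    3136)).setHiD (qm 208)).setHiW (qm 104))
    (by decide +kernel))
    (good_of_check
    (R .t5n 2711656 6494077 3315887 5084501 13320215 2662 3355441 11851231 8536005 (-247046)
    3355441 3436389 (-1060088) 81961 2619340 2722264 2673357 7469616)
    ((((((((((((((((((((((((((root.setHiD (qm 2048)).setHiD (qm 1024)).setHiU (qm 512)).setLoA (qm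
    2048)).setHiD (qm 512)).setHiU (qm 256)).setLoA (qm 3072)).setHiD (qm 256)).setLoU (qm
    128)).setHiW (qm 128)).setLoD (qm 128)).setHiU (qm 192)).setHiA (qm 3584)).setLoU (qm
    160)).setLoD (qm 192)).setLoW (qm 64)).setLoW (qm 96)).setHiD (qm 224)).setHiW (qm
    112)).setHiU (qm 176)).setHiA (qm 3328)).setHiA (qm 3200)).setLoU (qm 168)).setHiA (qm
    3136)).setHiD (qm 208)).setLoW (qm 104))
    (by decide +kernel)))
    (good_splitW (qm 104)
    (good_splitU (qm 172)
    (good_of_check
    (T 2852127 51359853 8388609 12582911 1655154 4253605 3226312 1062265 3524992 4434951 1738869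
    3437989 2673357 62452704 17077560 10546924 24835985 15967131)
    (((((((((((((((((((((((((((root.setHiD (qm 2048)).setHiD (qm 1024)).setHiU (qm 512)).setLoA
    (qm 2048)).setHiD (qm 512)).setHiU (qm 256)).setLoA (qm 3072)).setHiD (qm 256)).setLoU (qm
    128)).setHiW (qm 128)).setLoD (qm 128)).setHiU (qm 192)).setHiA (qm 3584)).setLoU (qm
    160)).setLoD (qm 192)).setLoW (qm 64)).setLoW (qm 96)).setHiD (qm 224)).setHiW (qm
    112)).setHiU (qm 176)).setHiA (qm 3328)).setHiA (qm 3200)).setLoU (qm 168)).setHiA (qm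
    3136)).setLoD (qm 208)).setHiW (qm 104)).setHiU (qm 172))
    (by decide +kernel))
    (good_of_check
    (R .t4n 3253339 4226086 3315887 5059925 13220525 (-123772) 3295096 11822668 (-274084) 158067
    3295096 3336551 0 0 0 0 2673357 8581283)
    (((((((((((((((((((((((((((root.setHiD (qm 2048)).setHiD (qm 1024)).setHiU (qm 512)).setLoA
    (qm 2048)).setHiD (qm 512)).setHiU (qm 256)).setLoA (qm 3072)).setHiD (qm 256)).setLoU (qm
    128)).setHiW (qm 128)).setLoD (qm 128)).setHiU (qm 192)).setHiA (qm 3584)).setLoU (qm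
    160)).setLoD (qm 192)).setLoW (qm 64)).setLoW (qm 96)).setHiD (qm 224)).setHiW (qm
    112)).setHiU (qm 176)).setHiA (qm 3328)).setHiA (qm 3200)).setLoU (qm 168)).setHiA (qm
    3136)).setLoD (qm 208)).setHiW (qm 104)).setLoU (qm 172))
    (by decide +kernel)))
    (good_splitD (qm 216)
    (good_of_check
    (R .t5n 2725142 6364907 3315887 5068117 13292434 (-8705) 3352162 11850303 8220532 (-234487)
    3352162 3433188 (-1148558) 88520 2615138 2718222 2774274 7808828)
    (((((((((((((((((((((((((((root.setHiD (qm 2048)).setHiD (qm 1024)).setHiU (qm 512)).setLoA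
    (qm 2048)).setHiD (qm 512)).setHiU (qm 256)).setLoA (qm 3072)).setHiD (qm 256)).setLoU (qm
    128)).setHiW (qm 128)).setLoD (qm 128)).setHiU (qm 192)).setHiA (qm 3584)).setLoU (qm
    160)).setLoD (qm 192)).setLoW (qm 64)).setLoW (qm 96)).setHiD (qm 224)).setHiW (qm
    112)).setHiU (qm 176)).setHiA (qm 3328)).setHiA (qm 3200)).setLoU (qm 168)).setHiA (qm
    3136)).setLoD (qm 208)).setLoW (qm 104)).setHiD (qm 216))
    (by decide +kernel))
    (good_of_check
    (R .t5n 2731886 6289706 3315887 5057195 13278426 (-14174) 3348881 11849375 8023191 (-225176)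
    3348881 3429984 (-1236334) 95077 2610931 2714174 2774274 7760417)
    (((((((((((((((((((((((((((root.setHiD (qm 2048)).setHiD (qm 1024)).setHiU (qm 512)).setLoA
    (qm 2048)).setHiD (qm 512)).setHiU (qm 256)).setLoA (qm 3072)).setHiD (qm 256)).setLoU (qm
    128)).setHiW (qm 128)).setLoD (qm 128)).setHiU (qm 192)).setHiA (qm 3584)).setLoU (qm
    160)).setLoD (qm 192)).setLoW (qm 64)).setLoW (qm 96)).setHiD (qm 224)).setHiW (qm
    112)).setHiU (qm 176)).setHiA (qm 3328)).setHiA (qm 3200)).setLoU (qm 168)).setHiA (qm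
    3136)).setLoD (qm 208)).setLoW (qm 104)).setLoD (qm 216))
    (by decide +kernel)))))
    (good_splitA (qm 3168)
    (good_of_check
    (T 2852127 49853677 8122236 12713307 1622844 4203750 3265240 1068934 3596740 4427482 1747629
    3477736 2774274 62062080 16683285 10836531 24847050 15980037)
    (((((((((((((((((((((((((root.setHiD (qm 2048)).setHiD (qm 1024)).setHiU (qm 512)).setLoA (qm
    2048)).setHiD (qm 512)).setHiU (qm 256)).setLoA (qm 3072)).setHiD (qm 256)).setLoU (qm
    128)).setHiW (qm 128)).setLoD (qm 128)).setHiU (qm 192)).setHiA (qm 3584)).setLoU (qm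
    160)).setLoD (qm 192)).setLoW (qm 64)).setLoW (qm 96)).setHiD (qm 224)).setHiW (qm
    112)).setHiU (qm 176)).setHiA (qm 3328)).setHiA (qm 3200)).setLoU (qm 168)).setLoA (qm
    3136)).setHiA (qm 3168))
    (by decide +kernel))
    (good_of_check
    (T 3187671 49079530 7985718 12778006 1597643 4201209 3254458 1199423 3521753 4339156 1747629
    3477736 2774274 54986391 17170547 11200681 24858111 15980037)
    (((((((((((((((((((((((((root.setHiD (qm 2048)).setHiD (qm 1024)).setHiU (qm 512)).setLoA (qm
    2048)).setHiD (qm 512)).setHiU (qm 256)).setLoA (qm 3072)).setHiD (qm 256)).setLoU (qm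
    128)).setHiW (qm 128)).setLoD (qm 128)).setHiU (qm 192)).setHiA (qm 3584)).setLoU (qm
    160)).setLoD (qm 192)).setLoW (qm 64)).setLoW (qm 96)).setHiD (qm 224)).setHiW (qm
    112)).setHiU (qm 176)).setHiA (qm 3328)).setHiA (qm 3200)).setLoU (qm 168)).setLoA (qm
    3136)).setLoA (qm 3168))
    (by decide +kernel)))))
    (good_of_check
    (T 3187671 48316207 7846826 12842379 1572796 4135869 3203843 1204089 3600501 4384312 1747629
    3477736 2774274 54754092 16659344 11012392 24902303 15988635)
    ((((((((((((((((((((((root.setHiD (qm 2048)).setHiD (qm 1024)).setHiU (qm 512)).setLoA (qm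
    2048)).setHiD (qm 512)).setHiU (qm 256)).setLoA (qm 3072)).setHiD (qm 256)).setLoU (qm
    128)).setHiW (qm 128)).setLoD (qm 128)).setHiU (qm 192)).setHiA (qm 3584)).setLoU (qm
    160)).setLoD (qm 192)).setLoW (qm 64)).setLoW (qm 96)).setHiD (qm 224)).setHiW (qm
    112)).setHiU (qm 176)).setHiA (qm 3328)).setLoA (qm 3200))
    (by decide +kernel)))
    (good_of_check
    (T 3187671 45359693 7264749 13096709 1476555 3882791 3007797 1222132 3887639 4554016 1747629
    3477736 2774274 53868212 14961540 10343354 24990453 15988635)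
    (((((((((((((((((((((root.setHiD (qm 2048)).setHiD (qm 1024)).setHiU (qm 512)).setLoA (qm
    2048)).setHiD (qm 512)).setHiU (qm 256)).setLoA (qm 3072)).setHiD (qm 256)).setLoU (qm
    128)).setHiW (qm 128)).setLoD (qm 128)).setHiU (qm 192)).setHiA (qm 3584)).setLoU (qm
    160)).setLoD (qm 192)).setLoW (qm 64)).setLoW (qm 96)).setHiD (qm 224)).setHiW (qm
    112)).setHiU (qm 176)).setLoA (qm 3328))
    (by decide +kernel)))
    (good_splitD (qm 208)
    (good_splitU (qm 184)
    (good_splitA (qm 3328)
    (good_splitW (qm 104)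
    (good_of_check
    (R .t4n 3292837 3954232 2965819 5073579 13190041 (-166209) 3346828 11825574 664195 105837
    3346828 3427980 0 0 0 0 2673357 8362404)
    ((((((((((((((((((((((((root.setHiD (qm 2048)).setHiD (qm 1024)).setHiU (qm 512)).setLoA (qm
    2048)).setHiD (qm 512)).setHiU (qm 256)).setLoA (qm 3072)).setHiD (qm 256)).setLoU (qm
    128)).setHiW (qm 128)).setLoD (qm 128)).setHiU (qm 192)).setHiA (qm 3584)).setLoU (qm
    160)).setLoD (qm 192)).setLoW (qm 64)).setLoW (qm 96)).setHiD (qm 224)).setHiW (qm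
    112)).setLoU (qm 176)).setHiD (qm 208)).setHiU (qm 184)).setHiA (qm 3328)).setHiW (qm 104))
    (by decide +kernel))
    (good_splitD (qm 200)
    (good_of_check
    (R .t5n 2749543 6338225 2965819 5079040 13256708 (-34425) 3439583 11852159 8873038 (-273762)
    3439583 3518596 (-975408) 75511 2623534 2726300 2568479 6756928)
    (((((((((((((((((((((((((root.setHiD (qm 2048)).setHiD (qm 1024)).setHiU (qm 512)).setLoA (qm
    2048)).setHiD (qm 512)).setHiU (qm 256)).setLoA (qm 3072)).setHiD (qm 256)).setLoU (qm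
    128)).setHiW (qm 128)).setLoD (qm 128)).setHiU (qm 192)).setHiA (qm 3584)).setLoU (qm
    160)).setLoD (qm 192)).setLoW (qm 64)).setLoW (qm 96)).setHiD (qm 224)).setHiW (qm
    112)).setLoU (qm 176)).setHiD (qm 208)).setHiU (qm 184)).setHiA (qm 3328)).setLoW (qm
    104)).setHiD (qm 200))
    (by decide +kernel))
    (good_of_check
    (R .t5n 2753711 6286316 2965819 5068117 13249690 (-38215) 3436384 11851231 8730530 (-266098)
    3436384 3515470 (-1061586) 81999 2619340 2722264 2673357 7179479)
    (((((((((((((((((((((((((root.setHiD (qm 2048)).setHiD (qm 1024)).setHiU (qm 512)).setLoA (qm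
    2048)).setHiD (qm 512)).setHiU (qm 256)).setLoA (qm 3072)).setHiD (qm 256)).setLoU (qm
    128)).setHiW (qm 128)).setLoD (qm 128)).setHiU (qm 192)).setHiA (qm 3584)).setLoU (qm
    160)).setLoD (qm 192)).setLoW (qm 64)).setLoW (qm 96)).setHiD (qm 224)).setHiW (qm
    112)).setLoU (qm 176)).setHiD (qm 208)).setHiU (qm 184)).setHiA (qm 3328)).setLoW (qm
    104)).setLoD (qm 200))
    (by decide +kernel))))
    (good_of_check
    (T 3187671 45224291 7264749 13096709 1442704 3950805 2969375 1226037 3828890 4584328 1730065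
    3555897 2774274 53620930 15428703 10229933 24990453 15980037)
    (((((((((((((((((((((((root.setHiD (qm 2048)).setHiD (qm 1024)).setHiU (qm 512)).setLoA (qm
    2048)).setHiD (qm 512)).setHiU (qm 256)).setLoA (qm 3072)).setHiD (qm 256)).setLoU (qm
    128)).setHiW (qm 128)).setLoD (qm 128)).setHiU (qm 192)).setHiA (qm 3584)).setLoU (qm
    160)).setLoD (qm 192)).setLoW (qm 64)).setLoW (qm 96)).setHiD (qm 224)).setHiW (qm
    112)).setLoU (qm 176)).setHiD (qm 208)).setHiU (qm 184)).setLoA (qm 3328))
    (by decide +kernel)))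
    (good_splitD (qm 200)
    (good_of_check
    (R .t4n 3378574 3083070 2421581 5068117 13137684 (-260244) 3432983 11827026 715546 93870
    3432983 3512145 0 0 0 0 2774274 8256028)
    (((((((((((((((((((((((root.setHiD (qm 2048)).setHiD (qm 1024)).setHiU (qm 512)).setLoA (qm
    2048)).setHiD (qm 512)).setHiU (qm 256)).setLoA (qm 3072)).setHiD (qm 256)).setLoU (qm
    128)).setHiW (qm 128)).setLoD (qm 128)).setHiU (qm 192)).setHiA (qm 3584)).setLoU (qm
    160)).setLoD (qm 192)).setLoW (qm 64)).setLoW (qm 96)).setHiD (qm 224)).setHiW (qm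
    112)).setLoU (qm 176)).setHiD (qm 208)).setLoU (qm 184)).setHiD (qm 200))
    (by decide +kernel))
    (good_of_check
    (R .t4n 3382745 2959408 2421581 5057195 13134710 (-264349) 3427975 11825574 449404 110755
    3427975 3507250 0 0 0 0 2774274 8234780)
    (((((((((((((((((((((((root.setHiD (qm 2048)).setHiD (qm 1024)).setHiU (qm 512)).setLoA (qm
    2048)).setHiD (qm 512)).setHiU (qm 256)).setLoA (qm 3072)).setHiD (qm 256)).setLoU (qm
    128)).setHiW (qm 128)).setLoD (qm 128)).setHiU (qm 192)).setHiA (qm 3584)).setLoU (qm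
    160)).setLoD (qm 192)).setLoW (qm 64)).setLoW (qm 96)).setHiD (qm 224)).setHiW (qm
    112)).setLoU (qm 176)).setHiD (qm 208)).setLoU (qm 184)).setLoD (qm 200))
    (by decide +kernel))))
    (good_splitU (qm 184)
    (good_splitA (qm 3328)
    (good_splitD (qm 216)
    (good_splitD (qm 212)
    (good_splitW (qm 104)
    (good_of_check
    (R .t4n 3303746 3780531 2965819 5059925 13179117 (-176733) 3344260 11824847 310956 123306
    3344260 3425473 0 0 0 0 2673357 8302812)
    ((((((((((((((((((((((((((root.setHiD (qm 2048)).setHiD (qm 1024)).setHiU (qm 512)).setLoA (qm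
    2048)).setHiD (qm 512)).setHiU (qm 256)).setLoA (qm 3072)).setHiD (qm 256)).setLoU (qm
    128)).setHiW (qm 128)).setLoD (qm 128)).setHiU (qm 192)).setHiA (qm 3584)).setLoU (qm
    160)).setLoD (qm 192)).setLoW (qm 64)).setLoW (qm 96)).setHiD (qm 224)).setHiW (qm
    112)).setLoU (qm 176)).setLoD (qm 208)).setHiU (qm 184)).setHiA (qm 3328)).setHiD (qm
    216)).setHiD (qm 212)).setHiW (qm 104))
    (by decide +kernel))
    (good_of_check
    (R .t5n 2764621 6153793 2965819 5059925 13233630 (-49301) 3434784 11850767 8510120 (-257957)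
    3434784 3513906 (-1104973) 85255 2617240 2720244 2724283 7321089)
    ((((((((((((((((((((((((((root.setHiD (qm 2048)).setHiD (qm 1024)).setHiU (qm 512)).setLoA (qm
    2048)).setHiD (qm 512)).setHiU (qm 256)).setLoA (qm 3072)).setHiD (qm 256)).setLoU (qm
    128)).setHiW (qm 128)).setLoD (qm 128)).setHiU (qm 192)).setHiA (qm 3584)).setLoU (qm
    160)).setLoD (qm 192)).setLoW (qm 64)).setLoW (qm 96)).setHiD (qm 224)).setHiW (qm
    112)).setLoU (qm 176)).setLoD (qm 208)).setHiU (qm 184)).setHiA (qm 3328)).setHiD (qm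
    216)).setHiD (qm 212)).setLoW (qm 104))
    (by decide +kernel)))
    (good_splitD (qm 214)
    (good_of_check
    (R .t4n 3310489 3675360 2965819 5055829 13170571 (-182701) 3342976 11824484 102400 133429
    3342976 3424219 0 0 0 0 2774274 8623106)
    ((((((((((((((((((((((((((root.setHiD (qm 2048)).setHiD (qm 1024)).setHiU (qm 512)).setLoA (qm
    2048)).setHiD (qm 512)).setHiU (qm 256)).setLoA (qm 3072)).setHiD (qm 256)).setLoU (qm
    128)).setHiW (qm 128)).setLoD (qm 128)).setHiU (qm 192)).setHiA (qm 3584)).setLoU (qm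
    160)).setLoD (qm 192)).setLoW (qm 64)).setLoW (qm 96)).setHiD (qm 224)).setHiW (qm
    112)).setLoU (qm 176)).setLoD (qm 208)).setHiU (qm 184)).setHiA (qm 3328)).setHiD (qm
    216)).setLoD (qm 212)).setHiD (qm 214))
    (by decide +kernel))
    (good_of_check
    (R .t4n 3314656 3604896 2965819 5053099 13164847 (-186222) 3341691 11824121 (-44775) 140994
    3341691 3422965 0 0 0 0 2774274 8599470)
    ((((((((((((((((((((((((((root.setHiD (qm 2048)).setHiD (qm 1024)).setHiU (qm 512)).setLoA (qm
    2048)).setHiD (qm 512)).setHiU (qm 256)).setLoA (qm 3072)).setHiD (qm 256)).setLoU (qm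
    128)).setHiW (qm 128)).setLoD (qm 128)).setHiU (qm 192)).setHiA (qm 3584)).setLoU (qm
    160)).setLoD (qm 192)).setLoW (qm 64)).setLoW (qm 96)).setHiD (qm 224)).setHiW (qm
    112)).setLoU (qm 176)).setLoD (qm 208)).setHiU (qm 184)).setHiA (qm 3328)).setHiD (qm
    216)).setLoD (qm 212)).setLoD (qm 214))
    (by decide +kernel))))
    (good_splitD (qm 220)
    (good_of_check
    (R .t4n 3314656 3572809 2965819 5049003 13165167 (-186185) 3339119 11823394 (-138849) 147676
    3339119 3420454 0 0 0 0 2774274 8599470)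
    (((((((((((((((((((((((((root.setHiD (qm 2048)).setHiD (qm 1024)).setHiU (qm 512)).setLoA (qm
    2048)).setHiD (qm 512)).setHiU (qm 256)).setLoA (qm 3072)).setHiD (qm 256)).setLoU (qm
    128)).setHiW (qm 128)).setLoD (qm 128)).setHiU (qm 192)).setHiA (qm 3584)).setLoU (qm
    160)).setLoD (qm 192)).setLoW (qm 64)).setLoW (qm 96)).setHiD (qm 224)).setHiW (qm
    112)).setLoU (qm 176)).setLoD (qm 208)).setHiU (qm 184)).setHiA (qm 3328)).setLoD (qm
    216)).setHiD (qm 220))
    (by decide +kernel))
    (good_of_check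
    (R .t4n 3318823 3485424 2965819 5043541 13159851 (-189758) 3336546 11822668 (-334359) 158676
    3336546 3417942 0 0 0 0 2774274 8577286)
    (((((((((((((((((((((((((root.setHiD (qm 2048)).setHiD (qm 1024)).setHiU (qm 512)).setLoA (qm
    2048)).setHiD (qm 512)).setHiU (qm 256)).setLoA (qm 3072)).setHiD (qm 256)).setLoU (qm
    128)).setHiW (qm 128)).setLoD (qm 128)).setHiU (qm 192)).setHiA (qm 3584)).setLoU (qm
    160)).setLoD (qm 192)).setLoW (qm 64)).setLoW (qm 96)).setHiD (qm 224)).setHiW (qm
    112)).setLoU (qm 176)).setLoD (qm 208)).setHiU (qm 184)).setHiA (qm 3328)).setLoD (qm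
    216)).setLoD (qm 220))
    (by decide +kernel))))
    (good_splitA (qm 3456)
    (good_of_check
    (T 3187671 45495909 7264749 13096709 1510609 4033774 3046449 1218166 3735858 4523194 1765019
    3555897 2774274 54112763 15966551 10460516 24946417 15945597)
    ((((((((((((((((((((((((root.setHiD (qm 2048)).setHiD (qm 1024)).setHiU (qm 512)).setLoA (qm
    2048)).setHiD (qm 512)).setHiU (qm 256)).setLoA (qm 3072)).setHiD (qm 256)).setLoU (qm
    128)).setHiW (qm 128)).setLoD (qm 128)).setHiU (qm 192)).setHiA (qm 3584)).setLoU (qm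
    160)).setLoD (qm 192)).setLoW (qm 64)).setLoW (qm 96)).setHiD (qm 224)).setHiW (qm
    112)).setLoU (qm 176)).setLoD (qm 208)).setHiU (qm 184)).setLoA (qm 3328)).setHiA (qm 3456))
    (by decide +kernel))
    (good_of_check
    (T 3187671 42657433 6631778 13346192 1416363 3782109 2856383 1235551 4010869 4681083 1765019
    3555897 2774274 53277626 14445948 9879460 24990453 15945597)
    ((((((((((((((((((((((((root.setHiD (qm 2048)).setHiD (qm 1024)).setHiU (qm 512)).setLoA (qm
    2048)).setHiD (qm 512)).setHiU (qm 256)).setLoA (qm 3072)).setHiD (qm 256)).setLoU (qm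
    128)).setHiW (qm 128)).setLoD (qm 128)).setHiU (qm 192)).setHiA (qm 3584)).setLoU (qm
    160)).setLoD (qm 192)).setLoW (qm 64)).setLoW (qm 96)).setHiD (qm 224)).setHiW (qm
    112)).setLoU (qm 176)).setLoD (qm 208)).setHiU (qm 184)).setLoA (qm 3328)).setLoA (qm 3456))
    (by decide +kernel))))
    (good_of_check
    (R .t4n 3385320 2790094 2421581 5040811 13133432 (-266676) 3417937 11822668 42897 139166
    3417937 3497440 0 0 0 0 2774274 8221658)
    ((((((((((((((((((((((root.setHiD (qm 2048)).setHiD (qm 1024)).setHiU (qm 512)).setLoA (qm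
    2048)).setHiD (qm 512)).setHiU (qm 256)).setLoA (qm 3072)).setHiD (qm 256)).setLoU (qm
    128)).setHiW (qm 128)).setLoD (qm 128)).setHiU (qm 192)).setHiA (qm 3584)).setLoU (qm
    160)).setLoD (qm 192)).setLoW (qm 64)).setLoW (qm 96)).setHiD (qm 224)).setHiW (qm
    112)).setLoU (qm 176)).setLoD (qm 208)).setLoU (qm 184))
    (by decide +kernel)))))
    (good_splitD (qm 208)
    (good_splitD (qm 200)
    (good_splitU (qm 176)
    (good_splitA (qm 3328)
    (good_of_check
    (R .t5n 2703319 6459904 2965819 5095424 13313804 16776 3279208 11853086 8341041 (-241421)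
    3279208 3442783 563428 29345 2730325 2924759 2459131 6575590)
    (((((((((((((((((((((((root.setHiD (qm 2048)).setHiD (qm 1024)).setHiU (qm 512)).setLoA (qm
    2048)).setHiD (qm 512)).setHiU (qm 256)).setLoA (qm 3072)).setHiD (qm 256)).setLoU (qm
    128)).setHiW (qm 128)).setLoD (qm 128)).setHiU (qm 192)).setHiA (qm 3584)).setLoU (qm
    160)).setLoD (qm 192)).setLoW (qm 64)).setLoW (qm 96)).setHiD (qm 224)).setLoW (qm
    112)).setHiD (qm 208)).setHiD (qm 200)).setHiU (qm 176)).setHiA (qm 3328))
    (by decide +kernel))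
    (good_of_check
    (T 3187671 44955898 7264749 13096709 1375606 3760422 3110018 1233668 4016213 4509614 1694389
    3477736 2965823 53116904 14277568 10969806 24990453 16014402)
    (((((((((((((((((((((((root.setHiD (qm 2048)).setHiD (qm 1024)).setHiU (qm 512)).setLoA (qm
    2048)).setHiD (qm 512)).setHiU (qm 256)).setLoA (qm 3072)).setHiD (qm 256)).setLoU (qm
    128)).setHiW (qm 128)).setLoD (qm 128)).setHiU (qm 192)).setHiA (qm 3584)).setLoU (qm
    160)).setLoD (qm 192)).setLoW (qm 64)).setLoW (qm 96)).setHiD (qm 224)).setLoW (qm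
    112)).setHiD (qm 208)).setHiD (qm 200)).setHiU (qm 176)).setLoA (qm 3328))
    (by decide +kernel)))
    (good_of_check
    (R .t5n 2764622 6187968 2421581 5073579 13237504 (-51014) 3442778 11853086 9106073 (-290006)
    3442778 3598926 (-165248) 49239 2730325 2924759 2459131 6189380)
    ((((((((((((((((((((((root.setHiD (qm 2048)).setHiD (qm 1024)).setHiU (qm 512)).setLoA (qm
    2048)).setHiD (qm 512)).setHiU (qm 256)).setLoA (qm 3072)).setHiD (qm 256)).setLoU (qm
    128)).setHiW (qm 128)).setLoD (qm 128)).setHiU (qm 192)).setHiA (qm 3584)).setLoU (qm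
    160)).setLoD (qm 192)).setLoW (qm 64)).setLoW (qm 96)).setHiD (qm 224)).setLoW (qm
    112)).setHiD (qm 208)).setHiD (qm 200)).setLoU (qm 176))
    (by decide +kernel)))
    (good_splitU (qm 176)
    (good_splitA (qm 3328)
    (good_of_check
    (R .t5n 2711656 6370386 2965819 5084501 13295465 10171 3275854 11852159 8111254 (-231303)
    3275854 3439588 325806 39937 2726295 2920997 2568479 7008350)
    (((((((((((((((((((((((root.setHiD (qm 2048)).setHiD (qm 1024)).setHiU (qm 512)).setLoA (qm
    2048)).setHiD (qm 512)).setHiU (qm 256)).setLoA (qm 3072)).setHiD (qm 256)).setLoU (qm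
    128)).setHiW (qm 128)).setLoD (qm 128)).setHiU (qm 192)).setHiA (qm 3584)).setLoU (qm
    160)).setLoD (qm 192)).setLoW (qm 64)).setLoW (qm 96)).setHiD (qm 224)).setLoW (qm
    112)).setHiD (qm 208)).setLoD (qm 200)).setHiU (qm 176)).setHiA (qm 3328))
    (by decide +kernel))
    (good_of_check
    (T 3187671 45089695 7264749 13096709 1409055 3800968 3148629 1229882 3974210 4477662 1712320
    3477736 2965823 53370603 14496213 11096683 24990453 15997229)
    (((((((((((((((((((((((root.setHiD (qm 2048)).setHiD (qm 1024)).setHiU (qm 512)).setLoA (qm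
    2048)).setHiD (qm 512)).setHiU (qm 256)).setLoA (qm 3072)).setHiD (qm 256)).setLoU (qm
    128)).setHiW (qm 128)).setLoD (qm 128)).setHiU (qm 192)).setHiA (qm 3584)).setLoU (qm
    160)).setLoD (qm 192)).setLoW (qm 64)).setLoW (qm 96)).setHiD (qm 224)).setLoW (qm
    112)).setHiD (qm 208)).setLoD (qm 200)).setHiU (qm 176)).setLoA (qm 3328))
    (by decide +kernel)))
    (good_of_check
    (R .t5n 2778107 5939371 2421581 5062656 13235942 (-70287) 3439583 11852159 8813839 (-278052)
    3439583 3595869 (-383239) 59319 2726295 2920997 2568479 6574308)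
    ((((((((((((((((((((((root.setHiD (qm 2048)).setHiD (qm 1024)).setHiU (qm 512)).setLoA (qm
    2048)).setHiD (qm 512)).setHiU (qm 256)).setLoA (qm 3072)).setHiD (qm 256)).setLoU (qm
    128)).setHiW (qm 128)).setLoD (qm 128)).setHiU (qm 192)).setHiA (qm 3584)).setLoU (qm
    160)).setLoD (qm 192)).setLoW (qm 64)).setLoW (qm 96)).setHiD (qm 224)).setLoW (qm
    112)).setHiD (qm 208)).setLoD (qm 200)).setLoU (qm 176))
    (by decide +kernel))))
    (good_splitW (qm 120)
    (good_splitD (qm 216)
    (good_splitU (qm 176)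
    (good_splitA (qm 3328)
    (good_of_check
    (R .t5n 2718398 6277451 2965819 5073579 13285311 3460 3272496 11851231 7909531 (-221905)
    3272496 3436389 (-533649) 67563 2722259 2821432 2673357 7422199)
    ((((((((((((((((((((((((root.setHiD (qm 2048)).setHiD (qm 1024)).setHiU (qm 512)).setLoA (qm
    2048)).setHiD (qm 512)).setHiU (qm 256)).setLoA (qm 3072)).setHiD (qm 256)).setLoU (qm
    128)).setHiW (qm 128)).setLoD (qm 128)).setHiU (qm 192)).setHiA (qm 3584)).setLoU (qm
    160)).setLoD (qm 192)).setLoW (qm 64)).setLoW (qm 96)).setHiD (qm 224)).setLoW (qm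
    112)).setLoD (qm 208)).setHiW (qm 120)).setHiD (qm 216)).setHiU (qm 176)).setHiA (qm 3328))
    (by decide +kernel))
    (good_of_check
    (T 3187671 45224291 7264749 13096709 1442704 3841757 3078423 1226037 3931362 4516514 1730065
    3477736 2871646 53620930 14724010 10722815 24990453 15980037)
    ((((((((((((((((((((((((root.setHiD (qm 2048)).setHiD (qm 1024)).setHiU (qm 512)).setLoA (qm
    2048)).setHiD (qm 512)).setHiU (qm 256)).setLoA (qm 3072)).setHiD (qm 256)).setLoU (qm
    128)).setHiW (qm 128)).setLoD (qm 128)).setHiU (qm 192)).setHiA (qm 3584)).setLoU (qm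
    160)).setLoD (qm 192)).setLoW (qm 64)).setLoW (qm 96)).setHiD (qm 224)).setLoW (qm
    112)).setLoD (qm 208)).setHiW (qm 120)).setHiD (qm 216)).setHiU (qm 176)).setLoA (qm 3328))
    (by decide +kernel)))
    (good_splitD (qm 212)
    (good_of_check
    (R .t5n 2786458 5817774 2421581 5054464 13228465 (-80192) 3437984 11851695 8641097 (-271245)
    3437984 3594340 (-879106) 74942 2724278 2823380 2621442 6745126)
    ((((((((((((((((((((((((root.setHiD (qm 2048)).setHiD (qm 1024)).setHiU (qm 512)).setLoA (qm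
    2048)).setHiD (qm 512)).setHiU (qm 256)).setLoA (qm 3072)).setHiD (qm 256)).setLoU (qm
    128)).setHiW (qm 128)).setLoD (qm 128)).setHiU (qm 192)).setHiA (qm 3584)).setLoU (qm
    160)).setLoD (qm 192)).setLoW (qm 64)).setLoW (qm 96)).setHiD (qm 224)).setLoW (qm
    112)).setLoD (qm 208)).setHiW (qm 120)).setHiD (qm 216)).setLoU (qm 176)).setHiD (qm 212))
    (by decide +kernel))
    (good_of_check
    (R .t5n 2789034 5769252 2421581 5049003 13227681 (-83642) 3436384 11851231 8563638 (-267193)
    3436384 3592810 (-926489) 78305 2722259 2821432 2673357 6945869)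
    ((((((((((((((((((((((((root.setHiD (qm 2048)).setHiD (qm 1024)).setHiU (qm 512)).setLoA (qm
    2048)).setHiD (qm 512)).setHiU (qm 256)).setLoA (qm 3072)).setHiD (qm 256)).setLoU (qm
    128)).setHiW (qm 128)).setLoD (qm 128)).setHiU (qm 192)).setHiA (qm 3584)).setLoU (qm
    160)).setLoD (qm 192)).setLoW (qm 64)).setLoW (qm 96)).setHiD (qm 224)).setLoW (qm
    112)).setLoD (qm 208)).setHiW (qm 120)).setHiD (qm 216)).setLoU (qm 176)).setLoD (qm 212))
    (by decide +kernel))))
    (good_splitU (qm 176)
    (good_splitA (qm 3328)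
    (good_splitD (qm 220)
    (good_of_check
    (R .t5n 2718399 6261006 2965819 5065387 13290661 1923 3270815 11850767 7868512 (-218881)
    3270815 3434789 (-591166) 71206 2720239 2819483 2724283 7642798)
    (((((((((((((((((((((((((root.setHiD (qm 2048)).setHiD (qm 1024)).setHiU (qm 512)).setLoA (qm
    2048)).setHiD (qm 512)).setHiU (qm 256)).setLoA (qm 3072)).setHiD (qm 256)).setLoU (qm
    128)).setHiW (qm 128)).setLoD (qm 128)).setHiU (qm 192)).setHiA (qm 3584)).setLoU (qm
    160)).setLoD (qm 192)).setLoW (qm 64)).setLoW (qm 96)).setHiD (qm 224)).setLoW (qm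
    112)).setLoD (qm 208)).setHiW (qm 120)).setLoD (qm 216)).setHiU (qm 176)).setHiA (qm
    3328)).setHiD (qm 220))
    (by decide +kernel))
    (good_of_check
    (R .t5n 2720975 6168157 2965819 5059925 13300717 (-5005) 3269134 11850303 7781532 (-214549)
    3269134 3433188 (-672496) 75503 2718217 2817532 2774274 7838915)
    (((((((((((((((((((((((((root.setHiD (qm 2048)).setHiD (qm 1024)).setHiU (qm 512)).setLoA (qm
    2048)).setHiD (qm 512)).setHiU (qm 256)).setLoA (qm 3072)).setHiD (qm 256)).setLoU (qm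
    128)).setHiW (qm 128)).setLoD (qm 128)).setHiU (qm 192)).setHiA (qm 3584)).setLoU (qm
    160)).setLoD (qm 192)).setLoW (qm 64)).setLoW (qm 96)).setHiD (qm 224)).setLoW (qm
    112)).setLoD (qm 208)).setHiW (qm 120)).setLoD (qm 216)).setHiU (qm 176)).setHiA (qm
    3328)).setLoD (qm 220))
    (by decide +kernel)))
    (good_of_check
    (T 3187671 45359693 7264749 13096709 1476555 3882791 3117171 1222132 3887639 4484866 1747629
    3477736 2871646 53868212 14961540 10846873 24990453 15962826)
    ((((((((((((((((((((((((root.setHiD (qm 2048)).setHiD (qm 1024)).setHiU (qm 512)).setLoA (qm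
    2048)).setHiD (qm 512)).setHiU (qm 256)).setLoA (qm 3072)).setHiD (qm 256)).setLoU (qm
    128)).setHiW (qm 128)).setLoD (qm 128)).setHiU (qm 192)).setHiA (qm 3584)).setLoU (qm
    160)).setLoD (qm 192)).setLoW (qm 64)).setLoW (qm 96)).setHiD (qm 224)).setLoW (qm
    112)).setLoD (qm 208)).setHiW (qm 120)).setLoD (qm 216)).setHiU (qm 176)).setLoA (qm 3328))
    (by decide +kernel)))
    (good_splitD (qm 220)
    (good_of_check
    (R .t5n 2795777 5667515 2421581 5043541 13220473 (-91245) 3434784 11850767 8417352 (-261099)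
    3434784 3591280 (-977660) 81774 2720239 2819483 2724283 7113104)
    ((((((((((((((((((((((((root.setHiD (qm 2048)).setHiD (qm 1024)).setHiU (qm 512)).setLoA (qm
    2048)).setHiD (qm 512)).setHiU (qm 256)).setLoA (qm 3072)).setHiD (qm 256)).setLoU (qm
    128)).setHiW (qm 128)).setLoD (qm 128)).setHiU (qm 192)).setHiA (qm 3584)).setLoU (qm
    160)).setLoD (qm 192)).setLoW (qm 64)).setLoW (qm 96)).setHiD (qm 224)).setLoW (qm
    112)).setLoD (qm 208)).setHiW (qm 120)).setLoD (qm 216)).setLoU (qm 176)).setHiD (qm 220))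
    (by decide +kernel))
    (good_splitD (qm 222)
    (good_of_check
    (R .t5n 2799943 5606722 2421581 5039445 13216433 (-96068) 3433984 11850535 8331114 (-257650)
    3433984 3590514 (-1001892) 83473 2719228 2818508 2749392 7188984)
    (((((((((((((((((((((((((root.setHiD (qm 2048)).setHiD (qm 1024)).setHiU (qm 512)).setLoA (qm
    2048)).setHiD (qm 512)).setHiU (qm 256)).setLoA (qm 3072)).setHiD (qm 256)).setLoU (qm
    128)).setHiW (qm 128)).setLoD (qm 128)).setHiU (qm 192)).setHiA (qm 3584)).setLoU (qm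
    160)).setLoD (qm 192)).setLoW (qm 64)).setLoW (qm 96)).setHiD (qm 224)).setLoW (qm
    112)).setLoD (qm 208)).setHiW (qm 120)).setLoD (qm 216)).setLoU (qm 176)).setLoD (qm
    220)).setHiD (qm 222))
    (by decide +kernel))
    (good_of_check
    (R .t5n 2804110 5545945 2421581 5036715 13211398 (-100588) 3433183 11850303 8244880 (-254190)
    3433183 3589748 (-1024518) 85129 2718217 2817532 2774274 7263194)
    (((((((((((((((((((((((((root.setHiD (qm 2048)).setHiD (qm 1024)).setHiU (qm 512)).setLoA (qm
    2048)).setHiD (qm 512)).setHiU (qm 256)).setLoA (qm 3072)).setHiD (qm 256)).setLoU (qm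
    128)).setHiW (qm 128)).setLoD (qm 128)).setHiU (qm 192)).setHiA (qm 3584)).setLoU (qm
    160)).setLoD (qm 192)).setLoW (qm 64)).setLoW (qm 96)).setHiD (qm 224)).setLoW (qm
    112)).setLoD (qm 208)).setHiW (qm 120)).setLoD (qm 216)).setLoU (qm 176)).setLoD (qm
    220)).setLoD (qm 222))
    (by decide +kernel))))))
    (good_splitD (qm 216)
    (good_of_check
    (R .t5n 2742795 5903889 2421581 5062656 13280550 (-31691) 3275854 11852159 8479380 (-251575)
    3275854 3595869 523861 32254 2825321 2920997 2568479 6800930)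
    ((((((((((((((((((((((root.setHiD (qm 2048)).setHiD (qm 1024)).setHiU (qm 512)).setLoA (qm
    2048)).setHiD (qm 512)).setHiU (qm 256)).setLoA (qm 3072)).setHiD (qm 256)).setLoU (qm
    128)).setHiW (qm 128)).setLoD (qm 128)).setHiU (qm 192)).setHiA (qm 3584)).setLoU (qm
    160)).setLoD (qm 192)).setLoW (qm 64)).setLoW (qm 96)).setHiD (qm 224)).setLoW (qm
    112)).setLoD (qm 208)).setLoW (qm 120)).setHiD (qm 216))
    (by decide +kernel))
    (good_splitD (qm 220)
    (good_of_check
    (R .t5n 2749543 5797946 2421581 5054464 13275528 (-40065) 3274175 11851695 8326015 (-245358)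
    3274175 3594340 368069 38694 2823375 2919115 2621442 6985246)
    (((((((((((((((((((((((root.setHiD (qm 2048)).setHiD (qm 1024)).setHiU (qm 512)).setLoA (qm
    2048)).setHiD (qm 512)).setHiU (qm 256)).setLoA (qm 3072)).setHiD (qm 256)).setLoU (qm
    128)).setHiW (qm 128)).setLoD (qm 128)).setHiU (qm 192)).setHiA (qm 3584)).setLoU (qm
    160)).setLoD (qm 192)).setLoW (qm 64)).setLoW (qm 96)).setHiD (qm 224)).setLoW (qm
    112)).setLoD (qm 208)).setLoW (qm 120)).setLoD (qm 216)).setHiD (qm 220))
    (by decide +kernel))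
    (good_of_check
    (R .t5n 2757877 5672994 2421581 5049003 13265492 (-49245) 3272496 11851231 8145580 (-238323)
    3272496 3592810 194276 45668 2821427 2917231 2673357 7151457)
    (((((((((((((((((((((((root.setHiD (qm 2048)).setHiD (qm 1024)).setHiU (qm 512)).setLoA (qm
    2048)).setHiD (qm 512)).setHiU (qm 256)).setLoA (qm 3072)).setHiD (qm 256)).setLoU (qm
    128)).setHiW (qm 128)).setLoD (qm 128)).setHiU (qm 192)).setHiA (qm 3584)).setLoU (qm
    160)).setLoD (qm 192)).setLoW (qm 64)).setLoW (qm 96)).setHiD (qm 224)).setLoW (qm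
    112)).setLoD (qm 208)).setLoW (qm 120)).setLoD (qm 216)).setLoD (qm 220))
    (by decide +kernel)))))))

end Vale.Agent.P226.Cert
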