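import Vale.Agent.P226.CertBox
import Vale.Agent.P226.CertSound

/-! Part 16 of the cover (P226). -/

namespace Vale.Agent.P226.Cert

set_option maxHeartbeats 4000000 in
/-- One subtree of the cover. -/
theorem sub32_good : BoxGood
    ((((((((((((((((((root.setHiD (qm 2048)).setHiD (qm 1024)).setHiU (qm 512)).setLoA (qm
    2048)).setHiD (qm 512)).setHiU (qm 256)).setLoA (qm 3072)).setHiD (qm 256)).setLoU (qm
    128)).setHiW (qm 128)).setLoD (qm 128)).setHiU (qm 192)).setHiA (qm 3584)).setLoU (qm
    160)).setLoD (qm 192)).setLoW (qm 64)).setLoW (qm 96)).setLoD (qm 224)) :=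
    (good_splitW (qm 112)
    (good_splitU (qm 176)
    (good_splitA (qm 3328)
    (good_splitD (qm 240)
    (good_splitA (qm 3200)
    (good_splitW (qm 104)
    (good_splitD (qm 232)
    (good_splitU (qm 168)
    (good_of_check
    (T 3187671 51436739 8388609 12582911 1674376 4278959 3286738 1185018 3409157 4283868 1747629
    3397777 2673357 55712023 17796020 11170312 24858111 15954214)
    ((((((((((((((((((((((((((root.setHiD (qm 2048)).setHiD (qm 1024)).setHiU (qm 512)).setLoA (qm
    2048)).setHiD (qm 512)).setHiU (qm 256)).setLoA (qm 3072)).setHiD (qm 256)).setLoU (qm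
    128)).setHiW (qm 128)).setLoD (qm 128)).setHiU (qm 192)).setHiA (qm 3584)).setLoU (qm
    160)).setLoD (qm 192)).setLoW (qm 64)).setLoW (qm 96)).setLoD (qm 224)).setHiW (qm
    112)).setHiU (qm 176)).setHiA (qm 3328)).setHiD (qm 240)).setHiA (qm 3200)).setHiW (qm
    104)).setHiD (qm 232)).setHiU (qm 168))
    (by decide +kernel))
    (good_of_check
    (R .u5 2443584 6477634 3203451 5046272 13231612 (-12085) 3397772 11863286 10020080 (-317646)
    3397772 3477736 934690 (-21475) 2568474 2673357 2673357 6020603)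
    ((((((((((((((((((((((((((root.setHiD (qm 2048)).setHiD (qm 1024)).setHiU (qm 512)).setLoA (qm
    2048)).setHiD (qm 512)).setHiU (qm 256)).setLoA (qm 3072)).setHiD (qm 256)).setLoU (qm
    128)).setHiW (qm 128)).setLoD (qm 128)).setHiU (qm 192)).setHiA (qm 3584)).setLoU (qm
    160)).setLoD (qm 192)).setLoW (qm 64)).setLoW (qm 96)).setLoD (qm 224)).setHiW (qm
    112)).setHiU (qm 176)).setHiA (qm 3328)).setHiD (qm 240)).setHiA (qm 3200)).setHiW (qm
    104)).setHiD (qm 232)).setLoU (qm 168))
    (by decide +kernel)))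
    (good_of_check
    (R .u5 2432643 6456516 3203451 5040811 13244205 1929 3315886 11863286 9827877 (-305866)
    3315886 3477736 1046351 (-23982) 2568474 2673357 2673357 6098677)
    (((((((((((((((((((((((((root.setHiD (qm 2048)).setHiD (qm 1024)).setHiU (qm 512)).setLoA (qm
    2048)).setHiD (qm 512)).setHiU (qm 256)).setLoA (qm 3072)).setHiD (qm 256)).setLoU (qm
    128)).setHiW (qm 128)).setLoD (qm 128)).setHiU (qm 192)).setHiA (qm 3584)).setLoU (qm
    160)).setLoD (qm 192)).setLoW (qm 64)).setLoW (qm 96)).setLoD (qm 224)).setHiW (qm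
    112)).setHiU (qm 176)).setHiA (qm 3328)).setHiD (qm 240)).setHiA (qm 3200)).setHiW (qm
    104)).setLoD (qm 232))
    (by decide +kernel)))
    (good_splitD (qm 232)
    (good_splitW (qm 108)
    (good_splitU (qm 168)
    (good_splitA (qm 3136)
    (good_of_check
    (T 2852127 51436739 8388609 12582911 1674376 4216198 3308405 1060279 3564436 4374296 1747629
    3397777 2724283 62574108 16743970 10925085 24835985 15954214)
    ((((((((((((((((((((((((((((root.setHiD (qm 2048)).setHiD (qm 1024)).setHiU (qm 512)).setLoA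
    (qm 2048)).setHiD (qm 512)).setHiU (qm 256)).setLoA (qm 3072)).setHiD (qm 256)).setLoU (qm
    128)).setHiW (qm 128)).setLoD (qm 128)).setHiU (qm 192)).setHiA (qm 3584)).setLoU (qm
    160)).setLoD (qm 192)).setLoW (qm 64)).setLoW (qm 96)).setLoD (qm 224)).setHiW (qm
    112)).setHiU (qm 176)).setHiA (qm 3328)).setHiD (qm 240)).setHiA (qm 3200)).setLoW (qm
    104)).setHiD (qm 232)).setHiW (qm 108)).setHiU (qm 168)).setHiA (qm 3136))
    (by decide +kernel))
    (good_of_check
    (T 3187671 49853677 8122236 12713307 1622844 4147266 3245688 1194692 3570409 4334117 1747629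
    3397777 2724283 55223290 16705211 11092327 24858111 15954214)
    ((((((((((((((((((((((((((((root.setHiD (qm 2048)).setHiD (qm 1024)).setHiU (qm 512)).setLoA
    (qm 2048)).setHiD (qm 512)).setHiU (qm 256)).setLoA (qm 3072)).setHiD (qm 256)).setLoU (qm
    128)).setHiW (qm 128)).setLoD (qm 128)).setHiU (qm 192)).setHiA (qm 3584)).setLoU (qm
    160)).setLoD (qm 192)).setLoW (qm 64)).setLoW (qm 96)).setLoD (qm 224)).setHiW (qm
    112)).setHiU (qm 176)).setHiA (qm 3328)).setHiD (qm 240)).setHiA (qm 3200)).setLoW (qm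
    104)).setHiD (qm 232)).setHiW (qm 108)).setHiU (qm 168)).setLoA (qm 3136))
    (by decide +kernel)))
    (good_of_check
    (R .u5 2447751 6442161 3203451 5046272 13219919 (-15370) 3397772 11863286 9950348 (-315972)
    3397772 3477736 1644011 (-39603) 2673352 2724283 2724283 6201532)
    (((((((((((((((((((((((((((root.setHiD (qm 2048)).setHiD (qm 1024)).setHiU (qm 512)).setLoA
    (qm 2048)).setHiD (qm 512)).setHiU (qm 256)).setLoA (qm 3072)).setHiD (qm 256)).setLoU (qm
    128)).setHiW (qm 128)).setLoD (qm 128)).setHiU (qm 192)).setHiA (qm 3584)).setLoU (qm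
    160)).setLoD (qm 192)).setLoW (qm 64)).setLoW (qm 96)).setLoD (qm 224)).setHiW (qm
    112)).setHiU (qm 176)).setHiA (qm 3328)).setHiD (qm 240)).setHiA (qm 3200)).setLoW (qm
    104)).setHiD (qm 232)).setHiW (qm 108)).setLoU (qm 168))
    (by decide +kernel)))
    (good_splitW (qm 110)
    (good_of_check
    (R .t5n 2711656 6278748 3203451 5051733 13308963 6750 3264085 11848911 7824006 (-210145)
    3264085 3428381 (-1260992) 97816 2660985 2686691 2749392 7799610)
    (((((((((((((((((((((((((((root.setHiD (qm 2048)).setHiD (qm 1024)).setHiU (qm 512)).setLoA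
    (qm 2048)).setHiD (qm 512)).setHiU (qm 256)).setLoA (qm 3072)).setHiD (qm 256)).setLoU (qm
    128)).setHiW (qm 128)).setLoD (qm 128)).setHiU (qm 192)).setHiA (qm 3584)).setLoU (qm
    160)).setLoD (qm 192)).setLoW (qm 64)).setLoW (qm 96)).setLoD (qm 224)).setHiW (qm
    112)).setHiU (qm 176)).setHiA (qm 3328)).setHiD (qm 240)).setHiA (qm 3200)).setLoW (qm
    104)).setHiD (qm 232)).setLoW (qm 108)).setHiW (qm 110))
    (by decide +kernel))
    (good_of_check
    (R .t5n 2711656 6286321 3203451 5051733 13309536 6533 3264927 11849143 7844693 (-211667)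
    3264927 3429183 (-1204308) 95242 2687709 2713161 2774274 7906689)
    (((((((((((((((((((((((((((root.setHiD (qm 2048)).setHiD (qm 1024)).setHiU (qm 512)).setLoA
    (qm 2048)).setHiD (qm 512)).setHiU (qm 256)).setLoA (qm 3072)).setHiD (qm 256)).setLoU (qm
    128)).setHiW (qm 128)).setLoD (qm 128)).setHiU (qm 192)).setHiA (qm 3584)).setLoU (qm
    160)).setLoD (qm 192)).setLoW (qm 64)).setLoW (qm 96)).setLoD (qm 224)).setHiW (qm
    112)).setHiU (qm 176)).setHiA (qm 3328)).setHiD (qm 240)).setHiA (qm 3200)).setLoW (qm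
    104)).setHiD (qm 232)).setLoW (qm 108)).setLoW (qm 110))
    (by decide +kernel))))
    (good_of_check
    (R .u5 2432673 6456516 3203451 5040811 13244171 1890 3315886 11863286 9827371 (-305854)
    3315886 3477736 2124945 (-51369) 2673352 2774274 2774274 6515101)
    (((((((((((((((((((((((((root.setHiD (qm 2048)).setHiD (qm 1024)).setHiU (qm 512)).setLoA (qm
    2048)).setHiD (qm 512)).setHiU (qm 256)).setLoA (qm 3072)).setHiD (qm 256)).setLoU (qm
    128)).setHiW (qm 128)).setLoD (qm 128)).setHiU (qm 192)).setHiA (qm 3584)).setLoU (qm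
    160)).setLoD (qm 192)).setLoW (qm 64)).setLoW (qm 96)).setLoD (qm 224)).setHiW (qm
    112)).setHiU (qm 176)).setHiA (qm 3328)).setHiD (qm 240)).setHiA (qm 3200)).setLoW (qm
    104)).setLoD (qm 232))
    (by decide +kernel))))
    (good_splitA (qm 3264)
    (good_splitA (qm 3232)
    (good_of_check
    (T 3187671 48607268 7846826 12842379 1645561 4224074 3286434 1195588 3495053 4315045 1782239
    3477736 2774274 55265386 17348709 11303079 24869166 15936975)
    (((((((((((((((((((((((((root.setHiD (qm 2048)).setHiD (qm 1024)).setHiU (qm 512)).setLoA (qm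
    2048)).setHiD (qm 512)).setHiU (qm 256)).setLoA (qm 3072)).setHiD (qm 256)).setLoU (qm
    128)).setHiW (qm 128)).setLoD (qm 128)).setHiU (qm 192)).setHiA (qm 3584)).setLoU (qm
    160)).setLoD (qm 192)).setLoW (qm 64)).setLoW (qm 96)).setLoD (qm 224)).setHiW (qm
    112)).setHiU (qm 176)).setHiA (qm 3328)).setHiD (qm 240)).setLoA (qm 3200)).setHiA (qm
    3264)).setHiA (qm 3232))
    (by decide +kernel))
    (good_of_check
    (T 3187671 47849659 7705430 12906431 1619913 4158237 3235211 1200321 3575010 4360939 1782239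
    3477736 2774274 55031120 16822530 11109290 24880216 15936975)
    (((((((((((((((((((((((((root.setHiD (qm 2048)).setHiD (qm 1024)).setHiU (qm 512)).setLoA (qm
    2048)).setHiD (qm 512)).setHiU (qm 256)).setLoA (qm 3072)).setHiD (qm 256)).setLoU (qm
    128)).setHiW (qm 128)).setLoD (qm 128)).setHiU (qm 192)).setHiA (qm 3584)).setLoU (qm
    160)).setLoD (qm 192)).setLoW (qm 64)).setLoW (qm 96)).setLoD (qm 224)).setHiW (qm
    112)).setHiU (qm 176)).setHiA (qm 3328)).setHiD (qm 240)).setLoA (qm 3200)).setHiA (qm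
    3264)).setLoA (qm 3232))
    (by decide +kernel)))
    (good_of_check
    (T 3187671 47101790 7561391 12970167 1594594 4093245 3184645 1204989 3651898 4405662 1782239
    3477736 2774274 54801386 16336803 10924920 24902303 15936975)
    ((((((((((((((((((((((((root.setHiD (qm 2048)).setHiD (qm 1024)).setHiU (qm 512)).setLoA (qm
    2048)).setHiD (qm 512)).setHiU (qm 256)).setLoA (qm 3072)).setHiD (qm 256)).setLoU (qm
    128)).setHiW (qm 128)).setLoD (qm 128)).setHiU (qm 192)).setHiA (qm 3584)).setLoU (qm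
    160)).setLoD (qm 192)).setLoW (qm 64)).setLoW (qm 96)).setLoD (qm 224)).setHiW (qm
    112)).setHiU (qm 176)).setHiA (qm 3328)).setHiD (qm 240)).setLoA (qm 3200)).setLoA (qm 3264))
    (by decide +kernel))))
    (good_splitW (qm 104)
    (good_splitW (qm 100)
    (good_of_check
    (R .u5 2436839 6418951 2965819 5024427 13244806 (-5104) 3315886 11863286 9756585 (-304161)
    3315886 3477736 761815 (-17357) 2568474 2621442 2621442 5851803)
    ((((((((((((((((((((((((root.setHiD (qm 2048)).setHiD (qm 1024)).setHiU (qm 512)).setLoA (qm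
    2048)).setHiD (qm 512)).setHiU (qm 256)).setLoA (qm 3072)).setHiD (qm 256)).setLoU (qm
    128)).setHiW (qm 128)).setLoD (qm 128)).setHiU (qm 192)).setHiA (qm 3584)).setLoU (qm
    160)).setLoD (qm 192)).setLoW (qm 64)).setLoW (qm 96)).setLoD (qm 224)).setHiW (qm
    112)).setHiU (qm 176)).setHiA (qm 3328)).setLoD (qm 240)).setHiW (qm 104)).setHiW (qm 100))
    (by decide +kernel))
    (good_of_check
    (R .u5 2436839 6418951 2965819 5024427 13244806 (-5104) 3315886 11863286 9756585 (-304161)
    3315886 3477736 1243823 (-29125) 2621438 2673357 2673357 6068996)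
    ((((((((((((((((((((((((root.setHiD (qm 2048)).setHiD (qm 1024)).setHiU (qm 512)).setLoA (qm
    2048)).setHiD (qm 512)).setHiU (qm 256)).setLoA (qm 3072)).setHiD (qm 256)).setLoU (qm
    128)).setHiW (qm 128)).setLoD (qm 128)).setHiU (qm 192)).setHiA (qm 3584)).setLoU (qm
    160)).setLoD (qm 192)).setLoW (qm 64)).setLoW (qm 96)).setLoD (qm 224)).setHiW (qm
    112)).setHiU (qm 176)).setHiA (qm 3328)).setLoD (qm 240)).setHiW (qm 104)).setLoW (qm 100))
    (by decide +kernel)))
    (good_splitW (qm 108)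
    (good_of_check
    (R .u5 2436839 6418951 2965819 5024427 13244806 (-5104) 3315886 11863286 9756585 (-304161)
    3315886 3477736 1782082 (-42792) 2673352 2724283 2724283 6278608)
    ((((((((((((((((((((((((root.setHiD (qm 2048)).setHiD (qm 1024)).setHiU (qm 512)).setLoA (qm
    2048)).setHiD (qm 512)).setHiU (qm 256)).setLoA (qm 3072)).setHiD (qm 256)).setLoU (qm
    128)).setHiW (qm 128)).setLoD (qm 128)).setHiU (qm 192)).setHiA (qm 3584)).setLoU (qm
    160)).setLoD (qm 192)).setLoW (qm 64)).setLoW (qm 96)).setLoD (qm 224)).setHiW (qm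
    112)).setHiU (qm 176)).setHiA (qm 3328)).setLoD (qm 240)).setLoW (qm 104)).setHiW (qm 108))
    (by decide +kernel))
    (good_of_check
    (R .u5 2436839 6418951 2965819 5024427 13244806 (-5104) 3315886 11863286 9756585 (-304161)
    3315886 3477736 2354541 (-57886) 2724278 2774274 2774274 6483532)
    ((((((((((((((((((((((((root.setHiD (qm 2048)).setHiD (qm 1024)).setHiU (qm 512)).setLoA (qm
    2048)).setHiD (qm 512)).setHiU (qm 256)).setLoA (qm 3072)).setHiD (qm 256)).setLoU (qm
    128)).setHiW (qm 128)).setLoD (qm 128)).setHiU (qm 192)).setHiA (qm 3584)).setLoU (qm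
    160)).setLoD (qm 192)).setLoW (qm 64)).setLoW (qm 96)).setLoD (qm 224)).setHiW (qm
    112)).setHiU (qm 176)).setHiA (qm 3328)).setLoD (qm 240)).setLoW (qm 104)).setLoW (qm 108))
    (by decide +kernel)))))
    (good_splitA (qm 3456)
    (good_of_check
    (T 3187671 45909508 7264749 13096709 1614009 4049412 3163812 1205891 3703292 4427537 1816189
    3477736 2774274 54832939 16022723 10836310 24946417 15919718)
    ((((((((((((((((((((((root.setHiD (qm 2048)).setHiD (qm 1024)).setHiU (qm 512)).setLoA (qm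
    2048)).setHiD (qm 512)).setHiU (qm 256)).setLoA (qm 3072)).setHiD (qm 256)).setLoU (qm
    128)).setHiW (qm 128)).setLoD (qm 128)).setHiU (qm 192)).setHiA (qm 3584)).setLoU (qm
    160)).setLoD (qm 192)).setLoW (qm 64)).setLoW (qm 96)).setLoD (qm 224)).setHiW (qm
    112)).setHiU (qm 176)).setLoA (qm 3328)).setHiA (qm 3456))
    (by decide +kernel))
    (good_of_check
    (T 3187671 43045228 6631778 13346192 1513311 3796770 2966422 1223990 3979669 4594913 1816189
    3477736 2774274 53964231 14467538 10190741 24990453 15919718)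
    ((((((((((((((((((((((root.setHiD (qm 2048)).setHiD (qm 1024)).setHiU (qm 512)).setLoA (qm
    2048)).setHiD (qm 512)).setHiU (qm 256)).setLoA (qm 3072)).setHiD (qm 256)).setLoU (qm
    128)).setHiW (qm 128)).setLoD (qm 128)).setHiU (qm 192)).setHiA (qm 3584)).setLoU (qm
    160)).setLoD (qm 192)).setLoW (qm 64)).setLoW (qm 96)).setLoD (qm 224)).setHiW (qm
    112)).setHiU (qm 176)).setLoA (qm 3328)).setLoA (qm 3456))
    (by decide +kernel))))
    (good_splitD (qm 240)
    (good_splitU (qm 184)
    (good_splitW (qm 104)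
    (good_splitD (qm 232)
    (good_of_check
    (R .t4n 3378574 2298165 2421581 5035349 13151857 (-263516) 3331393 11821215 (-1651956) 220577
    3331393 3412912 0 0 0 0 2673357 7908481)
    ((((((((((((((((((((((((root.setHiD (qm 2048)).setHiD (qm 1024)).setHiU (qm 512)).setLoA (qm
    2048)).setHiD (qm 512)).setHiU (qm 256)).setLoA (qm 3072)).setHiD (qm 256)).setLoU (qm
    128)).setHiW (qm 128)).setLoD (qm 128)).setHiU (qm 192)).setHiA (qm 3584)).setLoU (qm
    160)).setLoD (qm 192)).setLoW (qm 64)).setLoW (qm 96)).setLoD (qm 224)).setHiW (qm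
    112)).setLoU (qm 176)).setHiD (qm 240)).setHiU (qm 184)).setHiW (qm 104)).setHiD (qm 232))
    (by decide +kernel))
    (good_of_check
    (R .t4n 3389488 2076116 2421581 5024427 13138286 (-272913) 3326232 11819761 (-1849710) 234471
    3326232 3407874 0 0 0 0 2673357 7852302)
    ((((((((((((((((((((((((root.setHiD (qm 2048)).setHiD (qm 1024)).setHiU (qm 512)).setLoA (qm
    2048)).setHiD (qm 512)).setHiU (qm 256)).setLoA (qm 3072)).setHiD (qm 256)).setLoU (qm
    128)).setHiW (qm 128)).setLoD (qm 128)).setHiU (qm 192)).setHiA (qm 3584)).setLoU (qm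
    160)).setLoD (qm 192)).setLoW (qm 64)).setLoW (qm 96)).setLoD (qm 224)).setHiW (qm
    112)).setLoU (qm 176)).setHiD (qm 240)).setHiU (qm 184)).setHiW (qm 104)).setLoD (qm 232))
    (by decide +kernel)))
    (good_splitD (qm 232)
    (good_splitU (qm 180)
    (good_splitA (qm 3328)
    (good_splitW (qm 108)
    (good_of_check
    (R .t4n 3314657 3473172 2965819 5038080 13166021 (-186050) 3331393 11821215 (-935702) 189884
    3331393 3372401 0 0 0 0 2724283 8423898)
    (((((((((((((((((((((((((((root.setHiD (qm 2048)).setHiD (qm 1024)).setHiU (qm 512)).setLoA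
    (qm 2048)).setHiD (qm 512)).setHiU (qm 256)).setLoA (qm 3072)).setHiD (qm 256)).setLoU (qm
    128)).setHiW (qm 128)).setLoD (qm 128)).setHiU (qm 192)).setHiA (qm 3584)).setLoU (qm
    160)).setLoD (qm 192)).setLoW (qm 64)).setLoW (qm 96)).setLoD (qm 224)).setHiW (qm
    112)).setLoU (qm 176)).setHiD (qm 240)).setHiU (qm 184)).setLoW (qm 104)).setHiD (qm
    232)).setHiU (qm 180)).setHiA (qm 3328)).setHiW (qm 108))
    (by decide +kernel))
    (good_of_check
    (R .t5n 2768788 5996761 2965819 5038080 13250630 (-60341) 3428376 11848911 8067322 (-234708)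
    3428376 3468238 (-1243237) 97348 2660985 2712148 2774274 7501599)
    (((((((((((((((((((((((((((root.setHiD (qm 2048)).setHiD (qm 1024)).setHiU (qm 512)).setLoA
    (qm 2048)).setHiD (qm 512)).setHiU (qm 256)).setLoA (qm 3072)).setHiD (qm 256)).setLoU (qm
    128)).setHiW (qm 128)).setLoD (qm 128)).setHiU (qm 192)).setHiA (qm 3584)).setLoU (qm
    160)).setLoD (qm 192)).setLoW (qm 64)).setLoW (qm 96)).setLoD (qm 224)).setHiW (qm
    112)).setLoU (qm 176)).setHiD (qm 240)).setHiU (qm 184)).setLoW (qm 104)).setHiD (qm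
    232)).setHiU (qm 180)).setHiA (qm 3328)).setLoW (qm 108))
    (by decide +kernel)))
    (good_of_check
    (T 3187671 45564323 7264749 13096709 1527713 3999738 3065863 1216160 3766914 4507588 1773650
    3517033 2774274 54234098 15715990 10520555 24990453 15924034)
    ((((((((((((((((((((((((((root.setHiD (qm 2048)).setHiD (qm 1024)).setHiU (qm 512)).setLoA (qm
    2048)).setHiD (qm 512)).setHiU (qm 256)).setLoA (qm 3072)).setHiD (qm 256)).setLoU (qm
    128)).setHiW (qm 128)).setLoD (qm 128)).setHiU (qm 192)).setHiA (qm 3584)).setLoU (qm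
    160)).setLoD (qm 192)).setLoW (qm 64)).setLoW (qm 96)).setLoD (qm 224)).setHiW (qm
    112)).setLoU (qm 176)).setHiD (qm 240)).setHiU (qm 184)).setLoW (qm 104)).setHiD (qm
    232)).setHiU (qm 180)).setLoA (qm 3328))
    (by decide +kernel)))
    (good_splitD (qm 228)
    (good_of_check
    (R .t4n 3382745 2537240 2421581 5035349 13141830 (-265857) 3374942 11821941 (-1440551) 208425
    3374942 3415428 0 0 0 0 2774274 8234780)
    ((((((((((((((((((((((((((root.setHiD (qm 2048)).setHiD (qm 1024)).setHiU (qm 512)).setLoA (qm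
    2048)).setHiD (qm 512)).setHiU (qm 256)).setLoA (qm 3072)).setHiD (qm 256)).setLoU (qm
    128)).setHiW (qm 128)).setLoD (qm 128)).setHiU (qm 192)).setHiA (qm 3584)).setLoU (qm
    160)).setLoD (qm 192)).setLoW (qm 64)).setLoW (qm 96)).setLoD (qm 224)).setHiW (qm
    112)).setLoU (qm 176)).setHiD (qm 240)).setHiU (qm 184)).setLoW (qm 104)).setHiD (qm
    232)).setLoU (qm 180)).setHiD (qm 228))
    (by decide +kernel))
    (good_of_check
    (R .t4n 3385322 2466280 2421581 5029888 13139104 (-268149) 3372396 11821215 (-1567307) 216652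
    3372396 3412912 0 0 0 0 2774274 8221639)
    ((((((((((((((((((((((((((root.setHiD (qm 2048)).setHiD (qm 1024)).setHiU (qm 512)).setLoA (qm
    2048)).setHiD (qm 512)).setHiU (qm 256)).setLoA (qm 3072)).setHiD (qm 256)).setLoU (qm
    128)).setHiW (qm 128)).setLoD (qm 128)).setHiU (qm 192)).setHiA (qm 3584)).setLoU (qm
    160)).setLoD (qm 192)).setLoW (qm 64)).setLoW (qm 96)).setLoD (qm 224)).setHiW (qm
    112)).setLoU (qm 176)).setHiD (qm 240)).setHiU (qm 184)).setLoW (qm 104)).setHiD (qm
    232)).setLoU (qm 180)).setLoD (qm 228))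
    (by decide +kernel))))
    (good_splitU (qm 180)
    (good_splitA (qm 3328)
    (good_of_check
    (R .u5 2476315 6301959 2965819 5027157 13174702 (-48136) 3477731 11863286 10006461 (-327181)
    3477731 3517033 1565963 (-38317) 2673352 2774274 2774274 6202725)
    ((((((((((((((((((((((((((root.setHiD (qm 2048)).setHiD (qm 1024)).setHiU (qm 512)).setLoA (qm
    2048)).setHiD (qm 512)).setHiU (qm 256)).setLoA (qm 3072)).setHiD (qm 256)).setLoU (qm
    128)).setHiW (qm 128)).setLoD (qm 128)).setHiU (qm 192)).setHiA (qm 3584)).setLoU (qm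
    160)).setLoD (qm 192)).setLoW (qm 64)).setLoW (qm 96)).setLoD (qm 224)).setHiW (qm
    112)).setLoU (qm 176)).setHiD (qm 240)).setHiU (qm 184)).setLoW (qm 104)).setLoD (qm
    232)).setHiU (qm 180)).setHiA (qm 3328))
    (by decide +kernel))
    (good_splitA (qm 3456)
    (good_of_check
    (T 3187671 45701772 7264749 13096709 1562075 4041557 3104865 1212100 3719619 4475977 1790787
    3517033 2774274 54475127 15995155 10643669 24946417 15906763)
    (((((((((((((((((((((((((((root.setHiD (qm 2048)).setHiD (qm 1024)).setHiU (qm 512)).setLoA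
    (qm 2048)).setHiD (qm 512)).setHiU (qm 256)).setLoA (qm 3072)).setHiD (qm 256)).setLoU (qm
    128)).setHiW (qm 128)).setLoD (qm 128)).setHiU (qm 192)).setHiA (qm 3584)).setLoU (qm
    160)).setLoD (qm 192)).setLoW (qm 64)).setLoW (qm 96)).setLoD (qm 224)).setHiW (qm
    112)).setLoU (qm 176)).setHiD (qm 240)).setHiU (qm 184)).setLoW (qm 104)).setLoD (qm
    232)).setHiU (qm 180)).setLoA (qm 3328)).setHiA (qm 3456))
    (by decide +kernel))
    (good_of_check
    (T 3187671 42850453 6631778 13346192 1464618 3789406 2911154 1229833 3995306 4638505 1790787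
    3517033 2774274 53623669 14457423 10031559 24990453 15906763)
    (((((((((((((((((((((((((((root.setHiD (qm 2048)).setHiD (qm 1024)).setHiU (qm 512)).setLoA
    (qm 2048)).setHiD (qm 512)).setHiU (qm 256)).setLoA (qm 3072)).setHiD (qm 256)).setLoU (qm
    128)).setHiW (qm 128)).setLoD (qm 128)).setHiU (qm 192)).setHiA (qm 3584)).setLoU (qm
    160)).setLoD (qm 192)).setLoW (qm 64)).setLoW (qm 96)).setLoD (qm 224)).setHiW (qm
    112)).setLoU (qm 176)).setHiD (qm 240)).setHiU (qm 184)).setLoW (qm 104)).setLoD (qm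
    232)).setHiU (qm 180)).setLoA (qm 3328)).setLoA (qm 3456))
    (by decide +kernel))))
    (good_of_check
    (R .t4n 3396230 2244112 2421581 5021696 13124786 (-277298) 3367298 11819761 (-1825203) 233311
    3367298 3407874 0 0 0 0 2774274 8165095)
    (((((((((((((((((((((((((root.setHiD (qm 2048)).setHiD (qm 1024)).setHiU (qm 512)).setLoA (qm
    2048)).setHiD (qm 512)).setHiU (qm 256)).setLoA (qm 3072)).setHiD (qm 256)).setLoU (qm
    128)).setHiW (qm 128)).setLoD (qm 128)).setHiU (qm 192)).setHiA (qm 3584)).setLoU (qm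
    160)).setLoD (qm 192)).setLoW (qm 64)).setLoW (qm 96)).setLoD (qm 224)).setHiW (qm
    112)).setLoU (qm 176)).setHiD (qm 240)).setHiU (qm 184)).setLoW (qm 104)).setLoD (qm
    232)).setLoU (qm 180))
    (by decide +kernel)))))
    (good_of_check
    (R .t4n 3396230 2503845 2421581 5018965 13121484 (-276266) 3407870 11819761 (-564916) 176696
    3407870 3487602 0 0 0 0 2774274 8165095)
    ((((((((((((((((((((((root.setHiD (qm 2048)).setHiD (qm 1024)).setHiU (qm 512)).setLoA (qm
    2048)).setHiD (qm 512)).setHiU (qm 256)).setLoA (qm 3072)).setHiD (qm 256)).setLoU (qm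
    128)).setHiW (qm 128)).setLoD (qm 128)).setHiU (qm 192)).setHiA (qm 3584)).setLoU (qm
    160)).setLoD (qm 192)).setLoW (qm 64)).setLoW (qm 96)).setLoD (qm 224)).setHiW (qm
    112)).setLoU (qm 176)).setHiD (qm 240)).setLoU (qm 184))
    (by decide +kernel)))
    (good_splitU (qm 184)
    (good_splitW (qm 104)
    (good_of_check
    (R .t4n 3402975 1746841 2421581 5008043 13120004 (-283821) 3315886 11816854 (-2045764) 253741
    3315886 3397777 0 0 0 0 2673357 7785217)
    (((((((((((((((((((((((root.setHiD (qm 2048)).setHiD (qm 1024)).setHiU (qm 512)).setLoA (qm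
    2048)).setHiD (qm 512)).setHiU (qm 256)).setLoA (qm 3072)).setHiD (qm 256)).setLoU (qm
    128)).setHiW (qm 128)).setLoD (qm 128)).setHiU (qm 192)).setHiA (qm 3584)).setLoU (qm
    160)).setLoD (qm 192)).setLoW (qm 64)).setLoW (qm 96)).setLoD (qm 224)).setHiW (qm
    112)).setLoU (qm 176)).setLoD (qm 240)).setHiU (qm 184)).setHiW (qm 104))
    (by decide +kernel))
    (good_splitD (qm 248)
    (good_splitU (qm 180)
    (good_splitW (qm 108)
    (good_splitD (qm 244)
    (good_of_check
    (R .t4n 3400397 1890334 2421581 5018965 13123757 (-282123) 3323648 11819034 (-1971829) 242423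
    3323648 3364751 0 0 0 0 2724283 7972583)
    (((((((((((((((((((((((((((root.setHiD (qm 2048)).setHiD (qm 1024)).setHiU (qm 512)).setLoA
    (qm 2048)).setHiD (qm 512)).setHiU (qm 256)).setLoA (qm 3072)).setHiD (qm 256)).setLoU (qm
    128)).setHiW (qm 128)).setLoD (qm 128)).setHiU (qm 192)).setHiA (qm 3584)).setLoU (qm
    160)).setLoD (qm 192)).setLoW (qm 64)).setLoW (qm 96)).setLoD (qm 224)).setHiW (qm
    112)).setLoU (qm 176)).setLoD (qm 240)).setHiU (qm 184)).setLoW (qm 104)).setHiD (qm
    248)).setHiU (qm 180)).setHiW (qm 108)).setHiD (qm 244))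
    (by decide +kernel))
    (good_of_check
    (R .t4n 3407141 1763285 2421581 5013504 13114430 (-287645) 3321063 11818308 (-2008781) 246720
    3321063 3362197 0 0 0 0 2724283 7938973)
    (((((((((((((((((((((((((((root.setHiD (qm 2048)).setHiD (qm 1024)).setHiU (qm 512)).setLoA
    (qm 2048)).setHiD (qm 512)).setHiU (qm 256)).setLoA (qm 3072)).setHiD (qm 256)).setLoU (qm
    128)).setHiW (qm 128)).setLoD (qm 128)).setHiU (qm 192)).setHiA (qm 3584)).setLoU (qm
    160)).setLoD (qm 192)).setLoW (qm 64)).setLoW (qm 96)).setLoD (qm 224)).setHiW (qm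
    112)).setLoU (qm 176)).setLoD (qm 240)).setHiU (qm 184)).setLoW (qm 104)).setHiD (qm
    248)).setHiU (qm 180)).setHiW (qm 108)).setLoD (qm 244))
    (by decide +kernel)))
    (good_splitW (qm 110)
    (good_splitD (qm 244)
    (good_splitW (qm 109)
    (good_of_check
    (R .t4n 3402975 1856162 2421581 5018965 13119905 (-284201) 3323648 11819034 (-1971829) 242423
    3323648 3364751 0 0 0 0 2736866 8002956)
    (((((((((((((((((((((((((((((root.setHiD (qm 2048)).setHiD (qm 1024)).setHiU (qm 512)).setLoA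
    (qm 2048)).setHiD (qm 512)).setHiU (qm 256)).setLoA (qm 3072)).setHiD (qm 256)).setLoU (qm
    128)).setHiW (qm 128)).setLoD (qm 128)).setHiU (qm 192)).setHiA (qm 3584)).setLoU (qm
    160)).setLoD (qm 192)).setLoW (qm 64)).setLoW (qm 96)).setLoD (qm 224)).setHiW (qm
    112)).setLoU (qm 176)).setLoD (qm 240)).setHiU (qm 184)).setLoW (qm 104)).setHiD (qm
    248)).setHiU (qm 180)).setLoW (qm 108)).setHiW (qm 110)).setHiD (qm 244)).setHiW (qm 109))
    (by decide +kernel))
    (good_of_check
    (R .t5n 2815022 5311486 2421581 5018965 13202331 (-113244) 3423963 11847635 7182290 (-203177)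
    3423963 3463876 (-1371608) 106588 2668206 2681058 2749392 7090331)
    (((((((((((((((((((((((((((((root.setHiD (qm 2048)).setHiD (qm 1024)).setHiU (qm 512)).setLoA
    (qm 2048)).setHiD (qm 512)).setHiU (qm 256)).setLoA (qm 3072)).setHiD (qm 256)).setLoU (qm
    128)).setHiW (qm 128)).setLoD (qm 128)).setHiU (qm 192)).setHiA (qm 3584)).setLoU (qm
    160)).setLoD (qm 192)).setLoW (qm 64)).setLoW (qm 96)).setLoD (qm 224)).setHiW (qm
    112)).setLoU (qm 176)).setLoD (qm 240)).setHiU (qm 184)).setLoW (qm 104)).setHiD (qm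
    248)).setHiU (qm 180)).setLoW (qm 108)).setHiW (qm 110)).setHiD (qm 244)).setLoW (qm 109))
    (by decide +kernel)))
    (good_splitD (qm 246)
    (good_of_check
    (R .t4n 3407142 1781017 2421581 5014869 13114625 (-287774) 3322356 11818671 (-1990284) 244570
    3322356 3363474 0 0 0 0 2749392 8023793)
    (((((((((((((((((((((((((((((root.setHiD (qm 2048)).setHiD (qm 1024)).setHiU (qm 512)).setLoA
    (qm 2048)).setHiD (qm 512)).setHiU (qm 256)).setLoA (qm 3072)).setHiD (qm 256)).setLoU (qm
    128)).setHiW (qm 128)).setLoD (qm 128)).setHiU (qm 192)).setHiA (qm 3584)).setLoU (qm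
    160)).setLoD (qm 192)).setLoW (qm 64)).setLoW (qm 96)).setLoD (qm 224)).setHiW (qm
    112)).setLoU (qm 176)).setLoD (qm 240)).setHiU (qm 184)).setLoW (qm 104)).setHiD (qm
    248)).setHiU (qm 180)).setLoW (qm 108)).setHiW (qm 110)).setLoD (qm 244)).setHiD (qm 246))
    (by decide +kernel))
    (good_of_check
    (R .t4n 3411308 1705885 2421581 5012139 13109008 (-291240) 3321063 11818308 (-2008781) 246720
    3321063 3362197 0 0 0 0 2749392 8003077)
    (((((((((((((((((((((((((((((root.setHiD (qm 2048)).setHiD (qm 1024)).setHiU (qm 512)).setLoA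
    (qm 2048)).setHiD (qm 512)).setHiU (qm 256)).setLoA (qm 3072)).setHiD (qm 256)).setLoU (qm
    128)).setHiW (qm 128)).setLoD (qm 128)).setHiU (qm 192)).setHiA (qm 3584)).setLoU (qm
    160)).setLoD (qm 192)).setLoW (qm 64)).setLoW (qm 96)).setLoD (qm 224)).setHiW (qm
    112)).setLoU (qm 176)).setLoD (qm 240)).setHiU (qm 184)).setLoW (qm 104)).setHiD (qm
    248)).setHiU (qm 180)).setLoW (qm 108)).setHiW (qm 110)).setLoD (qm 244)).setLoD (qm 246))
    (by decide +kernel))))
    (good_splitD (qm 244)
    (good_of_check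
    (R .t5n 2815022 5316969 2421581 5018965 13202160 (-113212) 3424365 11847751 7191835 (-203922)
    3424365 3464273 (-1331841) 104992 2681565 2707076 2774274 7191330)
    ((((((((((((((((((((((((((((root.setHiD (qm 2048)).setHiD (qm 1024)).setHiU (qm 512)).setLoA
    (qm 2048)).setHiD (qm 512)).setHiU (qm 256)).setLoA (qm 3072)).setHiD (qm 256)).setLoU (qm
    128)).setHiW (qm 128)).setLoD (qm 128)).setHiU (qm 192)).setHiA (qm 3584)).setLoU (qm
    160)).setLoD (qm 192)).setLoW (qm 64)).setLoW (qm 96)).setLoD (qm 224)).setHiW (qm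
    112)).setLoU (qm 176)).setLoD (qm 240)).setHiU (qm 184)).setLoW (qm 104)).setHiD (qm
    248)).setHiU (qm 180)).setLoW (qm 108)).setLoW (qm 110)).setHiD (qm 244))
    (by decide +kernel))
    (good_of_check
    (R .t5n 2821763 5213142 2421581 5013504 13194454 (-120599) 3422759 11847287 7040658 (-197462)
    3422759 3462686 (-1374720) 108258 2679514 2705044 2774274 7147347)
    ((((((((((((((((((((((((((((root.setHiD (qm 2048)).setHiD (qm 1024)).setHiU (qm 512)).setLoA
    (qm 2048)).setHiD (qm 512)).setHiU (qm 256)).setLoA (qm 3072)).setHiD (qm 256)).setLoU (qm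
    128)).setHiW (qm 128)).setLoD (qm 128)).setHiU (qm 192)).setHiA (qm 3584)).setLoU (qm
    160)).setLoD (qm 192)).setLoW (qm 64)).setLoW (qm 96)).setLoD (qm 224)).setHiW (qm
    112)).setLoU (qm 176)).setLoD (qm 240)).setHiU (qm 184)).setLoW (qm 104)).setHiD (qm
    248)).setHiU (qm 180)).setLoW (qm 108)).setLoW (qm 110)).setLoD (qm 244))
    (by decide +kernel)))))
    (good_of_check
    (R .t4n 3402975 2081595 2421581 5010773 13116028 (-282860) 3362192 11818308 (-1936821) 243558
    3362192 3402830 0 0 0 0 2774274 8129786)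
    (((((((((((((((((((((((((root.setHiD (qm 2048)).setHiD (qm 1024)).setHiU (qm 512)).setLoA (qm
    2048)).setHiD (qm 512)).setHiU (qm 256)).setLoA (qm 3072)).setHiD (qm 256)).setLoU (qm
    128)).setHiW (qm 128)).setLoD (qm 128)).setHiU (qm 192)).setHiA (qm 3584)).setLoU (qm
    160)).setLoD (qm 192)).setLoW (qm 64)).setLoW (qm 96)).setLoD (qm 224)).setHiW (qm
    112)).setLoU (qm 176)).setLoD (qm 240)).setHiU (qm 184)).setLoW (qm 104)).setHiD (qm
    248)).setLoU (qm 180))
    (by decide +kernel)))
    (good_splitW (qm 108)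
    (good_of_check
    (R .t4n 3413883 1598644 2421581 5002581 13105511 (-293139) 3315886 11816854 (-2045764) 253741
    3315886 3397777 0 0 0 0 2724283 7905538)
    (((((((((((((((((((((((((root.setHiD (qm 2048)).setHiD (qm 1024)).setHiU (qm 512)).setLoA (qm
    2048)).setHiD (qm 512)).setHiU (qm 256)).setLoA (qm 3072)).setHiD (qm 256)).setLoU (qm
    128)).setHiW (qm 128)).setLoD (qm 128)).setHiU (qm 192)).setHiA (qm 3584)).setLoU (qm
    160)).setLoD (qm 192)).setLoW (qm 64)).setLoW (qm 96)).setLoD (qm 224)).setHiW (qm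
    112)).setLoU (qm 176)).setLoD (qm 240)).setHiU (qm 184)).setLoW (qm 104)).setLoD (qm
    248)).setHiW (qm 108))
    (by decide +kernel))
    (good_of_check
    (R .u5 2487234 6170240 2421581 5002581 13170635 (-64500) 3477731 11863286 9996212 (-329981)
    3477731 3555897 1689633 (-42168) 2724278 2774274 2774274 6126523)
    (((((((((((((((((((((((((root.setHiD (qm 2048)).setHiD (qm 1024)).setHiU (qm 512)).setLoA (qm
    2048)).setHiD (qm 512)).setHiU (qm 256)).setLoA (qm 3072)).setHiD (qm 256)).setLoU (qm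
    128)).setHiW (qm 128)).setLoD (qm 128)).setHiU (qm 192)).setHiA (qm 3584)).setLoU (qm
    160)).setLoD (qm 192)).setLoW (qm 64)).setLoW (qm 96)).setLoD (qm 224)).setHiW (qm
    112)).setLoU (qm 176)).setLoD (qm 240)).setHiU (qm 184)).setLoW (qm 104)).setLoD (qm
    248)).setLoW (qm 108))
    (by decide +kernel)))))
    (good_of_check
    (R .t4n 3411308 1975685 2421581 4997120 13146393 (-302301) 3397772 11816854 (-1255057) 218221
    3397772 3477736 0 0 0 0 2774274 8086784)
    ((((((((((((((((((((((root.setHiD (qm 2048)).setHiD (qm 1024)).setHiU (qm 512)).setLoA (qm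
    2048)).setHiD (qm 512)).setHiU (qm 256)).setLoA (qm 3072)).setHiD (qm 256)).setLoU (qm
    128)).setHiW (qm 128)).setLoD (qm 128)).setHiU (qm 192)).setHiA (qm 3584)).setLoU (qm
    160)).setLoD (qm 192)).setLoW (qm 64)).setLoW (qm 96)).setLoD (qm 224)).setHiW (qm
    112)).setLoU (qm 176)).setLoD (qm 240)).setLoU (qm 184))
    (by decide +kernel)))))
    (good_splitD (qm 240)
    (good_splitW (qm 120)
    (good_splitU (qm 176)
    (good_splitA (qm 3328)
    (good_splitD (qm 232)
    (good_splitW (qm 116)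
    (good_splitU (qm 168)
    (good_splitA (qm 3200)
    (good_of_check
    (R .t5n 2711656 6295187 3203451 5057195 13305688 7654 3265769 11849375 7351656 (-193121)
    3265769 3348886 (-974301) 87912 2714169 2764348 2823380 8116600)
    (((((((((((((((((((((((((((root.setHiD (qm 2048)).setHiD (qm 1024)).setHiU (qm 512)).setLoA
    (qm 2048)).setHiD (qm 512)).setHiU (qm 256)).setLoA (qm 3072)).setHiD (qm 256)).setLoU (qm
    128)).setHiW (qm 128)).setLoD (qm 128)).setHiU (qm 192)).setHiA (qm 3584)).setLoU (qm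
    160)).setLoD (qm 192)).setLoW (qm 64)).setLoW (qm 96)).setLoD (qm 224)).setLoW (qm
    112)).setHiD (qm 240)).setHiW (qm 120)).setHiU (qm 176)).setHiA (qm 3328)).setHiD (qm
    232)).setHiW (qm 116)).setHiU (qm 168)).setHiA (qm 3200))
    (by decide +kernel))
    (good_of_check
    (T 3187671 48316207 7846826 12842379 1572796 4019366 3262095 1204089 3719255 4344836 1747629
    3397777 2823380 54754092 15777567 11301116 24902303 15954214)
    (((((((((((((((((((((((((((root.setHiD (qm 2048)).setHiD (qm 1024)).setHiU (qm 512)).setLoA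
    (qm 2048)).setHiD (qm 512)).setHiU (qm 256)).setLoA (qm 3072)).setHiD (qm 256)).setLoU (qm
    128)).setHiW (qm 128)).setLoD (qm 128)).setHiU (qm 192)).setHiA (qm 3584)).setLoU (qm
    160)).setLoD (qm 192)).setLoW (qm 64)).setLoW (qm 96)).setLoD (qm 224)).setLoW (qm
    112)).setHiD (qm 240)).setHiW (qm 120)).setHiU (qm 176)).setHiA (qm 3328)).setHiD (qm
    232)).setHiW (qm 116)).setHiU (qm 168)).setLoA (qm 3200))
    (by decide +kernel)))
    (good_of_check
    (R .t5n 2746968 6075284 2965819 5046272 13268532 (-33585) 3348881 11849375 7759318 (-217578)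
    3348881 3429984 (-1124962) 92031 2714169 2764348 2823380 7859293)
    ((((((((((((((((((((((((((root.setHiD (qm 2048)).setHiD (qm 1024)).setHiU (qm 512)).setLoA (qm
    2048)).setHiD (qm 512)).setHiU (qm 256)).setLoA (qm 3072)).setHiD (qm 256)).setLoU (qm
    128)).setHiW (qm 128)).setLoD (qm 128)).setHiU (qm 192)).setHiA (qm 3584)).setLoU (qm
    160)).setLoD (qm 192)).setLoW (qm 64)).setLoW (qm 96)).setLoD (qm 224)).setLoW (qm
    112)).setHiD (qm 240)).setHiW (qm 120)).setHiU (qm 176)).setHiA (qm 3328)).setHiD (qm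
    232)).setHiW (qm 116)).setLoU (qm 168))
    (by decide +kernel)))
    (good_of_check
    (R .t5n 2725142 6098506 2965819 5051733 13299255 (-10663) 3267452 11849839 7666111 (-209394)
    3267452 3431587 (-521310) 72970 2766331 2815580 2823380 8017198)
    (((((((((((((((((((((((((root.setHiD (qm 2048)).setHiD (qm 1024)).setHiU (qm 512)).setLoA (qm
    2048)).setHiD (qm 512)).setHiU (qm 256)).setLoA (qm 3072)).setHiD (qm 256)).setLoU (qm
    128)).setHiW (qm 128)).setLoD (qm 128)).setHiU (qm 192)).setHiA (qm 3584)).setLoU (qm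
    160)).setLoD (qm 192)).setLoW (qm 64)).setLoW (qm 96)).setLoD (qm 224)).setLoW (qm
    112)).setHiD (qm 240)).setHiW (qm 120)).setHiU (qm 176)).setHiA (qm 3328)).setHiD (qm
    232)).setLoW (qm 116))
    (by decide +kernel)))
    (good_splitW (qm 116)
    (good_splitU (qm 168)
    (good_splitA (qm 3200)
    (good_of_check
    (R .u5 2436839 6418951 3203451 5046272 13228090 (-87) 3315886 11863286 9379963 (-289450)
    3315886 3397777 2944996 (-74031) 2774269 2823380 2823380 6683766)
    (((((((((((((((((((((((((((root.setHiD (qm 2048)).setHiD (qm 1024)).setHiU (qm 512)).setLoA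
    (qm 2048)).setHiD (qm 512)).setHiU (qm 256)).setLoA (qm 3072)).setHiD (qm 256)).setLoU (qm
    128)).setHiW (qm 128)).setLoD (qm 128)).setHiU (qm 192)).setHiA (qm 3584)).setLoU (qm
    160)).setLoD (qm 192)).setLoW (qm 64)).setLoW (qm 96)).setLoD (qm 224)).setLoW (qm
    112)).setHiD (qm 240)).setHiW (qm 120)).setHiU (qm 176)).setHiA (qm 3328)).setLoD (qm
    232)).setHiW (qm 116)).setHiU (qm 168)).setHiA (qm 3200))
    (by decide +kernel))
    (good_of_check
    (T 3187671 48461300 7846826 12842379 1609069 4062986 3303441 1199873 3670131 4309694 1765019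
    3397777 2823380 55010768 16075775 11451117 24902303 15936975)
    (((((((((((((((((((((((((((root.setHiD (qm 2048)).setHiD (qm 1024)).setHiU (qm 512)).setLoA
    (qm 2048)).setHiD (qm 512)).setHiU (qm 256)).setLoA (qm 3072)).setHiD (qm 256)).setLoU (qm
    128)).setHiW (qm 128)).setLoD (qm 128)).setHiU (qm 192)).setHiA (qm 3584)).setLoU (qm
    160)).setLoD (qm 192)).setLoW (qm 64)).setLoW (qm 96)).setLoD (qm 224)).setLoW (qm
    112)).setHiD (qm 240)).setHiW (qm 120)).setHiU (qm 176)).setHiA (qm 3328)).setLoD (qm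
    232)).setHiW (qm 116)).setHiU (qm 168)).setLoA (qm 3200))
    (by decide +kernel)))
    (good_of_check
    (R .t5n 2753711 5960483 2965819 5035349 13263357 (-41790) 3345596 11848447 7561896 (-208137)
    3345596 3426777 (-1215118) 98665 2710115 2760368 2823380 7811239)
    ((((((((((((((((((((((((((root.setHiD (qm 2048)).setHiD (qm 1024)).setHiU (qm 512)).setLoA (qm
    2048)).setHiD (qm 512)).setHiU (qm 256)).setLoA (qm 3072)).setHiD (qm 256)).setLoU (qm
    128)).setHiW (qm 128)).setLoD (qm 128)).setHiU (qm 192)).setHiA (qm 3584)).setLoU (qm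
    160)).setLoD (qm 192)).setLoW (qm 64)).setLoW (qm 96)).setLoD (qm 224)).setLoW (qm
    112)).setHiD (qm 240)).setHiW (qm 120)).setHiU (qm 176)).setHiA (qm 3328)).setLoD (qm
    232)).setHiW (qm 116)).setLoU (qm 168))
    (by decide +kernel)))
    (good_splitD (qm 236)
    (good_of_check
    (R .t5n 2736052 5942753 2965819 5043541 13286696 (-22951) 3265769 11849375 7430920 (-200772)
    3265769 3429984 (-697939) 79961 2764343 2813627 2871646 8139578)
    ((((((((((((((((((((((((((root.setHiD (qm 2048)).setHiD (qm 1024)).setHiU (qm 512)).setLoA (qm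
    2048)).setHiD (qm 512)).setHiU (qm 256)).setLoA (qm 3072)).setHiD (qm 256)).setLoU (qm
    128)).setHiW (qm 128)).setLoD (qm 128)).setHiU (qm 192)).setHiA (qm 3584)).setLoU (qm
    160)).setLoD (qm 192)).setLoW (qm 64)).setLoW (qm 96)).setLoD (qm 224)).setLoW (qm
    112)).setHiD (qm 240)).setHiW (qm 120)).setHiU (qm 176)).setHiA (qm 3328)).setLoD (qm
    232)).setLoW (qm 116)).setHiD (qm 236))
    (by decide +kernel))
    (good_of_check
    (R .t5n 2740219 5873101 2965819 5038080 13282846 (-27865) 3264085 11848911 7315491 (-195563)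
    3264085 3428381 (-796577) 84783 2762354 2811673 2871646 8109051)
    ((((((((((((((((((((((((((root.setHiD (qm 2048)).setHiD (qm 1024)).setHiU (qm 512)).setLoA (qm
    2048)).setHiD (qm 512)).setHiU (qm 256)).setLoA (qm 3072)).setHiD (qm 256)).setLoU (qm
    128)).setHiW (qm 128)).setLoD (qm 128)).setHiU (qm 192)).setHiA (qm 3584)).setLoU (qm
    160)).setLoD (qm 192)).setLoW (qm 64)).setLoW (qm 96)).setLoD (qm 224)).setLoW (qm
    112)).setHiD (qm 240)).setHiW (qm 120)).setHiU (qm 176)).setHiA (qm 3328)).setLoD (qm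
    232)).setLoW (qm 116)).setLoD (qm 236))
    (by decide +kernel)))))
    (good_splitA (qm 3456)
    (good_of_check
    (T 3187671 45632944 7264749 13096709 1544868 3965600 3195368 1214138 3797432 4419930 1782239
    3477736 2871646 54354875 15468417 11107824 24946417 15936975)
    ((((((((((((((((((((((((root.setHiD (qm 2048)).setHiD (qm 1024)).setHiU (qm 512)).setLoA (qm
    2048)).setHiD (qm 512)).setHiU (qm 256)).setLoA (qm 3072)).setHiD (qm 256)).setLoU (qm
    128)).setHiW (qm 128)).setLoD (qm 128)).setHiU (qm 192)).setHiA (qm 3584)).setLoU (qm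
    160)).setLoD (qm 192)).setLoW (qm 64)).setLoW (qm 96)).setLoD (qm 224)).setLoW (qm
    112)).setHiD (qm 240)).setHiW (qm 120)).setHiU (qm 176)).setLoA (qm 3328)).setHiA (qm 3456))
    (by decide +kernel))
    (good_of_check
    (T 3187671 42785919 6631778 13346192 1448484 3718187 2996010 1231753 4061018 4590692 1782239
    3477736 2871646 53508961 14049291 10439773 24990453 15936975)
    ((((((((((((((((((((((((root.setHiD (qm 2048)).setHiD (qm 1024)).setHiU (qm 512)).setLoA (qm
    2048)).setHiD (qm 512)).setHiU (qm 256)).setLoA (qm 3072)).setHiD (qm 256)).setLoU (qm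
    128)).setHiW (qm 128)).setLoD (qm 128)).setHiU (qm 192)).setHiA (qm 3584)).setLoU (qm
    160)).setLoD (qm 192)).setLoW (qm 64)).setLoW (qm 96)).setLoD (qm 224)).setLoW (qm
    112)).setHiD (qm 240)).setHiW (qm 120)).setHiU (qm 176)).setLoA (qm 3328)).setLoA (qm 3456))
    (by decide +kernel))))
    (good_splitA (qm 3328)
    (good_of_check
    (R .t5n 2771363 5948231 2965819 5024427 13255664 (-65544) 3426772 11848447 8645214 (-258827)
    3426772 3583617 (-1148508) 96844 2710115 2809717 2871646 7885034)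
    (((((((((((((((((((((((root.setHiD (qm 2048)).setHiD (qm 1024)).setHiU (qm 512)).setLoA (qm
    2048)).setHiD (qm 512)).setHiU (qm 256)).setLoA (qm 3072)).setHiD (qm 256)).setLoU (qm
    128)).setHiW (qm 128)).setLoD (qm 128)).setHiU (qm 192)).setHiA (qm 3584)).setLoU (qm
    160)).setLoD (qm 192)).setLoW (qm 64)).setLoW (qm 96)).setLoD (qm 224)).setLoW (qm
    112)).setHiD (qm 240)).setHiW (qm 120)).setLoU (qm 176)).setHiA (qm 3328))
    (by decide +kernel))
    (good_splitA (qm 3456)
    (good_splitD (qm 232)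
    (good_splitW (qm 116)
    (good_of_check
    (R .t5n 2789034 5762464 2707410 5029888 13223970 (-82065) 3429979 11849375 8422886 (-255896)
    3429979 3586684 (-1135022) 92306 2714169 2764348 2823380 7565004)
    ((((((((((((((((((((((((((root.setHiD (qm 2048)).setHiD (qm 1024)).setHiU (qm 512)).setLoA (qm
    2048)).setHiD (qm 512)).setHiU (qm 256)).setLoA (qm 3072)).setHiD (qm 256)).setLoU (qm
    128)).setHiW (qm 128)).setLoD (qm 128)).setHiU (qm 192)).setHiA (qm 3584)).setLoU (qm
    160)).setLoD (qm 192)).setLoW (qm 64)).setLoW (qm 96)).setLoD (qm 224)).setLoW (qm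
    112)).setHiD (qm 240)).setHiW (qm 120)).setLoU (qm 176)).setLoA (qm 3328)).setHiA (qm
    3456)).setHiD (qm 232)).setHiW (qm 116))
    (by decide +kernel))
    (good_of_check
    (R .t5n 2786458 5808905 2707410 5029888 13229225 (-79967) 3431582 11849839 8500778 (-259983)
    3431582 3588217 (-1001777) 86493 2766331 2815580 2823380 7582654)
    ((((((((((((((((((((((((((root.setHiD (qm 2048)).setHiD (qm 1024)).setHiU (qm 512)).setLoA (qm
    2048)).setHiD (qm 512)).setHiU (qm 256)).setLoA (qm 3072)).setHiD (qm 256)).setLoU (qm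
    128)).setHiW (qm 128)).setLoD (qm 128)).setHiU (qm 192)).setHiA (qm 3584)).setLoU (qm
    160)).setLoD (qm 192)).setLoW (qm 64)).setLoW (qm 96)).setLoD (qm 224)).setLoW (qm
    112)).setHiD (qm 240)).setHiW (qm 120)).setLoU (qm 176)).setLoA (qm 3328)).setHiA (qm
    3456)).setHiD (qm 232)).setLoW (qm 116))
    (by decide +kernel)))
    (good_splitW (qm 116)
    (good_of_check
    (R .t5n 2795777 5585603 2707410 5018965 13233973 (-94867) 3426772 11848447 8240469 (-246898)
    3426772 3583617 (-1216033) 98690 2710115 2760368 2823380 7519027)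
    ((((((((((((((((((((((((((root.setHiD (qm 2048)).setHiD (qm 1024)).setHiU (qm 512)).setLoA (qm
    2048)).setHiD (qm 512)).setHiU (qm 256)).setLoA (qm 3072)).setHiD (qm 256)).setLoU (qm
    128)).setHiW (qm 128)).setLoD (qm 128)).setHiU (qm 192)).setHiA (qm 3584)).setLoU (qm
    160)).setLoD (qm 192)).setLoW (qm 64)).setLoW (qm 96)).setLoD (qm 224)).setLoW (qm
    112)).setHiD (qm 240)).setHiW (qm 120)).setLoU (qm 176)).setLoA (qm 3328)).setHiA (qm
    3456)).setLoD (qm 232)).setHiW (qm 116))
    (by decide +kernel))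
    (good_of_check
    (R .t5n 2793202 5633344 2707410 5018965 13239026 (-92712) 3428376 11848911 8318565 (-251015)
    3428376 3585151 (-1102168) 93419 2762354 2811673 2871646 7732215)
    ((((((((((((((((((((((((((root.setHiD (qm 2048)).setHiD (qm 1024)).setHiU (qm 512)).setLoA (qm
    2048)).setHiD (qm 512)).setHiU (qm 256)).setLoA (qm 3072)).setHiD (qm 256)).setLoU (qm
    128)).setHiW (qm 128)).setLoD (qm 128)).setHiU (qm 192)).setHiA (qm 3584)).setLoU (qm
    160)).setLoD (qm 192)).setLoW (qm 64)).setLoW (qm 96)).setLoD (qm 224)).setLoW (qm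
    112)).setHiD (qm 240)).setHiW (qm 120)).setLoU (qm 176)).setLoA (qm 3328)).setHiA (qm
    3456)).setLoD (qm 232)).setLoW (qm 116))
    (by decide +kernel))))
    (good_splitA (qm 3520)
    (good_of_check
    (T 3187671 43045228 6631778 13346192 1513311 4004357 3070216 1223990 3783714 4530411 1816189
    3632376 2871646 53964231 15816139 10668971 24968444 15902442)
    (((((((((((((((((((((((((root.setHiD (qm 2048)).setHiD (qm 1024)).setHiU (qm 512)).setLoA (qm
    2048)).setHiD (qm 512)).setHiU (qm 256)).setLoA (qm 3072)).setHiD (qm 256)).setLoU (qm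
    128)).setHiW (qm 128)).setLoD (qm 128)).setHiU (qm 192)).setHiA (qm 3584)).setLoU (qm
    160)).setLoD (qm 192)).setLoW (qm 64)).setLoW (qm 96)).setLoD (qm 224)).setLoW (qm
    112)).setHiD (qm 240)).setHiW (qm 120)).setLoU (qm 176)).setLoA (qm 3328)).setLoA (qm
    3456)).setHiA (qm 3520))
    (by decide +kernel))
    (good_of_check
    (T 3187671 41648172 6291457 13469201 1464196 3874394 2970570 1232716 3926729 4613510 1816189
    3632376 2871646 53552059 15020343 10354827 24990453 15902442)
    (((((((((((((((((((((((((root.setHiD (qm 2048)).setHiD (qm 1024)).setHiU (qm 512)).setLoA (qm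
    2048)).setHiD (qm 512)).setHiU (qm 256)).setLoA (qm 3072)).setHiD (qm 256)).setLoU (qm
    128)).setHiW (qm 128)).setLoD (qm 128)).setHiU (qm 192)).setHiA (qm 3584)).setLoU (qm
    160)).setLoD (qm 192)).setLoW (qm 64)).setLoW (qm 96)).setLoD (qm 224)).setLoW (qm
    112)).setHiD (qm 240)).setHiW (qm 120)).setLoU (qm 176)).setLoA (qm 3328)).setLoA (qm
    3456)).setLoA (qm 3520))
    (by decide +kernel))))))
    (good_splitU (qm 176)
    (good_splitD (qm 232)
    (good_splitD (qm 228)
    (good_of_check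
    (R .t5n 2757877 5655260 2421581 5054464 13261233 (-47880) 3270815 11850767 7170197 (-198773)
    3270815 3434789 135517 49366 2819478 2915346 2724283 7367035)
    ((((((((((((((((((((((((root.setHiD (qm 2048)).setHiD (qm 1024)).setHiU (qm 512)).setLoA (qm
    2048)).setHiD (qm 512)).setHiU (qm 256)).setLoA (qm 3072)).setHiD (qm 256)).setLoU (qm
    128)).setHiW (qm 128)).setLoD (qm 128)).setHiU (qm 192)).setHiA (qm 3584)).setLoU (qm
    160)).setLoD (qm 192)).setLoW (qm 64)).setLoW (qm 96)).setLoD (qm 224)).setLoW (qm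
    112)).setHiD (qm 240)).setLoW (qm 120)).setHiU (qm 176)).setHiD (qm 232)).setHiD (qm 228))
    (by decide +kernel))
    (good_splitD (qm 230)
    (good_of_check
    (R .t5n 2760455 5612202 2421581 5050368 13259853 (-51220) 3269975 11850535 7104252 (-195911)
    3269975 3433989 71891 52198 2818503 2914402 2749392 7454975)
    (((((((((((((((((((((((((root.setHiD (qm 2048)).setHiD (qm 1024)).setHiU (qm 512)).setLoA (qm
    2048)).setHiD (qm 512)).setHiU (qm 256)).setLoA (qm 3072)).setHiD (qm 256)).setLoU (qm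
    128)).setHiW (qm 128)).setLoD (qm 128)).setHiU (qm 192)).setHiA (qm 3584)).setLoU (qm
    160)).setLoD (qm 192)).setLoW (qm 64)).setLoW (qm 96)).setLoD (qm 224)).setLoW (qm
    112)).setHiD (qm 240)).setLoW (qm 120)).setHiU (qm 176)).setHiD (qm 232)).setLoD (qm
    228)).setHiD (qm 230))
    (by decide +kernel))
    (good_of_check
    (R .t5n 2764621 5549331 2421581 5047637 13254799 (-55785) 3269134 11850303 7010468 (-192223)
    3269134 3433188 (-11699) 55606 2817527 2913459 2774274 7530318)
    (((((((((((((((((((((((((root.setHiD (qm 2048)).setHiD (qm 1024)).setHiU (qm 512)).setLoA (qm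
    2048)).setHiD (qm 512)).setHiU (qm 256)).setLoA (qm 3072)).setHiD (qm 256)).setLoU (qm
    128)).setHiW (qm 128)).setLoD (qm 128)).setHiU (qm 192)).setHiA (qm 3584)).setLoU (qm
    160)).setLoD (qm 192)).setLoW (qm 64)).setLoW (qm 96)).setLoD (qm 224)).setLoW (qm
    112)).setHiD (qm 240)).setLoW (qm 120)).setHiU (qm 176)).setHiD (qm 232)).setLoD (qm
    228)).setLoD (qm 230))
    (by decide +kernel))))
    (good_splitA (qm 3328)
    (good_of_check
    (R .t5n 2736053 5942752 2965819 5040811 13288627 (-23533) 3265769 11849375 7430905 (-200771)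
    3265769 3429984 259309 51917 2813622 2909683 2871646 8139571)
    ((((((((((((((((((((((((root.setHiD (qm 2048)).setHiD (qm 1024)).setHiU (qm 512)).setLoA (qm
    2048)).setHiD (qm 512)).setHiU (qm 256)).setLoA (qm 3072)).setHiD (qm 256)).setLoU (qm
    128)).setHiW (qm 128)).setLoD (qm 128)).setHiU (qm 192)).setHiA (qm 3584)).setLoU (qm
    160)).setLoD (qm 192)).setLoW (qm 64)).setLoW (qm 96)).setLoD (qm 224)).setLoW (qm
    112)).setHiD (qm 240)).setLoW (qm 120)).setHiU (qm 176)).setLoD (qm 232)).setHiA (qm 3328))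
    (by decide +kernel))
    (good_splitA (qm 3456)
    (good_of_check
    (T 3187671 45632944 7264749 13096709 1544868 3965600 3305401 1214138 3797432 4344238 1782239
    3477736 2965823 54354875 15468417 11649354 24946417 15928349)
    (((((((((((((((((((((((((root.setHiD (qm 2048)).setHiD (qm 1024)).setHiU (qm 512)).setLoA (qm
    2048)).setHiD (qm 512)).setHiU (qm 256)).setLoA (qm 3072)).setHiD (qm 256)).setLoU (qm
    128)).setHiW (qm 128)).setLoD (qm 128)).setHiU (qm 192)).setHiA (qm 3584)).setLoU (qm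
    160)).setLoD (qm 192)).setLoW (qm 64)).setLoW (qm 96)).setLoD (qm 224)).setLoW (qm
    112)).setHiD (qm 240)).setLoW (qm 120)).setHiU (qm 176)).setLoD (qm 232)).setLoA (qm
    3328)).setHiA (qm 3456))
    (by decide +kernel))
    (good_of_check
    (T 3187671 42785919 6631778 13346192 1448484 3718187 3099178 1231753 4061018 4525500 1782239
    3477736 2965823 53508961 14049291 10907483 24990453 15928349)
    (((((((((((((((((((((((((root.setHiD (qm 2048)).setHiD (qm 1024)).setHiU (qm 512)).setLoA (qm
    2048)).setHiD (qm 512)).setHiU (qm 256)).setLoA (qm 3072)).setHiD (qm 256)).setLoU (qm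
    128)).setHiW (qm 128)).setLoD (qm 128)).setHiU (qm 192)).setHiA (qm 3584)).setLoU (qm
    160)).setLoD (qm 192)).setLoW (qm 64)).setLoW (qm 96)).setLoD (qm 224)).setLoW (qm
    112)).setHiD (qm 240)).setLoW (qm 120)).setHiU (qm 176)).setLoD (qm 232)).setLoA (qm
    3328)).setLoA (qm 3456))
    (by decide +kernel)))))
    (good_splitD (qm 232)
    (good_of_check
    (R .t5n 2799943 5597855 2421581 5029888 13222694 (-97906) 3433183 11850303 8313480 (-256233)
    3433183 3589748 (-425573) 67586 2817527 2913459 2774274 7290857)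
    (((((((((((((((((((((((root.setHiD (qm 2048)).setHiD (qm 1024)).setHiU (qm 512)).setLoA (qm
    2048)).setHiD (qm 512)).setHiU (qm 256)).setLoA (qm 3072)).setHiD (qm 256)).setLoU (qm
    128)).setHiW (qm 128)).setLoD (qm 128)).setHiU (qm 192)).setHiA (qm 3584)).setLoU (qm
    160)).setLoD (qm 192)).setLoW (qm 64)).setLoW (qm 96)).setLoD (qm 224)).setLoW (qm
    112)).setHiD (qm 240)).setLoW (qm 120)).setLoU (qm 176)).setHiD (qm 232))
    (by decide +kernel))
    (good_of_check
    (R .t5n 2806688 5479623 2421581 5018965 13217968 (-106139) 3429979 11849375 8131619 (-247226)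
    3429979 3586684 (-599232) 76669 2813622 2909683 2871646 7639560)
    (((((((((((((((((((((((root.setHiD (qm 2048)).setHiD (qm 1024)).setHiU (qm 512)).setLoA (qm
    2048)).setHiD (qm 512)).setHiU (qm 256)).setLoA (qm 3072)).setHiD (qm 256)).setLoU (qm
    128)).setHiW (qm 128)).setLoD (qm 128)).setHiU (qm 192)).setHiA (qm 3584)).setLoU (qm
    160)).setLoD (qm 192)).setLoW (qm 64)).setLoW (qm 96)).setLoD (qm 224)).setLoW (qm
    112)).setHiD (qm 240)).setLoW (qm 120)).setLoU (qm 176)).setLoD (qm 232))
    (by decide +kernel)))))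
    (good_splitA (qm 3328)
    (good_splitW (qm 120)
    (good_splitU (qm 176)
    (good_splitD (qm 248)
    (good_splitW (qm 116)
    (good_splitU (qm 168)
    (good_of_check
    (R .u5 2436840 6418951 2965819 5035349 13236444 (-2599) 3315886 11863286 9379949 (-289449)
    3315886 3397777 2944983 (-74031) 2774269 2823380 2823380 6683755)
    ((((((((((((((((((((((((((root.setHiD (qm 2048)).setHiD (qm 1024)).setHiU (qm 512)).setLoA (qm
    2048)).setHiD (qm 512)).setHiU (qm 256)).setLoA (qm 3072)).setHiD (qm 256)).setLoU (qm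
    128)).setHiW (qm 128)).setLoD (qm 128)).setHiU (qm 192)).setHiA (qm 3584)).setLoU (qm
    160)).setLoD (qm 192)).setLoW (qm 64)).setLoW (qm 96)).setLoD (qm 224)).setLoW (qm
    112)).setLoD (qm 240)).setHiA (qm 3328)).setHiW (qm 120)).setHiU (qm 176)).setHiD (qm
    248)).setHiW (qm 116)).setHiU (qm 168))
    (by decide +kernel))
    (good_of_check
    (R .u5 2458660 6343704 2965819 5024427 13205338 (-28752) 3397772 11863286 9768391 (-311569)
    3397772 3477736 2622692 (-66380) 2774269 2823380 2823380 6523838)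
    ((((((((((((((((((((((((((root.setHiD (qm 2048)).setHiD (qm 1024)).setHiU (qm 512)).setLoA (qm
    2048)).setHiD (qm 512)).setHiU (qm 256)).setLoA (qm 3072)).setHiD (qm 256)).setLoU (qm
    128)).setHiW (qm 128)).setLoD (qm 128)).setHiU (qm 192)).setHiA (qm 3584)).setLoU (qm
    160)).setLoD (qm 192)).setLoW (qm 64)).setLoW (qm 96)).setLoD (qm 224)).setLoW (qm
    112)).setLoD (qm 240)).setHiA (qm 3328)).setHiW (qm 120)).setHiU (qm 176)).setHiD (qm
    248)).setHiW (qm 116)).setLoU (qm 168))
    (by decide +kernel)))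
    (good_splitD (qm 244)
    (good_of_check
    (R .t5n 2740219 5857460 2965819 5032619 13285532 (-28582) 3262400 11848447 7273784 (-192483)
    3262400 3426777 (-853227) 88430 2760363 2809717 2871646 8109051)
    ((((((((((((((((((((((((((root.setHiD (qm 2048)).setHiD (qm 1024)).setHiU (qm 512)).setLoA (qm
    2048)).setHiD (qm 512)).setHiU (qm 256)).setLoA (qm 3072)).setHiD (qm 256)).setLoU (qm
    128)).setHiW (qm 128)).setLoD (qm 128)).setHiU (qm 192)).setHiA (qm 3584)).setLoU (qm
    160)).setLoD (qm 192)).setLoW (qm 64)).setLoW (qm 96)).setLoD (qm 224)).setLoW (qm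
    112)).setLoD (qm 240)).setHiA (qm 3328)).setHiW (qm 120)).setHiU (qm 176)).setHiD (qm
    248)).setLoW (qm 116)).setHiD (qm 244))
    (by decide +kernel))
    (good_of_check
    (R .u5 2443584 6358134 2965819 5027157 13223036 (-9554) 3315886 11863286 9642282 (-301413)
    3315886 3477736 3435022 (-88383) 2823375 2871646 2871646 6827171)
    ((((((((((((((((((((((((((root.setHiD (qm 2048)).setHiD (qm 1024)).setHiU (qm 512)).setLoA (qm
    2048)).setHiD (qm 512)).setHiU (qm 256)).setLoA (qm 3072)).setHiD (qm 256)).setLoU (qm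
    128)).setHiW (qm 128)).setLoD (qm 128)).setHiU (qm 192)).setHiA (qm 3584)).setLoU (qm
    160)).setLoD (qm 192)).setLoW (qm 64)).setLoW (qm 96)).setLoD (qm 224)).setLoW (qm
    112)).setLoD (qm 240)).setHiA (qm 3328)).setHiW (qm 120)).setHiU (qm 176)).setHiD (qm
    248)).setLoW (qm 116)).setLoD (qm 244))
    (by decide +kernel))))
    (good_of_check
    (R .u5 2443584 6358134 2965819 5018965 13229245 (-11413) 3315886 11863286 9642282 (-301413)
    3315886 3477736 3139355 (-79721) 2774269 2871646 2871646 6827171)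
    ((((((((((((((((((((((((root.setHiD (qm 2048)).setHiD (qm 1024)).setHiU (qm 512)).setLoA (qm
    2048)).setHiD (qm 512)).setHiU (qm 256)).setLoA (qm 3072)).setHiD (qm 256)).setLoU (qm
    128)).setHiW (qm 128)).setLoD (qm 128)).setHiU (qm 192)).setHiA (qm 3584)).setLoU (qm
    160)).setLoD (qm 192)).setLoW (qm 64)).setLoW (qm 96)).setLoD (qm 224)).setLoW (qm
    112)).setLoD (qm 240)).setHiA (qm 3328)).setHiW (qm 120)).setHiU (qm 176)).setLoD (qm 248))
    (by decide +kernel)))
    (good_of_check
    (R .u5 2478891 6280830 2965819 5002581 13185331 (-55459) 3477731 11863286 10447057 (-346883)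
    3477731 3632376 2618856 (-67221) 2774269 2871646 2871646 6568489)
    (((((((((((((((((((((((root.setHiD (qm 2048)).setHiD (qm 1024)).setHiU (qm 512)).setLoA (qm
    2048)).setHiD (qm 512)).setHiU (qm 256)).setLoA (qm 3072)).setHiD (qm 256)).setLoU (qm
    128)).setHiW (qm 128)).setLoD (qm 128)).setHiU (qm 192)).setHiA (qm 3584)).setLoU (qm
    160)).setLoD (qm 192)).setLoW (qm 64)).setLoW (qm 96)).setLoD (qm 224)).setLoW (qm
    112)).setLoD (qm 240)).setHiA (qm 3328)).setHiW (qm 120)).setLoU (qm 176))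
    (by decide +kernel)))
    (good_splitD (qm 248)
    (good_splitW (qm 124)
    (good_of_check
    (R .t5n 2746968 5771328 2965819 5018965 13283788 (-38007) 3262400 11848447 8103207 (-226066)
    3262400 3583617 (-347708) 73551 2809712 2858214 2919115 8255355)
    ((((((((((((((((((((((((root.setHiD (qm 2048)).setHiD (qm 1024)).setHiU (qm 512)).setLoA (qm
    2048)).setHiD (qm 512)).setHiU (qm 256)).setLoA (qm 3072)).setHiD (qm 256)).setLoU (qm
    128)).setHiW (qm 128)).setLoD (qm 128)).setHiU (qm 192)).setHiA (qm 3584)).setLoU (qm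
    160)).setLoD (qm 192)).setLoW (qm 64)).setLoW (qm 96)).setLoD (qm 224)).setLoW (qm
    112)).setLoD (qm 240)).setHiA (qm 3328)).setLoW (qm 120)).setHiD (qm 248)).setHiW (qm 124))
    (by decide +kernel))
    (good_of_check
    (R .t5n 2749543 5754892 2965819 5018965 13280470 (-40892) 3264085 11848911 8097371 (-227740)
    3264085 3585151 342545 50666 2860132 2907793 2919115 8236427)
    ((((((((((((((((((((((((root.setHiD (qm 2048)).setHiD (qm 1024)).setHiU (qm 512)).setLoA (qm
    2048)).setHiD (qm 512)).setHiU (qm 256)).setLoA (qm 3072)).setHiD (qm 256)).setLoU (qm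
    128)).setHiW (qm 128)).setLoD (qm 128)).setHiU (qm 192)).setHiA (qm 3584)).setLoU (qm
    160)).setLoD (qm 192)).setLoW (qm 64)).setLoW (qm 96)).setLoD (qm 224)).setLoW (qm
    112)).setLoD (qm 240)).setHiA (qm 3328)).setLoW (qm 120)).setHiD (qm 248)).setLoW (qm 124))
    (by decide +kernel)))
    (good_splitW (qm 124)
    (good_of_check
    (R .u5 2447751 6321782 2965819 5008043 13225028 (-16897) 3315886 11863286 10259135 (-326556)
    3315886 3632376 3957355 (-104035) 2871641 2919115 2919115 6985411)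
    ((((((((((((((((((((((((root.setHiD (qm 2048)).setHiD (qm 1024)).setHiU (qm 512)).setLoA (qm
    2048)).setHiD (qm 512)).setHiU (qm 256)).setLoA (qm 3072)).setHiD (qm 256)).setLoU (qm
    128)).setHiW (qm 128)).setLoD (qm 128)).setHiU (qm 192)).setHiA (qm 3584)).setLoU (qm
    160)).setLoD (qm 192)).setLoW (qm 64)).setLoW (qm 96)).setLoD (qm 224)).setLoW (qm
    112)).setLoD (qm 240)).setHiA (qm 3328)).setLoW (qm 120)).setLoD (qm 248)).setHiW (qm 124))
    (by decide +kernel))
    (good_of_check
    (R .t5n 2757877 5549331 2965819 5008043 13288232 (-55474) 3260715 11847983 7877315 (-217641)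
    3260715 3582083 103405 61616 2856285 2904009 2965823 8364955)
    ((((((((((((((((((((((((root.setHiD (qm 2048)).setHiD (qm 1024)).setHiU (qm 512)).setLoA (qm
    2048)).setHiD (qm 512)).setHiU (qm 256)).setLoA (qm 3072)).setHiD (qm 256)).setLoU (qm
    128)).setHiW (qm 128)).setLoD (qm 128)).setHiU (qm 192)).setHiA (qm 3584)).setLoU (qm
    160)).setLoD (qm 192)).setLoW (qm 64)).setLoW (qm 96)).setLoD (qm 224)).setLoW (qm
    112)).setLoD (qm 240)).setHiA (qm 3328)).setLoW (qm 120)).setLoD (qm 248)).setLoW (qm 124))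
    (by decide +kernel)))))
    (good_splitW (qm 120)
    (good_splitU (qm 176)
    (good_splitA (qm 3456)
    (good_splitA (qm 3392)
    (good_of_check
    (T 3187671 45909508 7264749 13096709 1614009 4049412 3274512 1205891 3703292 4352709 1816189
    3477736 2871646 54832939 16022723 11387358 24924369 15902442)
    (((((((((((((((((((((((((root.setHiD (qm 2048)).setHiD (qm 1024)).setHiU (qm 512)).setLoA (qm
    2048)).setHiD (qm 512)).setHiU (qm 256)).setLoA (qm 3072)).setHiD (qm 256)).setLoU (qm
    128)).setHiW (qm 128)).setLoD (qm 128)).setHiU (qm 192)).setHiA (qm 3584)).setLoU (qm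
    160)).setLoD (qm 192)).setLoW (qm 64)).setLoW (qm 96)).setLoD (qm 224)).setLoW (qm
    112)).setLoD (qm 240)).setLoA (qm 3328)).setHiW (qm 120)).setHiU (qm 176)).setHiA (qm
    3456)).setHiA (qm 3392))
    (by decide +kernel))
    (good_of_check
    (T 3187671 44463844 6955468 13222039 1563185 3921898 3171399 1215055 3845983 4443641 1816189
    3477736 2871646 54390741 15192742 11011525 24946417 15902442)
    (((((((((((((((((((((((((root.setHiD (qm 2048)).setHiD (qm 1024)).setHiU (qm 512)).setLoA (qm
    2048)).setHiD (qm 512)).setHiU (qm 256)).setLoA (qm 3072)).setHiD (qm 256)).setLoU (qm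
    128)).setHiW (qm 128)).setLoD (qm 128)).setHiU (qm 192)).setHiA (qm 3584)).setLoU (qm
    160)).setLoD (qm 192)).setLoW (qm 64)).setLoW (qm 96)).setLoD (qm 224)).setLoW (qm
    112)).setLoD (qm 240)).setLoA (qm 3328)).setHiW (qm 120)).setHiU (qm 176)).setHiA (qm
    3456)).setLoA (qm 3392))
    (by decide +kernel)))
    (good_of_check
    (T 3187671 43045228 6631778 13346192 1513311 3796770 3070216 1223990 3979669 4530411 1816189
    3477736 2871646 53964231 14467538 10668971 24990453 15902442)
    ((((((((((((((((((((((((root.setHiD (qm 2048)).setHiD (qm 1024)).setHiU (qm 512)).setLoA (qm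
    2048)).setHiD (qm 512)).setHiU (qm 256)).setLoA (qm 3072)).setHiD (qm 256)).setLoU (qm
    128)).setHiW (qm 128)).setLoD (qm 128)).setHiU (qm 192)).setHiA (qm 3584)).setLoU (qm
    160)).setLoD (qm 192)).setLoW (qm 64)).setLoW (qm 96)).setLoD (qm 224)).setLoW (qm
    112)).setLoD (qm 240)).setLoA (qm 3328)).setHiW (qm 120)).setHiU (qm 176)).setLoA (qm 3456))
    (by decide +kernel)))
    (good_splitD (qm 248)
    (good_splitW (qm 116)
    (good_splitD (qm 244)
    (good_splitW (qm 114)
    (good_of_check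
    (R .t5n 2817597 5291662 2421581 5010773 13203741 (-117466) 3425167 11847983 7845128 (-233196)
    3425167 3582083 (-1274145) 102368 2708086 2733349 2798935 7274091)
    (((((((((((((((((((((((((((root.setHiD (qm 2048)).setHiD (qm 1024)).setHiU (qm 512)).setLoA
    (qm 2048)).setHiD (qm 512)).setHiU (qm 256)).setLoA (qm 3072)).setHiD (qm 256)).setLoU (qm
    128)).setHiW (qm 128)).setLoD (qm 128)).setHiU (qm 192)).setHiA (qm 3584)).setLoU (qm
    160)).setLoD (qm 192)).setLoW (qm 64)).setLoW (qm 96)).setLoD (qm 224)).setLoW (qm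
    112)).setLoD (qm 240)).setLoA (qm 3328)).setHiW (qm 120)).setLoU (qm 176)).setHiD (qm
    248)).setHiW (qm 116)).setHiD (qm 244)).setHiW (qm 114))
    (by decide +kernel))
    (good_of_check
    (R .t5n 2817597 5299235 2421581 5010773 13204253 (-117664) 3425970 11848215 7863050 (-234637)
    3425970 3582850 (-1219350) 99808 2734349 2759372 2823380 7372454)
    (((((((((((((((((((((((((((root.setHiD (qm 2048)).setHiD (qm 1024)).setHiU (qm 512)).setLoA
    (qm 2048)).setHiD (qm 512)).setHiU (qm 256)).setLoA (qm 3072)).setHiD (qm 256)).setLoU (qm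
    128)).setHiW (qm 128)).setLoD (qm 128)).setHiU (qm 192)).setHiA (qm 3584)).setLoU (qm
    160)).setLoD (qm 192)).setLoW (qm 64)).setLoW (qm 96)).setLoD (qm 224)).setLoW (qm
    112)).setLoD (qm 240)).setLoA (qm 3328)).setHiW (qm 120)).setLoU (qm 176)).setHiD (qm
    248)).setHiW (qm 116)).setHiD (qm 244)).setLoW (qm 114))
    (by decide +kernel)))
    (good_of_check
    (R .t5n 2821770 5220714 2421581 5005312 13200041 (-122323) 3423562 11847519 7740643 (-228215)
    3423562 3580548 (-1297754) 105106 2706055 2756382 2823380 7344801)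
    ((((((((((((((((((((((((((root.setHiD (qm 2048)).setHiD (qm 1024)).setHiU (qm 512)).setLoA (qm
    2048)).setHiD (qm 512)).setHiU (qm 256)).setLoA (qm 3072)).setHiD (qm 256)).setLoU (qm
    128)).setHiW (qm 128)).setLoD (qm 128)).setHiU (qm 192)).setHiA (qm 3584)).setLoU (qm
    160)).setLoD (qm 192)).setLoW (qm 64)).setLoW (qm 96)).setLoD (qm 224)).setLoW (qm
    112)).setLoD (qm 240)).setLoA (qm 3328)).setHiW (qm 120)).setLoU (qm 176)).setHiD (qm
    248)).setHiW (qm 116)).setLoD (qm 244))
    (by decide +kernel)))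
    (good_of_check
    (R .t5n 2817597 5291657 2421581 5008043 13205464 (-117980) 3425167 11847983 7845128 (-233196)
    3425167 3582083 (-1190485) 100016 2758370 2807759 2871646 7565549)
    (((((((((((((((((((((((((root.setHiD (qm 2048)).setHiD (qm 1024)).setHiU (qm 512)).setLoA (qm
    2048)).setHiD (qm 512)).setHiU (qm 256)).setLoA (qm 3072)).setHiD (qm 256)).setLoU (qm
    128)).setHiW (qm 128)).setLoD (qm 128)).setHiU (qm 192)).setHiA (qm 3584)).setLoU (qm
    160)).setLoD (qm 192)).setLoW (qm 64)).setLoW (qm 96)).setLoD (qm 224)).setLoW (qm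
    112)).setLoD (qm 240)).setLoA (qm 3328)).setHiW (qm 120)).setLoU (qm 176)).setHiD (qm
    248)).setLoW (qm 116))
    (by decide +kernel)))
    (good_splitW (qm 116)
    (good_splitD (qm 252)
    (good_of_check
    (R .t5n 2824346 5091562 2421581 4999851 13218399 (-131550) 3421956 11847055 7662320 (-224021)
    3421956 3579012 (-1338882) 108326 2704023 2754386 2823380 7327791)
    ((((((((((((((((((((((((((root.setHiD (qm 2048)).setHiD (qm 1024)).setHiU (qm 512)).setLoA (qm
    2048)).setHiD (qm 512)).setHiU (qm 256)).setLoA (qm 3072)).setHiD (qm 256)).setLoU (qm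
    128)).setHiW (qm 128)).setLoD (qm 128)).setHiU (qm 192)).setHiA (qm 3584)).setLoU (qm
    160)).setLoD (qm 192)).setLoW (qm 64)).setLoW (qm 96)).setLoD (qm 224)).setLoW (qm
    112)).setLoD (qm 240)).setLoA (qm 3328)).setHiW (qm 120)).setLoU (qm 176)).setLoD (qm
    248)).setHiW (qm 116)).setHiD (qm 252))
    (by decide +kernel))
    (good_of_check
    (R .u5 2493978 6080766 2421581 4994389 13164682 (-73553) 3477731 11863286 10207109 (-341011)
    3477731 3632376 2135353 (-54628) 2774269 2823380 2823380 6273375)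
    ((((((((((((((((((((((((((root.setHiD (qm 2048)).setHiD (qm 1024)).setHiU (qm 512)).setLoA (qm
    2048)).setHiD (qm 512)).setHiU (qm 256)).setLoA (qm 3072)).setHiD (qm 256)).setLoU (qm
    128)).setHiW (qm 128)).setLoD (qm 128)).setHiU (qm 192)).setHiA (qm 3584)).setLoU (qm
    160)).setLoD (qm 192)).setLoW (qm 64)).setLoW (qm 96)).setLoD (qm 224)).setLoW (qm
    112)).setLoD (qm 240)).setLoA (qm 3328)).setHiW (qm 120)).setLoU (qm 176)).setLoD (qm
    248)).setHiW (qm 116)).setLoD (qm 252))
    (by decide +kernel)))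
    (good_of_check
    (R .t5n 2824346 5091562 2421581 4997120 13220057 (-132044) 3421956 11847055 7662320 (-224021)
    3421956 3579012 (-1268033) 106320 2754381 2803841 2871646 7520177)
    (((((((((((((((((((((((((root.setHiD (qm 2048)).setHiD (qm 1024)).setHiU (qm 512)).setLoA (qm
    2048)).setHiD (qm 512)).setHiU (qm 256)).setLoA (qm 3072)).setHiD (qm 256)).setLoU (qm
    128)).setHiW (qm 128)).setLoD (qm 128)).setHiU (qm 192)).setHiA (qm 3584)).setLoU (qm
    160)).setLoD (qm 192)).setLoW (qm 64)).setLoW (qm 96)).setLoD (qm 224)).setLoW (qm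
    112)).setLoD (qm 240)).setLoA (qm 3328)).setHiW (qm 120)).setLoU (qm 176)).setLoD (qm
    248)).setLoW (qm 116))
    (by decide +kernel)))))
    (good_splitU (qm 176)
    (good_splitA (qm 3456)
    (good_splitU (qm 168)
    (good_of_check
    (T 3187671 45770808 7264749 13096709 1579334 3897013 3345186 1210047 3856900 4309397 1799294
    3397777 2965823 54594829 14981214 11800012 24946417 15911083)
    (((((((((((((((((((((((((root.setHiD (qm 2048)).setHiD (qm 1024)).setHiU (qm 512)).setLoA (qm
    2048)).setHiD (qm 512)).setHiU (qm 256)).setLoA (qm 3072)).setHiD (qm 256)).setLoU (qm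
    128)).setHiW (qm 128)).setLoD (qm 128)).setHiU (qm 192)).setHiA (qm 3584)).setLoU (qm
    160)).setLoD (qm 192)).setLoW (qm 64)).setLoW (qm 96)).setLoD (qm 224)).setLoW (qm
    112)).setLoD (qm 240)).setLoA (qm 3328)).setLoW (qm 120)).setHiU (qm 176)).setHiA (qm
    3456)).setHiU (qm 168))
    (by decide +kernel))
    (good_splitD (qm 248)
    (good_of_check
    (R .t5n 2778107 5597855 2707410 5024427 13244488 (-72101) 3345596 11848447 7138496 (-195624)
    3345596 3426777 (-406834) 75089 2809712 2905902 2965823 8217311)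
    ((((((((((((((((((((((((((root.setHiD (qm 2048)).setHiD (qm 1024)).setHiU (qm 512)).setLoA (qm
    2048)).setHiD (qm 512)).setHiU (qm 256)).setLoA (qm 3072)).setHiD (qm 256)).setLoU (qm
    128)).setHiW (qm 128)).setLoD (qm 128)).setHiU (qm 192)).setHiA (qm 3584)).setLoU (qm
    160)).setLoD (qm 192)).setLoW (qm 64)).setLoW (qm 96)).setLoD (qm 224)).setLoW (qm
    112)).setLoD (qm 240)).setLoA (qm 3328)).setLoW (qm 120)).setHiU (qm 176)).setHiA (qm
    3456)).setLoU (qm 168)).setHiD (qm 248))
    (by decide +kernel))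
    (good_of_check
    (R .t5n 2786458 5458505 2707410 5013504 13236362 (-81700) 3342308 11847519 6913619 (-185192)
    3342308 3423567 (-611796) 85089 2805796 2902115 2965823 8157242)
    ((((((((((((((((((((((((((root.setHiD (qm 2048)).setHiD (qm 1024)).setHiU (qm 512)).setLoA (qm
    2048)).setHiD (qm 512)).setHiU (qm 256)).setLoA (qm 3072)).setHiD (qm 256)).setLoU (qm
    128)).setHiW (qm 128)).setLoD (qm 128)).setHiU (qm 192)).setHiA (qm 3584)).setLoU (qm
    160)).setLoD (qm 192)).setLoW (qm 64)).setLoW (qm 96)).setLoD (qm 224)).setLoW (qm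
    112)).setLoD (qm 240)).setLoA (qm 3328)).setLoW (qm 120)).setHiU (qm 176)).setHiA (qm
    3456)).setLoU (qm 168)).setLoD (qm 248))
    (by decide +kernel))))
    (good_of_check
    (T 3187671 43045228 6631778 13346192 1513311 3796770 3174009 1223990 3979669 4462712 1816189
    3477736 2965823 53964231 14467538 11156755 24990453 15902442)
    ((((((((((((((((((((((((root.setHiD (qm 2048)).setHiD (qm 1024)).setHiU (qm 512)).setLoA (qm
    2048)).setHiD (qm 512)).setHiU (qm 256)).setLoA (qm 3072)).setHiD (qm 256)).setLoU (qm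
    128)).setHiW (qm 128)).setLoD (qm 128)).setHiU (qm 192)).setHiA (qm 3584)).setLoU (qm
    160)).setLoD (qm 192)).setLoW (qm 64)).setLoW (qm 96)).setLoD (qm 224)).setLoW (qm
    112)).setLoD (qm 240)).setLoA (qm 3328)).setLoW (qm 120)).setHiU (qm 176)).setLoA (qm 3456))
    (by decide +kernel)))
    (good_splitD (qm 248)
    (good_of_check
    (R .t5n 2817597 5308100 2421581 5008043 13206168 (-118279) 3426772 11848447 7880951 (-236077)
    3426772 3583617 (-795512) 86433 2809712 2905902 2965823 7937687)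
    ((((((((((((((((((((((((root.setHiD (qm 2048)).setHiD (qm 1024)).setHiU (qm 512)).setLoA (qm
    2048)).setHiD (qm 512)).setHiU (qm 256)).setLoA (qm 3072)).setHiD (qm 256)).setLoU (qm
    128)).setHiW (qm 128)).setLoD (qm 128)).setHiU (qm 192)).setHiA (qm 3584)).setLoU (qm
    160)).setLoD (qm 192)).setLoW (qm 64)).setLoW (qm 96)).setLoD (qm 224)).setLoW (qm
    112)).setLoD (qm 240)).setLoA (qm 3328)).setLoW (qm 120)).setLoU (qm 176)).setHiD (qm 248))
    (by decide +kernel))
    (good_of_check
    (R .t5n 2824346 5109298 2421581 4997120 13220491 (-132261) 3423562 11847519 7698368 (-226920)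
    3423562 3580548 (-940001) 94692 2805796 2902115 2965823 7891007)
    ((((((((((((((((((((((((root.setHiD (qm 2048)).setHiD (qm 1024)).setHiU (qm 512)).setLoA (qm
    2048)).setHiD (qm 512)).setHiU (qm 256)).setLoA (qm 3072)).setHiD (qm 256)).setLoU (qm
    128)).setHiW (qm 128)).setLoD (qm 128)).setHiU (qm 192)).setHiA (qm 3584)).setLoU (qm
    160)).setLoD (qm 192)).setLoW (qm 64)).setLoW (qm 96)).setLoD (qm 224)).setLoW (qm
    112)).setLoD (qm 240)).setLoA (qm 3328)).setLoW (qm 120)).setLoU (qm 176)).setLoD (qm 248))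
    (by decide +kernel))))))))

set_option maxHeartbeats 4000000 in
/-- One subtree of the cover. -/
theorem sub33_good : BoxGood
    (((((((((((((root.setHiD (qm 2048)).setHiD (qm 1024)).setHiU (qm 512)).setLoA (qm
    2048)).setHiD (qm 512)).setHiU (qm 256)).setLoA (qm 3072)).setHiD (qm 256)).setLoU (qm
    128)).setHiW (qm 128)).setLoD (qm 128)).setHiU (qm 192)).setLoA (qm 3584)) :=
    (good_splitA (qm 3840)
    (good_splitA (qm 3712)
    (good_splitA (qm 3648)
    (good_splitD (qm 192)
    (good_of_check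
    (T 3523215 39547403 5931643 13591097 1235859 3582424 2800237 1395550 4133543 4659589 1712320
    3632376 2965823 46075818 13963234 10400741 25012442 16108530)
    (((((((((((((((((root.setHiD (qm 2048)).setHiD (qm 1024)).setHiU (qm 512)).setLoA (qm
    2048)).setHiD (qm 512)).setHiU (qm 256)).setLoA (qm 3072)).setHiD (qm 256)).setLoU (qm
    128)).setHiW (qm 128)).setLoD (qm 128)).setHiU (qm 192)).setLoA (qm 3584)).setHiA (qm
    3840)).setHiA (qm 3712)).setHiA (qm 3648)).setHiD (qm 192))
    (by decide +kernel))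
    (good_of_check
    (T 3187671 40511974 5931643 13591097 1477002 3821447 3039966 1233725 3981443 4577153 1849517
    3632376 2965823 53578824 14730323 10708248 25012442 15971434)
    (((((((((((((((((root.setHiD (qm 2048)).setHiD (qm 1024)).setHiU (qm 512)).setLoA (qm
    2048)).setHiD (qm 512)).setHiU (qm 256)).setLoA (qm 3072)).setHiD (qm 256)).setLoU (qm
    128)).setHiW (qm 128)).setLoD (qm 128)).setHiU (qm 192)).setLoA (qm 3584)).setHiA (qm
    3840)).setHiA (qm 3712)).setHiA (qm 3648)).setLoD (qm 192))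
    (by decide +kernel)))
    (good_of_check
    (T 3187671 39129790 5548544 13711909 1426609 3691067 2936248 1242308 4114900 4661670 1849517
    3632376 2965823 53181946 14054274 10393140 25034411 16040128)
    ((((((((((((((((root.setHiD (qm 2048)).setHiD (qm 1024)).setHiU (qm 512)).setLoA (qm
    2048)).setHiD (qm 512)).setHiU (qm 256)).setLoA (qm 3072)).setHiD (qm 256)).setLoU (qm
    128)).setHiW (qm 128)).setLoD (qm 128)).setHiU (qm 192)).setLoA (qm 3584)).setHiA (qm
    3840)).setHiA (qm 3712)).setLoA (qm 3648))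
    (by decide +kernel)))
    (good_of_check
    (T 3187671 37746193 5136954 13831666 1376166 3560555 2832426 1250734 4242182 4743470 1849517
    3632376 2965823 52796192 13448461 10100466 25078293 16040128)
    (((((((((((((((root.setHiD (qm 2048)).setHiD (qm 1024)).setHiU (qm 512)).setLoA (qm
    2048)).setHiD (qm 512)).setHiU (qm 256)).setLoA (qm 3072)).setHiD (qm 256)).setLoU (qm
    128)).setHiW (qm 128)).setLoD (qm 128)).setHiU (qm 192)).setLoA (qm 3584)).setHiA (qm
    3840)).setLoA (qm 3712))
    (by decide +kernel)))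
    (good_of_check
    (T 3523215 34918437 4194305 14068122 1273071 3344974 2654341 1400622 4336445 4762747 1849517
    3632376 2965823 46524145 13022679 10033190 25165824 16040128)
    ((((((((((((((root.setHiD (qm 2048)).setHiD (qm 1024)).setHiU (qm 512)).setLoA (qm
    2048)).setHiD (qm 512)).setHiU (qm 256)).setLoA (qm 3072)).setHiD (qm 256)).setLoU (qm
    128)).setHiW (qm 128)).setLoD (qm 128)).setHiU (qm 192)).setLoA (qm 3584)).setLoA (qm 3840))
    (by decide +kernel)))

end Vale.Agent.P226.Cert
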