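import Vale.Agent.P226.CertBox
import Vale.Agent.P226.CertSound

/-! Part 17 of the cover (P226). -/

namespace Vale.Agent.P226.Cert

set_option maxHeartbeats 4000000 in
/-- One subtree of the cover. -/
theorem sub34_good : BoxGood
    ((((((((((((root.setHiD (qm 2048)).setHiD (qm 1024)).setHiU (qm 512)).setLoA (qm 2048)).setHiD
    (qm 512)).setHiU (qm 256)).setLoA (qm 3072)).setHiD (qm 256)).setLoU (qm 128)).setHiW (qm
    128)).setLoD (qm 128)).setLoU (qm 192)) :=
    (good_splitD (qm 192)
    (good_splitW (qm 64)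
    (good_of_check
    (R .t4n 3392063 0 0 5068117 13134477 (-276643) 3517028 11828479 6376022 (-177158) 3517028
    4094823 0 0 0 0 2097154 5705763)
    ((((((((((((((root.setHiD (qm 2048)).setHiD (qm 1024)).setHiU (qm 512)).setLoA (qm
    2048)).setHiD (qm 512)).setHiU (qm 256)).setLoA (qm 3072)).setHiD (qm 256)).setLoU (qm
    128)).setHiW (qm 128)).setLoD (qm 128)).setLoU (qm 192)).setHiD (qm 192)).setHiW (qm 64))
    (by decide +kernel))
    (good_splitU (qm 224)
    (good_splitD (qm 160)
    (good_splitU (qm 208)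
    (good_splitW (qm 96)
    (good_splitD (qm 144)
    (good_splitA (qm 3584)
    (good_of_check
    (R .t4n 3365090 4229473 2421581 5133653 13101301 (-233644) 3546216 11837190 4387565 (-109171)
    3546216 3697999 0 0 0 0 2568479 7603765)
    ((((((((((((((((((((root.setHiD (qm 2048)).setHiD (qm 1024)).setHiU (qm 512)).setLoA (qm
    2048)).setHiD (qm 512)).setHiU (qm 256)).setLoA (qm 3072)).setHiD (qm 256)).setLoU (qm
    128)).setHiW (qm 128)).setLoD (qm 128)).setLoU (qm 192)).setHiD (qm 192)).setLoW (qm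
    64)).setHiU (qm 224)).setHiD (qm 160)).setHiU (qm 208)).setHiW (qm 96)).setHiD (qm
    144)).setHiA (qm 3584))
    (by decide +kernel))
    (good_of_check
    (T 3523215 39082140 5931643 13591097 1119543 3631748 2279024 1410282 4117763 4944926 1639422
    3780697 2568479 45042363 14279977 8520832 25165824 16074366)
    ((((((((((((((((((((root.setHiD (qm 2048)).setHiD (qm 1024)).setHiU (qm 512)).setLoA (qm
    2048)).setHiD (qm 512)).setHiU (qm 256)).setLoA (qm 3072)).setHiD (qm 256)).setLoU (qm
    128)).setHiW (qm 128)).setLoD (qm 128)).setLoU (qm 192)).setHiD (qm 192)).setLoW (qm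
    64)).setHiU (qm 224)).setHiD (qm 160)).setHiU (qm 208)).setHiW (qm 96)).setHiD (qm
    144)).setLoA (qm 3584))
    (by decide +kernel)))
    (good_of_check
    (R .t4n 3431543 0 0 5111808 13088727 (-313499) 3536513 11834287 2765469 (-29316) 3536513
    3688696 0 0 0 0 2568479 7278975)
    (((((((((((((((((((root.setHiD (qm 2048)).setHiD (qm 1024)).setHiU (qm 512)).setLoA (qm
    2048)).setHiD (qm 512)).setHiU (qm 256)).setLoA (qm 3072)).setHiD (qm 256)).setLoU (qm
    128)).setHiW (qm 128)).setLoD (qm 128)).setLoU (qm 192)).setHiD (qm 192)).setLoW (qm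
    64)).setHiU (qm 224)).setHiD (qm 160)).setHiU (qm 208)).setHiW (qm 96)).setLoD (qm 144))
    (by decide +kernel)))
    (good_splitD (qm 144)
    (good_splitA (qm 3584)
    (good_splitW (qm 112)
    (good_splitD (qm 136)
    (good_of_check
    (R .t4n 3371833 4204160 2421581 5139115 13090999 (-239313) 3551057 11838641 4388495 (-114377)
    3551057 3702642 0 0 0 0 2774274 8291885)
    ((((((((((((((((((((((root.setHiD (qm 2048)).setHiD (qm 1024)).setHiU (qm 512)).setLoA (qm
    2048)).setHiD (qm 512)).setHiU (qm 256)).setLoA (qm 3072)).setHiD (qm 256)).setLoU (qm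
    128)).setHiW (qm 128)).setLoD (qm 128)).setLoU (qm 192)).setHiD (qm 192)).setLoW (qm
    64)).setHiU (qm 224)).setHiD (qm 160)).setHiU (qm 208)).setLoW (qm 96)).setHiD (qm
    144)).setHiA (qm 3584)).setHiW (qm 112)).setHiD (qm 136))
    (by decide +kernel))
    (good_of_check
    (R .t4n 3374408 4116773 2421581 5128192 13091078 (-242352) 3546216 11837190 4201492 (-101376)
    3546216 3697999 0 0 0 0 2774274 8278663)
    ((((((((((((((((((((((root.setHiD (qm 2048)).setHiD (qm 1024)).setHiU (qm 512)).setLoA (qm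
    2048)).setHiD (qm 512)).setHiU (qm 256)).setLoA (qm 3072)).setHiD (qm 256)).setLoU (qm
    128)).setHiW (qm 128)).setLoD (qm 128)).setLoU (qm 192)).setHiD (qm 192)).setLoW (qm
    64)).setHiU (qm 224)).setHiD (qm 160)).setHiU (qm 208)).setLoW (qm 96)).setHiD (qm
    144)).setHiA (qm 3584)).setHiW (qm 112)).setLoD (qm 136))
    (by decide +kernel)))
    (good_splitD (qm 136)
    (good_splitD (qm 132)
    (good_of_check
    (R .t5n 2789019 6434590 2421581 5141845 13192250 (-74548) 3624796 11860968 10715821 (-392248)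
    3624796 3773419 485936 (-3092) 2764343 2956541 1172346 1188086)
    (((((((((((((((((((((((root.setHiD (qm 2048)).setHiD (qm 1024)).setHiU (qm 512)).setLoA (qm
    2048)).setHiD (qm 512)).setHiU (qm 256)).setLoA (qm 3072)).setHiD (qm 256)).setLoU (qm
    128)).setHiW (qm 128)).setLoD (qm 128)).setLoU (qm 192)).setHiD (qm 192)).setLoW (qm
    64)).setHiU (qm 224)).setHiD (qm 160)).setHiU (qm 208)).setLoW (qm 96)).setHiD (qm
    144)).setHiA (qm 3584)).setLoW (qm 112)).setHiD (qm 136)).setHiD (qm 132))
    (by decide +kernel))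
    (good_of_check
    (R .t5n 2789019 6425724 2421581 5136384 13194569 (-75190) 3623279 11860505 10687530 (-389790)
    3623279 3771962 434960 309 2762354 2954681 1284241 1496774)
    (((((((((((((((((((((((root.setHiD (qm 2048)).setHiD (qm 1024)).setHiU (qm 512)).setLoA (qm
    2048)).setHiD (qm 512)).setHiU (qm 256)).setLoA (qm 3072)).setHiD (qm 256)).setLoU (qm
    128)).setHiW (qm 128)).setLoD (qm 128)).setLoU (qm 192)).setHiD (qm 192)).setLoW (qm
    64)).setHiU (qm 224)).setHiD (qm 160)).setHiU (qm 208)).setLoW (qm 96)).setHiD (qm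
    144)).setHiA (qm 3584)).setLoW (qm 112)).setHiD (qm 136)).setLoD (qm 132))
    (by decide +kernel)))
    (good_of_check
    (R .t5n 2793187 6375897 2421581 5128192 13186853 (-78843) 3620243 11859578 10566959 (-383115)
    3620243 3769046 295521 8145 2758370 2950957 1482913 2113357)
    ((((((((((((((((((((((root.setHiD (qm 2048)).setHiD (qm 1024)).setHiU (qm 512)).setLoA (qm
    2048)).setHiD (qm 512)).setHiU (qm 256)).setLoA (qm 3072)).setHiD (qm 256)).setLoU (qm
    128)).setHiW (qm 128)).setLoD (qm 128)).setLoU (qm 192)).setHiD (qm 192)).setLoW (qm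
    64)).setHiU (qm 224)).setHiD (qm 160)).setHiU (qm 208)).setLoW (qm 96)).setHiD (qm
    144)).setHiA (qm 3584)).setLoW (qm 112)).setLoD (qm 136))
    (by decide +kernel))))
    (good_splitA (qm 3840)
    (good_of_check
    (T 3523215 39082140 5931643 13591097 1119543 3631748 2665516 1410282 4117763 4760316 1639422
    3780697 2965823 45042363 14279977 10041639 25078293 16074366)
    (((((((((((((((((((((root.setHiD (qm 2048)).setHiD (qm 1024)).setHiU (qm 512)).setLoA (qm
    2048)).setHiD (qm 512)).setHiU (qm 256)).setLoA (qm 3072)).setHiD (qm 256)).setLoU (qm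
    128)).setHiW (qm 128)).setLoD (qm 128)).setLoU (qm 192)).setHiD (qm 192)).setLoW (qm
    64)).setHiU (qm 224)).setHiD (qm 160)).setHiU (qm 208)).setLoW (qm 96)).setHiD (qm
    144)).setLoA (qm 3584)).setHiA (qm 3840))
    (by decide +kernel))
    (good_of_check
    (T 3523215 33686022 4194305 14068122 964967 3130309 2297486 1442497 4565270 5022801 1639422
    3780697 2965823 43786073 12303143 9184398 25165824 16074366)
    (((((((((((((((((((((root.setHiD (qm 2048)).setHiD (qm 1024)).setHiU (qm 512)).setLoA (qm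
    2048)).setHiD (qm 512)).setHiU (qm 256)).setLoA (qm 3072)).setHiD (qm 256)).setLoU (qm
    128)).setHiW (qm 128)).setLoD (qm 128)).setLoU (qm 192)).setHiD (qm 192)).setLoW (qm
    64)).setHiU (qm 224)).setHiD (qm 160)).setHiU (qm 208)).setLoW (qm 96)).setHiD (qm
    144)).setLoA (qm 3584)).setLoA (qm 3840))
    (by decide +kernel))))
    (good_splitW (qm 112)
    (good_splitA (qm 3584)
    (good_of_check
    (R .t4n 3382745 3898695 2421581 5111808 13084106 (-250279) 3536513 11834287 3758506 (-72294)
    3536513 3688696 0 0 0 0 2774274 8234780)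
    (((((((((((((((((((((root.setHiD (qm 2048)).setHiD (qm 1024)).setHiU (qm 512)).setLoA (qm
    2048)).setHiD (qm 512)).setHiU (qm 256)).setLoA (qm 3072)).setHiD (qm 256)).setLoU (qm
    128)).setHiW (qm 128)).setLoD (qm 128)).setLoU (qm 192)).setHiD (qm 192)).setLoW (qm
    64)).setHiU (qm 224)).setHiD (qm 160)).setHiU (qm 208)).setLoW (qm 96)).setLoD (qm
    144)).setHiW (qm 112)).setHiA (qm 3584))
    (by decide +kernel))
    (good_splitA (qm 3840)
    (good_of_check
    (T 3523215 39313395 5931643 13591097 1177357 3704427 2538088 1403015 4044661 4810960 1676267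
    3780697 2774274 45567933 14643461 9435219 25078293 16040128)
    ((((((((((((((((((((((root.setHiD (qm 2048)).setHiD (qm 1024)).setHiU (qm 512)).setLoA (qm
    2048)).setHiD (qm 512)).setHiU (qm 256)).setLoA (qm 3072)).setHiD (qm 256)).setLoU (qm
    128)).setHiW (qm 128)).setLoD (qm 128)).setLoU (qm 192)).setHiD (qm 192)).setLoW (qm
    64)).setHiU (qm 224)).setHiD (qm 160)).setHiU (qm 208)).setLoW (qm 96)).setLoD (qm
    144)).setHiW (qm 112)).setLoA (qm 3584)).setHiA (qm 3840))
    (by decide +kernel))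
    (good_of_check
    (T 3523215 33885348 4194305 14068122 1014798 3192953 2187652 1435908 4509649 5055234 1676267
    3780697 2774274 44283884 12527567 8673447 25165824 16040128)
    ((((((((((((((((((((((root.setHiD (qm 2048)).setHiD (qm 1024)).setHiU (qm 512)).setLoA (qm
    2048)).setHiD (qm 512)).setHiU (qm 256)).setLoA (qm 3072)).setHiD (qm 256)).setLoU (qm
    128)).setHiW (qm 128)).setLoD (qm 128)).setLoU (qm 192)).setHiD (qm 192)).setLoW (qm
    64)).setHiU (qm 224)).setHiD (qm 160)).setHiU (qm 208)).setLoW (qm 96)).setLoD (qm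
    144)).setHiW (qm 112)).setLoA (qm 3584)).setLoA (qm 3840))
    (by decide +kernel))))
    (good_splitA (qm 3584)
    (good_of_check
    (R .t5n 2793202 6341611 2421581 5111808 13191787 (-80059) 3614164 11857723 10452228 (-373168)
    3614164 3763207 96050 21681 2750387 2943496 1816189 3340339)
    (((((((((((((((((((((root.setHiD (qm 2048)).setHiD (qm 1024)).setHiU (qm 512)).setLoA (qm
    2048)).setHiD (qm 512)).setHiU (qm 256)).setLoA (qm 3072)).setHiD (qm 256)).setLoU (qm
    128)).setHiW (qm 128)).setLoD (qm 128)).setLoU (qm 192)).setHiD (qm 192)).setLoW (qm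
    64)).setHiU (qm 224)).setHiD (qm 160)).setHiU (qm 208)).setLoW (qm 96)).setLoD (qm
    144)).setLoW (qm 112)).setHiA (qm 3584))
    (by decide +kernel))
    (good_splitA (qm 3840)
    (good_of_check
    (T 3187671 39313395 5931643 13591097 1177357 3642030 2694080 1269394 4200861 4851018 1676267
    3780697 2965823 51333908 13881582 9733078 25078293 16040128)
    ((((((((((((((((((((((root.setHiD (qm 2048)).setHiD (qm 1024)).setHiU (qm 512)).setLoA (qm
    2048)).setHiD (qm 512)).setHiU (qm 256)).setLoA (qm 3072)).setHiD (qm 256)).setLoU (qm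
    128)).setHiW (qm 128)).setLoD (qm 128)).setLoU (qm 192)).setHiD (qm 192)).setLoW (qm
    64)).setHiU (qm 224)).setHiD (qm 160)).setHiU (qm 208)).setLoW (qm 96)).setLoD (qm
    144)).setLoW (qm 112)).setLoA (qm 3584)).setHiA (qm 3840))
    (by decide +kernel))
    (good_of_check
    (T 3523215 33885348 4194305 14068122 1014798 3192953 2355202 1435908 4509649 4982074 1676267
    3780697 2965823 44283884 12527567 9310440 25165824 16040128)
    ((((((((((((((((((((((root.setHiD (qm 2048)).setHiD (qm 1024)).setHiU (qm 512)).setLoA (qm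
    2048)).setHiD (qm 512)).setHiU (qm 256)).setLoA (qm 3072)).setHiD (qm 256)).setLoU (qm
    128)).setHiW (qm 128)).setLoD (qm 128)).setLoU (qm 192)).setHiD (qm 192)).setLoW (qm
    64)).setHiU (qm 224)).setHiD (qm 160)).setHiU (qm 208)).setLoW (qm 96)).setLoD (qm
    144)).setLoW (qm 112)).setLoA (qm 3584)).setLoA (qm 3840))
    (by decide +kernel)))))))
    (good_splitD (qm 144)
    (good_splitD (qm 136)
    (good_of_check
    (R .t4n 3495434 0 0 5117269 13030559 (-376381) 3702637 11838641 4548406 (-140457) 3702637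
    3848255 0 0 0 0 2965823 8279423)
    (((((((((((((((((((root.setHiD (qm 2048)).setHiD (qm 1024)).setHiU (qm 512)).setLoA (qm
    2048)).setHiD (qm 512)).setHiU (qm 256)).setLoA (qm 3072)).setHiD (qm 256)).setLoU (qm
    128)).setHiW (qm 128)).setLoD (qm 128)).setLoU (qm 192)).setHiD (qm 192)).setLoW (qm
    64)).setHiU (qm 224)).setHiD (qm 160)).setLoU (qm 208)).setHiD (qm 144)).setHiD (qm 136))
    (by decide +kernel))
    (good_of_check
    (R .t4n 3499601 0 0 5106347 13024495 (-379434) 3697994 11837190 4353001 (-126742) 3697994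
    3843788 0 0 0 0 2965823 8259381)
    (((((((((((((((((((root.setHiD (qm 2048)).setHiD (qm 1024)).setHiU (qm 512)).setLoA (qm
    2048)).setHiD (qm 512)).setHiU (qm 256)).setLoA (qm 3072)).setHiD (qm 256)).setLoU (qm
    128)).setHiW (qm 128)).setLoD (qm 128)).setLoU (qm 192)).setHiD (qm 192)).setLoW (qm
    64)).setHiU (qm 224)).setHiD (qm 160)).setLoU (qm 208)).setHiD (qm 144)).setLoD (qm 136))
    (by decide +kernel)))
    (good_of_check
    (R .t4n 3499601 0 0 5089963 13022871 (-378388) 3688691 11834287 4111996 (-105928) 3688691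
    3834839 0 0 0 0 2965823 8259381)
    ((((((((((((((((((root.setHiD (qm 2048)).setHiD (qm 1024)).setHiU (qm 512)).setLoA (qm
    2048)).setHiD (qm 512)).setHiU (qm 256)).setLoA (qm 3072)).setHiD (qm 256)).setLoU (qm
    128)).setHiW (qm 128)).setLoD (qm 128)).setLoU (qm 192)).setHiD (qm 192)).setLoW (qm
    64)).setHiU (qm 224)).setHiD (qm 160)).setLoU (qm 208)).setLoD (qm 144))
    (by decide +kernel))))
    (good_splitW (qm 96)
    (good_of_check
    (R .t4n 3431543 0 0 5068117 13085934 (-311581) 3517028 11828479 3534515 (-46325) 3517028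
    3816877 0 0 0 0 2568479 7278975)
    (((((((((((((((((root.setHiD (qm 2048)).setHiD (qm 1024)).setHiU (qm 512)).setLoA (qm
    2048)).setHiD (qm 512)).setHiU (qm 256)).setLoA (qm 3072)).setHiD (qm 256)).setLoU (qm
    128)).setHiW (qm 128)).setLoD (qm 128)).setLoU (qm 192)).setHiD (qm 192)).setLoW (qm
    64)).setHiU (qm 224)).setLoD (qm 160)).setHiW (qm 96))
    (by decide +kernel))
    (good_splitU (qm 208)
    (good_splitD (qm 176)
    (good_splitW (qm 112)
    (good_splitD (qm 168)
    (good_splitD (qm 164)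
    (good_of_check
    (R .t4n 3446620 0 0 5098155 13069749 (-326493) 3534084 11833561 2383493 (-9865) 3534084
    3686366 0 0 0 0 2774274 7910015)
    ((((((((((((((((((((((root.setHiD (qm 2048)).setHiD (qm 1024)).setHiU (qm 512)).setLoA (qm
    2048)).setHiD (qm 512)).setHiU (qm 256)).setLoA (qm 3072)).setHiD (qm 256)).setLoU (qm
    128)).setHiW (qm 128)).setLoD (qm 128)).setLoU (qm 192)).setHiD (qm 192)).setLoW (qm
    64)).setHiU (qm 224)).setLoD (qm 160)).setLoW (qm 96)).setHiU (qm 208)).setHiD (qm
    176)).setHiW (qm 112)).setHiD (qm 168)).setHiD (qm 164))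
    (by decide +kernel))
    (good_of_check
    (R .t4n 3449195 0 0 5092693 13066201 (-328503) 3531652 11832835 2257664 (-1705) 3531652
    3684035 0 0 0 0 2774274 7896104)
    ((((((((((((((((((((((root.setHiD (qm 2048)).setHiD (qm 1024)).setHiU (qm 512)).setLoA (qm
    2048)).setHiD (qm 512)).setHiU (qm 256)).setLoA (qm 3072)).setHiD (qm 256)).setLoU (qm
    128)).setHiW (qm 128)).setLoD (qm 128)).setLoU (qm 192)).setHiD (qm 192)).setLoW (qm
    64)).setHiU (qm 224)).setLoD (qm 160)).setLoW (qm 96)).setHiU (qm 208)).setHiD (qm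
    176)).setHiW (qm 112)).setHiD (qm 168)).setLoD (qm 164))
    (by decide +kernel)))
    (good_of_check
    (R .t4n 3449195 0 0 5084501 13065486 (-328016) 3526784 11831383 2111409 9945 3526784 3679369 0
    0 0 0 2774274 7896104)
    (((((((((((((((((((((root.setHiD (qm 2048)).setHiD (qm 1024)).setHiU (qm 512)).setLoA (qm
    2048)).setHiD (qm 512)).setHiU (qm 256)).setLoA (qm 3072)).setHiD (qm 256)).setLoU (qm
    128)).setHiW (qm 128)).setLoD (qm 128)).setLoU (qm 192)).setHiD (qm 192)).setLoW (qm
    64)).setHiU (qm 224)).setLoD (qm 160)).setLoW (qm 96)).setHiU (qm 208)).setHiD (qm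
    176)).setHiW (qm 112)).setLoD (qm 168))
    (by decide +kernel)))
    (good_splitD (qm 168)
    (good_splitD (qm 164)
    (good_splitD (qm 162)
    (good_of_check
    (R .t5n 2815022 0 0 5099520 13152185 (-99910) 3613403 11857492 10103397 (-362568) 3613403
    3762477 (-89407) 27766 2749387 2942562 1853641 3405002)
    (((((((((((((((((((((((root.setHiD (qm 2048)).setHiD (qm 1024)).setHiU (qm 512)).setLoA (qm
    2048)).setHiD (qm 512)).setHiU (qm 256)).setLoA (qm 3072)).setHiD (qm 256)).setLoU (qm
    128)).setHiW (qm 128)).setLoD (qm 128)).setLoU (qm 192)).setHiD (qm 192)).setLoW (qm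
    64)).setHiU (qm 224)).setLoD (qm 160)).setLoW (qm 96)).setHiU (qm 208)).setHiD (qm
    176)).setLoW (qm 112)).setHiD (qm 168)).setHiD (qm 164)).setHiD (qm 162))
    (by decide +kernel))
    (good_of_check
    (R .t5n 2815022 0 0 5096789 13152086 (-99839) 3612642 11857260 10088884 (-361306) 3612642
    3761746 (-112635) 29415 2748387 2941627 1890350 3549144)
    (((((((((((((((((((((((root.setHiD (qm 2048)).setHiD (qm 1024)).setHiU (qm 512)).setLoA (qm
    2048)).setHiD (qm 512)).setHiU (qm 256)).setLoA (qm 3072)).setHiD (qm 256)).setLoU (qm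
    128)).setHiW (qm 128)).setLoD (qm 128)).setLoU (qm 192)).setHiD (qm 192)).setLoW (qm
    64)).setHiU (qm 224)).setLoD (qm 160)).setLoW (qm 96)).setHiU (qm 208)).setHiD (qm
    176)).setLoW (qm 112)).setHiD (qm 168)).setHiD (qm 164)).setLoD (qm 162))
    (by decide +kernel)))
    (good_of_check
    (R .t5n 2817597 0 0 5092693 13148179 (-102326) 3611120 11856796 10020363 (-357658) 3611120
    3760284 (-175009) 33152 2746386 2939758 1961709 3822608)
    ((((((((((((((((((((((root.setHiD (qm 2048)).setHiD (qm 1024)).setHiU (qm 512)).setLoA (qm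
    2048)).setHiD (qm 512)).setHiU (qm 256)).setLoA (qm 3072)).setHiD (qm 256)).setLoU (qm
    128)).setHiW (qm 128)).setLoD (qm 128)).setLoU (qm 192)).setHiD (qm 192)).setLoW (qm
    64)).setHiU (qm 224)).setLoD (qm 160)).setLoW (qm 96)).setHiU (qm 208)).setHiD (qm
    176)).setLoW (qm 112)).setHiD (qm 168)).setLoD (qm 164))
    (by decide +kernel)))
    (good_splitD (qm 172)
    (good_of_check
    (R .t5n 2821770 0 0 5087232 13141962 (-106440) 3609598 11856333 9927263 (-353297) 3609598
    3758822 (-245264) 37107 2744384 2937887 2030561 4082172)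
    ((((((((((((((((((((((root.setHiD (qm 2048)).setHiD (qm 1024)).setHiU (qm 512)).setLoA (qm
    2048)).setHiD (qm 512)).setHiU (qm 256)).setLoA (qm 3072)).setHiD (qm 256)).setLoU (qm
    128)).setHiW (qm 128)).setLoD (qm 128)).setLoU (qm 192)).setHiD (qm 192)).setLoW (qm
    64)).setHiU (qm 224)).setLoD (qm 160)).setLoW (qm 96)).setHiU (qm 208)).setHiD (qm
    176)).setLoW (qm 112)).setLoD (qm 168)).setHiD (qm 172))
    (by decide +kernel))
    (good_of_check
    (R .t5n 2824346 0 0 5081771 13138043 (-108919) 3608074 11855869 9858533 (-349619) 3608074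
    3757359 (-304601) 40766 2742380 2936015 2097154 4341349)
    ((((((((((((((((((((((root.setHiD (qm 2048)).setHiD (qm 1024)).setHiU (qm 512)).setLoA (qm
    2048)).setHiD (qm 512)).setHiU (qm 256)).setLoA (qm 3072)).setHiD (qm 256)).setLoU (qm
    128)).setHiW (qm 128)).setLoD (qm 128)).setLoU (qm 192)).setHiD (qm 192)).setLoW (qm
    64)).setHiU (qm 224)).setLoD (qm 160)).setLoW (qm 96)).setHiU (qm 208)).setHiD (qm
    176)).setLoW (qm 112)).setLoD (qm 168)).setLoD (qm 172))
    (by decide +kernel)))))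
    (good_splitW (qm 112)
    (good_of_check
    (R .t4n 3449195 0 0 5068117 13064049 (-327038) 3517028 11828479 1815352 33491 3517028 3670018
    0 0 0 0 2774274 7896104)
    ((((((((((((((((((((root.setHiD (qm 2048)).setHiD (qm 1024)).setHiU (qm 512)).setLoA (qm
    2048)).setHiD (qm 512)).setHiU (qm 256)).setLoA (qm 3072)).setHiD (qm 256)).setLoU (qm
    128)).setHiW (qm 128)).setLoD (qm 128)).setLoU (qm 192)).setHiD (qm 192)).setLoW (qm
    64)).setHiU (qm 224)).setLoD (qm 160)).setLoW (qm 96)).setHiU (qm 208)).setLoD (qm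
    176)).setHiW (qm 112))
    (by decide +kernel))
    (good_splitD (qm 184)
    (good_splitD (qm 180)
    (good_of_check
    (R .t5n 2828512 0 0 5076309 13199441 (-133482) 3606550 11855405 9765326 (-345223) 3606550
    3755896 (-370653) 44612 2740374 2934142 2161697 4585937)
    ((((((((((((((((((((((root.setHiD (qm 2048)).setHiD (qm 1024)).setHiU (qm 512)).setLoA (qm
    2048)).setHiD (qm 512)).setHiU (qm 256)).setLoA (qm 3072)).setHiD (qm 256)).setLoU (qm
    128)).setHiW (qm 128)).setLoD (qm 128)).setLoU (qm 192)).setHiD (qm 192)).setLoW (qm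
    64)).setHiU (qm 224)).setLoD (qm 160)).setLoW (qm 96)).setHiU (qm 208)).setLoD (qm
    176)).setLoW (qm 112)).setHiD (qm 184)).setHiD (qm 180))
    (by decide +kernel))
    (good_of_check
    (R .t5n 2832679 0 0 5070848 13193062 (-137521) 3605026 11854941 9672001 (-340805) 3605026
    3754432 (-434370) 48397 2738367 2932268 2224368 4822959)
    ((((((((((((((((((((((root.setHiD (qm 2048)).setHiD (qm 1024)).setHiU (qm 512)).setLoA (qm
    2048)).setHiD (qm 512)).setHiU (qm 256)).setLoA (qm 3072)).setHiD (qm 256)).setLoU (qm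
    128)).setHiW (qm 128)).setLoD (qm 128)).setLoU (qm 192)).setHiD (qm 192)).setLoW (qm
    64)).setHiU (qm 224)).setLoD (qm 160)).setLoW (qm 96)).setHiU (qm 208)).setLoD (qm
    176)).setLoW (qm 112)).setHiD (qm 184)).setLoD (qm 180))
    (by decide +kernel)))
    (good_splitD (qm 188)
    (good_of_check
    (R .t5n 2835257 0 0 5065387 13189028 (-139958) 3603500 11854478 9602926 (-337080) 3603500
    3752967 (-489175) 51941 2736359 2930393 2285321 5060647)
    ((((((((((((((((((((((root.setHiD (qm 2048)).setHiD (qm 1024)).setHiU (qm 512)).setLoA (qm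
    2048)).setHiD (qm 512)).setHiU (qm 256)).setLoA (qm 3072)).setHiD (qm 256)).setLoU (qm
    128)).setHiW (qm 128)).setLoD (qm 128)).setLoU (qm 192)).setHiD (qm 192)).setLoW (qm
    64)).setHiU (qm 224)).setLoD (qm 160)).setLoW (qm 96)).setHiU (qm 208)).setLoD (qm
    176)).setLoW (qm 112)).setLoD (qm 184)).setHiD (qm 188))
    (by decide +kernel))
    (good_of_check
    (R .t5n 2839424 0 0 5059925 13182629 (-143981) 3601974 11854014 9509393 (-332625) 3601974
    3751502 (-549029) 55626 2734349 2928516 2344690 5283207)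
    ((((((((((((((((((((((root.setHiD (qm 2048)).setHiD (qm 1024)).setHiU (qm 512)).setLoA (qm
    2048)).setHiD (qm 512)).setHiU (qm 256)).setLoA (qm 3072)).setHiD (qm 256)).setLoU (qm
    128)).setHiW (qm 128)).setLoD (qm 128)).setLoU (qm 192)).setHiD (qm 192)).setLoW (qm
    64)).setHiU (qm 224)).setLoD (qm 160)).setLoW (qm 96)).setHiU (qm 208)).setLoD (qm
    176)).setLoW (qm 112)).setLoD (qm 184)).setLoD (qm 188))
    (by decide +kernel))))))
    (good_of_check
    (R .t4n 3503768 0 0 5057195 13014297 (-379832) 3670014 11828479 3540796 (-59885) 3670014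
    3816877 0 0 0 0 2965823 8238175)
    ((((((((((((((((((root.setHiD (qm 2048)).setHiD (qm 1024)).setHiU (qm 512)).setLoA (qm
    2048)).setHiD (qm 512)).setHiU (qm 256)).setLoA (qm 3072)).setHiD (qm 256)).setLoU (qm
    128)).setHiW (qm 128)).setLoD (qm 128)).setLoU (qm 192)).setHiD (qm 192)).setLoW (qm
    64)).setHiU (qm 224)).setLoD (qm 160)).setLoW (qm 96)).setLoU (qm 208))
    (by decide +kernel)))))
    (good_of_check
    (R .t4n 3534910 0 0 5046272 12992420 (-411623) 3816872 11828479 6194948 (-209889) 3816872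
    4094823 0 0 0 0 2965823 8085493)
    (((((((((((((((root.setHiD (qm 2048)).setHiD (qm 1024)).setHiU (qm 512)).setLoA (qm
    2048)).setHiD (qm 512)).setHiU (qm 256)).setLoA (qm 3072)).setHiD (qm 256)).setLoU (qm
    128)).setHiW (qm 128)).setLoD (qm 128)).setLoU (qm 192)).setHiD (qm 192)).setLoW (qm
    64)).setLoU (qm 224))
    (by decide +kernel))))
    (good_splitD (qm 224)
    (good_splitW (qm 64)
    (good_of_check
    (R .t4n 3413883 0 0 5002581 13171367 (-314150) 3497435 11822668 5540980 (-120155) 3497435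
    4078006 0 0 0 0 2097154 5616622)
    (((((((((((((((root.setHiD (qm 2048)).setHiD (qm 1024)).setHiU (qm 512)).setLoA (qm
    2048)).setHiD (qm 512)).setHiU (qm 256)).setLoA (qm 3072)).setHiD (qm 256)).setLoU (qm
    128)).setHiW (qm 128)).setLoD (qm 128)).setLoU (qm 192)).setLoD (qm 192)).setHiD (qm
    224)).setHiW (qm 64))
    (by decide +kernel))
    (good_splitU (qm 224)
    (good_splitW (qm 96)
    (good_of_check
    (R .t4n 3442452 0 0 5024427 13135134 (-338980) 3497435 11822668 2771933 8512 3497435 3798830 0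
    0 0 0 2568479 7227131)
    (((((((((((((((((root.setHiD (qm 2048)).setHiD (qm 1024)).setHiU (qm 512)).setLoA (qm
    2048)).setHiD (qm 512)).setHiU (qm 256)).setLoA (qm 3072)).setHiD (qm 256)).setLoU (qm
    128)).setHiW (qm 128)).setLoD (qm 128)).setLoU (qm 192)).setLoD (qm 192)).setHiD (qm
    224)).setLoW (qm 64)).setHiU (qm 224)).setHiW (qm 96))
    (by decide +kernel))
    (good_splitU (qm 208)
    (good_splitD (qm 208)
    (good_splitW (qm 112)
    (good_of_check
    (R .t4n 3453381 0 0 5046272 13122737 (-349428) 3507245 11825574 1426116 61379 3507245 3660644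
    0 0 0 0 2774274 7875734)
    ((((((((((((((((((((root.setHiD (qm 2048)).setHiD (qm 1024)).setHiU (qm 512)).setLoA (qm
    2048)).setHiD (qm 512)).setHiU (qm 256)).setLoA (qm 3072)).setHiD (qm 256)).setLoU (qm
    128)).setHiW (qm 128)).setLoD (qm 128)).setLoU (qm 192)).setLoD (qm 192)).setHiD (qm
    224)).setLoW (qm 64)).setHiU (qm 224)).setLoW (qm 96)).setHiU (qm 208)).setHiD (qm
    208)).setHiW (qm 112))
    (by decide +kernel))
    (good_splitW (qm 120)
    (good_splitD (qm 200)
    (good_of_check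
    (R .t4n 3460122 0 0 5051733 13114904 (-355741) 3512140 11827026 1435524 55812 3512140 3665334
    0 0 0 0 2871646 8159802)
    ((((((((((((((((((((((root.setHiD (qm 2048)).setHiD (qm 1024)).setHiU (qm 512)).setLoA (qm
    2048)).setHiD (qm 512)).setHiU (qm 256)).setLoA (qm 3072)).setHiD (qm 256)).setLoU (qm
    128)).setHiW (qm 128)).setLoD (qm 128)).setLoU (qm 192)).setLoD (qm 192)).setHiD (qm
    224)).setLoW (qm 64)).setHiU (qm 224)).setLoW (qm 96)).setHiU (qm 208)).setHiD (qm
    208)).setLoW (qm 112)).setHiW (qm 120)).setHiD (qm 200))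
    (by decide +kernel))
    (good_of_check
    (R .t4n 3464290 0 0 5040811 13108801 (-358809) 3507245 11825574 1195289 71898 3507245 3660644
    0 0 0 0 2871646 8139493)
    ((((((((((((((((((((((root.setHiD (qm 2048)).setHiD (qm 1024)).setHiU (qm 512)).setLoA (qm
    2048)).setHiD (qm 512)).setHiU (qm 256)).setLoA (qm 3072)).setHiD (qm 256)).setLoU (qm
    128)).setHiW (qm 128)).setLoD (qm 128)).setLoU (qm 192)).setLoD (qm 192)).setHiD (qm
    224)).setLoW (qm 64)).setHiU (qm 224)).setLoW (qm 96)).setHiU (qm 208)).setHiD (qm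
    208)).setLoW (qm 112)).setHiW (qm 120)).setLoD (qm 200))
    (by decide +kernel)))
    (good_of_check
    (R .t5n 2839423 0 0 5046272 13182192 (-143675) 3598921 11853086 9449789 (-327446) 3598921
    3748570 (-472257) 57000 2829210 2924759 2459131 5753494)
    (((((((((((((((((((((root.setHiD (qm 2048)).setHiD (qm 1024)).setHiU (qm 512)).setLoA (qm
    2048)).setHiD (qm 512)).setHiU (qm 256)).setLoA (qm 3072)).setHiD (qm 256)).setLoU (qm
    128)).setHiW (qm 128)).setLoD (qm 128)).setLoU (qm 192)).setLoD (qm 192)).setHiD (qm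
    224)).setLoW (qm 64)).setHiU (qm 224)).setLoW (qm 96)).setHiU (qm 208)).setHiD (qm
    208)).setLoW (qm 112)).setLoW (qm 120))
    (by decide +kernel))))
    (good_splitD (qm 216)
    (good_splitA (qm 3584)
    (good_of_check
    (R .t4n 3428966 2593390 2421581 5029888 13109098 (-314537) 3502343 11824121 1789511 50138
    3502343 3655948 0 0 0 0 2965823 8619494)
    (((((((((((((((((((((root.setHiD (qm 2048)).setHiD (qm 1024)).setHiU (qm 512)).setLoA (qm
    2048)).setHiD (qm 512)).setHiU (qm 256)).setLoA (qm 3072)).setHiD (qm 256)).setLoU (qm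
    128)).setHiW (qm 128)).setLoD (qm 128)).setLoU (qm 192)).setLoD (qm 192)).setHiD (qm
    224)).setLoW (qm 64)).setHiU (qm 224)).setLoW (qm 96)).setHiU (qm 208)).setLoD (qm
    208)).setHiD (qm 216)).setHiA (qm 3584))
    (by decide +kernel))
    (good_splitA (qm 3840)
    (good_splitA (qm 3712)
    (good_splitU (qm 200)
    (good_of_check
    (T 3187671 40023878 5931643 13591097 1354978 3767685 2899112 1248575 4054366 4691582 1782239
    3707279 2965823 52717679 14478894 10284746 25034411 15919718)
    ((((((((((((((((((((((((root.setHiD (qm 2048)).setHiD (qm 1024)).setHiU (qm 512)).setLoA (qm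
    2048)).setHiD (qm 512)).setHiU (qm 256)).setLoA (qm 3072)).setHiD (qm 256)).setLoU (qm
    128)).setHiW (qm 128)).setLoD (qm 128)).setLoU (qm 192)).setLoD (qm 192)).setHiD (qm
    224)).setLoW (qm 64)).setHiU (qm 224)).setLoW (qm 96)).setHiU (qm 208)).setLoD (qm
    208)).setHiD (qm 216)).setLoA (qm 3584)).setHiA (qm 3840)).setHiA (qm 3712)).setHiU (qm 200))
    (by decide +kernel))
    (good_of_check
    (R .t4n 3477777 2240739 2097151 5024427 13074950 (-365096) 3579967 11824121 1573407 55703
    3579967 3655948 0 0 0 0 2965823 8368740)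
    ((((((((((((((((((((((((root.setHiD (qm 2048)).setHiD (qm 1024)).setHiU (qm 512)).setLoA (qm
    2048)).setHiD (qm 512)).setHiU (qm 256)).setLoA (qm 3072)).setHiD (qm 256)).setLoU (qm
    128)).setHiW (qm 128)).setLoD (qm 128)).setLoU (qm 192)).setLoD (qm 192)).setHiD (qm
    224)).setLoW (qm 64)).setHiU (qm 224)).setLoW (qm 96)).setHiU (qm 208)).setLoD (qm
    208)).setHiD (qm 216)).setLoA (qm 3584)).setHiA (qm 3840)).setHiA (qm 3712)).setLoU (qm 200))
    (by decide +kernel)))
    (good_of_check
    (T 3523215 37404082 5136954 13831666 1290638 3694977 2770232 1394078 4045863 4682150 1799294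
    3780697 2965823 46568015 14637383 10318753 25078293 15911083)
    (((((((((((((((((((((((root.setHiD (qm 2048)).setHiD (qm 1024)).setHiU (qm 512)).setLoA (qm
    2048)).setHiD (qm 512)).setHiU (qm 256)).setLoA (qm 3072)).setHiD (qm 256)).setLoU (qm
    128)).setHiW (qm 128)).setLoD (qm 128)).setLoU (qm 192)).setLoD (qm 192)).setHiD (qm
    224)).setLoW (qm 64)).setHiU (qm 224)).setLoW (qm 96)).setHiU (qm 208)).setLoD (qm
    208)).setHiD (qm 216)).setLoA (qm 3584)).setHiA (qm 3840)).setLoA (qm 3712))
    (by decide +kernel)))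
    (good_of_check
    (T 3523215 34601956 4194305 14068122 1193950 3418168 2562701 1411636 4302217 4831451 1799294
    3780697 2965823 45887648 13415941 9798498 25165824 15911083)
    ((((((((((((((((((((((root.setHiD (qm 2048)).setHiD (qm 1024)).setHiU (qm 512)).setLoA (qm
    2048)).setHiD (qm 512)).setHiU (qm 256)).setLoA (qm 3072)).setHiD (qm 256)).setLoU (qm
    128)).setHiW (qm 128)).setLoD (qm 128)).setLoU (qm 192)).setLoD (qm 192)).setHiD (qm
    224)).setLoW (qm 64)).setHiU (qm 224)).setLoW (qm 96)).setHiU (qm 208)).setLoD (qm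
    208)).setHiD (qm 216)).setLoA (qm 3584)).setLoA (qm 3840))
    (by decide +kernel))))
    (good_splitD (qm 220)
    (good_splitD (qm 218)
    (good_of_check
    (R .t4n 3475199 0 0 5023061 13093829 (-367501) 3501117 11823758 770440 97835 3501117 3654773 0
    0 0 0 2965823 8381366)
    ((((((((((((((((((((((root.setHiD (qm 2048)).setHiD (qm 1024)).setHiU (qm 512)).setLoA (qm
    2048)).setHiD (qm 512)).setHiU (qm 256)).setLoA (qm 3072)).setHiD (qm 256)).setLoU (qm
    128)).setHiW (qm 128)).setLoD (qm 128)).setLoU (qm 192)).setLoD (qm 192)).setHiD (qm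
    224)).setLoW (qm 64)).setHiU (qm 224)).setLoW (qm 96)).setHiU (qm 208)).setLoD (qm
    208)).setLoD (qm 216)).setHiD (qm 220)).setHiD (qm 218))
    (by decide +kernel))
    (good_of_check
    (R .t4n 3475199 0 0 5020331 13093630 (-367370) 3499890 11823394 731544 100914 3499890 3653598
    0 0 0 0 2965823 8381366)
    ((((((((((((((((((((((root.setHiD (qm 2048)).setHiD (qm 1024)).setHiU (qm 512)).setLoA (qm
    2048)).setHiD (qm 512)).setHiU (qm 256)).setLoA (qm 3072)).setHiD (qm 256)).setLoU (qm
    128)).setHiW (qm 128)).setLoD (qm 128)).setLoU (qm 192)).setLoD (qm 192)).setHiD (qm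
    224)).setLoW (qm 64)).setHiU (qm 224)).setLoW (qm 96)).setHiU (qm 208)).setLoD (qm
    208)).setLoD (qm 216)).setHiD (qm 220)).setLoD (qm 218))
    (by decide +kernel)))
    (good_of_check
    (R .t4n 3475199 0 0 5016235 13093231 (-367109) 3497435 11822668 653515 107090 3497435 3651246
    0 0 0 0 2965823 8381366)
    (((((((((((((((((((((root.setHiD (qm 2048)).setHiD (qm 1024)).setHiU (qm 512)).setLoA (qm
    2048)).setHiD (qm 512)).setHiU (qm 256)).setLoA (qm 3072)).setHiD (qm 256)).setLoU (qm
    128)).setHiW (qm 128)).setLoD (qm 128)).setLoU (qm 192)).setLoD (qm 192)).setHiD (qm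
    224)).setLoW (qm 64)).setHiU (qm 224)).setLoW (qm 96)).setHiU (qm 208)).setLoD (qm
    208)).setLoD (qm 216)).setLoD (qm 220))
    (by decide +kernel)))))
    (good_of_check
    (R .t4n 3514679 0 0 5013504 13059369 (-405688) 3651241 11822668 2823145 (-6467) 3651241
    3798830 0 0 0 0 2965823 8184838)
    ((((((((((((((((((root.setHiD (qm 2048)).setHiD (qm 1024)).setHiU (qm 512)).setLoA (qm
    2048)).setHiD (qm 512)).setHiU (qm 256)).setLoA (qm 3072)).setHiD (qm 256)).setLoU (qm
    128)).setHiW (qm 128)).setLoD (qm 128)).setLoU (qm 192)).setLoD (qm 192)).setHiD (qm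
    224)).setLoW (qm 64)).setHiU (qm 224)).setLoW (qm 96)).setLoU (qm 208))
    (by decide +kernel))))
    (good_of_check
    (R .t4n 3567650 0 0 4980736 13005883 (-454487) 3798825 11822668 5264979 (-147190) 3798825
    4078006 0 0 0 0 2965823 7928523)
    ((((((((((((((((root.setHiD (qm 2048)).setHiD (qm 1024)).setHiU (qm 512)).setLoA (qm
    2048)).setHiD (qm 512)).setHiU (qm 256)).setLoA (qm 3072)).setHiD (qm 256)).setLoU (qm
    128)).setHiW (qm 128)).setLoD (qm 128)).setLoU (qm 192)).setLoD (qm 192)).setHiD (qm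
    224)).setLoW (qm 64)).setLoU (qm 224))
    (by decide +kernel))))
    (good_splitD (qm 240)
    (good_splitD (qm 232)
    (good_splitD (qm 228)
    (good_of_check
    (R .t4n 3477777 0 0 4978005 13154235 (-388283) 3494978 11821941 4334076 (-62938) 3494978
    4075899 0 0 0 0 2965823 8368740)
    (((((((((((((((((root.setHiD (qm 2048)).setHiD (qm 1024)).setHiU (qm 512)).setLoA (qm
    2048)).setHiD (qm 512)).setHiU (qm 256)).setLoA (qm 3072)).setHiD (qm 256)).setLoU (qm
    128)).setHiW (qm 128)).setLoD (qm 128)).setLoU (qm 192)).setLoD (qm 192)).setLoD (qm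
    224)).setHiD (qm 240)).setHiD (qm 232)).setHiD (qm 228))
    (by decide +kernel))
    (good_of_check
    (R .t4n 3477777 0 0 4972544 13153813 (-388013) 3492519 11821215 4274078 (-57590) 3492519
    4073791 0 0 0 0 2965823 8368740)
    (((((((((((((((((root.setHiD (qm 2048)).setHiD (qm 1024)).setHiU (qm 512)).setLoA (qm
    2048)).setHiD (qm 512)).setHiU (qm 256)).setLoA (qm 3072)).setHiD (qm 256)).setLoU (qm
    128)).setHiW (qm 128)).setLoD (qm 128)).setLoU (qm 192)).setLoD (qm 192)).setLoD (qm
    224)).setHiD (qm 240)).setHiD (qm 232)).setLoD (qm 228))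
    (by decide +kernel)))
    (good_of_check
    (R .t4n 3477777 0 0 4964352 13152966 (-387471) 3487597 11819761 4153405 (-46841) 3487597
    4069572 0 0 0 0 2965823 8368740)
    ((((((((((((((((root.setHiD (qm 2048)).setHiD (qm 1024)).setHiU (qm 512)).setLoA (qm
    2048)).setHiD (qm 512)).setHiU (qm 256)).setLoA (qm 3072)).setHiD (qm 256)).setLoU (qm
    128)).setHiW (qm 128)).setLoD (qm 128)).setLoU (qm 192)).setLoD (qm 192)).setLoD (qm
    224)).setHiD (qm 240)).setLoD (qm 232))
    (by decide +kernel)))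
    (good_of_check
    (R .t4n 3481943 0 0 4947968 13145755 (-389888) 3477731 11816854 3832992 (-21550) 3477731
    4061120 0 0 0 0 2965823 8347245)
    (((((((((((((((root.setHiD (qm 2048)).setHiD (qm 1024)).setHiU (qm 512)).setLoA (qm
    2048)).setHiD (qm 512)).setHiU (qm 256)).setLoA (qm 3072)).setHiD (qm 256)).setLoU (qm
    128)).setHiW (qm 128)).setLoD (qm 128)).setLoU (qm 192)).setLoD (qm 192)).setLoD (qm
    224)).setLoD (qm 240))
    (by decide +kernel)))))

end Vale.Agent.P226.Cert
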