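import Vale.Agent.P226.CertBox
import Vale.Agent.P226.CertSound

/-! Part 18 of the cover (P226). -/

namespace Vale.Agent.P226.Cert

set_option maxHeartbeats 4000000 in
/-- One subtree of the cover. -/
theorem sub35_good : BoxGood
    ((((((((((root.setHiD (qm 2048)).setHiD (qm 1024)).setHiU (qm 512)).setLoA (qm 2048)).setHiD
    (qm 512)).setHiU (qm 256)).setLoA (qm 3072)).setHiD (qm 256)).setLoU (qm 128)).setLoW (qm
    128)) :=
    (good_splitW (qm 192)
    (good_splitW (qm 160)
    (good_splitD (qm 192)
    (good_splitU (qm 192)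
    (good_splitA (qm 3584)
    (good_splitW (qm 144)
    (good_splitU (qm 160)
    (good_splitA (qm 3328)
    (good_splitA (qm 3200)
    (good_of_check
    (T 3187671 50529032 8388609 12582911 1447449 3884230 3640552 1210398 3843366 4055202 1639422
    3315891 3145730 54037288 14895071 13405243 24858111 16142622)
    (((((((((((((((((((root.setHiD (qm 2048)).setHiD (qm 1024)).setHiU (qm 512)).setLoA (qm
    2048)).setHiD (qm 512)).setHiU (qm 256)).setLoA (qm 3072)).setHiD (qm 256)).setLoU (qm
    128)).setLoW (qm 128)).setHiW (qm 192)).setHiW (qm 160)).setHiD (qm 192)).setHiU (qm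
    192)).setHiA (qm 3584)).setHiW (qm 144)).setHiU (qm 160)).setHiA (qm 3328)).setHiA (qm 3200))
    (by decide +kernel))
    (good_of_check
    (T 3187671 47463568 7846826 12842379 1359636 3648584 3419689 1227968 4090139 4270365 1639422
    3315891 3145730 53154151 13591126 12381268 24902303 16142622)
    (((((((((((((((((((root.setHiD (qm 2048)).setHiD (qm 1024)).setHiU (qm 512)).setLoA (qm
    2048)).setHiD (qm 512)).setHiU (qm 256)).setLoA (qm 3072)).setHiD (qm 256)).setLoU (qm
    128)).setLoW (qm 128)).setHiW (qm 192)).setHiW (qm 160)).setHiD (qm 192)).setHiU (qm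
    192)).setHiA (qm 3584)).setHiW (qm 144)).setHiU (qm 160)).setHiA (qm 3328)).setLoA (qm 3200))
    (by decide +kernel)))
    (good_of_check
    (T 3523215 44559228 7264749 13096709 1276439 3479726 3259398 1375699 4161238 4319416 1639422
    3315891 3145730 46445786 13244713 12163120 24990453 16142622)
    ((((((((((((((((((root.setHiD (qm 2048)).setHiD (qm 1024)).setHiU (qm 512)).setLoA (qm
    2048)).setHiD (qm 512)).setHiU (qm 256)).setLoA (qm 3072)).setHiD (qm 256)).setLoU (qm
    128)).setLoW (qm 128)).setHiW (qm 192)).setHiW (qm 160)).setHiD (qm 192)).setHiU (qm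
    192)).setHiA (qm 3584)).setHiW (qm 144)).setHiU (qm 160)).setLoA (qm 3328))
    (by decide +kernel)))
    (good_splitD (qm 160)
    (good_splitA (qm 3328)
    (good_splitD (qm 144)
    (good_of_check
    (R .t5n 2731884 6404604 2965819 5166421 13224229 136 3309248 11861432 9399755 (-313502)
    3309248 3626317 3942415 (-110129) 2958394 3138732 1048578 957627)
    ((((((((((((((((((((root.setHiD (qm 2048)).setHiD (qm 1024)).setHiU (qm 512)).setLoA (qm
    2048)).setHiD (qm 512)).setHiU (qm 256)).setLoA (qm 3072)).setHiD (qm 256)).setLoU (qm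
    128)).setLoW (qm 128)).setHiW (qm 192)).setHiW (qm 160)).setHiD (qm 192)).setHiU (qm
    192)).setHiA (qm 3584)).setHiW (qm 144)).setLoU (qm 160)).setHiD (qm 160)).setHiA (qm
    3328)).setHiD (qm 144))
    (by decide +kernel))
    (good_of_check
    (R .t5n 2725142 6420244 2965819 5144576 13249788 2647 3302596 11859578 9370964 (-305514)
    3302596 3620248 3845454 (-99612) 2950952 3131718 1482913 2295632)
    ((((((((((((((((((((root.setHiD (qm 2048)).setHiD (qm 1024)).setHiU (qm 512)).setLoA (qm
    2048)).setHiD (qm 512)).setHiU (qm 256)).setLoA (qm 3072)).setHiD (qm 256)).setLoU (qm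
    128)).setLoW (qm 128)).setHiW (qm 192)).setHiW (qm 160)).setHiD (qm 192)).setHiU (qm
    192)).setHiA (qm 3584)).setHiW (qm 144)).setLoU (qm 160)).setHiD (qm 160)).setHiA (qm
    3328)).setLoD (qm 144))
    (by decide +kernel)))
    (good_splitA (qm 3456)
    (good_of_check
    (T 3187671 44559228 7264749 13096709 1276439 3855101 3210436 1244680 3948258 4462606 1639422
    3632376 3145730 52332141 14905303 11556124 24946417 16108530)
    ((((((((((((((((((((root.setHiD (qm 2048)).setHiD (qm 1024)).setHiU (qm 512)).setLoA (qm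
    2048)).setHiD (qm 512)).setHiU (qm 256)).setLoA (qm 3072)).setHiD (qm 256)).setLoU (qm
    128)).setLoW (qm 128)).setHiW (qm 192)).setHiW (qm 160)).setHiD (qm 192)).setHiU (qm
    192)).setHiA (qm 3584)).setHiW (qm 144)).setLoU (qm 160)).setHiD (qm 160)).setLoA (qm
    3328)).setHiA (qm 3456))
    (by decide +kernel))
    (good_of_check
    (T 3187671 41779192 6631778 13346192 1196802 3614582 3010137 1260647 4198161 4636825 1639422
    3632376 3145730 51562735 13653862 10873179 24990453 16108530)
    ((((((((((((((((((((root.setHiD (qm 2048)).setHiD (qm 1024)).setHiU (qm 512)).setLoA (qm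
    2048)).setHiD (qm 512)).setHiU (qm 256)).setLoA (qm 3072)).setHiD (qm 256)).setLoU (qm
    128)).setLoW (qm 128)).setHiW (qm 192)).setHiW (qm 160)).setHiD (qm 192)).setHiU (qm
    192)).setHiA (qm 3584)).setHiW (qm 144)).setLoU (qm 160)).setHiD (qm 160)).setLoA (qm
    3328)).setLoA (qm 3456))
    (by decide +kernel))))
    (good_splitD (qm 176)
    (good_of_check
    (R .t5n 2725142 6379283 2421581 5122731 13257920 503 3295931 11857723 9226091 (-294318)
    3295931 3614169 3624710 (-85581) 2943491 3124689 1816189 3608179)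
    (((((((((((((((((((root.setHiD (qm 2048)).setHiD (qm 1024)).setHiU (qm 512)).setLoA (qm
    2048)).setHiD (qm 512)).setHiU (qm 256)).setLoA (qm 3072)).setHiD (qm 256)).setLoU (qm
    128)).setLoW (qm 128)).setHiW (qm 192)).setHiW (qm 160)).setHiD (qm 192)).setHiU (qm
    192)).setHiA (qm 3584)).setHiW (qm 144)).setLoU (qm 160)).setLoD (qm 160)).setHiD (qm 176))
    (by decide +kernel))
    (good_of_check
    (R .t5n 2729308 6263100 2421581 5100885 13265161 (-7582) 3289252 11855869 9008379 (-281049)
    3289252 3608079 3327260 (-69318) 2936010 3117643 2097154 4802282)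
    (((((((((((((((((((root.setHiD (qm 2048)).setHiD (qm 1024)).setHiU (qm 512)).setLoA (qm
    2048)).setHiD (qm 512)).setHiU (qm 256)).setLoA (qm 3072)).setHiD (qm 256)).setLoU (qm
    128)).setLoW (qm 128)).setHiW (qm 192)).setHiW (qm 160)).setHiD (qm 192)).setHiU (qm
    192)).setHiA (qm 3584)).setHiW (qm 144)).setLoU (qm 160)).setLoD (qm 160)).setLoD (qm 176))
    (by decide +kernel)))))
    (good_splitD (qm 168)
    (good_splitW (qm 152)
    (good_splitD (qm 156)
    (good_splitA (qm 3328)
    (good_of_check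
    (R .t5n 2700744 6372511 2965819 5158229 13253550 37763 3140478 11861895 9001431 (-285247)
    3140478 3627833 6500954 (-197340) 3140478 3226824 908096 680141)
    ((((((((((((((((((((root.setHiD (qm 2048)).setHiD (qm 1024)).setHiU (qm 512)).setLoA (qm
    2048)).setHiD (qm 512)).setHiU (qm 256)).setLoA (qm 3072)).setHiD (qm 256)).setLoU (qm
    128)).setLoW (qm 128)).setHiW (qm 192)).setHiW (qm 160)).setHiD (qm 192)).setHiU (qm
    192)).setHiA (qm 3584)).setLoW (qm 144)).setHiD (qm 168)).setHiW (qm 152)).setHiD (qm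
    156)).setHiA (qm 3328))
    (by decide +kernel))
    (good_splitU (qm 168)
    (good_of_check
    (T 3523215 44105204 7264749 13096709 1162933 3452812 3234729 1389204 4202910 4358399 1572866
    3397777 3231931 45420615 13208171 12175566 24990453 16138365)
    (((((((((((((((((((((root.setHiD (qm 2048)).setHiD (qm 1024)).setHiU (qm 512)).setLoA (qm
    2048)).setHiD (qm 512)).setHiU (qm 256)).setLoA (qm 3072)).setHiD (qm 256)).setLoU (qm
    128)).setLoW (qm 128)).setHiW (qm 192)).setHiW (qm 160)).setHiD (qm 192)).setHiU (qm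
    192)).setHiA (qm 3584)).setLoW (qm 144)).setHiD (qm 168)).setHiW (qm 152)).setHiD (qm
    156)).setLoA (qm 3328)).setHiU (qm 168))
    (by decide +kernel))
    (good_of_check
    (R .t5n 2778121 6123811 2421581 5141845 13166241 (-50682) 3392915 11861895 9105273 (-315673)
    3392915 3627833 5088136 (-157494) 3140478 3226824 908096 612369)
    (((((((((((((((((((((root.setHiD (qm 2048)).setHiD (qm 1024)).setHiU (qm 512)).setLoA (qm
    2048)).setHiD (qm 512)).setHiU (qm 256)).setLoA (qm 3072)).setHiD (qm 256)).setLoU (qm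
    128)).setLoW (qm 128)).setHiW (qm 192)).setHiW (qm 160)).setHiD (qm 192)).setHiU (qm
    192)).setHiA (qm 3584)).setLoW (qm 144)).setHiD (qm 168)).setHiW (qm 152)).setHiD (qm
    156)).setLoA (qm 3328)).setLoU (qm 168))
    (by decide +kernel))))
    (good_splitD (qm 162)
    (good_of_check
    (R .t5n 2720975 6058846 2421581 5145941 13238634 12103 3137851 11861200 8588055 (-271236)
    3137851 3625559 6052200 (-182085) 3137851 3224267 1112185 1133018)
    ((((((((((((((((((((root.setHiD (qm 2048)).setHiD (qm 1024)).setHiU (qm 512)).setLoA (qm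
    2048)).setHiD (qm 512)).setHiU (qm 256)).setLoA (qm 3072)).setHiD (qm 256)).setLoU (qm
    128)).setLoW (qm 128)).setHiW (qm 192)).setHiW (qm 160)).setHiD (qm 192)).setHiU (qm
    192)).setHiA (qm 3584)).setLoW (qm 144)).setHiD (qm 168)).setHiW (qm 152)).setLoD (qm
    156)).setHiD (qm 162))
    (by decide +kernel))
    (good_of_check
    (R .t5n 2720975 6032224 2421581 5137749 13243618 10692 3135222 11860505 8529103 (-266838)
    3135222 3623284 5979559 (-177205) 3135222 3221709 1284241 1631388)
    ((((((((((((((((((((root.setHiD (qm 2048)).setHiD (qm 1024)).setHiU (qm 512)).setLoA (qm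
    2048)).setHiD (qm 512)).setHiU (qm 256)).setLoA (qm 3072)).setHiD (qm 256)).setLoU (qm
    128)).setLoW (qm 128)).setHiW (qm 192)).setHiW (qm 160)).setHiD (qm 192)).setHiU (qm
    192)).setHiA (qm 3584)).setLoW (qm 144)).setHiD (qm 168)).setHiW (qm 152)).setLoD (qm
    156)).setLoD (qm 162))
    (by decide +kernel))))
    (good_splitD (qm 160)
    (good_of_check
    (R .t5n 2760455 5889539 2421581 5144576 13179914 (-28771) 3228522 11862359 8511033 (-283377)
    3228522 3629348 6603588 (-212593) 3228522 3312573 741458 357927)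
    (((((((((((((((((((root.setHiD (qm 2048)).setHiD (qm 1024)).setHiU (qm 512)).setLoA (qm
    2048)).setHiD (qm 512)).setHiU (qm 256)).setLoA (qm 3072)).setHiD (qm 256)).setLoU (qm
    128)).setLoW (qm 128)).setHiW (qm 192)).setHiW (qm 160)).setHiD (qm 192)).setHiU (qm
    192)).setHiA (qm 3584)).setLoW (qm 144)).setHiD (qm 168)).setLoW (qm 152)).setHiD (qm 160))
    (by decide +kernel))
    (good_of_check
    (R .t5n 2760455 5855327 2421581 5133653 13186382 (-30593) 3225115 11861432 8435769 (-277628)
    3225115 3626317 6514878 (-206345) 3225115 3309253 1048578 922090)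
    (((((((((((((((((((root.setHiD (qm 2048)).setHiD (qm 1024)).setHiU (qm 512)).setLoA (qm
    2048)).setHiD (qm 512)).setHiU (qm 256)).setLoA (qm 3072)).setHiD (qm 256)).setLoU (qm
    128)).setLoW (qm 128)).setHiW (qm 192)).setHiW (qm 160)).setHiD (qm 192)).setHiU (qm
    192)).setHiA (qm 3584)).setLoW (qm 144)).setHiD (qm 168)).setLoW (qm 152)).setLoD (qm 160))
    (by decide +kernel))))
    (good_splitD (qm 180)
    (good_of_check
    (R .t5n 2740219 5730383 2421581 5125461 13220716 (-10719) 3129957 11859114 8074476 (-248621)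
    3129957 3618729 6067542 (-178065) 3129957 3300936 1572866 2583137)
    ((((((((((((((((((root.setHiD (qm 2048)).setHiD (qm 1024)).setHiU (qm 512)).setLoA (qm
    2048)).setHiD (qm 512)).setHiU (qm 256)).setLoA (qm 3072)).setHiD (qm 256)).setLoU (qm
    128)).setLoW (qm 128)).setHiW (qm 192)).setHiW (qm 160)).setHiD (qm 192)).setHiU (qm
    192)).setHiA (qm 3584)).setLoW (qm 144)).setLoD (qm 168)).setHiD (qm 180))
    (by decide +kernel))
    (good_of_check
    (R .t5n 2742802 5574644 2421581 5109077 13243583 (-21412) 3124684 11857723 7909579 (-238392)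
    3124684 3614169 5879320 (-167016) 3124684 3295936 1816189 3536291)
    ((((((((((((((((((root.setHiD (qm 2048)).setHiD (qm 1024)).setHiU (qm 512)).setLoA (qm
    2048)).setHiD (qm 512)).setHiU (qm 256)).setLoA (qm 3072)).setHiD (qm 256)).setLoU (qm
    128)).setLoW (qm 128)).setHiW (qm 192)).setHiW (qm 160)).setHiD (qm 192)).setHiU (qm
    192)).setHiA (qm 3584)).setLoW (qm 144)).setLoD (qm 168)).setLoD (qm 180))
    (by decide +kernel)))))
    (good_splitA (qm 3840)
    (good_splitA (qm 3712)
    (good_of_check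
    (T 3187671 39547403 5931643 13591097 1235859 3524484 3143047 1262640 4285246 4565141 1712320
    3632376 3315891 51810424 13251607 11491345 25034411 16108530)
    (((((((((((((((((root.setHiD (qm 2048)).setHiD (qm 1024)).setHiU (qm 512)).setLoA (qm
    2048)).setHiD (qm 512)).setHiU (qm 256)).setLoA (qm 3072)).setHiD (qm 256)).setLoU (qm
    128)).setLoW (qm 128)).setHiW (qm 192)).setHiW (qm 160)).setHiD (qm 192)).setHiU (qm
    192)).setLoA (qm 3584)).setHiA (qm 3840)).setHiA (qm 3712))
    (by decide +kernel))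
    (good_of_check
    (T 3523215 36847474 5136954 13831666 1151486 3337850 2973456 1412605 4357123 4599245 1712320
    3632376 3315891 45403030 12931761 11358375 25078293 16108530)
    (((((((((((((((((root.setHiD (qm 2048)).setHiD (qm 1024)).setHiU (qm 512)).setLoA (qm
    2048)).setHiD (qm 512)).setHiU (qm 256)).setLoA (qm 3072)).setHiD (qm 256)).setLoU (qm
    128)).setLoW (qm 128)).setHiW (qm 192)).setHiW (qm 160)).setHiD (qm 192)).setHiU (qm
    192)).setLoA (qm 3584)).setHiA (qm 3840)).setLoA (qm 3712))
    (by decide +kernel)))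
    (good_of_check
    (T 3523215 34087046 4194305 14068122 1065223 3087795 2750700 1429169 4566182 4768389 1712320
    3632376 3315891 44762244 12059763 10729619 25165824 16108530)
    ((((((((((((((((root.setHiD (qm 2048)).setHiD (qm 1024)).setHiU (qm 512)).setLoA (qm
    2048)).setHiD (qm 512)).setHiU (qm 256)).setLoA (qm 3072)).setHiD (qm 256)).setLoU (qm
    128)).setLoW (qm 128)).setHiW (qm 192)).setHiW (qm 160)).setHiD (qm 192)).setHiU (qm
    192)).setLoA (qm 3584)).setLoA (qm 3840))
    (by decide +kernel))))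
    (good_splitD (qm 160)
    (good_splitD (qm 144)
    (good_splitU (qm 224)
    (good_splitA (qm 3584)
    (good_splitW (qm 136)
    (good_of_check
    (R .t5n 2806688 6304051 2421581 5122731 13164611 (-92205) 3626312 11861432 11062349 (-414895)
    3626312 3917806 2021002 (-53496) 2958394 3049899 1048578 867947)
    (((((((((((((((((((root.setHiD (qm 2048)).setHiD (qm 1024)).setHiU (qm 512)).setLoA (qm
    2048)).setHiD (qm 512)).setHiU (qm 256)).setLoA (qm 3072)).setHiD (qm 256)).setLoU (qm
    128)).setLoW (qm 128)).setHiW (qm 192)).setHiW (qm 160)).setHiD (qm 192)).setLoU (qm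
    192)).setHiD (qm 160)).setHiD (qm 144)).setHiU (qm 224)).setHiA (qm 3584)).setHiW (qm 136))
    (by decide +kernel))
    (good_of_check
    (R .t5n 2810861 6288413 2421581 5117269 13162400 (-97805) 3629343 11862359 11053445 (-417982)
    3629343 3920611 3332796 (-100726) 3053497 3142233 741458 334081)
    (((((((((((((((((((root.setHiD (qm 2048)).setHiD (qm 1024)).setHiU (qm 512)).setLoA (qm
    2048)).setHiD (qm 512)).setHiU (qm 256)).setLoA (qm 3072)).setHiD (qm 256)).setLoU (qm
    128)).setLoW (qm 128)).setHiW (qm 192)).setHiW (qm 160)).setHiD (qm 192)).setLoU (qm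
    192)).setHiD (qm 160)).setHiD (qm 144)).setHiU (qm 224)).setHiA (qm 3584)).setLoW (qm 136))
    (by decide +kernel)))
    (good_splitA (qm 3840)
    (good_splitU (qm 208)
    (good_of_check
    (T 3187671 39082140 5931643 13591097 1119543 3569718 2815819 1275969 4273834 4796925 1639422
    3780697 3145730 50838705 13544154 10294425 25078293 16074366)
    ((((((((((((((((((((root.setHiD (qm 2048)).setHiD (qm 1024)).setHiU (qm 512)).setLoA (qm
    2048)).setHiD (qm 512)).setHiU (qm 256)).setLoA (qm 3072)).setHiD (qm 256)).setLoU (qm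
    128)).setLoW (qm 128)).setHiW (qm 192)).setHiW (qm 160)).setHiD (qm 192)).setLoU (qm
    192)).setHiD (qm 160)).setHiD (qm 144)).setHiU (qm 224)).setLoA (qm 3584)).setHiA (qm
    3840)).setHiU (qm 208))
    (by decide +kernel))
    (good_splitD (qm 136)
    (good_splitA (qm 3712)
    (good_of_check
    (R .t4n 3464290 3698572 2097151 5117269 12994999 (-326569) 3702637 11838641 5115472 (-165506)
    3702637 3848255 0 0 0 0 3057101 8717781)
    ((((((((((((((((((((((root.setHiD (qm 2048)).setHiD (qm 1024)).setHiU (qm 512)).setLoA (qm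
    2048)).setHiD (qm 512)).setHiU (qm 256)).setLoA (qm 3072)).setHiD (qm 256)).setLoU (qm
    128)).setLoW (qm 128)).setHiW (qm 192)).setHiW (qm 160)).setHiD (qm 192)).setLoU (qm
    192)).setHiD (qm 160)).setHiD (qm 144)).setHiU (qm 224)).setLoA (qm 3584)).setHiA (qm
    3840)).setLoU (qm 208)).setHiD (qm 136)).setHiA (qm 3712))
    (by decide +kernel))
    (good_of_check
    (T 3523215 36521390 5136954 13831666 1069965 3598149 2604935 1423181 4175697 4826763 1657947
    3923415 3057101 44657320 14212964 10008917 25078293 16048695)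
    ((((((((((((((((((((((root.setHiD (qm 2048)).setHiD (qm 1024)).setHiU (qm 512)).setLoA (qm
    2048)).setHiD (qm 512)).setHiU (qm 256)).setLoA (qm 3072)).setHiD (qm 256)).setLoU (qm
    128)).setLoW (qm 128)).setHiW (qm 192)).setHiW (qm 160)).setHiD (qm 192)).setLoU (qm
    192)).setHiD (qm 160)).setHiD (qm 144)).setHiU (qm 224)).setLoA (qm 3584)).setHiA (qm
    3840)).setLoU (qm 208)).setHiD (qm 136)).setLoA (qm 3712))
    (by decide +kernel)))
    (good_of_check
    (R .t5n 2867989 5983698 1712316 5106347 13079819 (-155532) 3774871 11861432 10779063 (-423473)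
    3774871 3917806 1723491 (-45641) 2958394 3138732 1048578 802041)
    (((((((((((((((((((((root.setHiD (qm 2048)).setHiD (qm 1024)).setHiU (qm 512)).setLoA (qm
    2048)).setHiD (qm 512)).setHiU (qm 256)).setLoA (qm 3072)).setHiD (qm 256)).setLoU (qm
    128)).setLoW (qm 128)).setHiW (qm 192)).setHiW (qm 160)).setHiD (qm 192)).setLoU (qm
    192)).setHiD (qm 160)).setHiD (qm 144)).setHiU (qm 224)).setLoA (qm 3584)).setHiA (qm
    3840)).setLoU (qm 208)).setLoD (qm 136))
    (by decide +kernel))))
    (good_of_check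
    (T 3523215 33885348 4194305 14068122 1014798 3360503 2522752 1435908 4390628 4902303 1676267
    3923415 3145730 44283884 13241387 9936863 25165824 16057256)
    (((((((((((((((((((root.setHiD (qm 2048)).setHiD (qm 1024)).setHiU (qm 512)).setLoA (qm
    2048)).setHiD (qm 512)).setHiU (qm 256)).setLoA (qm 3072)).setHiD (qm 256)).setLoU (qm
    128)).setLoW (qm 128)).setHiW (qm 192)).setHiW (qm 160)).setHiD (qm 192)).setLoU (qm
    192)).setHiD (qm 160)).setHiD (qm 144)).setHiU (qm 224)).setLoA (qm 3584)).setLoA (qm 3840))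
    (by decide +kernel))))
    (good_of_check
    (R .t4n 3549986 0 0 5079040 12978424 (-427634) 3843783 11837190 6527084 (-253999) 3843783
    4119919 0 0 0 0 3145730 8544560)
    (((((((((((((((((root.setHiD (qm 2048)).setHiD (qm 1024)).setHiU (qm 512)).setLoA (qm
    2048)).setHiD (qm 512)).setHiU (qm 256)).setLoA (qm 3072)).setHiD (qm 256)).setLoU (qm
    128)).setLoW (qm 128)).setHiW (qm 192)).setHiW (qm 160)).setHiD (qm 192)).setLoU (qm
    192)).setHiD (qm 160)).setHiD (qm 144)).setLoU (qm 224))
    (by decide +kernel)))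
    (good_splitD (qm 152)
    (good_splitW (qm 140)
    (good_of_check
    (R .t5n 2839423 0 0 5084501 13118281 (-125689) 3623279 11860505 11529136 (-443788) 3623279
    4186435 1732155 (-41705) 2954676 3091079 1284241 1405711)
    ((((((((((((((((((root.setHiD (qm 2048)).setHiD (qm 1024)).setHiU (qm 512)).setLoA (qm
    2048)).setHiD (qm 512)).setHiU (qm 256)).setLoA (qm 3072)).setHiD (qm 256)).setLoU (qm
    128)).setLoW (qm 128)).setHiW (qm 192)).setHiW (qm 160)).setHiD (qm 192)).setLoU (qm
    192)).setHiD (qm 160)).setLoD (qm 144)).setHiD (qm 152)).setHiW (qm 140))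
    (by decide +kernel))
    (good_of_check
    (R .t5n 2863821 0 0 5084501 13083474 (-150720) 3627828 11861895 11263375 (-441430) 3627828
    4190372 3324641 (-102692) 3096405 3226824 908096 546751)
    ((((((((((((((((((root.setHiD (qm 2048)).setHiD (qm 1024)).setHiU (qm 512)).setLoA (qm
    2048)).setHiD (qm 512)).setHiU (qm 256)).setLoA (qm 3072)).setHiD (qm 256)).setLoU (qm
    128)).setLoW (qm 128)).setHiW (qm 192)).setHiW (qm 160)).setHiD (qm 192)).setLoU (qm
    192)).setHiD (qm 160)).setLoD (qm 144)).setHiD (qm 152)).setLoW (qm 140))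
    (by decide +kernel)))
    (good_of_check
    (R .t5n 2874730 0 0 5073579 13132703 (-180930) 3620243 11859578 10995709 (-425817) 3620243
    4183808 2605487 (-65883) 2950952 3302601 1482913 1917431)
    (((((((((((((((((root.setHiD (qm 2048)).setHiD (qm 1024)).setHiU (qm 512)).setLoA (qm
    2048)).setHiD (qm 512)).setHiU (qm 256)).setLoA (qm 3072)).setHiD (qm 256)).setLoU (qm
    128)).setLoW (qm 128)).setHiW (qm 192)).setHiW (qm 160)).setHiD (qm 192)).setLoU (qm
    192)).setHiD (qm 160)).setLoD (qm 144)).setLoD (qm 152))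
    (by decide +kernel))))
    (good_splitD (qm 176)
    (good_of_check
    (R .t5n 2824346 0 0 5057195 13206654 (-130031) 3614164 11857723 11597284 (-435804) 3614164
    4178548 3198353 (-76126) 2943491 3295936 1816189 3225730)
    ((((((((((((((((root.setHiD (qm 2048)).setHiD (qm 1024)).setHiU (qm 512)).setLoA (qm
    2048)).setHiD (qm 512)).setHiU (qm 256)).setLoA (qm 3072)).setHiD (qm 256)).setLoU (qm
    128)).setLoW (qm 128)).setHiW (qm 192)).setHiW (qm 160)).setHiD (qm 192)).setLoU (qm
    192)).setLoD (qm 160)).setHiD (qm 176))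
    (by decide +kernel))
    (good_of_check
    (R .t5n 2828512 0 0 5035349 13199655 (-133633) 3608074 11855869 11445256 (-425147) 3608074
    4173282 2929756 (-60392) 2936010 3289257 2097154 4322372)
    ((((((((((((((((root.setHiD (qm 2048)).setHiD (qm 1024)).setHiU (qm 512)).setLoA (qm
    2048)).setHiD (qm 512)).setHiU (qm 256)).setLoA (qm 3072)).setHiD (qm 256)).setLoU (qm
    128)).setLoW (qm 128)).setHiW (qm 192)).setHiW (qm 160)).setHiD (qm 192)).setLoU (qm
    192)).setLoD (qm 160)).setLoD (qm 176))
    (by decide +kernel)))))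
    (good_splitU (qm 192)
    (good_splitD (qm 224)
    (good_splitW (qm 144)
    (good_splitU (qm 160)
    (good_splitA (qm 3584)
    (good_splitA (qm 3328)
    (good_splitU (qm 144)
    (good_of_check
    (T 3187671 50828020 8388609 12582911 1522196 3728276 3728276 1202234 3970080 3970080 1676267
    3145730 3145730 54607461 13842817 13842817 24902303 16057256)
    ((((((((((((((((((((root.setHiD (qm 2048)).setHiD (qm 1024)).setHiU (qm 512)).setLoA (qm
    2048)).setHiD (qm 512)).setHiU (qm 256)).setLoA (qm 3072)).setHiD (qm 256)).setLoU (qm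
    128)).setLoW (qm 128)).setHiW (qm 192)).setHiW (qm 160)).setLoD (qm 192)).setHiU (qm
    192)).setHiD (qm 224)).setHiW (qm 144)).setHiU (qm 160)).setHiA (qm 3584)).setHiA (qm
    3328)).setHiU (qm 144))
    (by decide +kernel))
    (good_splitA (qm 3200)
    (good_of_check
    (R .t5n 2665390 6443455 3203451 5100885 13341181 65688 3103499 11852159 6745197 (-168262)
    3103499 3275859 4055506 (-73702) 2920992 3103504 2568479 7330288)
    (((((((((((((((((((((root.setHiD (qm 2048)).setHiD (qm 1024)).setHiU (qm 512)).setLoA (qm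
    2048)).setHiD (qm 512)).setHiU (qm 256)).setLoA (qm 3072)).setHiD (qm 256)).setLoU (qm
    128)).setLoW (qm 128)).setHiW (qm 192)).setHiW (qm 160)).setLoD (qm 192)).setHiU (qm
    192)).setHiD (qm 224)).setHiW (qm 144)).setHiU (qm 160)).setHiA (qm 3584)).setHiA (qm
    3328)).setLoU (qm 144)).setHiA (qm 3200))
    (by decide +kernel))
    (good_of_check
    (T 3187671 48028610 7846826 12842379 1500897 3817094 3585475 1212313 3921041 4117354 1712320
    3315891 3145730 54233612 14466758 13097753 24902303 16022982)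
    (((((((((((((((((((((root.setHiD (qm 2048)).setHiD (qm 1024)).setHiU (qm 512)).setLoA (qm
    2048)).setHiD (qm 512)).setHiU (qm 256)).setLoA (qm 3072)).setHiD (qm 256)).setLoU (qm
    128)).setLoW (qm 128)).setHiW (qm 192)).setHiW (qm 160)).setLoD (qm 192)).setHiU (qm
    192)).setHiD (qm 224)).setHiW (qm 144)).setHiU (qm 160)).setHiA (qm 3584)).setHiA (qm
    3328)).setLoU (qm 144)).setLoA (qm 3200))
    (by decide +kernel))))
    (good_of_check
    (T 3187671 45089695 7264749 13096709 1409055 3583522 3366076 1229882 4159504 4326643 1712320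
    3315891 3145730 53370603 13253016 12131432 24990453 16040128)
    (((((((((((((((((((root.setHiD (qm 2048)).setHiD (qm 1024)).setHiU (qm 512)).setLoA (qm
    2048)).setHiD (qm 512)).setHiU (qm 256)).setLoA (qm 3072)).setHiD (qm 256)).setLoU (qm
    128)).setLoW (qm 128)).setHiW (qm 192)).setHiW (qm 160)).setLoD (qm 192)).setHiU (qm
    192)).setHiD (qm 224)).setHiW (qm 144)).setHiU (qm 160)).setHiA (qm 3584)).setLoA (qm 3328))
    (by decide +kernel)))
    (good_of_check
    (T 3523215 39547403 5931643 13591097 1235859 3191330 2995783 1395550 4420485 4545510 1712320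
    3315891 3145730 46075818 12080102 11223875 25165824 16040128)
    ((((((((((((((((((root.setHiD (qm 2048)).setHiD (qm 1024)).setHiU (qm 512)).setLoA (qm
    2048)).setHiD (qm 512)).setHiU (qm 256)).setLoA (qm 3072)).setHiD (qm 256)).setLoU (qm
    128)).setLoW (qm 128)).setHiW (qm 192)).setHiW (qm 160)).setLoD (qm 192)).setHiU (qm
    192)).setHiD (qm 224)).setHiW (qm 144)).setHiU (qm 160)).setLoA (qm 3584))
    (by decide +kernel)))
    (good_splitD (qm 208)
    (good_splitD (qm 200)
    (good_of_check
    (R .t5n 2771363 0 0 5084501 13242099 (-62754) 3285907 11854941 8217642 (-254997) 3285907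
    3605031 2486240 (-41244) 2932263 3114114 2224368 5136626)
    (((((((((((((((((((root.setHiD (qm 2048)).setHiD (qm 1024)).setHiU (qm 512)).setLoA (qm
    2048)).setHiD (qm 512)).setHiU (qm 256)).setLoA (qm 3072)).setHiD (qm 256)).setLoU (qm
    128)).setLoW (qm 128)).setHiW (qm 192)).setHiW (qm 160)).setLoD (qm 192)).setHiU (qm
    192)).setHiD (qm 224)).setHiW (qm 144)).setLoU (qm 160)).setHiD (qm 208)).setHiD (qm 200))
    (by decide +kernel))
    (good_of_check
    (R .t5n 2778107 0 0 5073579 13232106 (-69483) 3282560 11854014 8028455 (-245864) 3282560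
    3601979 2263181 (-30814) 2928511 3110582 2344690 5617215)
    (((((((((((((((((((root.setHiD (qm 2048)).setHiD (qm 1024)).setHiU (qm 512)).setLoA (qm
    2048)).setHiD (qm 512)).setHiU (qm 256)).setLoA (qm 3072)).setHiD (qm 256)).setLoU (qm
    128)).setLoW (qm 128)).setHiW (qm 192)).setHiW (qm 160)).setLoD (qm 192)).setHiU (qm
    192)).setHiD (qm 224)).setHiW (qm 144)).setLoU (qm 160)).setHiD (qm 208)).setLoD (qm 200))
    (by decide +kernel)))
    (good_splitD (qm 216)
    (good_of_check
    (R .t5n 2782292 0 0 5062656 13225766 (-73545) 3279208 11853086 7882171 (-237938) 3279208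
    3598926 2083523 (-21620) 2924754 3107045 2459131 6083024)
    (((((((((((((((((((root.setHiD (qm 2048)).setHiD (qm 1024)).setHiU (qm 512)).setLoA (qm
    2048)).setHiD (qm 512)).setHiU (qm 256)).setLoA (qm 3072)).setHiD (qm 256)).setLoU (qm
    128)).setLoW (qm 128)).setHiW (qm 192)).setHiW (qm 160)).setLoD (qm 192)).setHiU (qm
    192)).setHiD (qm 224)).setHiW (qm 144)).setLoU (qm 160)).setLoD (qm 208)).setHiD (qm 216))
    (by decide +kernel))
    (good_of_check
    (R .t5n 2789034 0 0 5051733 13215722 (-80229) 3275854 11852159 7692281 (-228687) 3275854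
    3595869 1863146 (-11195) 2920992 3103504 2568479 6505974)
    (((((((((((((((((((root.setHiD (qm 2048)).setHiD (qm 1024)).setHiU (qm 512)).setLoA (qm
    2048)).setHiD (qm 512)).setHiU (qm 256)).setLoA (qm 3072)).setHiD (qm 256)).setLoU (qm
    128)).setLoW (qm 128)).setHiW (qm 192)).setHiW (qm 160)).setLoD (qm 192)).setHiU (qm
    192)).setHiD (qm 224)).setHiW (qm 144)).setLoU (qm 160)).setLoD (qm 208)).setLoD (qm 216))
    (by decide +kernel)))))
    (good_splitD (qm 208)
    (good_splitD (qm 200)
    (good_of_check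
    (R .t5n 2786458 0 0 5095424 13200339 (-72596) 3121163 11856796 7075555 (-210589) 3121163
    3611125 5002971 (-137725) 3121163 3292598 1961709 3954348)
    ((((((((((((((((((root.setHiD (qm 2048)).setHiD (qm 1024)).setHiU (qm 512)).setLoA (qm
    2048)).setHiD (qm 512)).setHiU (qm 256)).setLoA (qm 3072)).setHiD (qm 256)).setLoU (qm
    128)).setLoW (qm 128)).setHiW (qm 192)).setHiW (qm 160)).setLoD (qm 192)).setHiU (qm
    192)).setHiD (qm 224)).setLoW (qm 144)).setHiD (qm 208)).setHiD (qm 200))
    (by decide +kernel))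
    (good_of_check
    (R .t5n 2789034 0 0 5084501 13196379 (-75011) 3117638 11855869 6950108 (-203174) 3117638
    3608079 4862324 (-129776) 3117638 3289257 2097154 4506229)
    ((((((((((((((((((root.setHiD (qm 2048)).setHiD (qm 1024)).setHiU (qm 512)).setLoA (qm
    2048)).setHiD (qm 512)).setHiU (qm 256)).setLoA (qm 3072)).setHiD (qm 256)).setLoU (qm
    128)).setLoW (qm 128)).setHiW (qm 192)).setHiW (qm 160)).setLoD (qm 192)).setHiU (qm
    192)).setHiD (qm 224)).setLoW (qm 144)).setHiD (qm 208)).setLoD (qm 200))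
    (by decide +kernel)))
    (good_of_check
    (R .t5n 2771363 0 0 5068117 13221079 (-56204) 3110577 11854014 7089507 (-199823) 3110577
    3601979 4983134 (-125771) 3110577 3282565 2344690 5655443)
    (((((((((((((((((root.setHiD (qm 2048)).setHiD (qm 1024)).setHiU (qm 512)).setLoA (qm
    2048)).setHiD (qm 512)).setHiU (qm 256)).setLoA (qm 3072)).setHiD (qm 256)).setLoU (qm
    128)).setLoW (qm 128)).setHiW (qm 192)).setHiW (qm 160)).setLoD (qm 192)).setHiU (qm
    192)).setHiD (qm 224)).setLoW (qm 144)).setLoD (qm 208))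
    (by decide +kernel))))
    (good_splitW (qm 144)
    (good_splitU (qm 160)
    (good_splitA (qm 3584)
    (good_splitA (qm 3328)
    (good_splitD (qm 240)
    (good_splitU (qm 144)
    (good_splitW (qm 136)
    (good_splitA (qm 3200)
    (good_of_check
    (T 3187671 51130568 8388609 12582911 1597833 3817044 3693755 1193777 3881272 3987395 1712320
    3145730 3057101 55164715 14320652 13549674 24858111 16005818)
    (((((((((((((((((((((((root.setHiD (qm 2048)).setHiD (qm 1024)).setHiU (qm 512)).setLoA (qm
    2048)).setHiD (qm 512)).setHiU (qm 256)).setLoA (qm 3072)).setHiD (qm 256)).setLoU (qm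
    128)).setLoW (qm 128)).setHiW (qm 192)).setHiW (qm 160)).setLoD (qm 192)).setHiU (qm
    192)).setLoD (qm 224)).setHiW (qm 144)).setHiU (qm 160)).setHiA (qm 3584)).setHiA (qm
    3328)).setHiD (qm 240)).setHiU (qm 144)).setHiW (qm 136)).setHiA (qm 3200))
    (by decide +kernel))
    (good_of_check
    (T 3187671 48028610 7846826 12842379 1500897 3585475 3469665 1212313 4117354 4207683 1712320
    3145730 3057101 54233612 13097753 12469520 24902303 16005818)
    (((((((((((((((((((((((root.setHiD (qm 2048)).setHiD (qm 1024)).setHiU (qm 512)).setLoA (qm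
    2048)).setHiD (qm 512)).setHiU (qm 256)).setLoA (qm 3072)).setHiD (qm 256)).setLoU (qm
    128)).setLoW (qm 128)).setHiW (qm 192)).setHiW (qm 160)).setLoD (qm 192)).setHiU (qm
    192)).setLoD (qm 224)).setHiW (qm 144)).setHiU (qm 160)).setHiA (qm 3584)).setHiA (qm
    3328)).setHiD (qm 240)).setHiU (qm 144)).setHiW (qm 136)).setLoA (qm 3200))
    (by decide +kernel)))
    (good_of_check
    (R .t5n 2685667 5858754 2965819 5084501 13307978 45578 3009977 11851231 4289262 (-81633)
    3009977 3099959 4289262 (-81633) 3009977 3099959 2673357 7655717)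
    ((((((((((((((((((((((root.setHiD (qm 2048)).setHiD (qm 1024)).setHiU (qm 512)).setLoA (qm
    2048)).setHiD (qm 512)).setHiU (qm 256)).setLoA (qm 3072)).setHiD (qm 256)).setLoU (qm
    128)).setLoW (qm 128)).setHiW (qm 192)).setHiW (qm 160)).setLoD (qm 192)).setHiU (qm
    192)).setLoD (qm 224)).setHiW (qm 144)).setHiU (qm 160)).setHiA (qm 3584)).setHiA (qm
    3328)).setHiD (qm 240)).setHiU (qm 144)).setLoW (qm 136))
    (by decide +kernel)))
    (good_of_check
    (R .t5n 2696576 5944845 2965819 5068117 13317760 26286 3096405 11850303 5961336 (-138670)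
    3096405 3269139 3238440 (-42943) 2913454 3096410 2774274 8017803)
    (((((((((((((((((((((root.setHiD (qm 2048)).setHiD (qm 1024)).setHiU (qm 512)).setLoA (qm
    2048)).setHiD (qm 512)).setHiU (qm 256)).setLoA (qm 3072)).setHiD (qm 256)).setLoU (qm
    128)).setLoW (qm 128)).setHiW (qm 192)).setHiW (qm 160)).setLoD (qm 192)).setHiU (qm
    192)).setLoD (qm 224)).setHiW (qm 144)).setHiU (qm 160)).setHiA (qm 3584)).setHiA (qm
    3328)).setHiD (qm 240)).setLoU (qm 144))
    (by decide +kernel)))
    (good_splitW (qm 136)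
    (good_splitU (qm 144)
    (good_splitA (qm 3200)
    (good_splitA (qm 3136)
    (good_splitA (qm 3104)
    (good_of_check
    (T 3187671 51436739 8388609 12582911 1674376 3906876 3782848 1185018 3788487 3899689 1747629
    3145730 3057101 55712023 14844520 14015953 24824915 15971434)
    (((((((((((((((((((((((((root.setHiD (qm 2048)).setHiD (qm 1024)).setHiU (qm 512)).setLoA (qm
    2048)).setHiD (qm 512)).setHiU (qm 256)).setLoA (qm 3072)).setHiD (qm 256)).setLoU (qm
    128)).setLoW (qm 128)).setHiW (qm 192)).setHiW (qm 160)).setLoD (qm 192)).setHiU (qm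
    192)).setLoD (qm 224)).setHiW (qm 144)).setHiU (qm 160)).setHiA (qm 3584)).setHiA (qm
    3328)).setLoD (qm 240)).setHiW (qm 136)).setHiU (qm 144)).setHiA (qm 3200)).setHiA (qm
    3136)).setHiA (qm 3104))
    (by decide +kernel))
    (good_of_check
    (T 3187671 50639221 8256497 12648277 1648415 3846300 3724196 1189891 3853619 3960216 1747629
    3145730 3057101 55465109 14474082 13691842 24835985 15971434)
    (((((((((((((((((((((((((root.setHiD (qm 2048)).setHiD (qm 1024)).setHiU (qm 512)).setLoA (qm
    2048)).setHiD (qm 512)).setHiU (qm 256)).setLoA (qm 3072)).setHiD (qm 256)).setLoU (qm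
    128)).setLoW (qm 128)).setHiW (qm 192)).setHiW (qm 160)).setLoD (qm 192)).setHiU (qm
    192)).setLoD (qm 224)).setHiW (qm 144)).setHiU (qm 160)).setHiA (qm 3584)).setHiA (qm
    3328)).setLoD (qm 240)).setHiW (qm 136)).setHiU (qm 144)).setHiA (qm 3200)).setHiA (qm
    3136)).setLoA (qm 3104))
    (by decide +kernel)))
    (good_of_check
    (T 3187671 49853677 8122236 12713307 1622844 3786635 3666424 1194692 3916530 4018787 1747629
    3145730 3057101 55223290 14128261 13388002 24858111 15971434)
    ((((((((((((((((((((((((root.setHiD (qm 2048)).setHiD (qm 1024)).setHiU (qm 512)).setLoA (qm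
    2048)).setHiD (qm 512)).setHiU (qm 256)).setLoA (qm 3072)).setHiD (qm 256)).setLoU (qm
    128)).setLoW (qm 128)).setHiW (qm 192)).setHiW (qm 160)).setLoD (qm 192)).setHiU (qm
    192)).setLoD (qm 224)).setHiW (qm 144)).setHiU (qm 160)).setHiA (qm 3584)).setHiA (qm
    3328)).setLoD (qm 240)).setHiW (qm 136)).setHiU (qm 144)).setHiA (qm 3200)).setLoA (qm 3136))
    (by decide +kernel)))
    (good_of_check
    (T 3187671 48316207 7846826 12842379 1572796 3669856 3553353 1204089 4036284 4130556 1747629
    3145730 3057101 54754092 13500821 12833626 24902303 15971434)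
    (((((((((((((((((((((((root.setHiD (qm 2048)).setHiD (qm 1024)).setHiU (qm 512)).setLoA (qm
    2048)).setHiD (qm 512)).setHiU (qm 256)).setLoA (qm 3072)).setHiD (qm 256)).setLoU (qm
    128)).setLoW (qm 128)).setHiW (qm 192)).setHiW (qm 160)).setLoD (qm 192)).setHiU (qm
    192)).setLoD (qm 224)).setHiW (qm 144)).setHiU (qm 160)).setHiA (qm 3584)).setHiA (qm
    3328)).setLoD (qm 240)).setHiW (qm 136)).setHiU (qm 144)).setLoA (qm 3200))
    (by decide +kernel)))
    (good_splitD (qm 248)
    (good_of_check
    (R .t5n 2711656 5710560 2965819 5051733 13302846 8489 3092852 11849375 5581594 (-123978)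
    3092852 3265774 2115174 (-4972) 2909678 3002667 2871646 8320994)
    (((((((((((((((((((((((root.setHiD (qm 2048)).setHiD (qm 1024)).setHiU (qm 512)).setLoA (qm
    2048)).setHiD (qm 512)).setHiU (qm 256)).setLoA (qm 3072)).setHiD (qm 256)).setLoU (qm
    128)).setLoW (qm 128)).setHiW (qm 192)).setHiW (qm 160)).setLoD (qm 192)).setHiU (qm
    192)).setLoD (qm 224)).setHiW (qm 144)).setHiU (qm 160)).setHiA (qm 3584)).setHiA (qm
    3328)).setLoD (qm 240)).setHiW (qm 136)).setLoU (qm 144)).setHiD (qm 248))
    (by decide +kernel))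
    (good_splitD (qm 252)
    (good_of_check
    (R .t5n 2720975 5571249 2965819 5043541 13291666 (-1891) 3091074 11848911 5359584 (-115647)
    3091074 3264090 1892261 3399 2907788 3000836 2919115 8449256)
    ((((((((((((((((((((((((root.setHiD (qm 2048)).setHiD (qm 1024)).setHiU (qm 512)).setLoA (qm
    2048)).setHiD (qm 512)).setHiU (qm 256)).setLoA (qm 3072)).setHiD (qm 256)).setLoU (qm
    128)).setLoW (qm 128)).setHiW (qm 192)).setHiW (qm 160)).setLoD (qm 192)).setHiU (qm
    192)).setLoD (qm 224)).setHiW (qm 144)).setHiU (qm 160)).setHiA (qm 3584)).setHiA (qm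
    3328)).setLoD (qm 240)).setHiW (qm 136)).setLoU (qm 144)).setLoD (qm 248)).setHiD (qm 252))
    (by decide +kernel))
    (good_splitU (qm 152)
    (good_splitA (qm 3200)
    (good_of_check
    (R .u5 2425924 6254233 3203451 5043541 13208809 23789 3145726 11863286 7831358 (-227903)
    3145726 3231931 5760987 (-157219) 2965818 3057101 2965823 7337820)
    ((((((((((((((((((((((((((root.setHiD (qm 2048)).setHiD (qm 1024)).setHiU (qm 512)).setLoA (qm
    2048)).setHiD (qm 512)).setHiU (qm 256)).setLoA (qm 3072)).setHiD (qm 256)).setLoU (qm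
    128)).setLoW (qm 128)).setHiW (qm 192)).setHiW (qm 160)).setLoD (qm 192)).setHiU (qm
    192)).setLoD (qm 224)).setHiW (qm 144)).setHiU (qm 160)).setHiA (qm 3584)).setHiA (qm
    3328)).setLoD (qm 240)).setHiW (qm 136)).setLoU (qm 144)).setLoD (qm 248)).setLoD (qm
    252)).setHiU (qm 152)).setHiA (qm 3200))
    (by decide +kernel))
    (good_of_check
    (T 3187671 48461300 7846826 12842379 1609069 3829280 3595573 1199873 3892595 4090855 1765019
    3231931 3057101 55010768 14446982 13026829 24902303 15932663)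
    ((((((((((((((((((((((((((root.setHiD (qm 2048)).setHiD (qm 1024)).setHiU (qm 512)).setLoA (qm
    2048)).setHiD (qm 512)).setHiU (qm 256)).setLoA (qm 3072)).setHiD (qm 256)).setLoU (qm
    128)).setLoW (qm 128)).setHiW (qm 192)).setHiW (qm 160)).setLoD (qm 192)).setHiU (qm
    192)).setLoD (qm 224)).setHiW (qm 144)).setHiU (qm 160)).setHiA (qm 3584)).setHiA (qm
    3328)).setLoD (qm 240)).setHiW (qm 136)).setLoU (qm 144)).setLoD (qm 248)).setLoD (qm
    252)).setHiU (qm 152)).setLoA (qm 3200))
    (by decide +kernel)))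
    (good_of_check
    (R .u5 2443584 6216676 2965819 5032619 13196353 (-1395) 3231926 11863286 8432477 (-254155)
    3231926 3315891 5454280 (-149764) 2965818 3057101 2965823 7199531)
    (((((((((((((((((((((((((root.setHiD (qm 2048)).setHiD (qm 1024)).setHiU (qm 512)).setLoA (qm
    2048)).setHiD (qm 512)).setHiU (qm 256)).setLoA (qm 3072)).setHiD (qm 256)).setLoU (qm
    128)).setLoW (qm 128)).setHiW (qm 192)).setHiW (qm 160)).setLoD (qm 192)).setHiU (qm
    192)).setLoD (qm 224)).setHiW (qm 144)).setHiU (qm 160)).setHiA (qm 3584)).setHiA (qm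
    3328)).setLoD (qm 240)).setHiW (qm 136)).setLoU (qm 144)).setLoD (qm 248)).setLoD (qm
    252)).setLoU (qm 152))
    (by decide +kernel))))))
    (good_splitD (qm 248)
    (good_of_check
    (R .t5n 2703319 5520637 2965819 5057195 13312748 17718 3006322 11850303 5172199 (-109195)
    3006322 3269139 3846055 (-65163) 3006322 3096410 2774274 7967896)
    ((((((((((((((((((((((root.setHiD (qm 2048)).setHiD (qm 1024)).setHiU (qm 512)).setLoA (qm
    2048)).setHiD (qm 512)).setHiU (qm 256)).setLoA (qm 3072)).setHiD (qm 256)).setLoU (qm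
    128)).setLoW (qm 128)).setHiW (qm 192)).setHiW (qm 160)).setLoD (qm 192)).setHiU (qm
    192)).setLoD (qm 224)).setHiW (qm 144)).setHiU (qm 160)).setHiA (qm 3584)).setHiA (qm
    3328)).setLoD (qm 240)).setLoW (qm 136)).setHiD (qm 248))
    (by decide +kernel))
    (good_splitD (qm 252)
    (good_of_check
    (R .t5n 2711656 5388862 2965819 5049003 13303693 8123 3004493 11849839 4965797 (-101349)
    3004493 3267457 3635566 (-57181) 3004493 3094634 2823380 8116600)
    (((((((((((((((((((((((root.setHiD (qm 2048)).setHiD (qm 1024)).setHiU (qm 512)).setLoA (qm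
    2048)).setHiD (qm 512)).setHiU (qm 256)).setLoA (qm 3072)).setHiD (qm 256)).setLoU (qm
    128)).setLoW (qm 128)).setHiW (qm 192)).setHiW (qm 160)).setLoD (qm 192)).setHiU (qm
    192)).setLoD (qm 224)).setHiW (qm 144)).setHiU (qm 160)).setHiA (qm 3584)).setHiA (qm
    3328)).setLoD (qm 240)).setLoW (qm 136)).setLoD (qm 248)).setHiD (qm 252))
    (by decide +kernel))
    (good_of_check
    (R .t5n 2714232 5334842 2965819 5043541 13302009 4887 3002662 11849375 4866598 (-96544)
    3002662 3265774 3532181 (-52237) 3002662 3092857 2871646 8301619)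
    (((((((((((((((((((((((root.setHiD (qm 2048)).setHiD (qm 1024)).setHiU (qm 512)).setLoA (qm
    2048)).setHiD (qm 512)).setHiU (qm 256)).setLoA (qm 3072)).setHiD (qm 256)).setLoU (qm
    128)).setLoW (qm 128)).setHiW (qm 192)).setHiW (qm 160)).setLoD (qm 192)).setHiU (qm
    192)).setLoD (qm 224)).setHiW (qm 144)).setHiU (qm 160)).setHiA (qm 3584)).setHiA (qm
    3328)).setLoD (qm 240)).setLoW (qm 136)).setLoD (qm 248)).setLoD (qm 252))
    (by decide +kernel))))))
    (good_splitA (qm 3456)
    (good_splitA (qm 3392)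
    (good_of_check
    (T 3187671 45632944 7264749 13096709 1544868 3745533 3525467 1214138 3999287 4180701 1782239
    3315891 3145730 54354875 14052217 12794320 24924369 15971434)
    (((((((((((((((((((((root.setHiD (qm 2048)).setHiD (qm 1024)).setHiU (qm 512)).setLoA (qm
    2048)).setHiD (qm 512)).setHiU (qm 256)).setLoA (qm 3072)).setHiD (qm 256)).setLoU (qm
    128)).setLoW (qm 128)).setHiW (qm 192)).setHiW (qm 160)).setLoD (qm 192)).setHiU (qm
    192)).setLoD (qm 224)).setHiW (qm 144)).setHiU (qm 160)).setHiA (qm 3584)).setLoA (qm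
    3328)).setHiA (qm 3456)).setHiA (qm 3392))
    (by decide +kernel))
    (good_of_check
    (T 3187671 44195990 6955468 13222039 1496221 3627589 3414452 1223054 4118443 4285659 1782239
    3315891 3145730 53924463 13451741 12312670 24946417 15971434)
    (((((((((((((((((((((root.setHiD (qm 2048)).setHiD (qm 1024)).setHiU (qm 512)).setLoA (qm
    2048)).setHiD (qm 512)).setHiU (qm 256)).setLoA (qm 3072)).setHiD (qm 256)).setLoU (qm
    128)).setLoW (qm 128)).setHiW (qm 192)).setHiW (qm 160)).setLoD (qm 192)).setHiU (qm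
    192)).setLoD (qm 224)).setHiW (qm 144)).setHiU (qm 160)).setHiA (qm 3584)).setLoA (qm
    3328)).setHiA (qm 3456)).setLoA (qm 3392))
    (by decide +kernel)))
    (good_of_check
    (T 3187671 42785919 6631778 13346192 1448484 3511851 3305514 1231753 4231048 4385339 1782239
    3315891 3145730 53508961 12916331 11878279 24990453 15971434)
    ((((((((((((((((((((root.setHiD (qm 2048)).setHiD (qm 1024)).setHiU (qm 512)).setLoA (qm
    2048)).setHiD (qm 512)).setHiU (qm 256)).setLoA (qm 3072)).setHiD (qm 256)).setLoU (qm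
    128)).setLoW (qm 128)).setHiW (qm 192)).setHiW (qm 160)).setLoD (qm 192)).setHiU (qm
    192)).setLoD (qm 224)).setHiW (qm 144)).setHiU (qm 160)).setHiA (qm 3584)).setLoA (qm
    3328)).setLoA (qm 3456))
    (by decide +kernel))))
    (good_splitA (qm 3840)
    (good_of_check
    (T 3523215 40023878 5931643 13591097 1354978 3334009 3136106 1380004 4296012 4430345 1782239
    3315891 3145730 47047962 12620772 11689131 25078293 15971434)
    (((((((((((((((((((root.setHiD (qm 2048)).setHiD (qm 1024)).setHiU (qm 512)).setLoA (qm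
    2048)).setHiD (qm 512)).setHiU (qm 256)).setLoA (qm 3072)).setHiD (qm 256)).setLoU (qm
    128)).setLoW (qm 128)).setHiW (qm 192)).setHiW (qm 160)).setLoD (qm 192)).setHiU (qm
    192)).setLoD (qm 224)).setHiW (qm 144)).setHiU (qm 160)).setLoA (qm 3584)).setHiA (qm 3840))
    (by decide +kernel))
    (good_of_check
    (T 3858760 34497733 4194305 14068122 1167895 2917985 2742977 1550007 4526587 4624054 1782239
    3315891 3145730 40870805 11644290 10921295 25165824 15971434)
    (((((((((((((((((((root.setHiD (qm 2048)).setHiD (qm 1024)).setHiU (qm 512)).setLoA (qm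
    2048)).setHiD (qm 512)).setHiU (qm 256)).setLoA (qm 3072)).setHiD (qm 256)).setLoU (qm
    128)).setLoW (qm 128)).setHiW (qm 192)).setHiW (qm 160)).setLoD (qm 192)).setHiU (qm
    192)).setLoD (qm 224)).setHiW (qm 144)).setHiU (qm 160)).setLoA (qm 3584)).setLoA (qm 3840))
    (by decide +kernel))))
    (good_splitD (qm 240)
    (good_splitD (qm 232)
    (good_splitD (qm 228)
    (good_of_check
    (R .t5n 2795777 0 0 5043541 13277210 (-108492) 3274175 11851695 7540323 (-222339) 3274175
    3594340 1699915 (-4393) 2919110 3101732 2621442 6686037)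
    ((((((((((((((((((((root.setHiD (qm 2048)).setHiD (qm 1024)).setHiU (qm 512)).setLoA (qm
    2048)).setHiD (qm 512)).setHiU (qm 256)).setLoA (qm 3072)).setHiD (qm 256)).setLoU (qm
    128)).setLoW (qm 128)).setHiW (qm 192)).setHiW (qm 160)).setLoD (qm 192)).setHiU (qm
    192)).setLoD (qm 224)).setHiW (qm 144)).setLoU (qm 160)).setHiD (qm 240)).setHiD (qm
    232)).setHiD (qm 228))
    (by decide +kernel))
    (good_of_check
    (R .t5n 2799944 0 0 5038080 13270859 (-112581) 3272496 11851231 7431811 (-217265) 3272496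
    3592810 1578855 1173 2917226 3099959 2673357 6875511)
    ((((((((((((((((((((root.setHiD (qm 2048)).setHiD (qm 1024)).setHiU (qm 512)).setLoA (qm
    2048)).setHiD (qm 512)).setHiU (qm 256)).setLoA (qm 3072)).setHiD (qm 256)).setLoU (qm
    128)).setLoW (qm 128)).setHiW (qm 192)).setHiW (qm 160)).setLoD (qm 192)).setHiU (qm
    192)).setLoD (qm 224)).setHiW (qm 144)).setLoU (qm 160)).setHiD (qm 240)).setHiD (qm
    232)).setLoD (qm 228))
    (by decide +kernel)))
    (good_splitD (qm 236)
    (good_of_check
    (R .t5n 2804110 0 0 5032619 13264499 (-116660) 3270815 11850767 7323266 (-212173) 3270815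
    3591280 1458584 6727 2915341 3098185 2724283 7058644)
    ((((((((((((((((((((root.setHiD (qm 2048)).setHiD (qm 1024)).setHiU (qm 512)).setLoA (qm
    2048)).setHiD (qm 512)).setHiU (qm 256)).setLoA (qm 3072)).setHiD (qm 256)).setLoU (qm
    128)).setLoW (qm 128)).setHiW (qm 192)).setHiW (qm 160)).setLoD (qm 192)).setHiU (qm
    192)).setLoD (qm 224)).setHiW (qm 144)).setLoU (qm 160)).setHiD (qm 240)).setLoD (qm
    232)).setHiD (qm 236))
    (by decide +kernel))
    (good_splitD (qm 238)
    (good_of_check
    (R .t5n 2806688 0 0 5028523 13260579 (-119196) 3269975 11850535 7260667 (-209368) 3269975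
    3590514 1391119 9728 2914397 3097298 2749392 7144660)
    (((((((((((((((((((((root.setHiD (qm 2048)).setHiD (qm 1024)).setHiU (qm 512)).setLoA (qm
    2048)).setHiD (qm 512)).setHiU (qm 256)).setLoA (qm 3072)).setHiD (qm 256)).setLoU (qm
    128)).setLoW (qm 128)).setHiW (qm 192)).setHiW (qm 160)).setLoD (qm 192)).setHiU (qm
    192)).setLoD (qm 224)).setHiW (qm 144)).setLoU (qm 160)).setHiD (qm 240)).setLoD (qm
    232)).setLoD (qm 236)).setHiD (qm 238))
    (by decide +kernel))
    (good_of_check
    (R .t5n 2806688 0 0 5025792 13260489 (-119126) 3269134 11850303 7241389 (-207872) 3269134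
    3589748 1363567 11536 2913454 3096410 2774274 7246141)
    (((((((((((((((((((((root.setHiD (qm 2048)).setHiD (qm 1024)).setHiU (qm 512)).setLoA (qm
    2048)).setHiD (qm 512)).setHiU (qm 256)).setLoA (qm 3072)).setHiD (qm 256)).setLoU (qm
    128)).setLoW (qm 128)).setHiW (qm 192)).setHiW (qm 160)).setLoD (qm 192)).setHiU (qm
    192)).setLoD (qm 224)).setHiW (qm 144)).setLoU (qm 160)).setHiD (qm 240)).setLoD (qm
    232)).setLoD (qm 236)).setLoD (qm 238))
    (by decide +kernel)))))
    (good_splitW (qm 136)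
    (good_splitU (qm 176)
    (good_splitD (qm 248)
    (good_splitD (qm 244)
    (good_splitD (qm 242)
    (good_splitD (qm 241)
    (good_of_check
    (R .t5n 2810854 0 0 5034667 13254245 (-123294) 3268713 11850187 6198282 (-167363) 3268713
    3432788 623031 35072 2912982 3005870 2786631 7268824)
    ((((((((((((((((((((((((root.setHiD (qm 2048)).setHiD (qm 1024)).setHiU (qm 512)).setLoA (qm
    2048)).setHiD (qm 512)).setHiU (qm 256)).setLoA (qm 3072)).setHiD (qm 256)).setLoU (qm
    128)).setLoW (qm 128)).setHiW (qm 192)).setHiW (qm 160)).setLoD (qm 192)).setHiU (qm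
    192)).setLoD (qm 224)).setHiW (qm 144)).setLoU (qm 160)).setLoD (qm 240)).setHiW (qm
    136)).setHiU (qm 176)).setHiD (qm 248)).setHiD (qm 244)).setHiD (qm 242)).setHiD (qm 241))
    (by decide +kernel))
    (good_of_check
    (R .t5n 2810855 0 0 5033301 13254198 (-123260) 3268293 11850071 6187802 (-166581) 3268293
    3432388 609056 35983 2912511 3005412 2798935 7318654)
    ((((((((((((((((((((((((root.setHiD (qm 2048)).setHiD (qm 1024)).setHiU (qm 512)).setLoA (qm
    2048)).setHiD (qm 512)).setHiU (qm 256)).setLoA (qm 3072)).setHiD (qm 256)).setLoU (qm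
    128)).setLoW (qm 128)).setHiW (qm 192)).setHiW (qm 160)).setLoD (qm 192)).setHiU (qm
    192)).setLoD (qm 224)).setHiW (qm 144)).setLoU (qm 160)).setLoD (qm 240)).setHiW (qm
    136)).setHiU (qm 176)).setHiD (qm 248)).setHiD (qm 244)).setHiD (qm 242)).setLoD (qm 241))
    (by decide +kernel)))
    (good_splitD (qm 243)
    (good_of_check
    (R .t5n 2810855 0 0 5031936 13254153 (-123225) 3267872 11849955 6177330 (-165799) 3267872
    3431987 595089 36894 2912039 3004955 2811184 7368174)
    ((((((((((((((((((((((((root.setHiD (qm 2048)).setHiD (qm 1024)).setHiU (qm 512)).setLoA (qm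
    2048)).setHiD (qm 512)).setHiU (qm 256)).setLoA (qm 3072)).setHiD (qm 256)).setLoU (qm
    128)).setLoW (qm 128)).setHiW (qm 192)).setHiW (qm 160)).setLoD (qm 192)).setHiU (qm
    192)).setLoD (qm 224)).setHiW (qm 144)).setLoU (qm 160)).setLoD (qm 240)).setHiW (qm
    136)).setHiU (qm 176)).setHiD (qm 248)).setHiD (qm 244)).setLoD (qm 242)).setHiD (qm 243))
    (by decide +kernel))
    (good_splitA (qm 3584)
    (good_of_check
    (R .t5n 2782273 5302621 2421581 5030571 13236958 (-76228) 3267452 11849839 6660700 (-179974)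
    3267452 3431587 1004606 25205 2911567 3004498 2823380 7611431)
    (((((((((((((((((((((((((root.setHiD (qm 2048)).setHiD (qm 1024)).setHiU (qm 512)).setLoA (qm
    2048)).setHiD (qm 512)).setHiU (qm 256)).setLoA (qm 3072)).setHiD (qm 256)).setLoU (qm
    128)).setLoW (qm 128)).setHiW (qm 192)).setHiW (qm 160)).setLoD (qm 192)).setHiU (qm
    192)).setLoD (qm 224)).setHiW (qm 144)).setLoU (qm 160)).setLoD (qm 240)).setHiW (qm
    136)).setHiU (qm 176)).setHiD (qm 248)).setHiD (qm 244)).setLoD (qm 242)).setLoD (qm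
    243)).setHiA (qm 3584))
    (by decide +kernel))
    (good_splitA (qm 3840)
    (good_of_check
    (T 3523215 40084246 5931643 13591097 1370070 3550288 3054784 1378001 4131207 4478685 1790787
    3477736 3057101 47166046 13701642 11298524 25078293 15912162)
    ((((((((((((((((((((((((((root.setHiD (qm 2048)).setHiD (qm 1024)).setHiU (qm 512)).setLoA (qm
    2048)).setHiD (qm 512)).setHiU (qm 256)).setLoA (qm 3072)).setHiD (qm 256)).setLoU (qm
    128)).setLoW (qm 128)).setHiW (qm 192)).setHiW (qm 160)).setLoD (qm 192)).setHiU (qm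
    192)).setLoD (qm 224)).setHiW (qm 144)).setLoU (qm 160)).setLoD (qm 240)).setHiW (qm
    136)).setHiU (qm 176)).setHiD (qm 248)).setHiD (qm 244)).setLoD (qm 242)).setLoD (qm
    243)).setLoA (qm 3584)).setHiA (qm 3840))
    (by decide +kernel))
    (good_of_check
    (T 3523215 34549766 4194305 14068122 1180903 3060096 2633007 1413435 4553230 4799223 1790787
    3477736 3057101 45779024 11842096 10103186 25165824 15912162)
    ((((((((((((((((((((((((((root.setHiD (qm 2048)).setHiD (qm 1024)).setHiU (qm 512)).setLoA (qm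
    2048)).setHiD (qm 512)).setHiU (qm 256)).setLoA (qm 3072)).setHiD (qm 256)).setLoU (qm
    128)).setLoW (qm 128)).setHiW (qm 192)).setHiW (qm 160)).setLoD (qm 192)).setHiU (qm
    192)).setLoD (qm 224)).setHiW (qm 144)).setLoU (qm 160)).setLoD (qm 240)).setHiW (qm
    136)).setHiU (qm 176)).setHiD (qm 248)).setHiD (qm 244)).setLoD (qm 242)).setLoD (qm
    243)).setLoA (qm 3584)).setLoA (qm 3840))
    (by decide +kernel))))))
    (good_splitA (qm 3584)
    (good_of_check
    (R .t5n 2782292 5284885 2421581 5027157 13238310 (-76575) 3265769 11849375 6618554 (-176856)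
    3265769 3429984 946888 28895 2909678 3002667 2871646 7808125)
    (((((((((((((((((((((((root.setHiD (qm 2048)).setHiD (qm 1024)).setHiU (qm 512)).setLoA (qm
    2048)).setHiD (qm 512)).setHiU (qm 256)).setLoA (qm 3072)).setHiD (qm 256)).setLoU (qm
    128)).setLoW (qm 128)).setHiW (qm 192)).setHiW (qm 160)).setLoD (qm 192)).setHiU (qm
    192)).setLoD (qm 224)).setHiW (qm 144)).setLoU (qm 160)).setLoD (qm 240)).setHiW (qm
    136)).setHiU (qm 176)).setHiD (qm 248)).setLoD (qm 244)).setHiA (qm 3584))
    (by decide +kernel))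
    (good_splitA (qm 3840)
    (good_of_check
    (T 3523215 40144796 5931643 13591097 1385207 3568718 3072466 1375984 4113560 4464244 1799294
    3477736 3057101 47283483 13787927 11356958 25078293 15906763)
    ((((((((((((((((((((((((root.setHiD (qm 2048)).setHiD (qm 1024)).setHiU (qm 512)).setLoA (qm
    2048)).setHiD (qm 512)).setHiU (qm 256)).setLoA (qm 3072)).setHiD (qm 256)).setLoU (qm
    128)).setLoW (qm 128)).setHiW (qm 192)).setHiW (qm 160)).setLoD (qm 192)).setHiU (qm
    192)).setLoD (qm 224)).setHiW (qm 144)).setLoU (qm 160)).setLoD (qm 240)).setHiW (qm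
    136)).setHiU (qm 176)).setHiD (qm 248)).setLoD (qm 244)).setLoA (qm 3584)).setHiA (qm 3840))
    (by decide +kernel))
    (good_of_check
    (T 3523215 34601956 4194305 14068122 1193950 3075981 2648247 1411636 4539664 4787668 1799294
    3477736 3057101 45887648 11896271 10143111 25165824 15906763)
    ((((((((((((((((((((((((root.setHiD (qm 2048)).setHiD (qm 1024)).setHiU (qm 512)).setLoA (qm
    2048)).setHiD (qm 512)).setHiU (qm 256)).setLoA (qm 3072)).setHiD (qm 256)).setLoU (qm
    128)).setLoW (qm 128)).setHiW (qm 192)).setHiW (qm 160)).setLoD (qm 192)).setHiU (qm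
    192)).setLoD (qm 224)).setHiW (qm 144)).setLoU (qm 160)).setLoD (qm 240)).setHiW (qm
    136)).setHiU (qm 176)).setHiD (qm 248)).setLoD (qm 244)).setLoA (qm 3584)).setLoA (qm 3840))
    (by decide +kernel)))))
    (good_splitA (qm 3584)
    (good_of_check
    (R .t5n 2789034 5077214 2421581 5018965 13252410 (-90605) 3262400 11848447 6417424 (-167086)
    3262400 3426777 729979 39297 2905897 2999003 2965823 8138815)
    ((((((((((((((((((((((root.setHiD (qm 2048)).setHiD (qm 1024)).setHiU (qm 512)).setLoA (qm
    2048)).setHiD (qm 512)).setHiU (qm 256)).setLoA (qm 3072)).setHiD (qm 256)).setLoU (qm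
    128)).setLoW (qm 128)).setHiW (qm 192)).setHiW (qm 160)).setLoD (qm 192)).setHiU (qm
    192)).setLoD (qm 224)).setHiW (qm 144)).setLoU (qm 160)).setLoD (qm 240)).setHiW (qm
    136)).setHiU (qm 176)).setLoD (qm 248)).setHiA (qm 3584))
    (by decide +kernel))
    (good_splitA (qm 3840)
    (good_of_check
    (T 3523215 40266447 5931643 13591097 1415620 3605748 3107992 1371909 4077806 4435027 1816189
    3477736 3057101 47516481 13965047 11476483 25078293 15893797)
    (((((((((((((((((((((((root.setHiD (qm 2048)).setHiD (qm 1024)).setHiU (qm 512)).setLoA (qm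
    2048)).setHiD (qm 512)).setHiU (qm 256)).setLoA (qm 3072)).setHiD (qm 256)).setLoU (qm
    128)).setLoW (qm 128)).setHiW (qm 192)).setHiW (qm 160)).setLoD (qm 192)).setHiU (qm
    192)).setLoD (qm 224)).setHiW (qm 144)).setLoU (qm 160)).setLoD (qm 240)).setHiW (qm
    136)).setHiU (qm 176)).setLoD (qm 248)).setLoA (qm 3584)).setHiA (qm 3840))
    (by decide +kernel))
    (good_of_check
    (T 3523215 34706811 4194305 14068122 1220164 3107898 2678868 1408007 4512248 4764333 1816189
    3477736 3057101 46102611 12006807 10224420 25165824 15893797)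
    (((((((((((((((((((((((root.setHiD (qm 2048)).setHiD (qm 1024)).setHiU (qm 512)).setLoA (qm
    2048)).setHiD (qm 512)).setHiU (qm 256)).setLoA (qm 3072)).setHiD (qm 256)).setLoU (qm
    128)).setLoW (qm 128)).setHiW (qm 192)).setHiW (qm 160)).setLoD (qm 192)).setHiU (qm
    192)).setLoD (qm 224)).setHiW (qm 144)).setLoU (qm 160)).setLoD (qm 240)).setHiW (qm
    136)).setHiU (qm 176)).setLoD (qm 248)).setLoA (qm 3584)).setLoA (qm 3840))
    (by decide +kernel)))))
    (good_splitD (qm 248)
    (good_of_check
    (R .t5n 2843590 0 0 5008043 13223347 (-161281) 3429979 11849375 7527510 (-228802) 3429979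
    3586684 86075 54734 2909678 3002667 2871646 7392526)
    (((((((((((((((((((((root.setHiD (qm 2048)).setHiD (qm 1024)).setHiU (qm 512)).setLoA (qm
    2048)).setHiD (qm 512)).setHiU (qm 256)).setLoA (qm 3072)).setHiD (qm 256)).setLoU (qm
    128)).setLoW (qm 128)).setHiW (qm 192)).setHiW (qm 160)).setLoD (qm 192)).setHiU (qm
    192)).setLoD (qm 224)).setHiW (qm 144)).setLoU (qm 160)).setLoD (qm 240)).setHiW (qm
    136)).setLoU (qm 176)).setHiD (qm 248))
    (by decide +kernel))
    (good_of_check
    (R .t5n 2852909 0 0 4997120 13208781 (-170180) 3426772 11848447 7304094 (-218276) 3426772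
    3583617 (-135013) 65411 2905897 2999003 2965823 7696928)
    (((((((((((((((((((((root.setHiD (qm 2048)).setHiD (qm 1024)).setHiU (qm 512)).setLoA (qm
    2048)).setHiD (qm 512)).setHiU (qm 256)).setLoA (qm 3072)).setHiD (qm 256)).setLoU (qm
    128)).setLoW (qm 128)).setHiW (qm 192)).setHiW (qm 160)).setLoD (qm 192)).setHiU (qm
    192)).setLoD (qm 224)).setHiW (qm 144)).setLoU (qm 160)).setLoD (qm 240)).setHiW (qm
    136)).setLoU (qm 176)).setLoD (qm 248))
    (by decide +kernel))))
    (good_of_check
    (R .t5n 2817597 0 0 5013504 13243873 (-129834) 3265769 11849375 6980845 (-196281) 3265769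
    3586684 1745378 643 3002662 3092857 2871646 7565549)
    (((((((((((((((((((root.setHiD (qm 2048)).setHiD (qm 1024)).setHiU (qm 512)).setLoA (qm
    2048)).setHiD (qm 512)).setHiU (qm 256)).setLoA (qm 3072)).setHiD (qm 256)).setLoU (qm
    128)).setLoW (qm 128)).setHiW (qm 192)).setHiW (qm 160)).setLoD (qm 192)).setHiU (qm
    192)).setLoD (qm 224)).setHiW (qm 144)).setLoU (qm 160)).setLoD (qm 240)).setLoW (qm 136))
    (by decide +kernel)))))
    (good_splitD (qm 240)
    (good_splitD (qm 232)
    (good_of_check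
    (R .t5n 2782288 0 0 5051733 13278411 (-89405) 3107040 11853086 6819022 (-188102) 3107040
    3598926 4692576 (-113344) 3107040 3279213 2459131 6083048)
    ((((((((((((((((((root.setHiD (qm 2048)).setHiD (qm 1024)).setHiU (qm 512)).setLoA (qm
    2048)).setHiD (qm 512)).setHiU (qm 256)).setLoA (qm 3072)).setHiD (qm 256)).setLoU (qm
    128)).setLoW (qm 128)).setHiW (qm 192)).setHiW (qm 160)).setLoD (qm 192)).setHiU (qm
    192)).setLoD (qm 224)).setLoW (qm 144)).setHiD (qm 240)).setHiD (qm 232))
    (by decide +kernel))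
    (good_of_check
    (R .t5n 2789034 0 0 5040811 13268227 (-96051) 3103499 11852159 6620380 (-178441) 3103499
    3595869 4476578 (-103073) 3103499 3275859 2568479 6505974)
    ((((((((((((((((((root.setHiD (qm 2048)).setHiD (qm 1024)).setHiU (qm 512)).setLoA (qm
    2048)).setHiD (qm 512)).setHiU (qm 256)).setLoA (qm 3072)).setHiD (qm 256)).setLoU (qm
    128)).setLoW (qm 128)).setHiW (qm 192)).setHiW (qm 160)).setLoD (qm 192)).setHiU (qm
    192)).setLoD (qm 224)).setLoW (qm 144)).setHiD (qm 240)).setLoD (qm 232))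
    (by decide +kernel)))
    (good_splitD (qm 248)
    (good_of_check
    (R .t5n 2795777 0 0 5029888 13258014 (-102667) 3099954 11851231 6421671 (-168728) 3099954
    3592810 4260905 (-92764) 3099954 3272501 2673357 6902285)
    ((((((((((((((((((root.setHiD (qm 2048)).setHiD (qm 1024)).setHiU (qm 512)).setLoA (qm
    2048)).setHiD (qm 512)).setHiU (qm 256)).setLoA (qm 3072)).setHiD (qm 256)).setLoU (qm
    128)).setLoW (qm 128)).setHiW (qm 192)).setHiW (qm 160)).setLoD (qm 192)).setHiU (qm
    192)).setLoD (qm 224)).setLoW (qm 144)).setLoD (qm 240)).setHiD (qm 248))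
    (by decide +kernel))
    (good_of_check
    (R .t5n 2799944 0 0 5018965 13251570 (-106643) 3096405 11850303 6266726 (-160292) 3096405
    3589748 4090305 (-83777) 3096405 3269139 2774274 7290850)
    ((((((((((((((((((root.setHiD (qm 2048)).setHiD (qm 1024)).setHiU (qm 512)).setLoA (qm
    2048)).setHiD (qm 512)).setHiU (qm 256)).setLoA (qm 3072)).setHiD (qm 256)).setLoU (qm
    128)).setLoW (qm 128)).setHiW (qm 192)).setHiW (qm 160)).setLoD (qm 192)).setHiU (qm
    192)).setLoD (qm 224)).setLoW (qm 144)).setLoD (qm 240)).setLoD (qm 248))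
    (by decide +kernel))))))
    (good_splitD (qm 224)
    (good_of_check
    (R .t5n 2839424 0 0 5002581 13181752 (-143370) 3595864 11852159 11101899 (-402495) 3595864
    4162730 2351433 (-27454) 2920992 3275859 2568479 6201376)
    (((((((((((((((root.setHiD (qm 2048)).setHiD (qm 1024)).setHiU (qm 512)).setLoA (qm
    2048)).setHiD (qm 512)).setHiU (qm 256)).setLoA (qm 3072)).setHiD (qm 256)).setLoU (qm
    128)).setLoW (qm 128)).setHiW (qm 192)).setHiW (qm 160)).setLoD (qm 192)).setLoU (qm
    192)).setHiD (qm 224))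
    (by decide +kernel))
    (good_splitD (qm 240)
    (good_of_check
    (R .t5n 2863821 0 0 4969813 13211123 (-186885) 3589743 11850303 10663827 (-383391) 3589743
    4157444 1778506 (-2152) 2913454 3269139 2774274 6879884)
    ((((((((((((((((root.setHiD (qm 2048)).setHiD (qm 1024)).setHiU (qm 512)).setLoA (qm
    2048)).setHiD (qm 512)).setHiU (qm 256)).setLoA (qm 3072)).setHiD (qm 256)).setLoU (qm
    128)).setLoW (qm 128)).setHiW (qm 192)).setHiW (qm 160)).setLoD (qm 192)).setLoU (qm
    192)).setLoD (qm 224)).setHiD (qm 240))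
    (by decide +kernel))
    (good_of_check
    (R .t5n 2878898 0 0 4947968 13186986 (-200930) 3583612 11848447 10354087 (-367640) 3583612
    4152152 1360704 18550 2905897 3262405 2965823 7525124)
    ((((((((((((((((root.setHiD (qm 2048)).setHiD (qm 1024)).setHiU (qm 512)).setLoA (qm
    2048)).setHiD (qm 512)).setHiU (qm 256)).setLoA (qm 3072)).setHiD (qm 256)).setLoU (qm
    128)).setLoW (qm 128)).setHiW (qm 192)).setHiW (qm 160)).setLoD (qm 192)).setLoU (qm
    192)).setLoD (qm 224)).setLoD (qm 240))
    (by decide +kernel))))))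
    (good_splitD (qm 208)
    (good_splitW (qm 176)
    (good_splitD (qm 184)
    (good_splitD (qm 172)
    (good_splitD (qm 166)
    (good_splitW (qm 163)
    (good_of_check
    (R .t5n 2824346 0 0 5085867 13168350 (-119351) 3313398 11862591 10540378 (-378089) 3313398
    4192340 6248610 (-210442) 3313398 3344368 642122 218093)
    ((((((((((((((((((root.setHiD (qm 2048)).setHiD (qm 1024)).setHiU (qm 512)).setLoA (qm
    2048)).setHiD (qm 512)).setHiU (qm 256)).setLoA (qm 3072)).setHiD (qm 256)).setLoU (qm
    128)).setLoW (qm 128)).setHiW (qm 192)).setLoW (qm 160)).setHiD (qm 208)).setHiW (qm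
    176)).setHiD (qm 184)).setHiD (qm 172)).setHiD (qm 166)).setHiW (qm 163))
    (by decide +kernel))
    (good_of_check
    (R .t5n 2839423 0 0 5081771 13137295 (-131921) 3345596 11862938 10479308 (-382362) 3345596
    4193323 6409170 (-220392) 3345596 3376271 454049 78269)
    ((((((((((((((((((root.setHiD (qm 2048)).setHiD (qm 1024)).setHiU (qm 512)).setLoA (qm
    2048)).setHiD (qm 512)).setHiU (qm 256)).setLoA (qm 3072)).setHiD (qm 256)).setLoU (qm
    128)).setLoW (qm 128)).setHiW (qm 192)).setLoW (qm 160)).setHiD (qm 208)).setHiW (qm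
    176)).setHiD (qm 184)).setHiD (qm 172)).setHiD (qm 166)).setLoW (qm 163))
    (by decide +kernel)))
    (good_of_check
    (R .t5n 2843590 0 0 5077675 13140061 (-138622) 3310908 11861895 10217027 (-366225) 3310908
    4190372 6429014 (-218256) 3310908 3433188 908096 561427)
    (((((((((((((((((root.setHiD (qm 2048)).setHiD (qm 1024)).setHiU (qm 512)).setLoA (qm
    2048)).setHiD (qm 512)).setHiU (qm 256)).setLoA (qm 3072)).setHiD (qm 256)).setLoU (qm
    128)).setLoW (qm 128)).setHiW (qm 192)).setLoW (qm 160)).setHiD (qm 208)).setHiW (qm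
    176)).setHiD (qm 184)).setHiD (qm 172)).setLoD (qm 166))
    (by decide +kernel)))
    (good_of_check
    (R .t5n 2846166 0 0 5065387 13135757 (-140798) 3305923 11860505 10096022 (-357516) 3305923
    4186435 6508678 (-217385) 3305923 3468238 1284241 1394047)
    ((((((((((((((((root.setHiD (qm 2048)).setHiD (qm 1024)).setHiU (qm 512)).setLoA (qm
    2048)).setHiD (qm 512)).setHiU (qm 256)).setLoA (qm 3072)).setHiD (qm 256)).setLoU (qm
    128)).setLoW (qm 128)).setHiW (qm 192)).setLoW (qm 160)).setHiD (qm 208)).setHiW (qm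
    176)).setHiD (qm 184)).setLoD (qm 172))
    (by decide +kernel)))
    (good_of_check
    (R .t5n 2843590 0 0 5040811 13208377 (-158409) 3295931 11857723 9965610 (-343272) 3295931
    4178548 6310942 (-200512) 3295931 3458714 1816189 3157261)
    (((((((((((((((root.setHiD (qm 2048)).setHiD (qm 1024)).setHiU (qm 512)).setLoA (qm
    2048)).setHiD (qm 512)).setHiU (qm 256)).setLoA (qm 3072)).setHiD (qm 256)).setLoU (qm
    128)).setLoW (qm 128)).setHiW (qm 192)).setLoW (qm 160)).setHiD (qm 208)).setHiW (qm
    176)).setLoD (qm 184))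
    (by decide +kernel)))
    (good_of_check
    (R .t5n 2903307 0 0 5035349 13070551 (-203167) 3465061 11859578 9950877 (-373776) 3465061
    4183808 7343482 (-261740) 3465061 3620248 1482913 1854021)
    ((((((((((((((root.setHiD (qm 2048)).setHiD (qm 1024)).setHiU (qm 512)).setLoA (qm
    2048)).setHiD (qm 512)).setHiU (qm 256)).setLoA (qm 3072)).setHiD (qm 256)).setLoU (qm
    128)).setLoW (qm 128)).setHiW (qm 192)).setLoW (qm 160)).setHiD (qm 208)).setLoW (qm 176))
    (by decide +kernel)))
    (good_of_check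
    (R .t5n 2870564 0 0 4991659 13165379 (-183318) 3275854 11852159 9224188 (-299906) 3275854
    4162730 6336481 (-187105) 3275854 3595869 2568479 6021466)
    (((((((((((((root.setHiD (qm 2048)).setHiD (qm 1024)).setHiU (qm 512)).setLoA (qm
    2048)).setHiD (qm 512)).setHiU (qm 256)).setLoA (qm 3072)).setHiD (qm 256)).setLoU (qm
    128)).setLoW (qm 128)).setHiW (qm 192)).setLoW (qm 160)).setLoD (qm 208))
    (by decide +kernel))))
    (good_splitU (qm 224)
    (good_of_check
    (R .t5n 2973948 0 0 5002581 13043034 (-294094) 3608074 11855869 8286572 (-311774) 3608074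
    3900931 8286572 (-311774) 3608074 3900931 2097154 3717518)
    ((((((((((((root.setHiD (qm 2048)).setHiD (qm 1024)).setHiU (qm 512)).setLoA (qm 2048)).setHiD
    (qm 512)).setHiU (qm 256)).setLoA (qm 3072)).setHiD (qm 256)).setLoU (qm 128)).setLoW (qm
    128)).setLoW (qm 192)).setHiU (qm 224))
    (by decide +kernel))
    (good_of_check
    (R .t5n 3065850 0 0 4958891 12927710 (-387097) 3900926 11855869 9410144 (-400194) 3900926
    4173282 8192230 (-324075) 3608074 4173282 2097154 3387021)
    ((((((((((((root.setHiD (qm 2048)).setHiD (qm 1024)).setHiU (qm 512)).setLoA (qm 2048)).setHiD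
    (qm 512)).setHiU (qm 256)).setLoA (qm 3072)).setHiD (qm 256)).setLoU (qm 128)).setLoW (qm
    128)).setLoW (qm 192)).setLoU (qm 224))
    (by decide +kernel))))

end Vale.Agent.P226.Cert
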