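import Vale.Agent.P226.CertBox
import Vale.Agent.P226.CertSound

/-! Part 19 of the cover (P226). -/

namespace Vale.Agent.P226.Cert

set_option maxHeartbeats 4000000 in
/-- One subtree of the cover. -/
theorem sub36_good : BoxGood
    (((((((((root.setHiD (qm 2048)).setHiD (qm 1024)).setHiU (qm 512)).setLoA (qm 2048)).setHiD
    (qm 512)).setHiU (qm 256)).setLoA (qm 3072)).setLoD (qm 256)).setHiU (qm 128)) :=
    (good_splitU (qm 64)
    (good_splitA (qm 3584)
    (good_of_check
    (T 3523215 55063688 8388609 12582911 2581113 3670192 3670192 1176985 3765872 3765872 2097154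
    2097154 2097154 56372283 11764332 11764332 24990453 15902442)
    (((((((((((root.setHiD (qm 2048)).setHiD (qm 1024)).setHiU (qm 512)).setLoA (qm 2048)).setHiD
    (qm 512)).setHiU (qm 256)).setLoA (qm 3072)).setLoD (qm 256)).setHiU (qm 128)).setHiU (qm
    64)).setHiA (qm 3584))
    (by decide +kernel))
    (good_of_check
    (T 3858760 42589511 5931643 13591097 1996386 2860624 2860624 1410694 4344381 4344381 2097154
    2097154 2097154 46828822 9179472 9179472 25165824 15902442)
    (((((((((((root.setHiD (qm 2048)).setHiD (qm 1024)).setHiU (qm 512)).setLoA (qm 2048)).setHiD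
    (qm 512)).setHiU (qm 256)).setLoA (qm 3072)).setLoD (qm 256)).setHiU (qm 128)).setHiU (qm
    64)).setLoA (qm 3584))
    (by decide +kernel)))
    (good_splitW (qm 64)
    (good_splitD (qm 384)
    (good_splitA (qm 3584)
    (good_of_check
    (T 3187671 53687096 8388609 12582911 2236965 4308229 3272598 1114192 3304439 4202613 1977216
    2965823 2097154 59549273 17626921 9731215 24990453 15902442)
    (((((((((((((root.setHiD (qm 2048)).setHiD (qm 1024)).setHiU (qm 512)).setLoA (qm
    2048)).setHiD (qm 512)).setHiU (qm 256)).setLoA (qm 3072)).setLoD (qm 256)).setHiU (qm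
    128)).setLoU (qm 64)).setHiW (qm 64)).setHiD (qm 384)).setHiA (qm 3584))
    (by decide +kernel))
    (good_of_check
    (T 3858760 41524773 5931643 13591097 1730201 3415462 2572833 1454399 4054441 4546253 1977216
    2965823 2097154 44994441 12990033 8468606 25165824 15902442)
    (((((((((((((root.setHiD (qm 2048)).setHiD (qm 1024)).setHiU (qm 512)).setLoA (qm
    2048)).setHiD (qm 512)).setHiU (qm 256)).setLoA (qm 3072)).setLoD (qm 256)).setHiU (qm
    128)).setLoU (qm 64)).setHiW (qm 64)).setHiD (qm 384)).setLoA (qm 3584))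
    (by decide +kernel)))
    (good_of_check
    (R .u5 2443584 0 0 4849664 13384522 (-57201) 2097150 11863286 1320930 (-20597) 2097150 2965823
    0 42 0 2097154 2097154 3625277)
    ((((((((((((root.setHiD (qm 2048)).setHiD (qm 1024)).setHiU (qm 512)).setLoA (qm 2048)).setHiD
    (qm 512)).setHiU (qm 256)).setLoA (qm 3072)).setLoD (qm 256)).setHiU (qm 128)).setLoU (qm
    64)).setHiW (qm 64)).setLoD (qm 384))
    (by decide +kernel)))
    (good_splitW (qm 96)
    (good_splitD (qm 384)
    (good_splitA (qm 3584)
    (good_splitD (qm 320)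
    (good_of_check
    (T 3187671 52377655 8388609 12582911 1909605 3930350 3425165 1156809 3732673 4147766 1849517
    2965823 2568479 57321354 14743922 11479009 24990453 15971434)
    (((((((((((((((root.setHiD (qm 2048)).setHiD (qm 1024)).setHiU (qm 512)).setLoA (qm
    2048)).setHiD (qm 512)).setHiU (qm 256)).setLoA (qm 3072)).setLoD (qm 256)).setHiU (qm
    128)).setLoU (qm 64)).setLoW (qm 64)).setHiW (qm 96)).setHiD (qm 384)).setHiA (qm
    3584)).setHiD (qm 320))
    (by decide +kernel))
    (good_splitU (qm 96)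
    (good_of_check
    (T 3187671 53024292 8388609 12582911 2071264 3605534 3605534 1136265 3986407 3986407 1914432
    2568479 2568479 58392473 12251452 12251452 24990453 15867834)
    ((((((((((((((((root.setHiD (qm 2048)).setHiD (qm 1024)).setHiU (qm 512)).setLoA (qm
    2048)).setHiD (qm 512)).setHiU (qm 256)).setLoA (qm 3072)).setLoD (qm 256)).setHiU (qm
    128)).setLoU (qm 64)).setLoW (qm 64)).setHiW (qm 96)).setHiD (qm 384)).setHiA (qm
    3584)).setLoD (qm 320)).setHiU (qm 96))
    (by decide +kernel))
    (good_splitW (qm 80)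
    (good_of_check
    (R .u5 2386425 4756803 2421581 4958891 13369950 40179 2568474 11863286 3436222 (-79296)
    2568474 2965823 0 42 2097150 2344690 2344690 5000494)
    (((((((((((((((((root.setHiD (qm 2048)).setHiD (qm 1024)).setHiU (qm 512)).setLoA (qm
    2048)).setHiD (qm 512)).setHiU (qm 256)).setLoA (qm 3072)).setLoD (qm 256)).setHiU (qm
    128)).setLoU (qm 64)).setLoW (qm 64)).setHiW (qm 96)).setHiD (qm 384)).setHiA (qm
    3584)).setLoD (qm 320)).setLoU (qm 96)).setHiW (qm 80))
    (by decide +kernel))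
    (good_splitA (qm 3328)
    (good_splitW (qm 88)
    (good_of_check
    (R .u5 2357852 5304714 2965819 4958891 13392229 80884 2568474 11863286 3899939 (-89512)
    2568474 2965823 116058 (-2224) 2344685 2459131 2459131 5703201)
    (((((((((((((((((((root.setHiD (qm 2048)).setHiD (qm 1024)).setHiU (qm 512)).setLoA (qm
    2048)).setHiD (qm 512)).setHiU (qm 256)).setLoA (qm 3072)).setLoD (qm 256)).setHiU (qm
    128)).setLoU (qm 64)).setLoW (qm 64)).setHiW (qm 96)).setHiD (qm 384)).setHiA (qm
    3584)).setLoD (qm 320)).setLoU (qm 96)).setLoW (qm 80)).setHiA (qm 3328)).setHiW (qm 88))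
    (by decide +kernel))
    (good_splitW (qm 92)
    (good_of_check
    (R .u5 2362019 5239744 2965819 4958891 13384970 76134 2568474 11863286 3830657 (-87996)
    2568474 2965823 547786 (-11526) 2459126 2514399 2514399 5919175)
    ((((((((((((((((((((root.setHiD (qm 2048)).setHiD (qm 1024)).setHiU (qm 512)).setLoA (qm
    2048)).setHiD (qm 512)).setHiU (qm 256)).setLoA (qm 3072)).setLoD (qm 256)).setHiU (qm
    128)).setLoU (qm 64)).setLoW (qm 64)).setHiW (qm 96)).setHiD (qm 384)).setHiA (qm
    3584)).setLoD (qm 320)).setLoU (qm 96)).setLoW (qm 80)).setHiA (qm 3328)).setLoW (qm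
    88)).setHiW (qm 92))
    (by decide +kernel))
    (good_of_check
    (R .u5 2366186 5177645 2965819 4958891 13376955 71621 2568474 11863286 3761923 (-86487)
    2568474 2965823 986753 (-21444) 2514394 2568479 2568479 6128909)
    ((((((((((((((((((((root.setHiD (qm 2048)).setHiD (qm 1024)).setHiU (qm 512)).setLoA (qm
    2048)).setHiD (qm 512)).setHiU (qm 256)).setLoA (qm 3072)).setLoD (qm 256)).setHiU (qm
    128)).setLoU (qm 64)).setLoW (qm 64)).setHiW (qm 96)).setHiD (qm 384)).setHiA (qm
    3584)).setLoD (qm 320)).setLoU (qm 96)).setLoW (qm 80)).setHiA (qm 3328)).setLoW (qm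
    88)).setLoW (qm 92))
    (by decide +kernel))))
    (good_of_check
    (T 3187671 47344180 7264749 13096709 1972677 3799230 3342592 1160532 3879953 4239015 1977216
    2965823 2568479 57171476 13902816 11072354 24990453 15798390)
    ((((((((((((((((((root.setHiD (qm 2048)).setHiD (qm 1024)).setHiU (qm 512)).setLoA (qm
    2048)).setHiD (qm 512)).setHiU (qm 256)).setLoA (qm 3072)).setLoD (qm 256)).setHiU (qm
    128)).setLoU (qm 64)).setLoW (qm 64)).setHiW (qm 96)).setHiD (qm 384)).setHiA (qm
    3584)).setLoD (qm 320)).setLoU (qm 96)).setLoW (qm 80)).setLoA (qm 3328))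
    (by decide +kernel))))))
    (good_of_check
    (T 3523215 41524773 5931643 13591097 1730201 3372797 2962149 1327929 4190357 4455850 1977216
    2965823 2568479 49753360 12335822 10184381 25165824 15902442)
    ((((((((((((((root.setHiD (qm 2048)).setHiD (qm 1024)).setHiU (qm 512)).setLoA (qm
    2048)).setHiD (qm 512)).setHiU (qm 256)).setLoA (qm 3072)).setLoD (qm 256)).setHiU (qm
    128)).setLoU (qm 64)).setLoW (qm 64)).setHiW (qm 96)).setHiD (qm 384)).setLoA (qm 3584))
    (by decide +kernel)))
    (good_splitW (qm 80)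
    (good_of_check
    (R .u5 2441006 0 0 4849664 13388981 (-54339) 2097150 11863286 1340281 (-20899) 2097150 2965823
    0 42 2097150 2344690 2344690 4663509)
    ((((((((((((((root.setHiD (qm 2048)).setHiD (qm 1024)).setHiU (qm 512)).setLoA (qm
    2048)).setHiD (qm 512)).setHiU (qm 256)).setLoA (qm 3072)).setLoD (qm 256)).setHiU (qm
    128)).setLoU (qm 64)).setLoW (qm 64)).setHiW (qm 96)).setLoD (qm 384)).setHiW (qm 80))
    (by decide +kernel))
    (good_of_check
    (R .u5 2458660 0 0 4838741 13366640 (-76255) 2344685 11863286 1615209 (-31504) 2344685 2965823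
    67788 (-1282) 2344685 2568479 2568479 5485375)
    ((((((((((((((root.setHiD (qm 2048)).setHiD (qm 1024)).setHiU (qm 512)).setLoA (qm
    2048)).setHiD (qm 512)).setHiU (qm 256)).setLoA (qm 3072)).setLoD (qm 256)).setHiU (qm
    128)).setLoU (qm 64)).setLoW (qm 64)).setHiW (qm 96)).setLoD (qm 384)).setLoW (qm 80))
    (by decide +kernel))))
    (good_splitD (qm 384)
    (good_splitA (qm 3584)
    (good_splitW (qm 112)
    (good_splitD (qm 320)
    (good_splitA (qm 3328)
    (good_splitA (qm 3200)
    (good_of_check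
    (T 3187671 52377655 8388609 12582911 1909605 3930350 3677757 1156809 3732673 3952793 1849517
    2965823 2774274 57321354 14743922 13013686 24858111 15936975)
    ((((((((((((((((((root.setHiD (qm 2048)).setHiD (qm 1024)).setHiU (qm 512)).setLoA (qm
    2048)).setHiD (qm 512)).setHiU (qm 256)).setLoA (qm 3072)).setLoD (qm 256)).setHiU (qm
    128)).setLoU (qm 64)).setLoW (qm 64)).setLoW (qm 96)).setHiD (qm 384)).setHiA (qm
    3584)).setHiW (qm 112)).setHiD (qm 320)).setHiA (qm 3328)).setHiA (qm 3200))
    (by decide +kernel))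
    (good_of_check
    (T 3187671 49200040 7846826 12842379 1793754 3691906 3454637 1177715 3981593 4168519 1849517
    2965823 2774274 56269922 13360684 11954618 24902303 15936975)
    ((((((((((((((((((root.setHiD (qm 2048)).setHiD (qm 1024)).setHiU (qm 512)).setLoA (qm
    2048)).setHiD (qm 512)).setHiU (qm 256)).setLoA (qm 3072)).setLoD (qm 256)).setHiU (qm
    128)).setLoU (qm 64)).setLoW (qm 64)).setLoW (qm 96)).setHiD (qm 384)).setHiA (qm
    3584)).setHiW (qm 112)).setHiD (qm 320)).setHiA (qm 3328)).setLoA (qm 3200))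
    (by decide +kernel)))
    (good_of_check
    (T 3523215 46189444 7264749 13096709 1683993 3511110 3282720 1323423 4063684 4226805 1849517
    2965823 2774274 49620478 12944031 11689276 24990453 15936975)
    (((((((((((((((((root.setHiD (qm 2048)).setHiD (qm 1024)).setHiU (qm 512)).setLoA (qm
    2048)).setHiD (qm 512)).setHiU (qm 256)).setLoA (qm 3072)).setLoD (qm 256)).setHiU (qm
    128)).setLoU (qm 64)).setLoW (qm 64)).setLoW (qm 96)).setHiD (qm 384)).setHiA (qm
    3584)).setHiW (qm 112)).setHiD (qm 320)).setLoA (qm 3328))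
    (by decide +kernel)))
    (good_splitW (qm 104)
    (good_splitA (qm 3328)
    (good_splitW (qm 100)
    (good_splitW (qm 98)
    (good_of_check
    (R .u5 2368773 5137987 2965819 4958891 13372278 68732 2568474 11863286 3719543 (-85556)
    2568474 2965823 1365335 (-30379) 2568474 2595096 2595096 6227769)
    ((((((((((((((((((((root.setHiD (qm 2048)).setHiD (qm 1024)).setHiU (qm 512)).setLoA (qm
    2048)).setHiD (qm 512)).setHiU (qm 256)).setLoA (qm 3072)).setLoD (qm 256)).setHiU (qm
    128)).setLoU (qm 64)).setLoW (qm 64)).setLoW (qm 96)).setHiD (qm 384)).setHiA (qm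
    3584)).setHiW (qm 112)).setLoD (qm 320)).setHiW (qm 104)).setHiA (qm 3328)).setHiW (qm
    100)).setHiW (qm 98))
    (by decide +kernel))
    (good_of_check
    (R .u5 2372940 5175545 2965819 4957525 13364715 64108 2595091 11863286 3807530 (-88931)
    2595091 2965823 1602862 (-36183) 2595091 2621442 2621442 6311863)
    ((((((((((((((((((((root.setHiD (qm 2048)).setHiD (qm 1024)).setHiU (qm 512)).setLoA (qm
    2048)).setHiD (qm 512)).setHiU (qm 256)).setLoA (qm 3072)).setLoD (qm 256)).setHiU (qm
    128)).setLoU (qm 64)).setLoW (qm 64)).setLoW (qm 96)).setHiD (qm 384)).setHiA (qm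
    3584)).setHiW (qm 112)).setLoD (qm 320)).setHiW (qm 104)).setHiA (qm 3328)).setHiW (qm
    100)).setLoW (qm 98))
    (by decide +kernel)))
    (good_splitD (qm 352)
    (good_of_check
    (R .u5 2377106 5213147 2965819 4978005 13343307 63595 2621438 11863286 3895556 (-92300)
    2621438 2965823 1998851 (-45993) 2621438 2673357 2673357 6506097)
    ((((((((((((((((((((root.setHiD (qm 2048)).setHiD (qm 1024)).setHiU (qm 512)).setLoA (qm
    2048)).setHiD (qm 512)).setHiU (qm 256)).setLoA (qm 3072)).setLoD (qm 256)).setHiU (qm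
    128)).setLoU (qm 64)).setLoW (qm 64)).setLoW (qm 96)).setHiD (qm 384)).setHiA (qm
    3584)).setHiW (qm 112)).setLoD (qm 320)).setHiW (qm 104)).setHiA (qm 3328)).setLoW (qm
    100)).setHiD (qm 352))
    (by decide +kernel))
    (good_of_check
    (R .u5 2401505 4735686 2965819 4934315 13352799 20536 2621438 11863286 3499728 (-83379)
    2621438 2965823 1671138 (-38736) 2621438 2673357 2673357 6322891)
    ((((((((((((((((((((root.setHiD (qm 2048)).setHiD (qm 1024)).setHiU (qm 512)).setLoA (qm
    2048)).setHiD (qm 512)).setHiU (qm 256)).setLoA (qm 3072)).setLoD (qm 256)).setHiU (qm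
    128)).setLoU (qm 64)).setLoW (qm 64)).setLoW (qm 96)).setHiD (qm 384)).setHiA (qm
    3584)).setHiW (qm 112)).setLoD (qm 320)).setHiW (qm 104)).setHiA (qm 3328)).setLoW (qm
    100)).setLoD (qm 352))
    (by decide +kernel))))
    (good_of_check
    (T 3187671 47344180 7264749 13096709 1972677 3799230 3456751 1160532 3879953 4156369 1977216
    2965823 2673357 57171476 13902816 11737643 24990453 15798390)
    ((((((((((((((((((root.setHiD (qm 2048)).setHiD (qm 1024)).setHiU (qm 512)).setLoA (qm
    2048)).setHiD (qm 512)).setHiU (qm 256)).setLoA (qm 3072)).setLoD (qm 256)).setHiU (qm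
    128)).setLoU (qm 64)).setLoW (qm 64)).setLoW (qm 96)).setHiD (qm 384)).setHiA (qm
    3584)).setHiW (qm 112)).setLoD (qm 320)).setHiW (qm 104)).setLoA (qm 3328))
    (by decide +kernel)))
    (good_splitD (qm 352)
    (good_splitA (qm 3328)
    (good_splitW (qm 108)
    (good_of_check
    (R .u5 2386425 5267155 2965819 4975275 13326511 53257 2673352 11863286 4054099 (-98605)
    2673352 2965823 2482867 (-58710) 2673352 2724283 2724283 6653017)
    ((((((((((((((((((((root.setHiD (qm 2048)).setHiD (qm 1024)).setHiU (qm 512)).setLoA (qm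
    2048)).setHiD (qm 512)).setHiU (qm 256)).setLoA (qm 3072)).setLoD (qm 256)).setHiU (qm
    128)).setLoU (qm 64)).setLoW (qm 64)).setLoW (qm 96)).setHiD (qm 384)).setHiA (qm
    3584)).setHiW (qm 112)).setLoD (qm 320)).setLoW (qm 104)).setHiD (qm 352)).setHiA (qm
    3328)).setHiW (qm 108))
    (by decide +kernel))
    (good_of_check
    (R .u5 2397337 5291664 2965819 4972544 13307182 41092 2724278 11863286 4182839 (-104157)
    2724278 2965823 2941372 (-71423) 2724278 2774274 2774274 6780001)
    ((((((((((((((((((((root.setHiD (qm 2048)).setHiD (qm 1024)).setHiU (qm 512)).setLoA (qm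
    2048)).setHiD (qm 512)).setHiU (qm 256)).setLoA (qm 3072)).setLoD (qm 256)).setHiU (qm
    128)).setLoU (qm 64)).setLoW (qm 64)).setLoW (qm 96)).setHiD (qm 384)).setHiA (qm
    3584)).setHiW (qm 112)).setLoD (qm 320)).setLoW (qm 104)).setHiD (qm 352)).setHiA (qm
    3328)).setLoW (qm 108))
    (by decide +kernel)))
    (good_of_check
    (T 3187671 46759684 7264749 13096709 1826553 3630556 3405056 1179541 4046784 4220473 1914432
    2965823 2774274 56236020 13028315 11717698 24990453 15824468)
    (((((((((((((((((((root.setHiD (qm 2048)).setHiD (qm 1024)).setHiU (qm 512)).setLoA (qm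
    2048)).setHiD (qm 512)).setHiU (qm 256)).setLoA (qm 3072)).setLoD (qm 256)).setHiU (qm
    128)).setLoU (qm 64)).setLoW (qm 64)).setLoW (qm 96)).setHiD (qm 384)).setHiA (qm
    3584)).setHiW (qm 112)).setLoD (qm 320)).setLoW (qm 104)).setHiD (qm 352)).setLoA (qm 3328))
    (by decide +kernel)))
    (good_of_check
    (R .u5 2436840 4278014 2421581 4931584 13319072 (-27165) 2673352 11863286 3246594 (-79977)
    2673352 2965823 2068301 (-50059) 2673352 2774274 2774274 6483522)
    ((((((((((((((((((root.setHiD (qm 2048)).setHiD (qm 1024)).setHiU (qm 512)).setLoA (qm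
    2048)).setHiD (qm 512)).setHiU (qm 256)).setLoA (qm 3072)).setLoD (qm 256)).setHiU (qm
    128)).setLoU (qm 64)).setLoW (qm 64)).setLoW (qm 96)).setHiD (qm 384)).setHiA (qm
    3584)).setHiW (qm 112)).setLoD (qm 320)).setLoW (qm 104)).setLoD (qm 352))
    (by decide +kernel)))))
    (good_splitD (qm 320)
    (good_splitA (qm 3328)
    (good_splitD (qm 288)
    (good_splitA (qm 3200)
    (good_of_check
    (T 3187671 51746598 8388609 12582911 1751840 3748239 3748239 1175945 3917748 3917748 1782239
    2965823 2965823 56252216 13697719 13697719 24858111 15954214)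
    (((((((((((((((((((root.setHiD (qm 2048)).setHiD (qm 1024)).setHiU (qm 512)).setLoA (qm
    2048)).setHiD (qm 512)).setHiU (qm 256)).setLoA (qm 3072)).setLoD (qm 256)).setHiU (qm
    128)).setLoU (qm 64)).setLoW (qm 64)).setLoW (qm 96)).setHiD (qm 384)).setHiA (qm
    3584)).setLoW (qm 112)).setHiD (qm 320)).setHiA (qm 3328)).setHiD (qm 288)).setHiA (qm 3200))
    (by decide +kernel))
    (good_of_check
    (T 3187671 48607268 7846826 12842379 1645561 3520844 3520844 1195588 4143485 4143485 1782239
    2965823 2965823 55265386 12556136 12556136 24902303 15954214)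
    (((((((((((((((((((root.setHiD (qm 2048)).setHiD (qm 1024)).setHiU (qm 512)).setLoA (qm
    2048)).setHiD (qm 512)).setHiU (qm 256)).setLoA (qm 3072)).setLoD (qm 256)).setHiU (qm
    128)).setLoU (qm 64)).setLoW (qm 64)).setLoW (qm 96)).setHiD (qm 384)).setHiA (qm
    3584)).setLoW (qm 112)).setHiD (qm 320)).setHiA (qm 3328)).setHiD (qm 288)).setLoA (qm 3200))
    (by decide +kernel)))
    (good_splitA (qm 3200)
    (good_splitU (qm 120)
    (good_of_check
    (T 3187671 52218452 8388609 12582911 1869804 3758495 3758495 1161721 3891282 3891282 1832929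
    2871646 2871646 57054718 13600947 13600947 24858111 15893797)
    ((((((((((((((((((((root.setHiD (qm 2048)).setHiD (qm 1024)).setHiU (qm 512)).setLoA (qm
    2048)).setHiD (qm 512)).setHiU (qm 256)).setLoA (qm 3072)).setLoD (qm 256)).setHiU (qm
    128)).setLoU (qm 64)).setLoW (qm 64)).setLoW (qm 96)).setHiD (qm 384)).setHiA (qm
    3584)).setLoW (qm 112)).setHiD (qm 320)).setHiA (qm 3328)).setLoD (qm 288)).setHiA (qm
    3200)).setHiU (qm 120))
    (by decide +kernel))
    (good_splitW (qm 120)
    (good_of_check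
    (R .u5 2383849 6003533 3203451 5008043 13307506 63240 2871641 11863286 5346670 (-138628)
    2871641 2965823 4107683 (-102330) 2774269 2871646 2871646 7290908)
    (((((((((((((((((((((root.setHiD (qm 2048)).setHiD (qm 1024)).setHiU (qm 512)).setLoA (qm
    2048)).setHiD (qm 512)).setHiU (qm 256)).setLoA (qm 3072)).setLoD (qm 256)).setHiU (qm
    128)).setLoU (qm 64)).setLoW (qm 64)).setLoW (qm 96)).setHiD (qm 384)).setHiA (qm
    3584)).setLoW (qm 112)).setHiD (qm 320)).setHiA (qm 3328)).setLoD (qm 288)).setHiA (qm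
    3200)).setLoU (qm 120)).setHiW (qm 120))
    (by decide +kernel))
    (good_splitU (qm 124)
    (good_of_check
    (R .u5 2390595 5962576 3203451 5010773 13278751 60912 2871641 11863286 4924881 (-126996)
    2871641 2919115 4924881 (-126996) 2871641 2919115 2919115 7431451)
    ((((((((((((((((((((((root.setHiD (qm 2048)).setHiD (qm 1024)).setHiU (qm 512)).setLoA (qm
    2048)).setHiD (qm 512)).setHiU (qm 256)).setLoA (qm 3072)).setLoD (qm 256)).setHiU (qm
    128)).setLoU (qm 64)).setLoW (qm 64)).setLoW (qm 96)).setHiD (qm 384)).setHiA (qm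
    3584)).setLoW (qm 112)).setHiD (qm 320)).setHiA (qm 3328)).setLoD (qm 288)).setHiA (qm
    3200)).setLoU (qm 120)).setLoW (qm 120)).setHiU (qm 124))
    (by decide +kernel))
    (good_of_check
    (R .u5 2401505 5905195 3203451 5005312 13277441 43180 2919110 11863286 5332730 (-140661)
    2919110 2965823 5033296 (-131303) 2871641 2965823 2965823 7532555)
    ((((((((((((((((((((((root.setHiD (qm 2048)).setHiD (qm 1024)).setHiU (qm 512)).setLoA (qm
    2048)).setHiD (qm 512)).setHiU (qm 256)).setLoA (qm 3072)).setLoD (qm 256)).setHiU (qm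
    128)).setLoU (qm 64)).setLoW (qm 64)).setLoW (qm 96)).setHiD (qm 384)).setHiA (qm
    3584)).setLoW (qm 112)).setHiD (qm 320)).setHiA (qm 3328)).setLoD (qm 288)).setHiA (qm
    3200)).setLoU (qm 120)).setLoW (qm 120)).setLoU (qm 124))
    (by decide +kernel)))))
    (good_splitA (qm 3264)
    (good_of_check
    (T 3187671 49200040 7846826 12842379 1793754 3691906 3691906 1177715 3981593 3981593 1849517
    2965823 2965823 56269922 13360684 13360684 24880216 15885148)
    ((((((((((((((((((((root.setHiD (qm 2048)).setHiD (qm 1024)).setHiU (qm 512)).setLoA (qm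
    2048)).setHiD (qm 512)).setHiU (qm 256)).setLoA (qm 3072)).setLoD (qm 256)).setHiU (qm
    128)).setLoU (qm 64)).setLoW (qm 64)).setLoW (qm 96)).setHiD (qm 384)).setHiA (qm
    3584)).setLoW (qm 112)).setHiD (qm 320)).setHiA (qm 3328)).setLoD (qm 288)).setLoA (qm
    3200)).setHiA (qm 3264))
    (by decide +kernel))
    (good_of_check
    (T 3187671 47676203 7561391 12970167 1738197 3577559 3577559 1187691 4094520 4094520 1849517
    2965823 2965823 55777405 12792191 12792191 24902303 15885148)
    ((((((((((((((((((((root.setHiD (qm 2048)).setHiD (qm 1024)).setHiU (qm 512)).setLoA (qm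
    2048)).setHiD (qm 512)).setHiU (qm 256)).setLoA (qm 3072)).setLoD (qm 256)).setHiU (qm
    128)).setLoU (qm 64)).setLoW (qm 64)).setLoW (qm 96)).setHiD (qm 384)).setHiA (qm
    3584)).setLoW (qm 112)).setHiD (qm 320)).setHiA (qm 3328)).setLoD (qm 288)).setLoA (qm
    3200)).setLoA (qm 3264))
    (by decide +kernel)))))
    (good_of_check
    (T 3187671 46189444 7264749 13096709 1683993 3465996 3465996 1197382 4201029 4201029 1849517
    2965823 2965823 55304538 12286415 12286415 24990453 15919718)
    (((((((((((((((((root.setHiD (qm 2048)).setHiD (qm 1024)).setHiU (qm 512)).setLoA (qm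
    2048)).setHiD (qm 512)).setHiU (qm 256)).setLoA (qm 3072)).setLoD (qm 256)).setHiU (qm
    128)).setLoU (qm 64)).setLoW (qm 64)).setLoW (qm 96)).setHiD (qm 384)).setHiA (qm
    3584)).setLoW (qm 112)).setHiD (qm 320)).setLoA (qm 3328))
    (by decide +kernel)))
    (good_splitW (qm 120)
    (good_splitW (qm 116)
    (good_splitW (qm 114)
    (good_of_check
    (R .u5 2432673 4753417 2421581 4947968 13306809 (-16769) 2774269 11863286 3903092 (-99990)
    2774269 2965823 2858575 (-71429) 2774269 2798935 2798935 6615116)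
    (((((((((((((((((((root.setHiD (qm 2048)).setHiD (qm 1024)).setHiU (qm 512)).setLoA (qm
    2048)).setHiD (qm 512)).setHiU (qm 256)).setLoA (qm 3072)).setLoD (qm 256)).setHiU (qm
    128)).setLoU (qm 64)).setLoW (qm 64)).setLoW (qm 96)).setHiD (qm 384)).setHiA (qm
    3584)).setLoW (qm 112)).setLoD (qm 320)).setHiW (qm 120)).setHiW (qm 116)).setHiW (qm 114))
    (by decide +kernel))
    (good_of_check
    (R .u5 2441006 4723423 2421581 4946603 13290746 (-25543) 2798930 11863286 3916687 (-101412)
    2798930 2965823 3030164 (-76738) 2798930 2823380 2823380 6653350)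
    (((((((((((((((((((root.setHiD (qm 2048)).setHiD (qm 1024)).setHiU (qm 512)).setLoA (qm
    2048)).setHiD (qm 512)).setHiU (qm 256)).setLoA (qm 3072)).setLoD (qm 256)).setHiU (qm
    128)).setLoU (qm 64)).setLoW (qm 64)).setLoW (qm 96)).setHiD (qm 384)).setHiA (qm
    3584)).setLoW (qm 112)).setLoD (qm 320)).setHiW (qm 120)).setHiW (qm 116)).setLoW (qm 114))
    (by decide +kernel)))
    (good_of_check
    (R .u5 2447751 4717944 2421581 4945237 13277198 (-32459) 2823375 11863286 3954976 (-103394)
    2823375 2965823 3369862 (-86823) 2823375 2871646 2871646 6796636)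
    ((((((((((((((((((root.setHiD (qm 2048)).setHiD (qm 1024)).setHiU (qm 512)).setLoA (qm
    2048)).setHiD (qm 512)).setHiU (qm 256)).setLoA (qm 3072)).setLoD (qm 256)).setHiU (qm
    128)).setLoU (qm 64)).setLoW (qm 64)).setLoW (qm 96)).setHiD (qm 384)).setHiA (qm
    3584)).setLoW (qm 112)).setLoD (qm 320)).setHiW (qm 120)).setLoW (qm 116))
    (by decide +kernel)))
    (good_splitU (qm 124)
    (good_of_check
    (R .u5 2458660 4739063 2421581 4945237 13254282 (-43307) 2871641 11863286 3782306 (-99788)
    2871641 2919115 3782306 (-99788) 2871641 2919115 2919115 6902914)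
    ((((((((((((((((((root.setHiD (qm 2048)).setHiD (qm 1024)).setHiU (qm 512)).setLoA (qm
    2048)).setHiD (qm 512)).setHiU (qm 256)).setLoA (qm 3072)).setLoD (qm 256)).setHiU (qm
    128)).setLoU (qm 64)).setLoW (qm 64)).setLoW (qm 96)).setHiD (qm 384)).setHiA (qm
    3584)).setLoW (qm 112)).setLoD (qm 320)).setLoW (qm 120)).setHiU (qm 124))
    (by decide +kernel))
    (good_of_check
    (R .u5 2469573 4653765 2421581 4939776 13261222 (-62994) 2919110 11863286 4180013 (-112833)
    2919110 2965823 3895218 (-103934) 2871641 2965823 2965823 7002793)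
    ((((((((((((((((((root.setHiD (qm 2048)).setHiD (qm 1024)).setHiU (qm 512)).setLoA (qm
    2048)).setHiD (qm 512)).setHiU (qm 256)).setLoA (qm 3072)).setLoD (qm 256)).setHiU (qm
    128)).setLoU (qm 64)).setLoW (qm 64)).setLoW (qm 96)).setHiD (qm 384)).setHiA (qm
    3584)).setLoW (qm 112)).setLoD (qm 320)).setLoW (qm 120)).setLoU (qm 124))
    (by decide +kernel))))))
    (good_splitA (qm 3840)
    (good_of_check
    (T 3523215 41524773 5931643 13591097 1730201 3372797 3372797 1327929 4190357 4190357 1977216
    2965823 2965823 49753360 12335822 12335822 25078293 15867834)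
    (((((((((((((((root.setHiD (qm 2048)).setHiD (qm 1024)).setHiU (qm 512)).setLoA (qm
    2048)).setHiD (qm 512)).setHiU (qm 256)).setLoA (qm 3072)).setLoD (qm 256)).setHiU (qm
    128)).setLoU (qm 64)).setLoW (qm 64)).setLoW (qm 96)).setHiD (qm 384)).setLoA (qm
    3584)).setHiA (qm 3840))
    (by decide +kernel))
    (good_of_check
    (T 3523215 35791398 4194305 14068122 1491311 2907112 2907112 1369291 4565797 4565797 1977216
    2965823 2965823 48125021 10751609 10751609 25165824 15867834)
    (((((((((((((((root.setHiD (qm 2048)).setHiD (qm 1024)).setHiU (qm 512)).setLoA (qm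
    2048)).setHiD (qm 512)).setHiU (qm 256)).setLoA (qm 3072)).setLoD (qm 256)).setHiU (qm
    128)).setLoU (qm 64)).setLoW (qm 64)).setLoW (qm 96)).setHiD (qm 384)).setLoA (qm
    3584)).setLoA (qm 3840))
    (by decide +kernel))))
    (good_splitU (qm 112)
    (good_of_check
    (R .u5 2469573 0 0 4838741 13358929 (-91499) 2568474 11863286 1170539 (-27198) 2568474 2774274
    1170539 (-27198) 2568474 2774274 2774274 6249260)
    ((((((((((((((root.setHiD (qm 2048)).setHiD (qm 1024)).setHiU (qm 512)).setLoA (qm
    2048)).setHiD (qm 512)).setHiU (qm 256)).setLoA (qm 3072)).setLoD (qm 256)).setHiU (qm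
    128)).setLoU (qm 64)).setLoW (qm 64)).setLoW (qm 96)).setLoD (qm 384)).setHiU (qm 112))
    (by decide +kernel))
    (good_of_check
    (R .u5 2498145 0 0 4816896 13321560 (-126202) 2774269 11863286 2902445 (-75765) 2774269
    2965823 1897514 (-44361) 2568474 2965823 2965823 6793239)
    ((((((((((((((root.setHiD (qm 2048)).setHiD (qm 1024)).setHiU (qm 512)).setLoA (qm
    2048)).setHiD (qm 512)).setHiU (qm 256)).setLoA (qm 3072)).setLoD (qm 256)).setHiU (qm
    128)).setLoU (qm 64)).setLoW (qm 64)).setLoW (qm 96)).setLoD (qm 384)).setLoU (qm 112))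
    (by decide +kernel)))))))

set_option maxHeartbeats 4000000 in
/-- One subtree of the cover. -/
theorem sub37_good : BoxGood
    (((((((((((root.setHiD (qm 2048)).setHiD (qm 1024)).setHiU (qm 512)).setLoA (qm 2048)).setHiD
    (qm 512)).setHiU (qm 256)).setLoA (qm 3072)).setLoD (qm 256)).setLoU (qm 128)).setHiW (qm
    128)).setHiW (qm 64)) :=
    (good_of_check
    (R .u4 2804110 0 0 4805973 13454838 (-174700) 2965818 11863286 9191618 (-284713) 2965818
    4194306 0 0 0 0 2097154 4434945)
    (((((((((((root.setHiD (qm 2048)).setHiD (qm 1024)).setHiU (qm 512)).setLoA (qm 2048)).setHiD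
    (qm 512)).setHiU (qm 256)).setLoA (qm 3072)).setLoD (qm 256)).setLoU (qm 128)).setHiW (qm
    128)).setHiW (qm 64))
    (by decide +kernel))

set_option maxHeartbeats 4000000 in
/-- One subtree of the cover. -/
theorem sub38_good : BoxGood
    (((((((((((((root.setHiD (qm 2048)).setHiD (qm 1024)).setHiU (qm 512)).setLoA (qm
    2048)).setHiD (qm 512)).setHiU (qm 256)).setLoA (qm 3072)).setLoD (qm 256)).setLoU (qm
    128)).setHiW (qm 128)).setLoW (qm 64)).setHiD (qm 384)).setHiW (qm 96)) :=
    (good_splitD (qm 320)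
    (good_splitU (qm 192)
    (good_splitU (qm 160)
    (good_splitA (qm 3584)
    (good_splitA (qm 3328)
    (good_splitW (qm 80)
    (good_splitU (qm 144)
    (good_of_check
    (T 3187671 52698990 8388609 12582911 1989938 4277223 3260653 1146720 3370010 4249871 1882254
    3145730 2344690 57854949 17565324 10355985 24902303 15885148)
    ((((((((((((((((((((root.setHiD (qm 2048)).setHiD (qm 1024)).setHiU (qm 512)).setLoA (qm
    2048)).setHiD (qm 512)).setHiU (qm 256)).setLoA (qm 3072)).setLoD (qm 256)).setLoU (qm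
    128)).setHiW (qm 128)).setLoW (qm 64)).setHiD (qm 384)).setHiW (qm 96)).setHiD (qm
    320)).setHiU (qm 192)).setHiU (qm 160)).setHiA (qm 3584)).setHiA (qm 3328)).setHiW (qm
    80)).setHiU (qm 144))
    (by decide +kernel))
    (good_of_check
    (R .u5 2412414 6350595 2965819 4991659 13295056 19843 3145726 11863286 8525374 (-249641)
    3145726 3315891 0 42 2097150 2344690 2344690 4837365)
    ((((((((((((((((((((root.setHiD (qm 2048)).setHiD (qm 1024)).setHiU (qm 512)).setLoA (qm
    2048)).setHiD (qm 512)).setHiU (qm 256)).setLoA (qm 3072)).setLoD (qm 256)).setLoU (qm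
    128)).setHiW (qm 128)).setLoW (qm 64)).setHiD (qm 384)).setHiW (qm 96)).setHiD (qm
    320)).setHiU (qm 192)).setHiU (qm 160)).setHiA (qm 3584)).setHiA (qm 3328)).setHiW (qm
    80)).setLoU (qm 144))
    (by decide +kernel)))
    (good_splitD (qm 288)
    (good_splitU (qm 144)
    (good_of_check
    (T 3187671 52060214 8388609 12582911 1830244 4089804 3336618 1166547 3589592 4223642 1816189
    3145730 2568479 56787819 16059744 11139422 24902303 15919718)
    (((((((((((((((((((((root.setHiD (qm 2048)).setHiD (qm 1024)).setHiU (qm 512)).setLoA (qm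
    2048)).setHiD (qm 512)).setHiU (qm 256)).setLoA (qm 3072)).setLoD (qm 256)).setLoU (qm
    128)).setHiW (qm 128)).setLoW (qm 64)).setHiD (qm 384)).setHiW (qm 96)).setHiD (qm
    320)).setHiU (qm 192)).setHiU (qm 160)).setHiA (qm 3584)).setHiA (qm 3328)).setLoW (qm
    80)).setHiD (qm 288)).setHiU (qm 144))
    (by decide +kernel))
    (good_splitA (qm 3200)
    (good_of_check
    (R .u5 2401505 6477634 3203451 5013504 13304392 34909 3145726 11863286 8720152 (-254270)
    3145726 3315891 236940 (-4585) 2344685 2568479 2568479 5874288)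
    ((((((((((((((((((((((root.setHiD (qm 2048)).setHiD (qm 1024)).setHiU (qm 512)).setLoA (qm
    2048)).setHiD (qm 512)).setHiU (qm 256)).setLoA (qm 3072)).setLoD (qm 256)).setLoU (qm
    128)).setHiW (qm 128)).setLoW (qm 64)).setHiD (qm 384)).setHiW (qm 96)).setHiD (qm
    320)).setHiU (qm 192)).setHiU (qm 160)).setHiA (qm 3584)).setHiA (qm 3328)).setLoW (qm
    80)).setHiD (qm 288)).setLoU (qm 144)).setHiA (qm 3200))
    (by decide +kernel))
    (good_of_check
    (T 3187671 49200040 7846826 12842379 1793754 4166444 3217369 1177715 3535910 4335764 1849517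
    3315891 2568479 56269922 16771913 10663110 24902303 15885148)
    ((((((((((((((((((((((root.setHiD (qm 2048)).setHiD (qm 1024)).setHiU (qm 512)).setLoA (qm
    2048)).setHiD (qm 512)).setHiU (qm 256)).setLoA (qm 3072)).setLoD (qm 256)).setLoU (qm
    128)).setHiW (qm 128)).setLoW (qm 64)).setHiD (qm 384)).setHiW (qm 96)).setHiD (qm
    320)).setHiU (qm 192)).setHiU (qm 160)).setHiA (qm 3584)).setHiA (qm 3328)).setLoW (qm
    80)).setHiD (qm 288)).setLoU (qm 144)).setLoA (qm 3200))
    (by decide +kernel))))
    (good_of_check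
    (R .u5 2397337 6057552 2965819 4980736 13318064 37777 2965818 11863286 7802912 (-217284)
    2965818 3315891 255024 (-4938) 2344685 2568479 2568479 5903926)
    ((((((((((((((((((((root.setHiD (qm 2048)).setHiD (qm 1024)).setHiU (qm 512)).setLoA (qm
    2048)).setHiD (qm 512)).setHiU (qm 256)).setLoA (qm 3072)).setLoD (qm 256)).setLoU (qm
    128)).setHiW (qm 128)).setLoW (qm 64)).setHiD (qm 384)).setHiW (qm 96)).setHiD (qm
    320)).setHiU (qm 192)).setHiU (qm 160)).setHiA (qm 3584)).setHiA (qm 3328)).setLoW (qm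
    80)).setLoD (qm 288))
    (by decide +kernel))))
    (good_of_check
    (T 3187671 46759684 7264749 13096709 1826553 4081556 3179556 1179541 3637096 4376788 1914432
    3315891 2568479 56236020 16120248 10496039 24990453 15867834)
    ((((((((((((((((((root.setHiD (qm 2048)).setHiD (qm 1024)).setHiU (qm 512)).setLoA (qm
    2048)).setHiD (qm 512)).setHiU (qm 256)).setLoA (qm 3072)).setLoD (qm 256)).setLoU (qm
    128)).setHiW (qm 128)).setLoW (qm 64)).setHiD (qm 384)).setHiW (qm 96)).setHiD (qm
    320)).setHiU (qm 192)).setHiU (qm 160)).setHiA (qm 3584)).setLoA (qm 3328))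
    (by decide +kernel)))
    (good_of_check
    (T 3523215 41012122 5931643 13591097 1602039 3629935 2818778 1346254 4021170 4565443 1914432
    3315891 2568479 48873483 13939210 9773713 25165824 15867834)
    (((((((((((((((((root.setHiD (qm 2048)).setHiD (qm 1024)).setHiU (qm 512)).setLoA (qm
    2048)).setHiD (qm 512)).setHiU (qm 256)).setLoA (qm 3072)).setLoD (qm 256)).setLoU (qm
    128)).setHiW (qm 128)).setLoW (qm 64)).setHiD (qm 384)).setHiW (qm 96)).setHiD (qm
    320)).setHiU (qm 192)).setHiU (qm 160)).setLoA (qm 3584))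
    (by decide +kernel)))
    (good_splitW (qm 80)
    (good_of_check
    (R .u4 2899136 0 0 4958891 13195489 (-235177) 3315886 11863286 6777579 (-243776) 3315886
    3632376 0 0 0 0 2344690 4980155)
    (((((((((((((((((root.setHiD (qm 2048)).setHiD (qm 1024)).setHiU (qm 512)).setLoA (qm
    2048)).setHiD (qm 512)).setHiU (qm 256)).setLoA (qm 3072)).setLoD (qm 256)).setLoU (qm
    128)).setHiW (qm 128)).setLoW (qm 64)).setHiD (qm 384)).setHiW (qm 96)).setHiD (qm
    320)).setHiU (qm 192)).setLoU (qm 160)).setHiW (qm 80))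
    (by decide +kernel))
    (good_splitW (qm 88)
    (good_splitA (qm 3584)
    (good_of_check
    (R .u5 2461236 6069805 2421581 4958891 13254277 (-47493) 3315886 11863286 10037195 (-321211)
    3315886 3632376 0 42 2344685 2459131 2459131 5017365)
    (((((((((((((((((((root.setHiD (qm 2048)).setHiD (qm 1024)).setHiU (qm 512)).setLoA (qm
    2048)).setHiD (qm 512)).setHiU (qm 256)).setLoA (qm 3072)).setLoD (qm 256)).setLoU (qm
    128)).setHiW (qm 128)).setLoW (qm 64)).setHiD (qm 384)).setHiW (qm 96)).setHiD (qm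
    320)).setHiU (qm 192)).setLoU (qm 160)).setLoW (qm 80)).setHiW (qm 88)).setHiA (qm 3584))
    (by decide +kernel))
    (good_splitD (qm 288)
    (good_splitA (qm 3840)
    (good_of_check
    (T 3187671 41012122 5931643 13591097 1602039 3975428 2689844 1218039 3811948 4751745 1914432
    3632376 2459131 54408841 15654561 8843396 25078293 15833150)
    (((((((((((((((((((((root.setHiD (qm 2048)).setHiD (qm 1024)).setHiU (qm 512)).setLoA (qm
    2048)).setHiD (qm 512)).setHiU (qm 256)).setLoA (qm 3072)).setLoD (qm 256)).setLoU (qm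
    128)).setHiW (qm 128)).setLoW (qm 64)).setHiD (qm 384)).setHiW (qm 96)).setHiD (qm
    320)).setHiU (qm 192)).setLoU (qm 160)).setLoW (qm 80)).setHiW (qm 88)).setLoA (qm
    3584)).setHiD (qm 288)).setHiA (qm 3840))
    (by decide +kernel))
    (good_of_check
    (T 3523215 35349529 4194305 14068122 1380843 3478325 2342190 1385326 4211172 4883595 1914432
    3632376 2459131 47338912 13592707 8431377 25165824 15833150)
    (((((((((((((((((((((root.setHiD (qm 2048)).setHiD (qm 1024)).setHiU (qm 512)).setLoA (qm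
    2048)).setHiD (qm 512)).setHiU (qm 256)).setLoA (qm 3072)).setLoD (qm 256)).setLoU (qm
    128)).setHiW (qm 128)).setLoW (qm 64)).setHiD (qm 384)).setHiW (qm 96)).setHiD (qm
    320)).setHiU (qm 192)).setLoU (qm 160)).setLoW (qm 80)).setHiW (qm 88)).setLoA (qm
    3584)).setHiD (qm 288)).setLoA (qm 3840))
    (by decide +kernel)))
    (good_of_check
    (R .u5 2493978 0 0 4937045 13231615 (-93406) 3315886 11863286 9503611 (-308034) 3315886
    3632376 0 42 2344685 2459131 2459131 4820048)
    ((((((((((((((((((((root.setHiD (qm 2048)).setHiD (qm 1024)).setHiU (qm 512)).setLoA (qm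
    2048)).setHiD (qm 512)).setHiU (qm 256)).setLoA (qm 3072)).setLoD (qm 256)).setLoU (qm
    128)).setHiW (qm 128)).setLoW (qm 64)).setHiD (qm 384)).setHiW (qm 96)).setHiD (qm
    320)).setHiU (qm 192)).setLoU (qm 160)).setLoW (qm 80)).setHiW (qm 88)).setLoA (qm
    3584)).setLoD (qm 288))
    (by decide +kernel))))
    (good_splitD (qm 288)
    (good_splitU (qm 176)
    (good_splitA (qm 3584)
    (good_of_check
    (R .u5 2454493 6213285 2421581 4991659 13229490 (-29185) 3315886 11863286 9458179 (-296943)
    3315886 3477736 151532 (-3213) 2459126 2568479 2568479 5513080)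
    (((((((((((((((((((((root.setHiD (qm 2048)).setHiD (qm 1024)).setHiU (qm 512)).setLoA (qm
    2048)).setHiD (qm 512)).setHiU (qm 256)).setLoA (qm 3072)).setLoD (qm 256)).setLoU (qm
    128)).setHiW (qm 128)).setLoW (qm 64)).setHiD (qm 384)).setHiW (qm 96)).setHiD (qm
    320)).setHiU (qm 192)).setLoU (qm 160)).setLoW (qm 80)).setLoW (qm 88)).setHiD (qm
    288)).setHiU (qm 176)).setHiA (qm 3584))
    (by decide +kernel))
    (good_of_check
    (T 3523215 40760514 5931643 13591097 1539136 3756136 2748410 1355042 3928319 4617802 1882254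
    3477736 2568479 48427583 14740374 9585802 25165824 15850502)
    (((((((((((((((((((((root.setHiD (qm 2048)).setHiD (qm 1024)).setHiU (qm 512)).setLoA (qm
    2048)).setHiD (qm 512)).setHiU (qm 256)).setLoA (qm 3072)).setLoD (qm 256)).setLoU (qm
    128)).setHiW (qm 128)).setLoW (qm 64)).setHiD (qm 384)).setHiW (qm 96)).setHiD (qm
    320)).setHiU (qm 192)).setLoU (qm 160)).setLoW (qm 80)).setLoW (qm 88)).setHiD (qm
    288)).setHiU (qm 176)).setLoA (qm 3584))
    (by decide +kernel)))
    (good_of_check
    (R .t4n 3466851 0 0 4969813 13146111 (-370222) 3295096 11811037 (-2262462) 284953 3295096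
    3457919 0 0 0 0 2568479 7114031)
    ((((((((((((((((((((root.setHiD (qm 2048)).setHiD (qm 1024)).setHiU (qm 512)).setLoA (qm
    2048)).setHiD (qm 512)).setHiU (qm 256)).setLoA (qm 3072)).setLoD (qm 256)).setLoU (qm
    128)).setHiW (qm 128)).setLoW (qm 64)).setHiD (qm 384)).setHiW (qm 96)).setHiD (qm
    320)).setHiU (qm 192)).setLoU (qm 160)).setLoW (qm 80)).setLoW (qm 88)).setHiD (qm
    288)).setLoU (qm 176))
    (by decide +kernel)))
    (good_of_check
    (R .u5 2493979 0 0 4937045 13231613 (-93407) 3315886 11863286 9503598 (-308034) 3315886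
    3632376 42474 (-870) 2459126 2568479 2568479 5259875)
    (((((((((((((((((((root.setHiD (qm 2048)).setHiD (qm 1024)).setHiU (qm 512)).setLoA (qm
    2048)).setHiD (qm 512)).setHiU (qm 256)).setLoA (qm 3072)).setLoD (qm 256)).setLoU (qm
    128)).setHiW (qm 128)).setLoW (qm 64)).setHiD (qm 384)).setHiW (qm 96)).setHiD (qm
    320)).setHiU (qm 192)).setLoU (qm 160)).setLoW (qm 80)).setLoW (qm 88)).setLoD (qm 288))
    (by decide +kernel))))))
    (good_of_check
    (R .t4n 3499601 0 0 4893355 13174856 (-417618) 3437984 11805217 2551157 80340 3437984 4027135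
    0 0 0 0 2568479 6964719)
    (((((((((((((((root.setHiD (qm 2048)).setHiD (qm 1024)).setHiU (qm 512)).setLoA (qm
    2048)).setHiD (qm 512)).setHiU (qm 256)).setLoA (qm 3072)).setLoD (qm 256)).setLoU (qm
    128)).setHiW (qm 128)).setLoW (qm 64)).setHiD (qm 384)).setHiW (qm 96)).setHiD (qm
    320)).setLoU (qm 192))
    (by decide +kernel)))
    (good_of_check
    (R .u5 2476316 0 0 4849664 13374685 (-106787) 2965818 11863286 10493085 (-310820) 2965818
    4194306 20069 (-271) 2097150 2568479 2568479 5371492)
    ((((((((((((((root.setHiD (qm 2048)).setHiD (qm 1024)).setHiU (qm 512)).setLoA (qm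
    2048)).setHiD (qm 512)).setHiU (qm 256)).setLoA (qm 3072)).setLoD (qm 256)).setLoU (qm
    128)).setHiW (qm 128)).setLoW (qm 64)).setHiD (qm 384)).setHiW (qm 96)).setLoD (qm 320))
    (by decide +kernel)))

end Vale.Agent.P226.Cert
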