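import Vale.Agent.P226.CertBox
import Vale.Agent.P226.CertSound

/-! Part 20 of the cover (P226). -/

namespace Vale.Agent.P226.Cert

set_option maxHeartbeats 4000000 in
/-- One subtree of the cover. -/
theorem sub39_good : BoxGood
    (((((((((((((root.setHiD (qm 2048)).setHiD (qm 1024)).setHiU (qm 512)).setLoA (qm
    2048)).setHiD (qm 512)).setHiU (qm 256)).setLoA (qm 3072)).setLoD (qm 256)).setLoU (qm
    128)).setHiW (qm 128)).setLoW (qm 64)).setHiD (qm 384)).setLoW (qm 96)) :=
    (good_splitD (qm 320)
    (good_splitU (qm 192)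
    (good_splitU (qm 160)
    (good_splitA (qm 3584)
    (good_splitW (qm 112)
    (good_splitD (qm 288)
    (good_splitA (qm 3328)
    (good_splitU (qm 144)
    (good_splitA (qm 3200)
    (good_splitA (qm 3136)
    (good_of_check
    (T 3187671 52060214 8388609 12582911 1830244 4089804 3587680 1166547 3589592 4037261 1816189
    3145730 2774274 56787819 16059744 12583933 24835985 15919718)
    (((((((((((((((((((((((root.setHiD (qm 2048)).setHiD (qm 1024)).setHiU (qm 512)).setLoA (qm
    2048)).setHiD (qm 512)).setHiU (qm 256)).setLoA (qm 3072)).setLoD (qm 256)).setLoU (qm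
    128)).setHiW (qm 128)).setLoW (qm 64)).setHiD (qm 384)).setLoW (qm 96)).setHiD (qm
    320)).setHiU (qm 192)).setHiU (qm 160)).setHiA (qm 3584)).setHiW (qm 112)).setHiD (qm
    288)).setHiA (qm 3328)).setHiU (qm 144)).setHiA (qm 3200)).setHiA (qm 3136))
    (by decide +kernel))
    (good_of_check
    (T 3187671 50457964 8122236 12713307 1773915 3963933 3477263 1176830 3731733 4143241 1816189
    3145730 2774274 56267887 15178025 12072327 24858111 15919718)
    (((((((((((((((((((((((root.setHiD (qm 2048)).setHiD (qm 1024)).setHiU (qm 512)).setLoA (qm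
    2048)).setHiD (qm 512)).setHiU (qm 256)).setLoA (qm 3072)).setLoD (qm 256)).setLoU (qm
    128)).setHiW (qm 128)).setLoW (qm 64)).setHiD (qm 384)).setLoW (qm 96)).setHiD (qm
    320)).setHiU (qm 192)).setHiU (qm 160)).setHiA (qm 3584)).setHiW (qm 112)).setHiD (qm
    288)).setHiA (qm 3328)).setHiU (qm 144)).setHiA (qm 3200)).setLoA (qm 3136))
    (by decide +kernel)))
    (good_of_check
    (T 3187671 48901858 7846826 12842379 1719208 3841687 3370026 1186800 3863904 4243168 1816189
    3145730 2774274 55769922 14416753 11616273 24902303 15919718)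
    ((((((((((((((((((((((root.setHiD (qm 2048)).setHiD (qm 1024)).setHiU (qm 512)).setLoA (qm
    2048)).setHiD (qm 512)).setHiU (qm 256)).setLoA (qm 3072)).setLoD (qm 256)).setLoU (qm
    128)).setHiW (qm 128)).setLoW (qm 64)).setHiD (qm 384)).setLoW (qm 96)).setHiD (qm
    320)).setHiU (qm 192)).setHiU (qm 160)).setHiA (qm 3584)).setHiW (qm 112)).setHiD (qm
    288)).setHiA (qm 3328)).setHiU (qm 144)).setLoA (qm 3200))
    (by decide +kernel)))
    (good_splitW (qm 104)
    (good_of_check
    (R .u5 2408247 6414766 2965819 5013504 13284365 29867 3145726 11863286 8599608 (-251411)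
    3145726 3315891 1316600 (-29997) 2568474 2673357 2673357 6274024)
    ((((((((((((((((((((((root.setHiD (qm 2048)).setHiD (qm 1024)).setHiU (qm 512)).setLoA (qm
    2048)).setHiD (qm 512)).setHiU (qm 256)).setLoA (qm 3072)).setLoD (qm 256)).setLoU (qm
    128)).setHiW (qm 128)).setLoW (qm 64)).setHiD (qm 384)).setLoW (qm 96)).setHiD (qm
    320)).setHiU (qm 192)).setHiU (qm 160)).setHiA (qm 3584)).setHiW (qm 112)).setHiD (qm
    288)).setHiA (qm 3328)).setLoU (qm 144)).setHiW (qm 104))
    (by decide +kernel))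
    (good_splitW (qm 108)
    (good_of_check
    (R .u5 2419158 6301959 2965819 5013504 13254933 20883 3145726 11863286 8405618 (-246771)
    3145726 3315891 2016242 (-48160) 2673352 2724283 2724283 6406932)
    (((((((((((((((((((((((root.setHiD (qm 2048)).setHiD (qm 1024)).setHiU (qm 512)).setLoA (qm
    2048)).setHiD (qm 512)).setHiU (qm 256)).setLoA (qm 3072)).setLoD (qm 256)).setLoU (qm
    128)).setHiW (qm 128)).setLoW (qm 64)).setHiD (qm 384)).setLoW (qm 96)).setHiD (qm
    320)).setHiU (qm 192)).setHiU (qm 160)).setHiA (qm 3584)).setHiW (qm 112)).setHiD (qm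
    288)).setHiA (qm 3328)).setLoU (qm 144)).setLoW (qm 104)).setHiW (qm 108))
    (by decide +kernel))
    (good_of_check
    (R .u5 2419182 6301959 2965819 5013504 13254805 20883 3145726 11863286 8405191 (-246761)
    3145726 3315891 2609944 (-63815) 2724278 2774274 2774274 6614657)
    (((((((((((((((((((((((root.setHiD (qm 2048)).setHiD (qm 1024)).setHiU (qm 512)).setLoA (qm
    2048)).setHiD (qm 512)).setHiU (qm 256)).setLoA (qm 3072)).setLoD (qm 256)).setLoU (qm
    128)).setHiW (qm 128)).setLoW (qm 64)).setHiD (qm 384)).setLoW (qm 96)).setHiD (qm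
    320)).setHiU (qm 192)).setHiU (qm 160)).setHiA (qm 3584)).setHiW (qm 112)).setHiD (qm
    288)).setHiA (qm 3328)).setLoU (qm 144)).setLoW (qm 104)).setLoW (qm 108))
    (by decide +kernel)))))
    (good_of_check
    (T 3187671 46189444 7264749 13096709 1683993 3911496 3243246 1197382 3825864 4360959 1849517
    3315891 2774274 55304538 14993976 11109206 24990453 15902442)
    ((((((((((((((((((((root.setHiD (qm 2048)).setHiD (qm 1024)).setHiU (qm 512)).setLoA (qm
    2048)).setHiD (qm 512)).setHiU (qm 256)).setLoA (qm 3072)).setLoD (qm 256)).setLoU (qm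
    128)).setHiW (qm 128)).setLoW (qm 64)).setHiD (qm 384)).setLoW (qm 96)).setHiD (qm
    320)).setHiU (qm 192)).setHiU (qm 160)).setHiA (qm 3584)).setHiW (qm 112)).setHiD (qm
    288)).setLoA (qm 3328))
    (by decide +kernel)))
    (good_splitW (qm 104)
    (good_splitW (qm 100)
    (good_of_check
    (R .u5 2419157 5672994 2421581 4980736 13296181 8439 2965818 11863286 7412347 (-207971)
    2965818 3315891 933773 (-21180) 2568474 2621442 2621442 5976435)
    (((((((((((((((((((((root.setHiD (qm 2048)).setHiD (qm 1024)).setHiU (qm 512)).setLoA (qm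
    2048)).setHiD (qm 512)).setHiU (qm 256)).setLoA (qm 3072)).setLoD (qm 256)).setLoU (qm
    128)).setHiW (qm 128)).setLoW (qm 64)).setHiD (qm 384)).setLoW (qm 96)).setHiD (qm
    320)).setHiU (qm 192)).setHiU (qm 160)).setHiA (qm 3584)).setHiW (qm 112)).setLoD (qm
    288)).setHiW (qm 104)).setHiW (qm 100))
    (by decide +kernel))
    (good_of_check
    (R .u5 2423325 5612201 2421581 4980736 13288719 3854 2965818 11863286 7338532 (-206192)
    2965818 3315891 1400511 (-32669) 2621438 2673357 2673357 6164271)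
    (((((((((((((((((((((root.setHiD (qm 2048)).setHiD (qm 1024)).setHiU (qm 512)).setLoA (qm
    2048)).setHiD (qm 512)).setHiU (qm 256)).setLoA (qm 3072)).setLoD (qm 256)).setLoU (qm
    128)).setHiW (qm 128)).setLoW (qm 64)).setHiD (qm 384)).setLoW (qm 96)).setHiD (qm
    320)).setHiU (qm 192)).setHiU (qm 160)).setHiA (qm 3584)).setHiW (qm 112)).setLoD (qm
    288)).setHiW (qm 104)).setLoW (qm 100))
    (by decide +kernel)))
    (good_splitU (qm 144)
    (good_splitA (qm 3328)
    (good_of_check
    (R .u5 2404080 5960489 2965819 4991659 13297917 32706 2965818 11863286 6688951 (-183390)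
    2965818 3145730 2531602 (-60686) 2673352 2774274 2774274 6728132)
    ((((((((((((((((((((((root.setHiD (qm 2048)).setHiD (qm 1024)).setHiU (qm 512)).setLoA (qm
    2048)).setHiD (qm 512)).setHiU (qm 256)).setLoA (qm 3072)).setLoD (qm 256)).setLoU (qm
    128)).setHiW (qm 128)).setLoW (qm 64)).setHiD (qm 384)).setLoW (qm 96)).setHiD (qm
    320)).setHiU (qm 192)).setHiU (qm 160)).setHiA (qm 3584)).setHiW (qm 112)).setLoD (qm
    288)).setLoW (qm 104)).setHiU (qm 144)).setHiA (qm 3328))
    (by decide +kernel))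
    (good_of_check
    (T 3187671 46472815 7264749 13096709 1754835 3771887 3323654 1188602 3940155 4291986 1882254
    3145730 2774274 55771618 14001338 11402247 24990453 15850502)
    ((((((((((((((((((((((root.setHiD (qm 2048)).setHiD (qm 1024)).setHiU (qm 512)).setLoA (qm
    2048)).setHiD (qm 512)).setHiU (qm 256)).setLoA (qm 3072)).setLoD (qm 256)).setLoU (qm
    128)).setHiW (qm 128)).setLoW (qm 64)).setHiD (qm 384)).setLoW (qm 96)).setHiD (qm
    320)).setHiU (qm 192)).setHiU (qm 160)).setHiA (qm 3584)).setHiW (qm 112)).setLoD (qm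
    288)).setLoW (qm 104)).setHiU (qm 144)).setLoA (qm 3328))
    (by decide +kernel)))
    (good_of_check
    (R .u5 2458660 5635436 2421581 4969813 13243532 (-40133) 3145726 11863286 7714913 (-229870)
    3145726 3315891 1782874 (-43417) 2673352 2774274 2774274 6326889)
    (((((((((((((((((((((root.setHiD (qm 2048)).setHiD (qm 1024)).setHiU (qm 512)).setLoA (qm
    2048)).setHiD (qm 512)).setHiU (qm 256)).setLoA (qm 3072)).setLoD (qm 256)).setLoU (qm
    128)).setHiW (qm 128)).setLoW (qm 64)).setHiD (qm 384)).setLoW (qm 96)).setHiD (qm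
    320)).setHiU (qm 192)).setHiU (qm 160)).setHiA (qm 3584)).setHiW (qm 112)).setLoD (qm
    288)).setLoW (qm 104)).setLoU (qm 144))
    (by decide +kernel)))))
    (good_splitD (qm 288)
    (good_splitA (qm 3328)
    (good_splitU (qm 144)
    (good_splitA (qm 3200)
    (good_splitD (qm 272)
    (good_splitU (qm 136)
    (good_of_check
    (T 3187671 51591203 8388609 12582911 1712992 3827796 3703396 1180522 3854389 3961518 1765019
    3057101 2965823 55982817 14265507 13465406 24858111 15945597)
    ((((((((((((((((((((((((root.setHiD (qm 2048)).setHiD (qm 1024)).setHiU (qm 512)).setLoA (qm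
    2048)).setHiD (qm 512)).setHiU (qm 256)).setLoA (qm 3072)).setLoD (qm 256)).setLoU (qm
    128)).setHiW (qm 128)).setLoW (qm 64)).setHiD (qm 384)).setLoW (qm 96)).setHiD (qm
    320)).setHiU (qm 192)).setHiU (qm 160)).setHiA (qm 3584)).setLoW (qm 112)).setHiD (qm
    288)).setHiA (qm 3328)).setHiU (qm 144)).setHiA (qm 3200)).setHiD (qm 272)).setHiU (qm 136))
    (by decide +kernel))
    (good_splitA (qm 3136)
    (good_splitD (qm 264)
    (good_of_check
    (T 3187671 51591203 8388609 12582911 1712992 3952196 3703396 1180522 3740500 3961518 1765019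
    3145730 2965823 55982817 15125839 13465406 24835985 15936975)
    ((((((((((((((((((((((((((root.setHiD (qm 2048)).setHiD (qm 1024)).setHiU (qm 512)).setLoA (qm
    2048)).setHiD (qm 512)).setHiU (qm 256)).setLoA (qm 3072)).setLoD (qm 256)).setLoU (qm
    128)).setHiW (qm 128)).setLoW (qm 64)).setHiD (qm 384)).setLoW (qm 96)).setHiD (qm
    320)).setHiU (qm 192)).setHiU (qm 160)).setHiA (qm 3584)).setLoW (qm 112)).setHiD (qm
    288)).setHiA (qm 3328)).setHiU (qm 144)).setHiA (qm 3200)).setHiD (qm 272)).setLoU (qm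
    136)).setHiA (qm 3136)).setHiD (qm 264))
    (by decide +kernel))
    (good_of_check
    (R .u5 2404080 6309530 3315887 5035349 13249949 47264 3057096 11863286 7229126 (-202381)
    3057096 3145730 4378015 (-111173) 2774269 2965823 2965823 7511355)
    ((((((((((((((((((((((((((root.setHiD (qm 2048)).setHiD (qm 1024)).setHiU (qm 512)).setLoA (qm
    2048)).setHiD (qm 512)).setHiU (qm 256)).setLoA (qm 3072)).setLoD (qm 256)).setLoU (qm
    128)).setHiW (qm 128)).setLoW (qm 64)).setHiD (qm 384)).setLoW (qm 96)).setHiD (qm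
    320)).setHiU (qm 192)).setHiU (qm 160)).setHiA (qm 3584)).setLoW (qm 112)).setHiD (qm
    288)).setHiA (qm 3328)).setHiU (qm 144)).setHiA (qm 3200)).setHiD (qm 272)).setLoU (qm
    136)).setHiA (qm 3136)).setLoD (qm 264))
    (by decide +kernel)))
    (good_of_check
    (T 3187671 50154001 8122236 12713307 1697924 3874749 3632880 1185914 3826173 4034151 1782239
    3145730 2965823 55748434 14628611 13091817 24858111 15928349)
    (((((((((((((((((((((((((root.setHiD (qm 2048)).setHiD (qm 1024)).setHiU (qm 512)).setLoA (qm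
    2048)).setHiD (qm 512)).setHiU (qm 256)).setLoA (qm 3072)).setLoD (qm 256)).setLoU (qm
    128)).setHiW (qm 128)).setLoW (qm 64)).setHiD (qm 384)).setLoW (qm 96)).setHiD (qm
    320)).setHiU (qm 192)).setHiU (qm 160)).setHiA (qm 3584)).setLoW (qm 112)).setHiD (qm
    288)).setHiA (qm 3328)).setHiU (qm 144)).setHiA (qm 3200)).setHiD (qm 272)).setLoU (qm
    136)).setLoA (qm 3136))
    (by decide +kernel))))
    (good_splitW (qm 120)
    (good_of_check
    (R .u5 2383849 6301964 3203451 5024427 13297229 66331 2965818 11863286 7057138 (-192081)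
    2965818 3145730 4107683 (-102330) 2774269 2871646 2871646 7290908)
    ((((((((((((((((((((((((root.setHiD (qm 2048)).setHiD (qm 1024)).setHiU (qm 512)).setLoA (qm
    2048)).setHiD (qm 512)).setHiU (qm 256)).setLoA (qm 3072)).setLoD (qm 256)).setLoU (qm
    128)).setHiW (qm 128)).setLoW (qm 64)).setHiD (qm 384)).setLoW (qm 96)).setHiD (qm
    320)).setHiU (qm 192)).setHiU (qm 160)).setHiA (qm 3584)).setLoW (qm 112)).setHiD (qm
    288)).setHiA (qm 3328)).setHiU (qm 144)).setHiA (qm 3200)).setLoD (qm 272)).setHiW (qm 120))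
    (by decide +kernel))
    (good_splitU (qm 136)
    (good_splitA (qm 3136)
    (good_of_check
    (R .u5 2386425 6309531 3315887 5029888 13277248 68231 2965818 11863286 6468786 (-174064)
    2965818 3057101 5300514 (-137555) 2871641 2965823 2965823 7655387)
    ((((((((((((((((((((((((((root.setHiD (qm 2048)).setHiD (qm 1024)).setHiU (qm 512)).setLoA (qm
    2048)).setHiD (qm 512)).setHiU (qm 256)).setLoA (qm 3072)).setLoD (qm 256)).setLoU (qm
    128)).setHiW (qm 128)).setLoW (qm 64)).setHiD (qm 384)).setLoW (qm 96)).setHiD (qm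
    320)).setHiU (qm 192)).setHiU (qm 160)).setHiA (qm 3584)).setLoW (qm 112)).setHiD (qm
    288)).setHiA (qm 3328)).setHiU (qm 144)).setHiA (qm 3200)).setLoD (qm 272)).setLoW (qm
    120)).setHiU (qm 136)).setHiA (qm 3136))
    (by decide +kernel))
    (good_of_check
    (T 3187671 50305523 8122236 12713307 1735805 3797907 3676607 1181411 3889048 3992302 1799294
    3057101 2965823 56008720 14074028 13305282 24858111 15911083)
    ((((((((((((((((((((((((((root.setHiD (qm 2048)).setHiD (qm 1024)).setHiU (qm 512)).setLoA (qm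
    2048)).setHiD (qm 512)).setHiU (qm 256)).setLoA (qm 3072)).setLoD (qm 256)).setLoU (qm
    128)).setHiW (qm 128)).setLoW (qm 64)).setHiD (qm 384)).setLoW (qm 96)).setHiD (qm
    320)).setHiU (qm 192)).setHiU (qm 160)).setHiA (qm 3584)).setLoW (qm 112)).setHiD (qm
    288)).setHiA (qm 3328)).setHiU (qm 144)).setHiA (qm 3200)).setLoD (qm 272)).setLoW (qm
    120)).setHiU (qm 136)).setLoA (qm 3136))
    (by decide +kernel)))
    (good_of_check
    (R .u5 2408247 6237797 3203451 5018965 13258052 37943 3057096 11863286 7153840 (-200583)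
    3057096 3145730 4915532 (-128527) 2871641 2965823 2965823 7477550)
    (((((((((((((((((((((((((root.setHiD (qm 2048)).setHiD (qm 1024)).setHiU (qm 512)).setLoA (qm
    2048)).setHiD (qm 512)).setHiU (qm 256)).setLoA (qm 3072)).setLoD (qm 256)).setLoU (qm
    128)).setHiW (qm 128)).setLoW (qm 64)).setHiD (qm 384)).setLoW (qm 96)).setHiD (qm
    320)).setHiU (qm 192)).setHiU (qm 160)).setHiA (qm 3584)).setLoW (qm 112)).setHiD (qm
    288)).setHiA (qm 3328)).setHiU (qm 144)).setHiA (qm 3200)).setLoD (qm 272)).setLoW (qm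
    120)).setLoU (qm 136))
    (by decide +kernel)))))
    (good_of_check
    (T 3187671 48901858 7846826 12842379 1719208 3841687 3605856 1186800 3863904 4064159 1816189
    3145730 2965823 55769922 14416753 12941673 24902303 15919718)
    ((((((((((((((((((((((root.setHiD (qm 2048)).setHiD (qm 1024)).setHiU (qm 512)).setLoA (qm
    2048)).setHiD (qm 512)).setHiU (qm 256)).setLoA (qm 3072)).setLoD (qm 256)).setLoU (qm
    128)).setHiW (qm 128)).setLoW (qm 64)).setHiD (qm 384)).setLoW (qm 96)).setHiD (qm
    320)).setHiU (qm 192)).setHiU (qm 160)).setHiA (qm 3584)).setLoW (qm 112)).setHiD (qm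
    288)).setHiA (qm 3328)).setHiU (qm 144)).setLoA (qm 3200))
    (by decide +kernel)))
    (good_splitD (qm 272)
    (good_splitW (qm 120)
    (good_splitU (qm 152)
    (good_splitA (qm 3200)
    (good_of_check
    (R .u5 2412416 6377191 3203451 5029888 13259262 30584 3145726 11863286 8072077 (-233705)
    3145726 3231931 3631300 (-91310) 2774269 2871646 2871646 7065785)
    (((((((((((((((((((((((((root.setHiD (qm 2048)).setHiD (qm 1024)).setHiU (qm 512)).setLoA (qm
    2048)).setHiD (qm 512)).setHiU (qm 256)).setLoA (qm 3072)).setLoD (qm 256)).setLoU (qm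
    128)).setHiW (qm 128)).setLoW (qm 64)).setHiD (qm 384)).setLoW (qm 96)).setHiD (qm
    320)).setHiU (qm 192)).setHiU (qm 160)).setHiA (qm 3584)).setLoW (qm 112)).setHiD (qm
    288)).setHiA (qm 3328)).setLoU (qm 144)).setHiD (qm 272)).setHiW (qm 120)).setHiU (qm
    152)).setHiA (qm 3200))
    (by decide +kernel))
    (good_of_check
    (T 3187671 48754118 7846826 12842379 1682273 3915899 3445662 1191230 3801713 4194238 1799294
    3231931 2871646 55518380 14957223 12086670 24902303 15911083)
    (((((((((((((((((((((((((root.setHiD (qm 2048)).setHiD (qm 1024)).setHiU (qm 512)).setLoA (qm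
    2048)).setHiD (qm 512)).setHiU (qm 256)).setLoA (qm 3072)).setLoD (qm 256)).setLoU (qm
    128)).setHiW (qm 128)).setLoW (qm 64)).setHiD (qm 384)).setLoW (qm 96)).setHiD (qm
    320)).setHiU (qm 192)).setHiU (qm 160)).setHiA (qm 3584)).setLoW (qm 112)).setHiD (qm
    288)).setHiA (qm 3328)).setLoU (qm 144)).setHiD (qm 272)).setHiW (qm 120)).setHiU (qm
    152)).setLoA (qm 3200))
    (by decide +kernel)))
    (good_of_check
    (R .u5 2436839 6291799 2965819 5018965 13222837 1606 3231926 11863286 8549790 (-257021)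
    3231926 3315891 3243283 (-82188) 2774269 2871646 2871646 6877974)
    ((((((((((((((((((((((((root.setHiD (qm 2048)).setHiD (qm 1024)).setHiU (qm 512)).setLoA (qm
    2048)).setHiD (qm 512)).setHiU (qm 256)).setLoA (qm 3072)).setLoD (qm 256)).setLoU (qm
    128)).setHiW (qm 128)).setLoW (qm 64)).setHiD (qm 384)).setLoW (qm 96)).setHiD (qm
    320)).setHiU (qm 192)).setHiU (qm 160)).setHiA (qm 3584)).setLoW (qm 112)).setHiD (qm
    288)).setHiA (qm 3328)).setLoU (qm 144)).setHiD (qm 272)).setHiW (qm 120)).setLoU (qm 152))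
    (by decide +kernel)))
    (good_splitA (qm 3200)
    (good_of_check
    (R .u5 2423349 6277444 3203451 5024427 13230798 21358 3145726 11863286 8331476 (-244985)
    3145726 3315891 4655685 (-122356) 2871641 2965823 2965823 7357242)
    ((((((((((((((((((((((((root.setHiD (qm 2048)).setHiD (qm 1024)).setHiU (qm 512)).setLoA (qm
    2048)).setHiD (qm 512)).setHiU (qm 256)).setLoA (qm 3072)).setLoD (qm 256)).setLoU (qm
    128)).setHiW (qm 128)).setLoW (qm 64)).setHiD (qm 384)).setLoW (qm 96)).setHiD (qm
    320)).setHiU (qm 192)).setHiU (qm 160)).setHiA (qm 3584)).setLoW (qm 112)).setHiD (qm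
    288)).setHiA (qm 3328)).setLoU (qm 144)).setHiD (qm 272)).setLoW (qm 120)).setHiA (qm 3200))
    (by decide +kernel))
    (good_splitA (qm 3264)
    (good_splitU (qm 152)
    (good_of_check
    (T 3187671 48754118 7846826 12842379 1682273 3915899 3563221 1191230 3801713 4104214 1799294
    3231931 2965823 55518380 14957223 12744969 24880216 15911083)
    ((((((((((((((((((((((((((root.setHiD (qm 2048)).setHiD (qm 1024)).setHiU (qm 512)).setLoA (qm
    2048)).setHiD (qm 512)).setHiU (qm 256)).setLoA (qm 3072)).setLoD (qm 256)).setLoU (qm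
    128)).setHiW (qm 128)).setLoW (qm 64)).setHiD (qm 384)).setLoW (qm 96)).setHiD (qm
    320)).setHiU (qm 192)).setHiU (qm 160)).setHiA (qm 3584)).setLoW (qm 112)).setHiD (qm
    288)).setHiA (qm 3328)).setLoU (qm 144)).setHiD (qm 272)).setLoW (qm 120)).setLoA (qm
    3200)).setHiA (qm 3264)).setHiU (qm 152))
    (by decide +kernel))
    (good_of_check
    (R .u5 2441006 6250848 3086923 5018965 13211350 (-1695) 3231926 11863286 8477251 (-255251)
    3231926 3315891 4358870 (-115230) 2871641 2965823 2965823 7219921)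
    ((((((((((((((((((((((((((root.setHiD (qm 2048)).setHiD (qm 1024)).setHiU (qm 512)).setLoA (qm
    2048)).setHiD (qm 512)).setHiU (qm 256)).setLoA (qm 3072)).setLoD (qm 256)).setLoU (qm
    128)).setHiW (qm 128)).setLoW (qm 64)).setHiD (qm 384)).setLoW (qm 96)).setHiD (qm
    320)).setHiU (qm 192)).setHiU (qm 160)).setHiA (qm 3584)).setLoW (qm 112)).setHiD (qm
    288)).setHiA (qm 3328)).setLoU (qm 144)).setHiD (qm 272)).setLoW (qm 120)).setLoA (qm
    3200)).setHiA (qm 3264)).setLoU (qm 152))
    (by decide +kernel)))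
    (good_of_check
    (T 3187671 47387256 7561391 12970167 1665961 3951229 3494176 1196480 3781401 4172006 1816189
    3315891 2965823 55292141 15249323 12421430 24902303 15902442)
    (((((((((((((((((((((((((root.setHiD (qm 2048)).setHiD (qm 1024)).setHiU (qm 512)).setLoA (qm
    2048)).setHiD (qm 512)).setHiU (qm 256)).setLoA (qm 3072)).setLoD (qm 256)).setLoU (qm
    128)).setHiW (qm 128)).setLoW (qm 64)).setHiD (qm 384)).setLoW (qm 96)).setHiD (qm
    320)).setHiU (qm 192)).setHiU (qm 160)).setHiA (qm 3584)).setLoW (qm 112)).setHiD (qm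
    288)).setHiA (qm 3328)).setLoU (qm 144)).setHiD (qm 272)).setLoW (qm 120)).setLoA (qm
    3200)).setLoA (qm 3264))
    (by decide +kernel)))))
    (good_splitW (qm 120)
    (good_of_check
    (R .u5 2430097 6152500 2965819 5002581 13242667 6691 3145726 11863286 8212496 (-242105)
    3145726 3315891 3348572 (-84676) 2774269 2871646 2871646 6929112)
    (((((((((((((((((((((((root.setHiD (qm 2048)).setHiD (qm 1024)).setHiU (qm 512)).setLoA (qm
    2048)).setHiD (qm 512)).setHiU (qm 256)).setLoA (qm 3072)).setLoD (qm 256)).setLoU (qm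
    128)).setHiW (qm 128)).setLoW (qm 64)).setHiD (qm 384)).setLoW (qm 96)).setHiD (qm
    320)).setHiU (qm 192)).setHiU (qm 160)).setHiA (qm 3584)).setLoW (qm 112)).setHiD (qm
    288)).setHiA (qm 3328)).setLoU (qm 144)).setLoD (qm 272)).setHiW (qm 120))
    (by decide +kernel))
    (good_of_check
    (R .u5 2436840 6060938 2965819 5002581 13229881 (-472) 3145726 11863286 8094157 (-239223)
    3145726 3315891 4428213 (-116902) 2871641 2965823 2965823 7252589)
    (((((((((((((((((((((((root.setHiD (qm 2048)).setHiD (qm 1024)).setHiU (qm 512)).setLoA (qm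
    2048)).setHiD (qm 512)).setHiU (qm 256)).setLoA (qm 3072)).setLoD (qm 256)).setLoU (qm
    128)).setHiW (qm 128)).setLoW (qm 64)).setHiD (qm 384)).setLoW (qm 96)).setHiD (qm
    320)).setHiU (qm 192)).setHiU (qm 160)).setHiA (qm 3584)).setLoW (qm 112)).setHiD (qm
    288)).setHiA (qm 3328)).setLoU (qm 144)).setLoD (qm 272)).setLoW (qm 120))
    (by decide +kernel)))))
    (good_splitA (qm 3456)
    (good_splitA (qm 3392)
    (good_splitA (qm 3360)
    (good_of_check
    (T 3187671 46189444 7264749 13096709 1683993 3911496 3465996 1197382 3825864 4201029 1849517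
    3315891 2965823 55304538 14993976 12286415 24913339 15902442)
    (((((((((((((((((((((((root.setHiD (qm 2048)).setHiD (qm 1024)).setHiU (qm 512)).setLoA (qm
    2048)).setHiD (qm 512)).setHiU (qm 256)).setLoA (qm 3072)).setLoD (qm 256)).setLoU (qm
    128)).setHiW (qm 128)).setLoW (qm 64)).setHiD (qm 384)).setLoW (qm 96)).setHiD (qm
    320)).setHiU (qm 192)).setHiU (qm 160)).setHiA (qm 3584)).setLoW (qm 112)).setHiD (qm
    288)).setLoA (qm 3328)).setHiA (qm 3456)).setHiA (qm 3392)).setHiA (qm 3360))
    (by decide +kernel))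
    (good_of_check
    (T 3187671 45458478 7111790 13159523 1657343 3849595 3411145 1202128 3892266 4252126 1849517
    3315891 2965823 55074941 14623432 12053645 24924369 15902442)
    (((((((((((((((((((((((root.setHiD (qm 2048)).setHiD (qm 1024)).setHiU (qm 512)).setLoA (qm
    2048)).setHiD (qm 512)).setHiU (qm 256)).setLoA (qm 3072)).setLoD (qm 256)).setLoU (qm
    128)).setHiW (qm 128)).setLoW (qm 64)).setHiD (qm 384)).setLoW (qm 96)).setHiD (qm
    320)).setHiU (qm 192)).setHiU (qm 160)).setHiA (qm 3584)).setLoW (qm 112)).setHiD (qm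
    288)).setLoA (qm 3328)).setHiA (qm 3456)).setHiA (qm 3392)).setLoA (qm 3360))
    (by decide +kernel)))
    (good_of_check
    (T 3187671 44734965 6955468 13222039 1630965 3788325 3356853 1206810 3956588 4301902 1849517
    3315891 2965823 54849705 14276377 11832778 24946417 15902442)
    ((((((((((((((((((((((root.setHiD (qm 2048)).setHiD (qm 1024)).setHiU (qm 512)).setLoA (qm
    2048)).setHiD (qm 512)).setHiU (qm 256)).setLoA (qm 3072)).setLoD (qm 256)).setLoU (qm
    128)).setHiW (qm 128)).setLoW (qm 64)).setHiD (qm 384)).setLoW (qm 96)).setHiD (qm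
    320)).setHiU (qm 192)).setHiU (qm 160)).setHiA (qm 3584)).setLoW (qm 112)).setHiD (qm
    288)).setLoA (qm 3328)).setHiA (qm 3456)).setLoA (qm 3392))
    (by decide +kernel)))
    (good_of_check
    (T 3187671 43307699 6631778 13346192 1578929 3667459 3249753 1215997 4079582 4397817 1849517
    3315891 2965823 54411362 13643625 11422879 24990453 15902442)
    (((((((((((((((((((((root.setHiD (qm 2048)).setHiD (qm 1024)).setHiU (qm 512)).setLoA (qm
    2048)).setHiD (qm 512)).setHiU (qm 256)).setLoA (qm 3072)).setLoD (qm 256)).setLoU (qm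
    128)).setHiW (qm 128)).setLoW (qm 64)).setHiD (qm 384)).setLoW (qm 96)).setHiD (qm
    320)).setHiU (qm 192)).setHiU (qm 160)).setHiA (qm 3584)).setLoW (qm 112)).setHiD (qm
    288)).setLoA (qm 3328)).setLoA (qm 3456))
    (by decide +kernel))))
    (good_splitU (qm 144)
    (good_splitD (qm 304)
    (good_splitA (qm 3328)
    (good_splitW (qm 120)
    (good_of_check
    (R .u5 2412414 5841024 2965819 5002581 13275020 25874 2965818 11863286 6539295 (-179818)
    2965818 3145730 3631335 (-91311) 2774269 2871646 2871646 7065808)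
    (((((((((((((((((((((((root.setHiD (qm 2048)).setHiD (qm 1024)).setHiU (qm 512)).setLoA (qm
    2048)).setHiD (qm 512)).setHiU (qm 256)).setLoA (qm 3072)).setLoD (qm 256)).setLoU (qm
    128)).setHiW (qm 128)).setLoW (qm 64)).setHiD (qm 384)).setLoW (qm 96)).setHiD (qm
    320)).setHiU (qm 192)).setHiU (qm 160)).setHiA (qm 3584)).setLoW (qm 112)).setLoD (qm
    288)).setHiU (qm 144)).setHiD (qm 304)).setHiA (qm 3328)).setHiW (qm 120))
    (by decide +kernel))
    (good_splitW (qm 124)
    (good_of_check
    (R .u5 2419158 5744746 2965819 5002581 13262655 18531 2965818 11863286 6419047 (-176931)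
    2965818 3145730 4431002 (-115383) 2871641 2919115 2919115 7204560)
    ((((((((((((((((((((((((root.setHiD (qm 2048)).setHiD (qm 1024)).setHiU (qm 512)).setLoA (qm
    2048)).setHiD (qm 512)).setHiU (qm 256)).setLoA (qm 3072)).setLoD (qm 256)).setLoU (qm
    128)).setHiW (qm 128)).setLoW (qm 64)).setHiD (qm 384)).setLoW (qm 96)).setHiD (qm
    320)).setHiU (qm 192)).setHiU (qm 160)).setHiA (qm 3584)).setLoW (qm 112)).setLoD (qm
    288)).setHiU (qm 144)).setHiD (qm 304)).setHiA (qm 3328)).setLoW (qm 120)).setHiW (qm 124))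
    (by decide +kernel))
    (good_of_check
    (R .u5 2425924 5647689 2965819 5002581 13250365 11147 2965818 11863286 6299222 (-174039)
    2965818 3145730 4906825 (-130526) 2919110 2965823 2965823 7337820)
    ((((((((((((((((((((((((root.setHiD (qm 2048)).setHiD (qm 1024)).setHiU (qm 512)).setLoA (qm
    2048)).setHiD (qm 512)).setHiU (qm 256)).setLoA (qm 3072)).setLoD (qm 256)).setLoU (qm
    128)).setHiW (qm 128)).setLoW (qm 64)).setHiD (qm 384)).setLoW (qm 96)).setHiD (qm
    320)).setHiU (qm 192)).setHiU (qm 160)).setHiA (qm 3584)).setLoW (qm 112)).setLoD (qm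
    288)).setHiU (qm 144)).setHiD (qm 304)).setHiA (qm 3328)).setLoW (qm 120)).setLoW (qm 124))
    (by decide +kernel))))
    (good_splitA (qm 3456)
    (good_of_check
    (T 3187671 46189444 7264749 13096709 1683993 3688746 3465996 1197382 4023481 4201029 1849517
    3145730 2965823 55304538 13566040 12286415 24946417 15867834)
    (((((((((((((((((((((((root.setHiD (qm 2048)).setHiD (qm 1024)).setHiU (qm 512)).setLoA (qm
    2048)).setHiD (qm 512)).setHiU (qm 256)).setLoA (qm 3072)).setLoD (qm 256)).setLoU (qm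
    128)).setHiW (qm 128)).setLoW (qm 64)).setHiD (qm 384)).setLoW (qm 96)).setHiD (qm
    320)).setHiU (qm 192)).setHiU (qm 160)).setHiA (qm 3584)).setLoW (qm 112)).setLoD (qm
    288)).setHiU (qm 144)).setHiD (qm 304)).setLoA (qm 3328)).setHiA (qm 3456))
    (by decide +kernel))
    (good_of_check
    (T 3523215 43307699 6631778 13346192 1578929 3506193 3292052 1343996 4105940 4260483 1849517
    3145730 2965823 48768747 13153485 12016163 24990453 15867834)
    (((((((((((((((((((((((root.setHiD (qm 2048)).setHiD (qm 1024)).setHiU (qm 512)).setLoA (qm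
    2048)).setHiD (qm 512)).setHiU (qm 256)).setLoA (qm 3072)).setLoD (qm 256)).setLoU (qm
    128)).setHiW (qm 128)).setLoW (qm 64)).setHiD (qm 384)).setLoW (qm 96)).setHiD (qm
    320)).setHiU (qm 192)).setHiU (qm 160)).setHiA (qm 3584)).setLoW (qm 112)).setLoD (qm
    288)).setHiU (qm 144)).setHiD (qm 304)).setLoA (qm 3328)).setLoA (qm 3456))
    (by decide +kernel))))
    (good_splitW (qm 120)
    (good_of_check
    (R .u5 2447751 5252809 2421581 4980736 13245716 (-23095) 2965818 11863286 5918216 (-164745)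
    2965818 3145730 3075854 (-78210) 2774269 2871646 2871646 6796636)
    ((((((((((((((((((((((root.setHiD (qm 2048)).setHiD (qm 1024)).setHiU (qm 512)).setLoA (qm
    2048)).setHiD (qm 512)).setHiU (qm 256)).setLoA (qm 3072)).setLoD (qm 256)).setLoU (qm
    128)).setHiW (qm 128)).setLoW (qm 64)).setHiD (qm 384)).setLoW (qm 96)).setHiD (qm
    320)).setHiU (qm 192)).setHiU (qm 160)).setHiA (qm 3584)).setLoW (qm 112)).setLoD (qm
    288)).setHiU (qm 144)).setLoD (qm 304)).setHiW (qm 120))
    (by decide +kernel))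
    (good_splitW (qm 124)
    (good_of_check
    (R .u5 2454493 5152334 2421581 4980736 13234171 (-30589) 2965818 11863286 5802286 (-161887)
    2965818 3145730 3848804 (-101405) 2871641 2919115 2919115 6934726)
    (((((((((((((((((((((((root.setHiD (qm 2048)).setHiD (qm 1024)).setHiU (qm 512)).setLoA (qm
    2048)).setHiD (qm 512)).setHiU (qm 256)).setLoA (qm 3072)).setLoD (qm 256)).setLoU (qm
    128)).setHiW (qm 128)).setLoW (qm 64)).setHiD (qm 384)).setLoW (qm 96)).setHiD (qm
    320)).setHiU (qm 192)).setHiU (qm 160)).setHiA (qm 3584)).setLoW (qm 112)).setLoD (qm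
    288)).setHiU (qm 144)).setLoD (qm 304)).setLoW (qm 120)).setHiW (qm 124))
    (by decide +kernel))
    (good_splitW (qm 126)
    (good_of_check
    (R .u5 2461236 5053987 2421581 4980736 13222058 (-37895) 2965818 11863286 5687176 (-159036)
    2965818 3145730 4172913 (-111855) 2919110 2942562 2942562 6975792)
    ((((((((((((((((((((((((root.setHiD (qm 2048)).setHiD (qm 1024)).setHiU (qm 512)).setLoA (qm
    2048)).setHiD (qm 512)).setHiU (qm 256)).setLoA (qm 3072)).setLoD (qm 256)).setLoU (qm
    128)).setHiW (qm 128)).setLoW (qm 64)).setHiD (qm 384)).setLoW (qm 96)).setHiD (qm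
    320)).setHiU (qm 192)).setHiU (qm 160)).setHiA (qm 3584)).setLoW (qm 112)).setLoD (qm
    288)).setHiU (qm 144)).setLoD (qm 304)).setLoW (qm 120)).setLoW (qm 124)).setHiW (qm 126))
    (by decide +kernel))
    (good_of_check
    (R .u5 2461236 5053987 2421581 4980736 13222058 (-37895) 2965818 11863286 5687176 (-159036)
    2965818 3145730 4457709 (-120615) 2942557 2965823 2965823 7065133)
    ((((((((((((((((((((((((root.setHiD (qm 2048)).setHiD (qm 1024)).setHiU (qm 512)).setLoA (qm
    2048)).setHiD (qm 512)).setHiU (qm 256)).setLoA (qm 3072)).setLoD (qm 256)).setLoU (qm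
    128)).setHiW (qm 128)).setLoW (qm 64)).setHiD (qm 384)).setLoW (qm 96)).setHiD (qm
    320)).setHiU (qm 192)).setHiU (qm 160)).setHiA (qm 3584)).setLoW (qm 112)).setLoD (qm
    288)).setHiU (qm 144)).setLoD (qm 304)).setLoW (qm 120)).setLoW (qm 124)).setLoW (qm 126))
    (by decide +kernel))))))
    (good_splitW (qm 120)
    (good_of_check
    (R .u5 2465406 5539120 2421581 4969813 13231497 (-47457) 3145726 11863286 7598846 (-226972)
    3145726 3315891 2812916 (-71911) 2774269 2871646 2871646 6666634)
    (((((((((((((((((((((root.setHiD (qm 2048)).setHiD (qm 1024)).setHiU (qm 512)).setLoA (qm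
    2048)).setHiD (qm 512)).setHiU (qm 256)).setLoA (qm 3072)).setLoD (qm 256)).setLoU (qm
    128)).setHiW (qm 128)).setLoW (qm 64)).setHiD (qm 384)).setLoW (qm 96)).setHiD (qm
    320)).setHiU (qm 192)).setHiU (qm 160)).setHiA (qm 3584)).setLoW (qm 112)).setLoD (qm
    288)).setLoU (qm 144)).setHiW (qm 120))
    (by decide +kernel))
    (good_of_check
    (R .u5 2476316 5381156 2421581 4969813 13212569 (-59423) 3145726 11863286 7412356 (-222280)
    3145726 3315891 3788838 (-101313) 2871641 2965823 2965823 6952785)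
    (((((((((((((((((((((root.setHiD (qm 2048)).setHiD (qm 1024)).setHiU (qm 512)).setLoA (qm
    2048)).setHiD (qm 512)).setHiU (qm 256)).setLoA (qm 3072)).setLoD (qm 256)).setLoU (qm
    128)).setHiW (qm 128)).setLoW (qm 64)).setHiD (qm 384)).setLoW (qm 96)).setHiD (qm
    320)).setHiU (qm 192)).setHiU (qm 160)).setHiA (qm 3584)).setLoW (qm 112)).setLoD (qm
    288)).setLoU (qm 144)).setLoW (qm 120))
    (by decide +kernel))))))
    (good_splitA (qm 3840)
    (good_of_check
    (T 3187671 41012122 5931643 13591097 1602039 3579864 3184299 1218039 4163888 4455452 1914432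
    3315891 2965823 54408841 13232038 11186092 25078293 15867834)
    ((((((((((((((((((root.setHiD (qm 2048)).setHiD (qm 1024)).setHiU (qm 512)).setLoA (qm
    2048)).setHiD (qm 512)).setHiU (qm 256)).setLoA (qm 3072)).setLoD (qm 256)).setLoU (qm
    128)).setHiW (qm 128)).setLoW (qm 64)).setHiD (qm 384)).setLoW (qm 96)).setHiD (qm
    320)).setHiU (qm 192)).setHiU (qm 160)).setLoA (qm 3584)).setHiA (qm 3840))
    (by decide +kernel))
    (good_of_check
    (T 3523215 35349529 4194305 14068122 1380843 3128745 2779165 1385326 4457573 4666895 1914432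
    3315891 2965823 47338912 11925225 10374090 25165824 15867834)
    ((((((((((((((((((root.setHiD (qm 2048)).setHiD (qm 1024)).setHiU (qm 512)).setLoA (qm
    2048)).setHiD (qm 512)).setHiU (qm 256)).setLoA (qm 3072)).setLoD (qm 256)).setLoU (qm
    128)).setHiW (qm 128)).setLoW (qm 64)).setHiD (qm 384)).setLoW (qm 96)).setHiD (qm
    320)).setHiU (qm 192)).setHiU (qm 160)).setLoA (qm 3584)).setLoA (qm 3840))
    (by decide +kernel))))
    (good_splitW (qm 112)
    (good_splitD (qm 288)
    (good_splitD (qm 272)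
    (good_splitU (qm 176)
    (good_splitA (qm 3584)
    (good_splitW (qm 104)
    (good_splitW (qm 100)
    (good_of_check
    (R .u5 2454493 6213290 2421581 5002581 13221398 (-26775) 3315886 11863286 9458179 (-296943)
    3315886 3477736 606672 (-13880) 2568474 2621442 2621442 5732882)
    (((((((((((((((((((((((root.setHiD (qm 2048)).setHiD (qm 1024)).setHiU (qm 512)).setLoA (qm
    2048)).setHiD (qm 512)).setHiU (qm 256)).setLoA (qm 3072)).setLoD (qm 256)).setLoU (qm
    128)).setHiW (qm 128)).setLoW (qm 64)).setHiD (qm 384)).setLoW (qm 96)).setHiD (qm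
    320)).setHiU (qm 192)).setLoU (qm 160)).setHiW (qm 112)).setHiD (qm 288)).setHiD (qm
    272)).setHiU (qm 176)).setHiA (qm 3584)).setHiW (qm 104)).setHiW (qm 100))
    (by decide +kernel))
    (good_of_check
    (R .u5 2458660 6157184 2421581 5002581 13213837 (-31268) 3315886 11863286 9388098 (-295228)
    3315886 3477736 1008936 (-23766) 2621438 2673357 2673357 5916616)
    (((((((((((((((((((((((root.setHiD (qm 2048)).setHiD (qm 1024)).setHiU (qm 512)).setLoA (qm
    2048)).setHiD (qm 512)).setHiU (qm 256)).setLoA (qm 3072)).setLoD (qm 256)).setLoU (qm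
    128)).setHiW (qm 128)).setLoW (qm 64)).setHiD (qm 384)).setLoW (qm 96)).setHiD (qm
    320)).setHiU (qm 192)).setLoU (qm 160)).setHiW (qm 112)).setHiD (qm 288)).setHiD (qm
    272)).setHiU (qm 176)).setHiA (qm 3584)).setHiW (qm 104)).setLoW (qm 100))
    (by decide +kernel)))
    (good_splitD (qm 264)
    (good_splitW (qm 108)
    (good_of_check
    (R .u5 2461236 6121717 2421581 5008043 13205377 (-32914) 3315886 11863286 9344865 (-294167)
    3315886 3477736 1480310 (-35798) 2673352 2724283 2724283 6106405)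
    ((((((((((((((((((((((((root.setHiD (qm 2048)).setHiD (qm 1024)).setHiU (qm 512)).setLoA (qm
    2048)).setHiD (qm 512)).setHiU (qm 256)).setLoA (qm 3072)).setLoD (qm 256)).setLoU (qm
    128)).setHiW (qm 128)).setLoW (qm 64)).setHiD (qm 384)).setLoW (qm 96)).setHiD (qm
    320)).setHiU (qm 192)).setLoU (qm 160)).setHiW (qm 112)).setHiD (qm 288)).setHiD (qm
    272)).setHiU (qm 176)).setHiA (qm 3584)).setLoW (qm 104)).setHiD (qm 264)).setHiW (qm 108))
    (by decide +kernel))
    (good_splitU (qm 168)
    (good_splitA (qm 3328)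
    (good_of_check
    (R .u5 2443582 6358134 2965819 5013504 13233396 (-12651) 3315886 11863286 9264522 (-286656)
    3315886 3397777 2260021 (-55677) 2724278 2774274 2774274 6435260)
    ((((((((((((((((((((((((((root.setHiD (qm 2048)).setHiD (qm 1024)).setHiU (qm 512)).setLoA (qm
    2048)).setHiD (qm 512)).setHiU (qm 256)).setLoA (qm 3072)).setLoD (qm 256)).setLoU (qm
    128)).setHiW (qm 128)).setLoW (qm 64)).setHiD (qm 384)).setLoW (qm 96)).setHiD (qm
    320)).setHiU (qm 192)).setLoU (qm 160)).setHiW (qm 112)).setHiD (qm 288)).setHiD (qm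
    272)).setHiU (qm 176)).setHiA (qm 3584)).setLoW (qm 104)).setHiD (qm 264)).setLoW (qm
    108)).setHiU (qm 168)).setHiA (qm 3328))
    (by decide +kernel))
    (good_of_check
    (T 3187671 45909508 7264749 13096709 1614009 3938712 3163812 1205891 3811763 4427537 1816189
    3397777 2774274 54832939 15236174 10836310 24990453 15885148)
    ((((((((((((((((((((((((((root.setHiD (qm 2048)).setHiD (qm 1024)).setHiU (qm 512)).setLoA (qm
    2048)).setHiD (qm 512)).setHiU (qm 256)).setLoA (qm 3072)).setLoD (qm 256)).setLoU (qm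
    128)).setHiW (qm 128)).setLoW (qm 64)).setHiD (qm 384)).setLoW (qm 96)).setHiD (qm
    320)).setHiU (qm 192)).setLoU (qm 160)).setHiW (qm 112)).setHiD (qm 288)).setHiD (qm
    272)).setHiU (qm 176)).setHiA (qm 3584)).setLoW (qm 104)).setHiD (qm 264)).setLoW (qm
    108)).setHiU (qm 168)).setLoA (qm 3328))
    (by decide +kernel)))
    (good_of_check
    (R .u5 2478891 6110748 2421581 5002581 13176301 (-52723) 3397772 11863286 9433316 (-303324)
    3397772 3477736 1792971 (-44638) 2724278 2774274 2774274 6183837)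
    (((((((((((((((((((((((((root.setHiD (qm 2048)).setHiD (qm 1024)).setHiU (qm 512)).setLoA (qm
    2048)).setHiD (qm 512)).setHiU (qm 256)).setLoA (qm 3072)).setLoD (qm 256)).setLoU (qm
    128)).setHiW (qm 128)).setLoW (qm 64)).setHiD (qm 384)).setLoW (qm 96)).setHiD (qm
    320)).setHiU (qm 192)).setLoU (qm 160)).setHiW (qm 112)).setHiD (qm 288)).setHiD (qm
    272)).setHiU (qm 176)).setHiA (qm 3584)).setLoW (qm 104)).setHiD (qm 264)).setLoW (qm
    108)).setLoU (qm 168))
    (by decide +kernel))))
    (good_of_check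
    (R .u5 2469573 6009012 2421581 4997120 13198233 (-44254) 3315886 11863286 9205286 (-290721)
    3315886 3477736 1647295 (-40235) 2673352 2774274 2774274 6249260)
    (((((((((((((((((((((((root.setHiD (qm 2048)).setHiD (qm 1024)).setHiU (qm 512)).setLoA (qm
    2048)).setHiD (qm 512)).setHiU (qm 256)).setLoA (qm 3072)).setLoD (qm 256)).setLoU (qm
    128)).setHiW (qm 128)).setLoW (qm 64)).setHiD (qm 384)).setLoW (qm 96)).setHiD (qm
    320)).setHiU (qm 192)).setLoU (qm 160)).setHiW (qm 112)).setHiD (qm 288)).setHiD (qm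
    272)).setHiU (qm 176)).setHiA (qm 3584)).setLoW (qm 104)).setLoD (qm 264))
    (by decide +kernel))))
    (good_of_check
    (T 3523215 40511974 5931643 13591097 1477002 3680484 2879219 1363591 4004398 4559507 1849517
    3477736 2774274 47975781 14338611 10322676 25165824 15867834)
    (((((((((((((((((((((root.setHiD (qm 2048)).setHiD (qm 1024)).setHiU (qm 512)).setLoA (qm
    2048)).setHiD (qm 512)).setHiU (qm 256)).setLoA (qm 3072)).setLoD (qm 256)).setLoU (qm
    128)).setHiW (qm 128)).setLoW (qm 64)).setHiD (qm 384)).setLoW (qm 96)).setHiD (qm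
    320)).setHiU (qm 192)).setLoU (qm 160)).setHiW (qm 112)).setHiD (qm 288)).setHiD (qm
    272)).setHiU (qm 176)).setLoA (qm 3584))
    (by decide +kernel)))
    (good_splitD (qm 264)
    (good_splitU (qm 184)
    (good_splitW (qm 104)
    (good_of_check
    (R .t4n 3477777 0 0 4991659 13134130 (-381032) 3310701 11815400 (-2119384) 262353 3310701
    3392717 0 0 0 0 2673357 7420202)
    (((((((((((((((((((((((root.setHiD (qm 2048)).setHiD (qm 1024)).setHiU (qm 512)).setLoA (qm
    2048)).setHiD (qm 512)).setHiU (qm 256)).setLoA (qm 3072)).setLoD (qm 256)).setLoU (qm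
    128)).setHiW (qm 128)).setLoW (qm 64)).setHiD (qm 384)).setLoW (qm 96)).setHiD (qm
    320)).setHiU (qm 192)).setLoU (qm 160)).setHiW (qm 112)).setHiD (qm 288)).setHiD (qm
    272)).setLoU (qm 176)).setHiD (qm 264)).setHiU (qm 184)).setHiW (qm 104))
    (by decide +kernel))
    (good_splitA (qm 3584)
    (good_of_check
    (R .u5 2489812 6136063 2421581 4991659 13174078 (-69666) 3477731 11863286 9954770 (-328955)
    3477731 3555897 1408794 (-34594) 2673352 2774274 2774274 6109193)
    ((((((((((((((((((((((((root.setHiD (qm 2048)).setHiD (qm 1024)).setHiU (qm 512)).setLoA (qm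
    2048)).setHiD (qm 512)).setHiU (qm 256)).setLoA (qm 3072)).setLoD (qm 256)).setLoU (qm
    128)).setHiW (qm 128)).setLoW (qm 64)).setHiD (qm 384)).setLoW (qm 96)).setHiD (qm
    320)).setHiU (qm 192)).setLoU (qm 160)).setHiW (qm 112)).setHiD (qm 288)).setHiD (qm
    272)).setLoU (qm 176)).setHiD (qm 264)).setHiU (qm 184)).setLoW (qm 104)).setHiA (qm 3584))
    (by decide +kernel))
    (good_splitA (qm 3840)
    (good_of_check
    (T 3523215 40511974 5931643 13591097 1477002 3780642 2879219 1363591 3919095 4559507 1849517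
    3555897 2774274 47975781 14930519 10322676 25078293 15850502)
    (((((((((((((((((((((((((root.setHiD (qm 2048)).setHiD (qm 1024)).setHiU (qm 512)).setLoA (qm
    2048)).setHiD (qm 512)).setHiU (qm 256)).setLoA (qm 3072)).setLoD (qm 256)).setLoU (qm
    128)).setHiW (qm 128)).setLoW (qm 64)).setHiD (qm 384)).setLoW (qm 96)).setHiD (qm
    320)).setHiU (qm 192)).setLoU (qm 160)).setHiW (qm 112)).setHiD (qm 288)).setHiD (qm
    272)).setLoU (qm 176)).setHiD (qm 264)).setHiU (qm 184)).setLoW (qm 104)).setLoA (qm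
    3584)).setHiA (qm 3840))
    (by decide +kernel))
    (good_of_check
    (T 3523215 34918437 4194305 14068122 1273071 3258645 2481682 1400622 4397553 4849121 1849517
    3555897 2774274 46524145 12624897 9310089 25165824 15850502)
    (((((((((((((((((((((((((root.setHiD (qm 2048)).setHiD (qm 1024)).setHiU (qm 512)).setLoA (qm
    2048)).setHiD (qm 512)).setHiU (qm 256)).setLoA (qm 3072)).setLoD (qm 256)).setLoU (qm
    128)).setHiW (qm 128)).setLoW (qm 64)).setHiD (qm 384)).setLoW (qm 96)).setHiD (qm
    320)).setHiU (qm 192)).setLoU (qm 160)).setHiW (qm 112)).setHiD (qm 288)).setHiD (qm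
    272)).setLoU (qm 176)).setHiD (qm 264)).setHiU (qm 184)).setLoW (qm 104)).setLoA (qm
    3584)).setLoA (qm 3840))
    (by decide +kernel)))))
    (good_of_check
    (R .t4n 3486110 0 0 4980736 13098832 (-380830) 3392712 11815400 (-1972765) 255767 3392712
    3472792 0 0 0 0 2774274 7716237)
    ((((((((((((((((((((((root.setHiD (qm 2048)).setHiD (qm 1024)).setHiU (qm 512)).setLoA (qm
    2048)).setHiD (qm 512)).setHiU (qm 256)).setLoA (qm 3072)).setLoD (qm 256)).setLoU (qm
    128)).setHiW (qm 128)).setLoW (qm 64)).setHiD (qm 384)).setLoW (qm 96)).setHiD (qm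
    320)).setHiU (qm 192)).setLoU (qm 160)).setHiW (qm 112)).setHiD (qm 288)).setHiD (qm
    272)).setLoU (qm 176)).setHiD (qm 264)).setLoU (qm 184))
    (by decide +kernel)))
    (good_splitD (qm 268)
    (good_splitD (qm 266)
    (good_of_check
    (R .t4n 3495429 0 0 4979371 13090775 (-389841) 3309403 11815036 (-2063889) 261333 3309403
    3471555 0 0 0 0 2774274 7670829)
    (((((((((((((((((((((((root.setHiD (qm 2048)).setHiD (qm 1024)).setHiU (qm 512)).setLoA (qm
    2048)).setHiD (qm 512)).setHiU (qm 256)).setLoA (qm 3072)).setLoD (qm 256)).setLoU (qm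
    128)).setHiW (qm 128)).setLoW (qm 64)).setHiD (qm 384)).setLoW (qm 96)).setHiD (qm
    320)).setHiU (qm 192)).setLoU (qm 160)).setHiW (qm 112)).setHiD (qm 288)).setHiD (qm
    272)).setLoU (qm 176)).setLoD (qm 264)).setHiD (qm 268)).setHiD (qm 266))
    (by decide +kernel))
    (good_of_check
    (R .t4n 3495429 0 0 4976640 13085708 (-388258) 3308105 11814673 (-2081743) 263467 3308105
    3470318 0 0 0 0 2774274 7670829)
    (((((((((((((((((((((((root.setHiD (qm 2048)).setHiD (qm 1024)).setHiU (qm 512)).setLoA (qm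
    2048)).setHiD (qm 512)).setHiU (qm 256)).setLoA (qm 3072)).setLoD (qm 256)).setLoU (qm
    128)).setHiW (qm 128)).setLoW (qm 64)).setHiD (qm 384)).setLoW (qm 96)).setHiD (qm
    320)).setHiU (qm 192)).setLoU (qm 160)).setHiW (qm 112)).setHiD (qm 288)).setHiD (qm
    272)).setLoU (qm 176)).setLoD (qm 264)).setHiD (qm 268)).setLoD (qm 266))
    (by decide +kernel)))
    (good_of_check
    (R .t4n 3499595 0 0 4972544 13055463 (-384217) 3305508 11813946 (-2117569) 267741 3305508
    3467842 0 0 0 0 2774274 7651268)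
    ((((((((((((((((((((((root.setHiD (qm 2048)).setHiD (qm 1024)).setHiU (qm 512)).setLoA (qm
    2048)).setHiD (qm 512)).setHiU (qm 256)).setLoA (qm 3072)).setLoD (qm 256)).setLoU (qm
    128)).setHiW (qm 128)).setLoW (qm 64)).setHiD (qm 384)).setLoW (qm 96)).setHiD (qm
    320)).setHiU (qm 192)).setLoU (qm 160)).setHiW (qm 112)).setHiD (qm 288)).setHiD (qm
    272)).setLoU (qm 176)).setLoD (qm 264)).setLoD (qm 268))
    (by decide +kernel)))))
    (good_splitW (qm 104)
    (good_of_check
    (R .u5 2489812 0 0 4969813 13238794 (-88858) 3315886 11863286 9571077 (-309726) 3315886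
    3632376 530499 (-12293) 2568474 2673357 2673357 5707799)
    ((((((((((((((((((((root.setHiD (qm 2048)).setHiD (qm 1024)).setHiU (qm 512)).setLoA (qm
    2048)).setHiD (qm 512)).setHiU (qm 256)).setLoA (qm 3072)).setLoD (qm 256)).setLoU (qm
    128)).setHiW (qm 128)).setLoW (qm 64)).setHiD (qm 384)).setLoW (qm 96)).setHiD (qm
    320)).setHiU (qm 192)).setLoU (qm 160)).setHiW (qm 112)).setHiD (qm 288)).setLoD (qm
    272)).setHiW (qm 104))
    (by decide +kernel))
    (good_splitW (qm 108)
    (good_of_check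
    (R .u5 2493978 0 0 4969813 13231615 (-93406) 3315886 11863286 9503611 (-308034) 3315886
    3632376 1115531 (-27223) 2673352 2724283 2724283 5882723)
    (((((((((((((((((((((root.setHiD (qm 2048)).setHiD (qm 1024)).setHiU (qm 512)).setLoA (qm
    2048)).setHiD (qm 512)).setHiU (qm 256)).setLoA (qm 3072)).setLoD (qm 256)).setLoU (qm
    128)).setHiW (qm 128)).setLoW (qm 64)).setHiD (qm 384)).setLoW (qm 96)).setHiD (qm
    320)).setHiU (qm 192)).setLoU (qm 160)).setHiW (qm 112)).setHiD (qm 288)).setLoD (qm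
    272)).setLoW (qm 104)).setHiW (qm 108))
    (by decide +kernel))
    (good_splitW (qm 110)
    (good_of_check
    (R .u5 2493979 0 0 4969813 13231613 (-93407) 3315886 11863286 9503598 (-308034) 3315886
    3632376 1479811 (-36828) 2724278 2749392 2749392 5982836)
    ((((((((((((((((((((((root.setHiD (qm 2048)).setHiD (qm 1024)).setHiU (qm 512)).setLoA (qm
    2048)).setHiD (qm 512)).setHiU (qm 256)).setLoA (qm 3072)).setLoD (qm 256)).setLoU (qm
    128)).setHiW (qm 128)).setLoW (qm 64)).setHiD (qm 384)).setLoW (qm 96)).setHiD (qm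
    320)).setHiU (qm 192)).setLoU (qm 160)).setHiW (qm 112)).setHiD (qm 288)).setLoD (qm
    272)).setLoW (qm 104)).setLoW (qm 108)).setHiW (qm 110))
    (by decide +kernel))
    (good_of_check
    (R .u5 2498145 0 0 4969813 13224424 (-97945) 3315886 11863286 9436260 (-306338) 3315886
    3632376 1685476 (-42488) 2749387 2774274 2774274 6052666)
    ((((((((((((((((((((((root.setHiD (qm 2048)).setHiD (qm 1024)).setHiU (qm 512)).setLoA (qm
    2048)).setHiD (qm 512)).setHiU (qm 256)).setLoA (qm 3072)).setLoD (qm 256)).setLoU (qm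
    128)).setHiW (qm 128)).setLoW (qm 64)).setHiD (qm 384)).setLoW (qm 96)).setHiD (qm
    320)).setHiU (qm 192)).setLoU (qm 160)).setHiW (qm 112)).setHiD (qm 288)).setLoD (qm
    272)).setLoW (qm 104)).setLoW (qm 108)).setLoW (qm 110))
    (by decide +kernel))))))
    (good_of_check
    (R .u5 2504888 0 0 4937045 13212768 (-105270) 3315886 11863286 9327556 (-303585) 3315886
    3632376 832681 (-19422) 2568474 2774274 2774274 6006221)
    ((((((((((((((((((root.setHiD (qm 2048)).setHiD (qm 1024)).setHiU (qm 512)).setLoA (qm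
    2048)).setHiD (qm 512)).setHiU (qm 256)).setLoA (qm 3072)).setLoD (qm 256)).setLoU (qm
    128)).setHiW (qm 128)).setLoW (qm 64)).setHiD (qm 384)).setLoW (qm 96)).setHiD (qm
    320)).setHiU (qm 192)).setLoU (qm 160)).setHiW (qm 112)).setLoD (qm 288))
    (by decide +kernel)))
    (good_splitD (qm 288)
    (good_splitD (qm 272)
    (good_splitW (qm 120)
    (good_splitA (qm 3584)
    (good_splitU (qm 176)
    (good_splitA (qm 3328)
    (good_of_check
    (R .u5 2447750 6321782 2965819 5002581 13229148 (-18124) 3315886 11863286 9571856 (-299709)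
    3315886 3477736 3075866 (-78210) 2774269 2871646 2871646 6796647)
    (((((((((((((((((((((((root.setHiD (qm 2048)).setHiD (qm 1024)).setHiU (qm 512)).setLoA (qm
    2048)).setHiD (qm 512)).setHiU (qm 256)).setLoA (qm 3072)).setLoD (qm 256)).setLoU (qm
    128)).setHiW (qm 128)).setLoW (qm 64)).setHiD (qm 384)).setLoW (qm 96)).setHiD (qm
    320)).setHiU (qm 192)).setLoU (qm 160)).setLoW (qm 112)).setHiD (qm 288)).setHiD (qm
    272)).setHiW (qm 120)).setHiA (qm 3584)).setHiU (qm 176)).setHiA (qm 3328))
    (by decide +kernel))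
    (good_splitA (qm 3456)
    (good_splitA (qm 3392)
    (good_of_check
    (R .u5 2451917 6284216 2839556 5002581 13216944 (-21206) 3315886 11863286 9501554 (-298001)
    3315886 3477736 3012911 (-76708) 2774269 2871646 2871646 6766248)
    (((((((((((((((((((((((((root.setHiD (qm 2048)).setHiD (qm 1024)).setHiU (qm 512)).setLoA (qm
    2048)).setHiD (qm 512)).setHiU (qm 256)).setLoA (qm 3072)).setLoD (qm 256)).setLoU (qm
    128)).setHiW (qm 128)).setLoW (qm 64)).setHiD (qm 384)).setLoW (qm 96)).setHiD (qm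
    320)).setHiU (qm 192)).setLoU (qm 160)).setLoW (qm 112)).setHiD (qm 288)).setHiD (qm
    272)).setHiW (qm 120)).setHiA (qm 3584)).setHiU (qm 176)).setLoA (qm 3328)).setHiA (qm
    3456)).setHiA (qm 3392))
    (by decide +kernel))
    (good_of_check
    (T 3187671 44734965 6955468 13222039 1630965 4004061 3248986 1206810 3754936 4377840 1849517
    3477736 2871646 54849705 15715345 11281707 24946417 15867834)
    (((((((((((((((((((((((((root.setHiD (qm 2048)).setHiD (qm 1024)).setHiU (qm 512)).setLoA (qm
    2048)).setHiD (qm 512)).setHiU (qm 256)).setLoA (qm 3072)).setLoD (qm 256)).setLoU (qm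
    128)).setHiW (qm 128)).setLoW (qm 64)).setHiD (qm 384)).setLoW (qm 96)).setHiD (qm
    320)).setHiU (qm 192)).setLoU (qm 160)).setLoW (qm 112)).setHiD (qm 288)).setHiD (qm
    272)).setHiW (qm 120)).setHiA (qm 3584)).setHiU (qm 176)).setLoA (qm 3328)).setHiA (qm
    3456)).setLoA (qm 3392))
    (by decide +kernel)))
    (good_of_check
    (T 3187671 43307699 6631778 13346192 1578929 3876311 3145327 1215997 3895114 4468146 1849517
    3477736 2871646 54411362 14920562 10913232 24990453 15867834)
    ((((((((((((((((((((((((root.setHiD (qm 2048)).setHiD (qm 1024)).setHiU (qm 512)).setLoA (qm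
    2048)).setHiD (qm 512)).setHiU (qm 256)).setLoA (qm 3072)).setLoD (qm 256)).setLoU (qm
    128)).setHiW (qm 128)).setLoW (qm 64)).setHiD (qm 384)).setLoW (qm 96)).setHiD (qm
    320)).setHiU (qm 192)).setLoU (qm 160)).setLoW (qm 112)).setHiD (qm 288)).setHiD (qm
    272)).setHiW (qm 120)).setHiA (qm 3584)).setHiU (qm 176)).setLoA (qm 3328)).setLoA (qm 3456))
    (by decide +kernel))))
    (good_of_check
    (R .u5 2498145 6025452 2421581 4980736 13167080 (-80942) 3477731 11863286 10141069 (-339376)
    3477731 3632376 2352174 (-60718) 2774269 2871646 2871646 6431382)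
    ((((((((((((((((((((((root.setHiD (qm 2048)).setHiD (qm 1024)).setHiU (qm 512)).setLoA (qm
    2048)).setHiD (qm 512)).setHiU (qm 256)).setLoA (qm 3072)).setLoD (qm 256)).setLoU (qm
    128)).setHiW (qm 128)).setLoW (qm 64)).setHiD (qm 384)).setLoW (qm 96)).setHiD (qm
    320)).setHiU (qm 192)).setLoU (qm 160)).setLoW (qm 112)).setHiD (qm 288)).setHiD (qm
    272)).setHiW (qm 120)).setHiA (qm 3584)).setLoU (qm 176))
    (by decide +kernel)))
    (good_splitA (qm 3840)
    (good_splitA (qm 3712)
    (good_splitA (qm 3648)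
    (good_of_check
    (T 3187671 40760514 5931643 13591097 1539136 3897965 3013405 1225990 3898336 4579796 1882254
    3632376 2871646 53996881 15173919 10480684 25012442 15850502)
    ((((((((((((((((((((((((root.setHiD (qm 2048)).setHiD (qm 1024)).setHiU (qm 512)).setLoA (qm
    2048)).setHiD (qm 512)).setHiU (qm 256)).setLoA (qm 3072)).setLoD (qm 256)).setLoU (qm
    128)).setHiW (qm 128)).setLoW (qm 64)).setHiD (qm 384)).setLoW (qm 96)).setHiD (qm
    320)).setHiU (qm 192)).setLoU (qm 160)).setLoW (qm 112)).setHiD (qm 288)).setHiD (qm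
    272)).setHiW (qm 120)).setLoA (qm 3584)).setHiA (qm 3840)).setHiA (qm 3712)).setHiA (qm 3648))
    (by decide +kernel))
    (good_of_check
    (T 3187671 39369850 5548544 13711909 1486624 3764974 2910594 1234807 4037791 4662796 1882254
    3632376 2871646 53589540 14439576 10174649 25034411 15850502)
    ((((((((((((((((((((((((root.setHiD (qm 2048)).setHiD (qm 1024)).setHiU (qm 512)).setLoA (qm
    2048)).setHiD (qm 512)).setHiU (qm 256)).setLoA (qm 3072)).setLoD (qm 256)).setLoU (qm
    128)).setHiW (qm 128)).setLoW (qm 64)).setHiD (qm 384)).setLoW (qm 96)).setHiD (qm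
    320)).setHiU (qm 192)).setLoU (qm 160)).setLoW (qm 112)).setHiD (qm 288)).setHiD (qm
    272)).setHiW (qm 120)).setLoA (qm 3584)).setHiA (qm 3840)).setHiA (qm 3712)).setLoA (qm 3648))
    (by decide +kernel)))
    (good_of_check
    (T 3523215 37977764 5136954 13831666 1434059 3687489 2842454 1374349 4021481 4606574 1882254
    3632376 2871646 47662164 14522920 10380545 25078293 15850502)
    (((((((((((((((((((((((root.setHiD (qm 2048)).setHiD (qm 1024)).setHiU (qm 512)).setLoA (qm
    2048)).setHiD (qm 512)).setHiU (qm 256)).setLoA (qm 3072)).setLoD (qm 256)).setLoU (qm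
    128)).setHiW (qm 128)).setLoW (qm 64)).setHiD (qm 384)).setLoW (qm 96)).setHiD (qm
    320)).setHiU (qm 192)).setLoU (qm 160)).setLoW (qm 112)).setHiD (qm 288)).setHiD (qm
    272)).setHiW (qm 120)).setLoA (qm 3584)).setHiA (qm 3840)).setLoA (qm 3712))
    (by decide +kernel)))
    (good_of_check
    (T 3523215 35132661 4194305 14068122 1326626 3411240 2629511 1393063 4274752 4761042 1882254
    3632376 2871646 46935782 13299210 9828479 25165824 15850502)
    ((((((((((((((((((((((root.setHiD (qm 2048)).setHiD (qm 1024)).setHiU (qm 512)).setLoA (qm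
    2048)).setHiD (qm 512)).setHiU (qm 256)).setLoA (qm 3072)).setLoD (qm 256)).setLoU (qm
    128)).setHiW (qm 128)).setLoW (qm 64)).setHiD (qm 384)).setLoW (qm 96)).setHiD (qm
    320)).setHiU (qm 192)).setLoU (qm 160)).setLoW (qm 112)).setHiD (qm 288)).setHiD (qm
    272)).setHiW (qm 120)).setLoA (qm 3584)).setLoA (qm 3840))
    (by decide +kernel))))
    (good_splitU (qm 176)
    (good_splitA (qm 3584)
    (good_splitA (qm 3328)
    (good_of_check
    (R .u5 2454493 6257620 2965819 5002581 13210247 (-23364) 3315886 11863286 9458179 (-296943)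
    3315886 3477736 4137390 (-109859) 2871641 2965823 2965823 7117226)
    (((((((((((((((((((((((root.setHiD (qm 2048)).setHiD (qm 1024)).setHiU (qm 512)).setLoA (qm
    2048)).setHiD (qm 512)).setHiU (qm 256)).setLoA (qm 3072)).setLoD (qm 256)).setLoU (qm
    128)).setHiW (qm 128)).setLoW (qm 64)).setHiD (qm 384)).setLoW (qm 96)).setHiD (qm
    320)).setHiU (qm 192)).setLoU (qm 160)).setLoW (qm 112)).setHiD (qm 288)).setHiD (qm
    272)).setLoW (qm 120)).setHiU (qm 176)).setHiA (qm 3584)).setHiA (qm 3328))
    (by decide +kernel))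
    (good_splitA (qm 3456)
    (good_splitU (qm 168)
    (good_splitA (qm 3392)
    (good_of_check
    (R .u5 2458660 6203621 2839556 5008043 13198122 (-26490) 3315886 11863286 9007805 (-280373)
    3315886 3397777 4069876 (-108213) 2871641 2965823 2965823 7085136)
    ((((((((((((((((((((((((((root.setHiD (qm 2048)).setHiD (qm 1024)).setHiU (qm 512)).setLoA (qm
    2048)).setHiD (qm 512)).setHiU (qm 256)).setLoA (qm 3072)).setLoD (qm 256)).setLoU (qm
    128)).setHiW (qm 128)).setLoW (qm 64)).setHiD (qm 384)).setLoW (qm 96)).setHiD (qm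
    320)).setHiU (qm 192)).setLoU (qm 160)).setLoW (qm 112)).setHiD (qm 288)).setHiD (qm
    272)).setLoW (qm 120)).setHiU (qm 176)).setHiA (qm 3584)).setLoA (qm 3328)).setHiA (qm
    3456)).setHiU (qm 168)).setHiA (qm 3392))
    (by decide +kernel))
    (good_of_check
    (T 3187671 44598993 6955468 13222039 1596972 3855315 3317615 1210964 3902207 4336563 1832929
    3397777 2965823 54621004 14731132 11682310 24946417 15876493)
    ((((((((((((((((((((((((((root.setHiD (qm 2048)).setHiD (qm 1024)).setHiU (qm 512)).setLoA (qm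
    2048)).setHiD (qm 512)).setHiU (qm 256)).setLoA (qm 3072)).setLoD (qm 256)).setLoU (qm
    128)).setHiW (qm 128)).setLoW (qm 64)).setHiD (qm 384)).setLoW (qm 96)).setHiD (qm
    320)).setHiU (qm 192)).setLoU (qm 160)).setLoW (qm 112)).setHiD (qm 288)).setHiD (qm
    272)).setLoW (qm 120)).setHiU (qm 176)).setHiA (qm 3584)).setLoA (qm 3328)).setHiA (qm
    3456)).setHiU (qm 168)).setLoA (qm 3392))
    (by decide +kernel)))
    (good_of_check
    (R .u5 2478891 6112849 2707410 4997120 13179754 (-53748) 3397772 11863286 9433316 (-303324)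
    3397772 3477736 3748524 (-100317) 2871641 2965823 2965823 6934431)
    (((((((((((((((((((((((((root.setHiD (qm 2048)).setHiD (qm 1024)).setHiU (qm 512)).setLoA (qm
    2048)).setHiD (qm 512)).setHiU (qm 256)).setLoA (qm 3072)).setLoD (qm 256)).setLoU (qm
    128)).setHiW (qm 128)).setLoW (qm 64)).setHiD (qm 384)).setLoW (qm 96)).setHiD (qm
    320)).setHiU (qm 192)).setLoU (qm 160)).setLoW (qm 112)).setHiD (qm 288)).setHiD (qm
    272)).setLoW (qm 120)).setHiU (qm 176)).setHiA (qm 3584)).setLoA (qm 3328)).setHiA (qm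
    3456)).setLoU (qm 168))
    (by decide +kernel)))
    (good_splitA (qm 3520)
    (good_of_check
    (T 3187671 43307699 6631778 13346192 1578929 3876311 3249753 1215997 3895114 4397817 1849517
    3477736 2965823 54411362 14920562 11422879 24968444 15867834)
    (((((((((((((((((((((((((root.setHiD (qm 2048)).setHiD (qm 1024)).setHiU (qm 512)).setLoA (qm
    2048)).setHiD (qm 512)).setHiU (qm 256)).setLoA (qm 3072)).setLoD (qm 256)).setLoU (qm
    128)).setHiW (qm 128)).setLoW (qm 64)).setHiD (qm 384)).setLoW (qm 96)).setHiD (qm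
    320)).setHiU (qm 192)).setLoU (qm 160)).setLoW (qm 112)).setHiD (qm 288)).setHiD (qm
    272)).setLoW (qm 120)).setHiU (qm 176)).setHiA (qm 3584)).setLoA (qm 3328)).setLoA (qm
    3456)).setHiA (qm 3520))
    (by decide +kernel))
    (good_of_check
    (T 3187671 41902124 6291457 13469201 1527684 3750504 3144281 1224961 4026897 4489381 1849517
    3477736 2965823 53988223 14222675 11049910 24990453 15867834)
    (((((((((((((((((((((((((root.setHiD (qm 2048)).setHiD (qm 1024)).setHiU (qm 512)).setLoA (qm
    2048)).setHiD (qm 512)).setHiU (qm 256)).setLoA (qm 3072)).setLoD (qm 256)).setLoU (qm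
    128)).setHiW (qm 128)).setLoW (qm 64)).setHiD (qm 384)).setLoW (qm 96)).setHiD (qm
    320)).setHiU (qm 192)).setLoU (qm 160)).setLoW (qm 112)).setHiD (qm 288)).setHiD (qm
    272)).setLoW (qm 120)).setHiU (qm 176)).setHiA (qm 3584)).setLoA (qm 3328)).setLoA (qm
    3456)).setLoA (qm 3520))
    (by decide +kernel)))))
    (good_splitA (qm 3840)
    (good_of_check
    (T 3523215 40511974 5931643 13591097 1477002 3680484 3079535 1363591 4004398 4439539 1849517
    3477736 2965823 47975781 14338611 11250776 25078293 15867834)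
    (((((((((((((((((((((((root.setHiD (qm 2048)).setHiD (qm 1024)).setHiU (qm 512)).setLoA (qm
    2048)).setHiD (qm 512)).setHiU (qm 256)).setLoA (qm 3072)).setLoD (qm 256)).setLoU (qm
    128)).setHiW (qm 128)).setLoW (qm 64)).setHiD (qm 384)).setLoW (qm 96)).setHiD (qm
    320)).setHiU (qm 192)).setLoU (qm 160)).setLoW (qm 112)).setHiD (qm 288)).setHiD (qm
    272)).setLoW (qm 120)).setHiU (qm 176)).setLoA (qm 3584)).setHiA (qm 3840))
    (by decide +kernel))
    (good_of_check
    (T 3523215 34918437 4194305 14068122 1273071 3172316 2654341 1400622 4456258 4762747 1849517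
    3477736 2965823 46524145 12237007 10033190 25165824 15867834)
    (((((((((((((((((((((((root.setHiD (qm 2048)).setHiD (qm 1024)).setHiU (qm 512)).setLoA (qm
    2048)).setHiD (qm 512)).setHiU (qm 256)).setLoA (qm 3072)).setLoD (qm 256)).setLoU (qm
    128)).setHiW (qm 128)).setLoW (qm 64)).setHiD (qm 384)).setLoW (qm 96)).setHiD (qm
    320)).setHiU (qm 192)).setLoU (qm 160)).setLoW (qm 112)).setHiD (qm 288)).setHiD (qm
    272)).setLoW (qm 120)).setHiU (qm 176)).setLoA (qm 3584)).setLoA (qm 3840))
    (by decide +kernel))))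
    (good_splitW (qm 124)
    (good_splitD (qm 264)
    (good_splitD (qm 260)
    (good_splitW (qm 122)
    (good_of_check
    (R .t5n 2857079 0 0 4988928 13201776 (-173818) 3421956 11847055 7127735 (-207375) 3421956
    3579012 (-1218725) 104875 2803836 2828243 2895478 7397331)
    (((((((((((((((((((((((((root.setHiD (qm 2048)).setHiD (qm 1024)).setHiU (qm 512)).setLoA (qm
    2048)).setHiD (qm 512)).setHiU (qm 256)).setLoA (qm 3072)).setLoD (qm 256)).setLoU (qm
    128)).setHiW (qm 128)).setLoW (qm 64)).setHiD (qm 384)).setLoW (qm 96)).setHiD (qm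
    320)).setHiU (qm 192)).setLoU (qm 160)).setLoW (qm 112)).setHiD (qm 288)).setHiD (qm
    272)).setLoW (qm 120)).setLoU (qm 176)).setHiW (qm 124)).setHiD (qm 264)).setHiD (qm
    260)).setHiW (qm 122))
    (by decide +kernel))
    (good_of_check
    (R .t5n 2857075 0 0 4988928 13201894 (-173893) 3422759 11847287 7145968 (-208844) 3422759
    3579780 (-1169550) 102411 2829210 2853401 2919115 7489027)
    (((((((((((((((((((((((((root.setHiD (qm 2048)).setHiD (qm 1024)).setHiU (qm 512)).setLoA (qm
    2048)).setHiD (qm 512)).setHiU (qm 256)).setLoA (qm 3072)).setLoD (qm 256)).setLoU (qm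
    128)).setHiW (qm 128)).setLoW (qm 64)).setHiD (qm 384)).setLoW (qm 96)).setHiD (qm
    320)).setHiU (qm 192)).setLoU (qm 160)).setLoW (qm 112)).setHiD (qm 288)).setHiD (qm
    272)).setLoW (qm 120)).setLoU (qm 176)).setHiW (qm 124)).setHiD (qm 264)).setHiD (qm
    260)).setLoW (qm 122))
    (by decide +kernel)))
    (good_splitW (qm 122)
    (good_of_check
    (R .t5n 2861246 0 0 4983467 13195206 (-177755) 3420349 11846591 7023697 (-202295) 3420349
    3577476 (-1256157) 107992 2801874 2826299 2895478 7370190)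
    (((((((((((((((((((((((((root.setHiD (qm 2048)).setHiD (qm 1024)).setHiU (qm 512)).setLoA (qm
    2048)).setHiD (qm 512)).setHiU (qm 256)).setLoA (qm 3072)).setLoD (qm 256)).setLoU (qm
    128)).setHiW (qm 128)).setLoW (qm 64)).setHiD (qm 384)).setLoW (qm 96)).setHiD (qm
    320)).setHiU (qm 192)).setLoU (qm 160)).setLoW (qm 112)).setHiD (qm 288)).setHiD (qm
    272)).setLoW (qm 120)).setLoU (qm 176)).setHiW (qm 124)).setHiD (qm 264)).setLoD (qm
    260)).setHiW (qm 122))
    (by decide +kernel))
    (good_of_check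
    (R .t5n 2857079 0 0 4983467 13201665 (-173740) 3421152 11846823 7109551 (-205907) 3421152
    3578244 (-1205913) 105494 2827266 2851474 2919115 7489001)
    (((((((((((((((((((((((((root.setHiD (qm 2048)).setHiD (qm 1024)).setHiU (qm 512)).setLoA (qm
    2048)).setHiD (qm 512)).setHiU (qm 256)).setLoA (qm 3072)).setLoD (qm 256)).setLoU (qm
    128)).setHiW (qm 128)).setLoW (qm 64)).setHiD (qm 384)).setLoW (qm 96)).setHiD (qm
    320)).setHiU (qm 192)).setLoU (qm 160)).setLoW (qm 112)).setHiD (qm 288)).setHiD (qm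
    272)).setLoW (qm 120)).setLoU (qm 176)).setHiW (qm 124)).setHiD (qm 264)).setLoD (qm
    260)).setLoW (qm 122))
    (by decide +kernel))))
    (good_splitD (qm 268)
    (good_of_check
    (R .t5n 2863821 0 0 4978005 13191053 (-180122) 3418741 11846127 6945412 (-198019) 3418741
    3575939 (-1277239) 110633 2799911 2848580 2919115 7444818)
    ((((((((((((((((((((((((root.setHiD (qm 2048)).setHiD (qm 1024)).setHiU (qm 512)).setLoA (qm
    2048)).setHiD (qm 512)).setHiU (qm 256)).setLoA (qm 3072)).setLoD (qm 256)).setLoU (qm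
    128)).setHiW (qm 128)).setLoW (qm 64)).setHiD (qm 384)).setLoW (qm 96)).setHiD (qm
    320)).setHiU (qm 192)).setLoU (qm 160)).setLoW (qm 112)).setHiD (qm 288)).setHiD (qm
    272)).setLoW (qm 120)).setLoU (qm 176)).setHiW (qm 124)).setLoD (qm 264)).setHiD (qm 268))
    (by decide +kernel))
    (good_of_check
    (R .u5 2533452 0 0 4972544 13112899 (-121159) 3477731 11863286 9585862 (-325329) 3477731
    3632376 2671522 (-72155) 2871641 2919115 2919115 6368343)
    ((((((((((((((((((((((((root.setHiD (qm 2048)).setHiD (qm 1024)).setHiU (qm 512)).setLoA (qm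
    2048)).setHiD (qm 512)).setHiU (qm 256)).setLoA (qm 3072)).setLoD (qm 256)).setLoU (qm
    128)).setHiW (qm 128)).setLoW (qm 64)).setHiD (qm 384)).setLoW (qm 96)).setHiD (qm
    320)).setHiU (qm 192)).setLoU (qm 160)).setLoW (qm 112)).setHiD (qm 288)).setHiD (qm
    272)).setLoW (qm 120)).setLoU (qm 176)).setHiW (qm 124)).setLoD (qm 264)).setLoD (qm 268))
    (by decide +kernel))))
    (good_splitD (qm 264)
    (good_of_check
    (R .t5n 2857075 0 0 4986197 13201783 (-173815) 3421956 11847055 7127805 (-207377) 3421956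
    3579012 (-1052916) 99871 2852433 2900220 2965823 7669085)
    (((((((((((((((((((((((root.setHiD (qm 2048)).setHiD (qm 1024)).setHiU (qm 512)).setLoA (qm
    2048)).setHiD (qm 512)).setHiU (qm 256)).setLoA (qm 3072)).setLoD (qm 256)).setLoU (qm
    128)).setHiW (qm 128)).setLoW (qm 64)).setHiD (qm 384)).setLoW (qm 96)).setHiD (qm
    320)).setHiU (qm 192)).setLoU (qm 160)).setLoW (qm 112)).setHiD (qm 288)).setHiD (qm
    272)).setLoW (qm 120)).setLoU (qm 176)).setLoW (qm 124)).setHiD (qm 264))
    (by decide +kernel))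
    (good_of_check
    (R .t5n 2861246 0 0 4975275 13194982 (-177598) 3418741 11846127 6987196 (-199348) 3418741
    3575939 (-1159284) 107062 2848575 2896427 2965823 7641325)
    (((((((((((((((((((((((root.setHiD (qm 2048)).setHiD (qm 1024)).setHiU (qm 512)).setLoA (qm
    2048)).setHiD (qm 512)).setHiU (qm 256)).setLoA (qm 3072)).setLoD (qm 256)).setLoU (qm
    128)).setHiW (qm 128)).setLoW (qm 64)).setHiD (qm 384)).setLoW (qm 96)).setHiD (qm
    320)).setHiU (qm 192)).setLoU (qm 160)).setLoW (qm 112)).setHiD (qm 288)).setHiD (qm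
    272)).setLoW (qm 120)).setLoU (qm 176)).setLoW (qm 124)).setLoD (qm 264))
    (by decide +kernel))))))
    (good_splitW (qm 120)
    (good_splitW (qm 116)
    (good_splitW (qm 114)
    (good_of_check
    (R .u5 2500720 0 0 4969813 13219975 (-100745) 3315886 11863286 9394703 (-305288) 3315886
    3632376 1914264 (-48842) 2774269 2798935 2798935 6131220)
    ((((((((((((((((((((((root.setHiD (qm 2048)).setHiD (qm 1024)).setHiU (qm 512)).setLoA (qm
    2048)).setHiD (qm 512)).setHiU (qm 256)).setLoA (qm 3072)).setLoD (qm 256)).setLoU (qm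
    128)).setHiW (qm 128)).setLoW (qm 64)).setHiD (qm 384)).setLoW (qm 96)).setHiD (qm
    320)).setHiU (qm 192)).setLoU (qm 160)).setLoW (qm 112)).setHiD (qm 288)).setLoD (qm
    272)).setHiW (qm 120)).setHiW (qm 116)).setHiW (qm 114))
    (by decide +kernel))
    (good_splitW (qm 115)
    (good_of_check
    (R .u5 2500720 0 0 4969813 13219975 (-100745) 3315886 11863286 9394703 (-305288) 3315886
    3632376 2113159 (-54378) 2798930 2811184 2811184 6179443)
    (((((((((((((((((((((((root.setHiD (qm 2048)).setHiD (qm 1024)).setHiU (qm 512)).setLoA (qm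
    2048)).setHiD (qm 512)).setHiU (qm 256)).setLoA (qm 3072)).setLoD (qm 256)).setLoU (qm
    128)).setHiW (qm 128)).setLoW (qm 64)).setHiD (qm 384)).setLoW (qm 96)).setHiD (qm
    320)).setHiU (qm 192)).setLoU (qm 160)).setLoW (qm 112)).setHiD (qm 288)).setLoD (qm
    272)).setHiW (qm 120)).setHiW (qm 116)).setLoW (qm 114)).setHiW (qm 115))
    (by decide +kernel))
    (good_splitA (qm 3584)
    (good_of_check
    (R .u5 2483058 5763773 2421581 4969813 13208544 (-69085) 3315886 11863286 9680702 (-312458)
    3315886 3632376 2488588 (-64041) 2811179 2823380 2823380 6349976)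
    ((((((((((((((((((((((((root.setHiD (qm 2048)).setHiD (qm 1024)).setHiU (qm 512)).setLoA (qm
    2048)).setHiD (qm 512)).setHiU (qm 256)).setLoA (qm 3072)).setLoD (qm 256)).setLoU (qm
    128)).setHiW (qm 128)).setLoW (qm 64)).setHiD (qm 384)).setLoW (qm 96)).setHiD (qm
    320)).setHiU (qm 192)).setLoU (qm 160)).setLoW (qm 112)).setHiD (qm 288)).setLoD (qm
    272)).setHiW (qm 120)).setHiW (qm 116)).setLoW (qm 114)).setLoW (qm 115)).setHiA (qm 3584))
    (by decide +kernel))
    (good_splitA (qm 3840)
    (good_of_check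
    (R .u5 2500720 5515758 1712316 4969813 13177845 (-88288) 3315886 11863286 9394703 (-305288)
    3315886 3632376 2247440 (-58148) 2811179 2823380 2823380 6226150)
    (((((((((((((((((((((((((root.setHiD (qm 2048)).setHiD (qm 1024)).setHiU (qm 512)).setLoA (qm
    2048)).setHiD (qm 512)).setHiU (qm 256)).setLoA (qm 3072)).setLoD (qm 256)).setLoU (qm
    128)).setHiW (qm 128)).setLoW (qm 64)).setHiD (qm 384)).setLoW (qm 96)).setHiD (qm
    320)).setHiU (qm 192)).setLoU (qm 160)).setLoW (qm 112)).setHiD (qm 288)).setLoD (qm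
    272)).setHiW (qm 120)).setHiW (qm 116)).setLoW (qm 114)).setLoW (qm 115)).setLoA (qm
    3584)).setHiA (qm 3840))
    (by decide +kernel))
    (good_of_check
    (T 3523215 35349529 4194305 14068122 1380843 3478325 2648073 1385326 4211172 4736862 1914432
    3632376 2823380 47338912 13592707 9800646 25165824 15815780)
    (((((((((((((((((((((((((root.setHiD (qm 2048)).setHiD (qm 1024)).setHiU (qm 512)).setLoA (qm
    2048)).setHiD (qm 512)).setHiU (qm 256)).setLoA (qm 3072)).setLoD (qm 256)).setLoU (qm
    128)).setHiW (qm 128)).setLoW (qm 64)).setHiD (qm 384)).setLoW (qm 96)).setHiD (qm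
    320)).setHiU (qm 192)).setLoU (qm 160)).setLoW (qm 112)).setHiD (qm 288)).setLoD (qm
    272)).setHiW (qm 120)).setHiW (qm 116)).setLoW (qm 114)).setLoW (qm 115)).setLoA (qm
    3584)).setLoA (qm 3840))
    (by decide +kernel))))))
    (good_splitA (qm 3584)
    (good_of_check
    (R .u5 2487225 5705081 2421581 4969813 13201362 (-73645) 3315886 11863286 9613029 (-310774)
    3315886 3632376 2778644 (-72485) 2823375 2871646 2871646 6508520)
    ((((((((((((((((((((((root.setHiD (qm 2048)).setHiD (qm 1024)).setHiU (qm 512)).setLoA (qm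
    2048)).setHiD (qm 512)).setHiU (qm 256)).setLoA (qm 3072)).setLoD (qm 256)).setLoU (qm
    128)).setHiW (qm 128)).setLoW (qm 64)).setHiD (qm 384)).setLoW (qm 96)).setHiD (qm
    320)).setHiU (qm 192)).setLoU (qm 160)).setLoW (qm 112)).setHiD (qm 288)).setLoD (qm
    272)).setHiW (qm 120)).setLoW (qm 116)).setHiA (qm 3584))
    (by decide +kernel))
    (good_splitA (qm 3840)
    (good_splitA (qm 3712)
    (good_of_check
    (R .u5 2498145 5552666 2097151 4969813 13182139 (-85442) 3315886 11863286 9436260 (-306338)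
    3315886 3632376 2623619 (-68671) 2823375 2871646 2871646 6431382)
    ((((((((((((((((((((((((root.setHiD (qm 2048)).setHiD (qm 1024)).setHiU (qm 512)).setLoA (qm
    2048)).setHiD (qm 512)).setHiU (qm 256)).setLoA (qm 3072)).setLoD (qm 256)).setLoU (qm
    128)).setHiW (qm 128)).setLoW (qm 64)).setHiD (qm 384)).setLoW (qm 96)).setHiD (qm
    320)).setHiU (qm 192)).setLoU (qm 160)).setLoW (qm 112)).setHiD (qm 288)).setLoD (qm
    272)).setHiW (qm 120)).setLoW (qm 116)).setLoA (qm 3584)).setHiA (qm 3840)).setHiA (qm 3712))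
    (by decide +kernel))
    (good_of_check
    (T 3523215 38212195 5136954 13831666 1492666 3760006 2909754 1366099 3947409 4553937 1914432
    3632376 2871646 48085788 14909817 10578685 25078293 15815780)
    ((((((((((((((((((((((((root.setHiD (qm 2048)).setHiD (qm 1024)).setHiU (qm 512)).setLoA (qm
    2048)).setHiD (qm 512)).setHiU (qm 256)).setLoA (qm 3072)).setLoD (qm 256)).setLoU (qm
    128)).setHiW (qm 128)).setLoW (qm 64)).setHiD (qm 384)).setLoW (qm 96)).setHiD (qm
    320)).setHiU (qm 192)).setLoU (qm 160)).setLoW (qm 112)).setHiD (qm 288)).setLoD (qm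
    272)).setHiW (qm 120)).setLoW (qm 116)).setLoA (qm 3584)).setHiA (qm 3840)).setLoA (qm 3712))
    (by decide +kernel)))
    (good_of_check
    (T 3523215 35349529 4194305 14068122 1380843 3478325 2691770 1385326 4211172 4714030 1914432
    3632376 2871646 47338912 13592707 9992012 25165824 15815780)
    (((((((((((((((((((((((root.setHiD (qm 2048)).setHiD (qm 1024)).setHiU (qm 512)).setLoA (qm
    2048)).setHiD (qm 512)).setHiU (qm 256)).setLoA (qm 3072)).setLoD (qm 256)).setLoU (qm
    128)).setHiW (qm 128)).setLoW (qm 64)).setHiD (qm 384)).setLoW (qm 96)).setHiD (qm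
    320)).setHiU (qm 192)).setLoU (qm 160)).setLoW (qm 112)).setHiD (qm 288)).setLoD (qm
    272)).setHiW (qm 120)).setLoW (qm 116)).setLoA (qm 3584)).setLoA (qm 3840))
    (by decide +kernel)))))
    (good_splitA (qm 3584)
    (good_of_check
    (R .u5 2493978 5612221 2421581 4969813 13189129 (-80843) 3315886 11863286 9503611 (-308034)
    3315886 3632376 3515895 (-94539) 2871641 2965823 2965823 6822779)
    (((((((((((((((((((((root.setHiD (qm 2048)).setHiD (qm 1024)).setHiU (qm 512)).setLoA (qm
    2048)).setHiD (qm 512)).setHiU (qm 256)).setLoA (qm 3072)).setLoD (qm 256)).setLoU (qm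
    128)).setHiW (qm 128)).setLoW (qm 64)).setHiD (qm 384)).setLoW (qm 96)).setHiD (qm
    320)).setHiU (qm 192)).setLoU (qm 160)).setLoW (qm 112)).setHiD (qm 288)).setLoD (qm
    272)).setLoW (qm 120)).setHiA (qm 3584))
    (by decide +kernel))
    (good_splitA (qm 3840)
    (good_splitU (qm 176)
    (good_splitA (qm 3712)
    (good_of_check
    (T 3187671 40760514 5931643 13591097 1539136 3701396 3111689 1225990 4075379 4517258 1882254
    3477736 2965823 53996881 13977183 10939756 25034411 15833150)
    ((((((((((((((((((((((((root.setHiD (qm 2048)).setHiD (qm 1024)).setHiU (qm 512)).setLoA (qm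
    2048)).setHiD (qm 512)).setHiU (qm 256)).setLoA (qm 3072)).setLoD (qm 256)).setLoU (qm
    128)).setHiW (qm 128)).setLoW (qm 64)).setHiD (qm 384)).setLoW (qm 96)).setHiD (qm
    320)).setHiU (qm 192)).setLoU (qm 160)).setLoW (qm 112)).setHiD (qm 288)).setLoD (qm
    272)).setLoW (qm 120)).setLoA (qm 3584)).setHiA (qm 3840)).setHiU (qm 176)).setHiA (qm 3712))
    (by decide +kernel))
    (good_of_check
    (T 3523215 37977764 5136954 13831666 1434059 3499703 2936346 1374349 4172176 4552377 1882254
    3477736 2965823 47662164 13504166 10803169 25078293 15833150)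
    ((((((((((((((((((((((((root.setHiD (qm 2048)).setHiD (qm 1024)).setHiU (qm 512)).setLoA (qm
    2048)).setHiD (qm 512)).setHiU (qm 256)).setLoA (qm 3072)).setLoD (qm 256)).setLoU (qm
    128)).setHiW (qm 128)).setLoW (qm 64)).setHiD (qm 384)).setLoW (qm 96)).setHiD (qm
    320)).setHiU (qm 192)).setLoU (qm 160)).setLoW (qm 112)).setHiD (qm 288)).setLoD (qm
    272)).setLoW (qm 120)).setLoA (qm 3584)).setHiA (qm 3840)).setHiU (qm 176)).setLoA (qm 3712))
    (by decide +kernel)))
    (good_of_check
    (R .u5 2533452 5491746 1712316 4958891 13133699 (-127326) 3477731 11863286 9585862 (-325329)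
    3477731 3632376 2936628 (-79922) 2871641 2965823 2965823 6542775)
    (((((((((((((((((((((((root.setHiD (qm 2048)).setHiD (qm 1024)).setHiU (qm 512)).setLoA (qm
    2048)).setHiD (qm 512)).setHiU (qm 256)).setLoA (qm 3072)).setLoD (qm 256)).setLoU (qm
    128)).setHiW (qm 128)).setLoW (qm 64)).setHiD (qm 384)).setLoW (qm 96)).setHiD (qm
    320)).setHiU (qm 192)).setLoU (qm 160)).setLoW (qm 112)).setHiD (qm 288)).setLoD (qm
    272)).setLoW (qm 120)).setLoA (qm 3584)).setHiA (qm 3840)).setLoU (qm 176))
    (by decide +kernel)))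
    (good_of_check
    (T 3523215 35349529 4194305 14068122 1380843 3478325 2779165 1385326 4211172 4666895 1914432
    3632376 2965823 47338912 13592707 10374090 25165824 15815780)
    ((((((((((((((((((((((root.setHiD (qm 2048)).setHiD (qm 1024)).setHiU (qm 512)).setLoA (qm
    2048)).setHiD (qm 512)).setHiU (qm 256)).setLoA (qm 3072)).setLoD (qm 256)).setLoU (qm
    128)).setHiW (qm 128)).setLoW (qm 64)).setHiD (qm 384)).setLoW (qm 96)).setHiD (qm
    320)).setHiU (qm 192)).setLoU (qm 160)).setLoW (qm 112)).setHiD (qm 288)).setLoD (qm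
    272)).setLoW (qm 120)).setLoA (qm 3584)).setLoA (qm 3840))
    (by decide +kernel))))))
    (good_of_check
    (R .u5 2515801 0 0 4937045 13193848 (-117068) 3315886 11863286 9152374 (-299110) 3315886
    3632376 2654473 (-69619) 2774269 2965823 2965823 6666203)
    ((((((((((((((((((root.setHiD (qm 2048)).setHiD (qm 1024)).setHiU (qm 512)).setLoA (qm
    2048)).setHiD (qm 512)).setHiU (qm 256)).setLoA (qm 3072)).setLoD (qm 256)).setLoU (qm
    128)).setHiW (qm 128)).setLoW (qm 64)).setHiD (qm 384)).setLoW (qm 96)).setHiD (qm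
    320)).setHiU (qm 192)).setLoU (qm 160)).setLoW (qm 112)).setLoD (qm 288))
    (by decide +kernel)))))
    (good_splitD (qm 288)
    (good_splitD (qm 272)
    (good_of_check
    (R .t4n 3532334 0 0 4926123 13076773 (-430667) 3467837 11813946 2719759 40992 3467837 4052650
    0 0 0 0 2965823 8097633)
    (((((((((((((((((root.setHiD (qm 2048)).setHiD (qm 1024)).setHiU (qm 512)).setLoA (qm
    2048)).setHiD (qm 512)).setHiU (qm 256)).setLoA (qm 3072)).setLoD (qm 256)).setLoU (qm
    128)).setHiW (qm 128)).setLoW (qm 64)).setHiD (qm 384)).setLoW (qm 96)).setHiD (qm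
    320)).setLoU (qm 192)).setHiD (qm 288)).setHiD (qm 272))
    (by decide +kernel))
    (good_of_check
    (R .t4n 3532334 0 0 4904277 13092996 (-434827) 3457914 11811037 2486342 62353 3457914 4044163
    0 0 0 0 2965823 8097633)
    (((((((((((((((((root.setHiD (qm 2048)).setHiD (qm 1024)).setHiU (qm 512)).setLoA (qm
    2048)).setHiD (qm 512)).setHiU (qm 256)).setLoA (qm 3072)).setLoD (qm 256)).setLoU (qm
    128)).setHiW (qm 128)).setLoW (qm 64)).setHiD (qm 384)).setLoW (qm 96)).setHiD (qm
    320)).setLoU (qm 192)).setHiD (qm 288)).setLoD (qm 272))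
    (by decide +kernel)))
    (good_of_check
    (R .t4n 3532334 0 0 4871509 13013391 (-410052) 3437984 11805217 2019343 105269 3437984 4027135
    0 0 0 0 2965823 8097633)
    ((((((((((((((((root.setHiD (qm 2048)).setHiD (qm 1024)).setHiU (qm 512)).setLoA (qm
    2048)).setHiD (qm 512)).setHiU (qm 256)).setLoA (qm 3072)).setLoD (qm 256)).setLoU (qm
    128)).setHiW (qm 128)).setLoW (qm 64)).setHiD (qm 384)).setLoW (qm 96)).setHiD (qm
    320)).setLoU (qm 192)).setLoD (qm 288))
    (by decide +kernel))))
    (good_splitW (qm 112)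
    (good_of_check
    (R .u5 2469573 0 0 4849664 13386647 (-99472) 2965818 11863286 10596055 (-313334) 2965818
    4194306 1170539 (-27198) 2568474 2774274 2774274 6249260)
    (((((((((((((((root.setHiD (qm 2048)).setHiD (qm 1024)).setHiU (qm 512)).setLoA (qm
    2048)).setHiD (qm 512)).setHiU (qm 256)).setLoA (qm 3072)).setLoD (qm 256)).setLoU (qm
    128)).setHiW (qm 128)).setLoW (qm 64)).setHiD (qm 384)).setLoW (qm 96)).setLoD (qm
    320)).setHiW (qm 112))
    (by decide +kernel))
    (good_splitW (qm 120)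
    (good_of_check
    (R .u5 2478891 0 0 4849664 13370109 (-109572) 2965818 11863286 10453839 (-309858) 2965818
    4194306 2618856 (-67221) 2774269 2871646 2871646 6568489)
    ((((((((((((((((root.setHiD (qm 2048)).setHiD (qm 1024)).setHiU (qm 512)).setLoA (qm
    2048)).setHiD (qm 512)).setHiU (qm 256)).setLoA (qm 3072)).setLoD (qm 256)).setLoU (qm
    128)).setHiW (qm 128)).setLoW (qm 64)).setHiD (qm 384)).setLoW (qm 96)).setLoD (qm
    320)).setLoW (qm 112)).setHiW (qm 120))
    (by decide +kernel))
    (good_of_check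
    (R .u5 2489812 0 0 4849664 13350661 (-121346) 2965818 11863286 10287933 (-305762) 2965818
    4194306 3579530 (-96125) 2871641 2965823 2965823 6853712)
    ((((((((((((((((root.setHiD (qm 2048)).setHiD (qm 1024)).setHiU (qm 512)).setLoA (qm
    2048)).setHiD (qm 512)).setHiU (qm 256)).setLoA (qm 3072)).setLoD (qm 256)).setLoU (qm
    128)).setHiW (qm 128)).setLoW (qm 64)).setHiD (qm 384)).setLoW (qm 96)).setLoD (qm
    320)).setLoW (qm 112)).setLoW (qm 120))
    (by decide +kernel)))))

set_option maxHeartbeats 4000000 in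
/-- One subtree of the cover. -/
theorem sub40_good : BoxGood
    ((((((((((((root.setHiD (qm 2048)).setHiD (qm 1024)).setHiU (qm 512)).setLoA (qm 2048)).setHiD
    (qm 512)).setHiU (qm 256)).setLoA (qm 3072)).setLoD (qm 256)).setLoU (qm 128)).setHiW (qm
    128)).setLoW (qm 64)).setLoD (qm 384)) :=
    (good_of_check
    (R .u5 2546939 0 0 4718592 13319618 (-202238) 2965818 11863286 9434149 (-284027) 2965818
    4194306 687847 (-10705) 2097150 2965823 2965823 6449498)
    ((((((((((((root.setHiD (qm 2048)).setHiD (qm 1024)).setHiU (qm 512)).setLoA (qm 2048)).setHiD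
    (qm 512)).setHiU (qm 256)).setLoA (qm 3072)).setLoD (qm 256)).setLoU (qm 128)).setHiW (qm
    128)).setLoW (qm 64)).setLoD (qm 384))
    (by decide +kernel))

end Vale.Agent.P226.Cert
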