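import Vale.Agent.P226.CertBox
import Vale.Agent.P226.CertSound

/-! Part 21 of the cover (P226). -/

namespace Vale.Agent.P226.Cert

set_option maxHeartbeats 4000000 in
/-- One subtree of the cover. -/
theorem sub41_good : BoxGood
    ((((((((((((((((((root.setHiD (qm 2048)).setHiD (qm 1024)).setHiU (qm 512)).setLoA (qm
    2048)).setHiD (qm 512)).setHiU (qm 256)).setLoA (qm 3072)).setLoD (qm 256)).setLoU (qm
    128)).setLoW (qm 128)).setHiW (qm 192)).setHiD (qm 384)).setHiW (qm 160)).setHiU (qm
    192)).setHiD (qm 320)).setHiW (qm 144)).setHiU (qm 160)).setHiD (qm 288)) :=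
    (good_splitA (qm 3584)
    (good_splitU (qm 144)
    (good_splitA (qm 3328)
    (good_splitW (qm 136)
    (good_splitD (qm 272)
    (good_splitA (qm 3200)
    (good_splitA (qm 3136)
    (good_splitU (qm 136)
    (good_splitA (qm 3104)
    (good_splitA (qm 3088)
    (good_of_check
    (T 3187671 51591203 8388609 12582911 1712992 3827796 3827796 1180522 3854389 3854389 1765019
    3057101 3057101 55982817 14265507 14265507 24819378 15945597)
    ((((((((((((((((((((((((((((root.setHiD (qm 2048)).setHiD (qm 1024)).setHiU (qm 512)).setLoA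
    (qm 2048)).setHiD (qm 512)).setHiU (qm 256)).setLoA (qm 3072)).setLoD (qm 256)).setLoU (qm
    128)).setLoW (qm 128)).setHiW (qm 192)).setHiD (qm 384)).setHiW (qm 160)).setHiU (qm
    192)).setHiD (qm 320)).setHiW (qm 144)).setHiU (qm 160)).setHiD (qm 288)).setHiA (qm
    3584)).setHiU (qm 144)).setHiA (qm 3328)).setHiW (qm 136)).setHiD (qm 272)).setHiA (qm
    3200)).setHiA (qm 3136)).setHiU (qm 136)).setHiA (qm 3104)).setHiA (qm 3088))
    (by decide +kernel))
    (good_of_check
    (T 3187671 51189709 8322815 12615636 1699661 3798007 3798007 1183004 3885679 3885679 1765019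
    3057101 3057101 55856846 14092484 14092484 24824915 15945597)
    ((((((((((((((((((((((((((((root.setHiD (qm 2048)).setHiD (qm 1024)).setHiU (qm 512)).setLoA
    (qm 2048)).setHiD (qm 512)).setHiU (qm 256)).setLoA (qm 3072)).setLoD (qm 256)).setLoU (qm
    128)).setLoW (qm 128)).setHiW (qm 192)).setHiD (qm 384)).setHiW (qm 160)).setHiU (qm
    192)).setHiD (qm 320)).setHiW (qm 144)).setHiU (qm 160)).setHiD (qm 288)).setHiA (qm
    3584)).setHiU (qm 144)).setHiA (qm 3328)).setHiW (qm 136)).setHiD (qm 272)).setHiA (qm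
    3200)).setHiA (qm 3136)).setHiU (qm 136)).setHiA (qm 3104)).setLoA (qm 3088))
    (by decide +kernel)))
    (good_of_check
    (T 3187671 50791291 8256497 12648277 1686432 3768446 3768446 1185468 3916440 3916440 1765019
    3057101 3057101 55732168 13925201 13925201 24835985 15945597)
    (((((((((((((((((((((((((((root.setHiD (qm 2048)).setHiD (qm 1024)).setHiU (qm 512)).setLoA
    (qm 2048)).setHiD (qm 512)).setHiU (qm 256)).setLoA (qm 3072)).setLoD (qm 256)).setLoU (qm
    128)).setLoW (qm 128)).setHiW (qm 192)).setHiD (qm 384)).setHiW (qm 160)).setHiU (qm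
    192)).setHiD (qm 320)).setHiW (qm 144)).setHiU (qm 160)).setHiD (qm 288)).setHiA (qm
    3584)).setHiU (qm 144)).setHiA (qm 3328)).setHiW (qm 136)).setHiD (qm 272)).setHiA (qm
    3200)).setHiA (qm 3136)).setHiU (qm 136)).setLoA (qm 3104))
    (by decide +kernel)))
    (good_splitD (qm 264)
    (good_splitW (qm 132)
    (good_of_check
    (R .u5 2404080 6309530 3315887 5046272 13241734 49732 3057096 11863286 7229126 (-202381)
    3057096 3145730 5868078 (-157738) 2965818 3011808 3011808 7693903)
    ((((((((((((((((((((((((((((root.setHiD (qm 2048)).setHiD (qm 1024)).setHiU (qm 512)).setLoA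
    (qm 2048)).setHiD (qm 512)).setHiU (qm 256)).setLoA (qm 3072)).setLoD (qm 256)).setLoU (qm
    128)).setLoW (qm 128)).setHiW (qm 192)).setHiD (qm 384)).setHiW (qm 160)).setHiU (qm
    192)).setHiD (qm 320)).setHiW (qm 144)).setHiU (qm 160)).setHiD (qm 288)).setHiA (qm
    3584)).setHiU (qm 144)).setHiA (qm 3328)).setHiW (qm 136)).setHiD (qm 272)).setHiA (qm
    3200)).setHiA (qm 3136)).setLoU (qm 136)).setHiD (qm 264)).setHiW (qm 132))
    (by decide +kernel))
    (good_of_check
    (R .u5 2404080 6309530 3315887 5046272 13241734 49732 3057096 11863286 7229126 (-202381)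
    3057096 3145730 6429475 (-175830) 3011803 3057101 3011808 7693903)
    ((((((((((((((((((((((((((((root.setHiD (qm 2048)).setHiD (qm 1024)).setHiU (qm 512)).setLoA
    (qm 2048)).setHiD (qm 512)).setHiU (qm 256)).setLoA (qm 3072)).setLoD (qm 256)).setLoU (qm
    128)).setLoW (qm 128)).setHiW (qm 192)).setHiD (qm 384)).setHiW (qm 160)).setHiU (qm
    192)).setHiD (qm 320)).setHiW (qm 144)).setHiU (qm 160)).setHiD (qm 288)).setHiA (qm
    3584)).setHiU (qm 144)).setHiA (qm 3328)).setHiW (qm 136)).setHiD (qm 272)).setHiA (qm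
    3200)).setHiA (qm 3136)).setLoU (qm 136)).setHiD (qm 264)).setLoW (qm 132))
    (by decide +kernel)))
    (good_of_check
    (R .u5 2404080 6309530 3315887 5035349 13249949 47264 3057096 11863286 7229126 (-202381)
    3057096 3145730 6148776 (-166510) 2965818 3057101 3057101 7870558)
    (((((((((((((((((((((((((((root.setHiD (qm 2048)).setHiD (qm 1024)).setHiU (qm 512)).setLoA
    (qm 2048)).setHiD (qm 512)).setHiU (qm 256)).setLoA (qm 3072)).setLoD (qm 256)).setLoU (qm
    128)).setLoW (qm 128)).setHiW (qm 192)).setHiD (qm 384)).setHiW (qm 160)).setHiU (qm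
    192)).setHiD (qm 320)).setHiW (qm 144)).setHiU (qm 160)).setHiD (qm 288)).setHiA (qm
    3584)).setHiU (qm 144)).setHiA (qm 3328)).setHiW (qm 136)).setHiD (qm 272)).setHiA (qm
    3200)).setHiA (qm 3136)).setLoU (qm 136)).setLoD (qm 264))
    (by decide +kernel))))
    (good_splitA (qm 3168)
    (good_splitA (qm 3152)
    (good_splitA (qm 3144)
    (good_splitA (qm 3140)
    (good_of_check
    (T 3187671 50154001 8122236 12713307 1697924 3874749 3753815 1185914 3826173 3933211 1782239
    3145730 3057101 55748434 14628611 13835153 24837368 15936975)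
    (((((((((((((((((((((((((((((root.setHiD (qm 2048)).setHiD (qm 1024)).setHiU (qm 512)).setLoA
    (qm 2048)).setHiD (qm 512)).setHiU (qm 256)).setLoA (qm 3072)).setLoD (qm 256)).setLoU (qm
    128)).setLoW (qm 128)).setHiW (qm 192)).setHiD (qm 384)).setHiW (qm 160)).setHiU (qm
    192)).setHiD (qm 320)).setHiW (qm 144)).setHiU (qm 160)).setHiD (qm 288)).setHiA (qm
    3584)).setHiU (qm 144)).setHiA (qm 3328)).setHiW (qm 136)).setHiD (qm 272)).setHiA (qm
    3200)).setLoA (qm 3136)).setHiA (qm 3168)).setHiA (qm 3152)).setHiA (qm 3144)).setHiA (qm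
    3140))
    (by decide +kernel))
    (good_of_check
    (T 3187671 50056034 8105297 12721412 1694608 3867181 3746483 1186527 3834282 3940755 1782239
    3145730 3057101 55717656 14582720 13794910 24838752 15936975)
    (((((((((((((((((((((((((((((root.setHiD (qm 2048)).setHiD (qm 1024)).setHiU (qm 512)).setLoA
    (qm 2048)).setHiD (qm 512)).setHiU (qm 256)).setLoA (qm 3072)).setLoD (qm 256)).setLoU (qm
    128)).setLoW (qm 128)).setHiW (qm 192)).setHiD (qm 384)).setHiW (qm 160)).setHiU (qm
    192)).setHiD (qm 320)).setHiW (qm 144)).setHiU (qm 160)).setHiD (qm 288)).setHiA (qm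
    3584)).setHiU (qm 144)).setHiA (qm 3328)).setHiW (qm 136)).setHiD (qm 272)).setHiA (qm
    3200)).setLoA (qm 3136)).setHiA (qm 3168)).setHiA (qm 3152)).setHiA (qm 3144)).setLoA (qm
    3140))
    (by decide +kernel)))
    (good_of_check
    (T 3187671 49958247 8088323 12729512 1691297 3859626 3739164 1187139 3842356 3948269 1782239
    3145730 3057101 55686951 14537223 13754988 24841518 15936975)
    ((((((((((((((((((((((((((((root.setHiD (qm 2048)).setHiD (qm 1024)).setHiU (qm 512)).setLoA
    (qm 2048)).setHiD (qm 512)).setHiU (qm 256)).setLoA (qm 3072)).setLoD (qm 256)).setLoU (qm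
    128)).setLoW (qm 128)).setHiW (qm 192)).setHiD (qm 384)).setHiW (qm 160)).setHiU (qm
    192)).setHiD (qm 320)).setHiW (qm 144)).setHiU (qm 160)).setHiD (qm 288)).setHiA (qm
    3584)).setHiU (qm 144)).setHiA (qm 3328)).setHiW (qm 136)).setHiD (qm 272)).setHiA (qm
    3200)).setLoA (qm 3136)).setHiA (qm 3168)).setHiA (qm 3152)).setLoA (qm 3144))
    (by decide +kernel)))
    (good_of_check
    (T 3187671 49763200 8054267 12745698 1684694 3844558 3724565 1188359 3858399 3963205 1782239
    3145730 3057101 55625810 14447399 13676106 24847050 15936975)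
    (((((((((((((((((((((((((((root.setHiD (qm 2048)).setHiD (qm 1024)).setHiU (qm 512)).setLoA
    (qm 2048)).setHiD (qm 512)).setHiU (qm 256)).setLoA (qm 3072)).setLoD (qm 256)).setLoU (qm
    128)).setLoW (qm 128)).setHiW (qm 192)).setHiD (qm 384)).setHiW (qm 160)).setHiU (qm
    192)).setHiD (qm 320)).setHiW (qm 144)).setHiU (qm 160)).setHiD (qm 288)).setHiA (qm
    3584)).setHiU (qm 144)).setHiA (qm 3328)).setHiW (qm 136)).setHiD (qm 272)).setHiA (qm
    3200)).setLoA (qm 3136)).setHiA (qm 3168)).setLoA (qm 3152))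
    (by decide +kernel)))
    (good_of_check
    (T 3187671 49375189 7985718 12778006 1671558 3814581 3695524 1190786 3890082 3992717 1782239
    3145730 3057101 55504450 14272242 13522076 24858111 15936975)
    ((((((((((((((((((((((((((root.setHiD (qm 2048)).setHiD (qm 1024)).setHiU (qm 512)).setLoA (qm
    2048)).setHiD (qm 512)).setHiU (qm 256)).setLoA (qm 3072)).setLoD (qm 256)).setLoU (qm
    128)).setLoW (qm 128)).setHiW (qm 192)).setHiD (qm 384)).setHiW (qm 160)).setHiU (qm
    192)).setHiD (qm 320)).setHiW (qm 144)).setHiU (qm 160)).setHiD (qm 288)).setHiA (qm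
    3584)).setHiU (qm 144)).setHiA (qm 3328)).setHiW (qm 136)).setHiD (qm 272)).setHiA (qm
    3200)).setLoA (qm 3136)).setLoA (qm 3168))
    (by decide +kernel))))
    (good_of_check
    (T 3187671 48607268 7846826 12842379 1645561 3755254 3638049 1195588 3951884 4050360 1782239
    3145730 3057101 55265386 13938909 13228084 24902303 15936975)
    ((((((((((((((((((((((((root.setHiD (qm 2048)).setHiD (qm 1024)).setHiU (qm 512)).setLoA (qm
    2048)).setHiD (qm 512)).setHiU (qm 256)).setLoA (qm 3072)).setLoD (qm 256)).setLoU (qm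
    128)).setLoW (qm 128)).setHiW (qm 192)).setHiD (qm 384)).setHiW (qm 160)).setHiU (qm
    192)).setHiD (qm 320)).setHiW (qm 144)).setHiU (qm 160)).setHiD (qm 288)).setHiA (qm
    3584)).setHiU (qm 144)).setHiA (qm 3328)).setHiW (qm 136)).setHiD (qm 272)).setLoA (qm 3200))
    (by decide +kernel)))
    (good_splitU (qm 136)
    (good_splitA (qm 3200)
    (good_splitW (qm 132)
    (good_splitA (qm 3136)
    (good_of_check
    (R .u5 2394762 6196846 3315887 5029888 13260775 59447 2965818 11863286 6316955 (-170492)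
    2965818 3057101 6035644 (-161702) 2965818 3011808 3011808 7769760)
    (((((((((((((((((((((((((((root.setHiD (qm 2048)).setHiD (qm 1024)).setHiU (qm 512)).setLoA
    (qm 2048)).setHiD (qm 512)).setHiU (qm 256)).setLoA (qm 3072)).setLoD (qm 256)).setLoU (qm
    128)).setLoW (qm 128)).setHiW (qm 192)).setHiD (qm 384)).setHiW (qm 160)).setHiU (qm
    192)).setHiD (qm 320)).setHiW (qm 144)).setHiU (qm 160)).setHiD (qm 288)).setHiA (qm
    3584)).setHiU (qm 144)).setHiA (qm 3328)).setHiW (qm 136)).setLoD (qm 272)).setHiU (qm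
    136)).setHiA (qm 3200)).setHiW (qm 132)).setHiA (qm 3136))
    (by decide +kernel))
    (good_of_check
    (T 3187671 50305523 8122236 12713307 1735805 3797907 3737257 1181411 3889048 3941432 1799294
    3057101 3011808 56008720 14074028 13683527 24858111 15911083)
    (((((((((((((((((((((((((((root.setHiD (qm 2048)).setHiD (qm 1024)).setHiU (qm 512)).setLoA
    (qm 2048)).setHiD (qm 512)).setHiU (qm 256)).setLoA (qm 3072)).setLoD (qm 256)).setLoU (qm
    128)).setLoW (qm 128)).setHiW (qm 192)).setHiD (qm 384)).setHiW (qm 160)).setHiU (qm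
    192)).setHiD (qm 320)).setHiW (qm 144)).setHiU (qm 160)).setHiD (qm 288)).setHiA (qm
    3584)).setHiU (qm 144)).setHiA (qm 3328)).setHiW (qm 136)).setLoD (qm 272)).setHiU (qm
    136)).setHiA (qm 3200)).setHiW (qm 132)).setLoA (qm 3136))
    (by decide +kernel)))
    (good_splitU (qm 134)
    (good_of_check
    (R .u5 2412414 6046594 3203451 5028523 13241529 36060 3011803 11863286 6142281 (-167824)
    3011803 3034539 6142281 (-167824) 3011803 3034539 3034539 7715714)
    (((((((((((((((((((((((((((root.setHiD (qm 2048)).setHiD (qm 1024)).setHiU (qm 512)).setLoA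
    (qm 2048)).setHiD (qm 512)).setHiU (qm 256)).setLoA (qm 3072)).setLoD (qm 256)).setLoU (qm
    128)).setLoW (qm 128)).setHiW (qm 192)).setHiD (qm 384)).setHiW (qm 160)).setHiU (qm
    192)).setHiD (qm 320)).setHiW (qm 144)).setHiU (qm 160)).setHiD (qm 288)).setHiA (qm
    3584)).setHiU (qm 144)).setHiA (qm 3328)).setHiW (qm 136)).setLoD (qm 272)).setHiU (qm
    136)).setHiA (qm 3200)).setLoW (qm 132)).setHiU (qm 134))
    (by decide +kernel))
    (good_of_check
    (R .u5 2419182 6021267 3203451 5025792 13231570 27964 3034534 11863286 6296567 (-173920)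
    3034534 3057101 6159224 (-169360) 3011803 3057101 3057101 7747943)
    (((((((((((((((((((((((((((root.setHiD (qm 2048)).setHiD (qm 1024)).setHiU (qm 512)).setLoA
    (qm 2048)).setHiD (qm 512)).setHiU (qm 256)).setLoA (qm 3072)).setLoD (qm 256)).setLoU (qm
    128)).setLoW (qm 128)).setHiW (qm 192)).setHiD (qm 384)).setHiW (qm 160)).setHiU (qm
    192)).setHiD (qm 320)).setHiW (qm 144)).setHiU (qm 160)).setHiD (qm 288)).setHiA (qm
    3584)).setHiU (qm 144)).setHiA (qm 3328)).setHiW (qm 136)).setLoD (qm 272)).setHiU (qm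
    136)).setHiA (qm 3200)).setLoW (qm 132)).setLoU (qm 134))
    (by decide +kernel))))
    (good_of_check
    (T 3187671 48754118 7846826 12842379 1682273 3680781 3680781 1191230 4009045 4009045 1799294
    3057101 3057101 55518380 13437887 13437887 24902303 15911083)
    (((((((((((((((((((((((((root.setHiD (qm 2048)).setHiD (qm 1024)).setHiU (qm 512)).setLoA (qm
    2048)).setHiD (qm 512)).setHiU (qm 256)).setLoA (qm 3072)).setLoD (qm 256)).setLoU (qm
    128)).setLoW (qm 128)).setHiW (qm 192)).setHiD (qm 384)).setHiW (qm 160)).setHiU (qm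
    192)).setHiD (qm 320)).setHiW (qm 144)).setHiU (qm 160)).setHiD (qm 288)).setHiA (qm
    3584)).setHiU (qm 144)).setHiA (qm 3328)).setHiW (qm 136)).setLoD (qm 272)).setHiU (qm
    136)).setLoA (qm 3200))
    (by decide +kernel)))
    (good_splitA (qm 3200)
    (good_of_check
    (R .u5 2419182 6089631 3203451 5018965 13236942 26362 3057096 11863286 6957562 (-195867)
    3057096 3145730 5879706 (-160079) 2965818 3057101 3057101 7747943)
    (((((((((((((((((((((((((root.setHiD (qm 2048)).setHiD (qm 1024)).setHiU (qm 512)).setLoA (qm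
    2048)).setHiD (qm 512)).setHiU (qm 256)).setLoA (qm 3072)).setLoD (qm 256)).setLoU (qm
    128)).setLoW (qm 128)).setHiW (qm 192)).setHiD (qm 384)).setHiW (qm 160)).setHiU (qm
    192)).setHiD (qm 320)).setHiW (qm 144)).setHiU (qm 160)).setHiD (qm 288)).setHiA (qm
    3584)).setHiU (qm 144)).setHiA (qm 3328)).setHiW (qm 136)).setLoD (qm 272)).setLoU (qm
    136)).setHiA (qm 3200))
    (by decide +kernel))
    (good_splitA (qm 3264)
    (good_splitD (qm 280)
    (good_of_check
    (T 3187671 48754118 7846826 12842379 1682273 3798340 3680781 1191230 3908358 4009045 1799294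
    3145730 3057101 55518380 14172534 13437887 24880216 15902442)
    (((((((((((((((((((((((((((root.setHiD (qm 2048)).setHiD (qm 1024)).setHiU (qm 512)).setLoA
    (qm 2048)).setHiD (qm 512)).setHiU (qm 256)).setLoA (qm 3072)).setLoD (qm 256)).setLoU (qm
    128)).setLoW (qm 128)).setHiW (qm 192)).setHiD (qm 384)).setHiW (qm 160)).setHiU (qm
    192)).setHiD (qm 320)).setHiW (qm 144)).setHiU (qm 160)).setHiD (qm 288)).setHiA (qm
    3584)).setHiU (qm 144)).setHiA (qm 3328)).setHiW (qm 136)).setLoD (qm 272)).setLoU (qm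
    136)).setLoA (qm 3200)).setHiA (qm 3264)).setHiD (qm 280))
    (by decide +kernel))
    (good_of_check
    (R .u5 2430097 5939365 3086923 5013504 13220287 13521 3057096 11863286 6763475 (-191163)
    3057096 3145730 5687949 (-155452) 2965818 3057101 3057101 7660811)
    (((((((((((((((((((((((((((root.setHiD (qm 2048)).setHiD (qm 1024)).setHiU (qm 512)).setLoA
    (qm 2048)).setHiD (qm 512)).setHiU (qm 256)).setLoA (qm 3072)).setLoD (qm 256)).setLoU (qm
    128)).setLoW (qm 128)).setHiW (qm 192)).setHiD (qm 384)).setHiW (qm 160)).setHiU (qm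
    192)).setHiD (qm 320)).setHiW (qm 144)).setHiU (qm 160)).setHiD (qm 288)).setHiA (qm
    3584)).setHiU (qm 144)).setHiA (qm 3328)).setHiW (qm 136)).setLoD (qm 272)).setLoU (qm
    136)).setLoA (qm 3200)).setHiA (qm 3264)).setLoD (qm 280))
    (by decide +kernel)))
    (good_of_check
    (T 3187671 47387256 7561391 12970167 1665961 3722702 3608439 1196480 3987480 4082246 1816189
    3145730 3057101 55292141 13751783 13069257 24902303 15893797)
    ((((((((((((((((((((((((((root.setHiD (qm 2048)).setHiD (qm 1024)).setHiU (qm 512)).setLoA (qm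
    2048)).setHiD (qm 512)).setHiU (qm 256)).setLoA (qm 3072)).setLoD (qm 256)).setLoU (qm
    128)).setLoW (qm 128)).setHiW (qm 192)).setHiD (qm 384)).setHiW (qm 160)).setHiU (qm
    192)).setHiD (qm 320)).setHiW (qm 144)).setHiU (qm 160)).setHiD (qm 288)).setHiA (qm
    3584)).setHiU (qm 144)).setHiA (qm 3328)).setHiW (qm 136)).setLoD (qm 272)).setLoU (qm
    136)).setLoA (qm 3200)).setLoA (qm 3264))
    (by decide +kernel))))))
    (good_splitD (qm 272)
    (good_splitD (qm 264)
    (good_splitD (qm 260)
    (good_of_check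
    (R .t5n 2718398 5258288 2965819 5049003 13291030 2086 3000831 11848911 3399658 (-46445)
    3000831 3091079 3399658 (-46445) 3000831 3091079 2919115 8468765)
    (((((((((((((((((((((((((root.setHiD (qm 2048)).setHiD (qm 1024)).setHiU (qm 512)).setLoA (qm
    2048)).setHiD (qm 512)).setHiU (qm 256)).setLoA (qm 3072)).setLoD (qm 256)).setLoU (qm
    128)).setLoW (qm 128)).setHiW (qm 192)).setHiD (qm 384)).setHiW (qm 160)).setHiU (qm
    192)).setHiD (qm 320)).setHiW (qm 144)).setHiU (qm 160)).setHiD (qm 288)).setHiA (qm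
    3584)).setHiU (qm 144)).setHiA (qm 3328)).setLoW (qm 136)).setHiD (qm 272)).setHiD (qm
    264)).setHiD (qm 260))
    (by decide +kernel))
    (good_splitD (qm 262)
    (good_of_check
    (R .t5n 2720975 5213147 2965819 5044907 13289058 (-1103) 2999915 11848679 3324488 (-43286)
    2999915 3090190 3324488 (-43286) 2999915 3090190 2942562 8546377)
    ((((((((((((((((((((((((((root.setHiD (qm 2048)).setHiD (qm 1024)).setHiU (qm 512)).setLoA (qm
    2048)).setHiD (qm 512)).setHiU (qm 256)).setLoA (qm 3072)).setLoD (qm 256)).setLoU (qm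
    128)).setLoW (qm 128)).setHiW (qm 192)).setHiD (qm 384)).setHiW (qm 160)).setHiU (qm
    192)).setHiD (qm 320)).setHiW (qm 144)).setHiU (qm 160)).setHiD (qm 288)).setHiA (qm
    3584)).setHiU (qm 144)).setHiA (qm 3328)).setLoW (qm 136)).setHiD (qm 272)).setHiD (qm
    264)).setLoD (qm 260)).setHiD (qm 262))
    (by decide +kernel))
    (good_splitU (qm 140)
    (good_splitA (qm 3200)
    (good_of_check
    (R .u5 2412414 6223450 3203451 5044907 13220250 42621 3057096 11863286 6819611 (-190179)
    3057096 3101732 6819611 (-190179) 3057096 3101732 2965823 7443890)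
    ((((((((((((((((((((((((((((root.setHiD (qm 2048)).setHiD (qm 1024)).setHiU (qm 512)).setLoA
    (qm 2048)).setHiD (qm 512)).setHiU (qm 256)).setLoA (qm 3072)).setLoD (qm 256)).setLoU (qm
    128)).setLoW (qm 128)).setHiW (qm 192)).setHiD (qm 384)).setHiW (qm 160)).setHiU (qm
    192)).setHiD (qm 320)).setHiW (qm 144)).setHiU (qm 160)).setHiD (qm 288)).setHiA (qm
    3584)).setHiU (qm 144)).setHiA (qm 3328)).setLoW (qm 136)).setHiD (qm 272)).setHiD (qm
    264)).setLoD (qm 260)).setLoD (qm 262)).setHiU (qm 140)).setHiA (qm 3200))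
    (by decide +kernel))
    (good_of_check
    (T 3187671 48388645 7846826 12842379 1590905 3632770 3632770 1201990 4063816 4063816 1756346
    3101732 3101732 54882685 13263287 13263287 24902303 15934819)
    ((((((((((((((((((((((((((((root.setHiD (qm 2048)).setHiD (qm 1024)).setHiU (qm 512)).setLoA
    (qm 2048)).setHiD (qm 512)).setHiU (qm 256)).setLoA (qm 3072)).setLoD (qm 256)).setLoU (qm
    128)).setLoW (qm 128)).setHiW (qm 192)).setHiD (qm 384)).setHiW (qm 160)).setHiU (qm
    192)).setHiD (qm 320)).setHiW (qm 144)).setHiU (qm 160)).setHiD (qm 288)).setHiA (qm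
    3584)).setHiU (qm 144)).setHiA (qm 3328)).setLoW (qm 136)).setHiD (qm 272)).setHiD (qm
    264)).setLoD (qm 260)).setLoD (qm 262)).setHiU (qm 140)).setLoA (qm 3200))
    (by decide +kernel)))
    (good_of_check
    (R .u5 2432673 6037703 2965819 5039445 13197867 16049 3101727 11863286 6976841 (-199155)
    3101727 3145730 6717960 (-190054) 3057096 3145730 2965823 7284107)
    (((((((((((((((((((((((((((root.setHiD (qm 2048)).setHiD (qm 1024)).setHiU (qm 512)).setLoA
    (qm 2048)).setHiD (qm 512)).setHiU (qm 256)).setLoA (qm 3072)).setLoD (qm 256)).setLoU (qm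
    128)).setLoW (qm 128)).setHiW (qm 192)).setHiD (qm 384)).setHiW (qm 160)).setHiU (qm
    192)).setHiD (qm 320)).setHiW (qm 144)).setHiU (qm 160)).setHiD (qm 288)).setHiA (qm
    3584)).setHiU (qm 144)).setHiA (qm 3328)).setLoW (qm 136)).setHiD (qm 272)).setHiD (qm
    264)).setLoD (qm 260)).setLoD (qm 262)).setLoU (qm 140))
    (by decide +kernel)))))
    (good_splitA (qm 3200)
    (good_of_check
    (R .u5 2419182 6089639 3203451 5035349 13225046 29927 3057096 11863286 6957562 (-195867)
    3057096 3145730 6957562 (-195867) 3057096 3145730 3057101 7747943)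
    (((((((((((((((((((((((((root.setHiD (qm 2048)).setHiD (qm 1024)).setHiU (qm 512)).setLoA (qm
    2048)).setHiD (qm 512)).setHiU (qm 256)).setLoA (qm 3072)).setLoD (qm 256)).setLoU (qm
    128)).setLoW (qm 128)).setHiW (qm 192)).setHiD (qm 384)).setHiW (qm 160)).setHiU (qm
    192)).setHiD (qm 320)).setHiW (qm 144)).setHiU (qm 160)).setHiD (qm 288)).setHiA (qm
    3584)).setHiU (qm 144)).setHiA (qm 3328)).setLoW (qm 136)).setHiD (qm 272)).setLoD (qm
    264)).setHiA (qm 3200))
    (by decide +kernel))
    (good_splitU (qm 140)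
    (good_of_check
    (T 3187671 48534174 7846826 12842379 1627288 3675294 3675294 1197739 4022691 4022691 1773650
    3101732 3101732 55138325 13471011 13471011 24902303 15924034)
    ((((((((((((((((((((((((((root.setHiD (qm 2048)).setHiD (qm 1024)).setHiU (qm 512)).setLoA (qm
    2048)).setHiD (qm 512)).setHiU (qm 256)).setLoA (qm 3072)).setLoD (qm 256)).setLoU (qm
    128)).setLoW (qm 128)).setHiW (qm 192)).setHiD (qm 384)).setHiW (qm 160)).setHiU (qm
    192)).setHiD (qm 320)).setHiW (qm 144)).setHiU (qm 160)).setHiD (qm 288)).setHiA (qm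
    3584)).setHiU (qm 144)).setHiA (qm 3328)).setLoW (qm 136)).setHiD (qm 272)).setLoD (qm
    264)).setLoA (qm 3200)).setHiU (qm 140))
    (by decide +kernel))
    (good_splitA (qm 3264)
    (good_of_check
    (R .u5 2432673 6037703 3086923 5032619 13202781 14574 3101727 11863286 6976841 (-199155)
    3101727 3145730 6717960 (-190054) 3057096 3145730 3057101 7639920)
    (((((((((((((((((((((((((((root.setHiD (qm 2048)).setHiD (qm 1024)).setHiU (qm 512)).setLoA
    (qm 2048)).setHiD (qm 512)).setHiU (qm 256)).setLoA (qm 3072)).setLoD (qm 256)).setLoU (qm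
    128)).setLoW (qm 128)).setHiW (qm 192)).setHiD (qm 384)).setHiW (qm 160)).setHiU (qm
    192)).setHiD (qm 320)).setHiW (qm 144)).setHiU (qm 160)).setHiD (qm 288)).setHiA (qm
    3584)).setHiU (qm 144)).setHiA (qm 3328)).setLoW (qm 136)).setHiD (qm 272)).setLoD (qm
    264)).setLoA (qm 3200)).setLoU (qm 140)).setHiA (qm 3264))
    (by decide +kernel))
    (good_of_check
    (T 3187671 47101790 7561391 12970167 1594594 3638945 3638945 1204989 4069726 4069726 1782239
    3145730 3145730 54801386 13332500 13332500 24902303 15915401)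
    (((((((((((((((((((((((((((root.setHiD (qm 2048)).setHiD (qm 1024)).setHiU (qm 512)).setLoA
    (qm 2048)).setHiD (qm 512)).setHiU (qm 256)).setLoA (qm 3072)).setLoD (qm 256)).setLoU (qm
    128)).setLoW (qm 128)).setHiW (qm 192)).setHiD (qm 384)).setHiW (qm 160)).setHiU (qm
    192)).setHiD (qm 320)).setHiW (qm 144)).setHiU (qm 160)).setHiD (qm 288)).setHiA (qm
    3584)).setHiU (qm 144)).setHiA (qm 3328)).setLoW (qm 136)).setHiD (qm 272)).setLoD (qm
    264)).setLoA (qm 3200)).setLoU (qm 140)).setLoA (qm 3264))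
    (by decide +kernel))))))
    (good_splitW (qm 140)
    (good_splitA (qm 3200)
    (good_of_check
    (R .u5 2430090 5939367 3203451 5018965 13216457 14678 3057096 11863286 6763599 (-191166)
    3057096 3145730 6504656 (-182568) 3057096 3101732 3101732 7830433)
    (((((((((((((((((((((((((root.setHiD (qm 2048)).setHiD (qm 1024)).setHiU (qm 512)).setLoA (qm
    2048)).setHiD (qm 512)).setHiU (qm 256)).setLoA (qm 3072)).setLoD (qm 256)).setLoU (qm
    128)).setLoW (qm 128)).setHiW (qm 192)).setHiD (qm 384)).setHiW (qm 160)).setHiU (qm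
    192)).setHiD (qm 320)).setHiW (qm 144)).setHiU (qm 160)).setHiD (qm 288)).setHiA (qm
    3584)).setHiU (qm 144)).setHiA (qm 3328)).setLoW (qm 136)).setLoD (qm 272)).setHiW (qm
    140)).setHiA (qm 3200))
    (by decide +kernel))
    (good_splitA (qm 3264)
    (good_splitD (qm 280)
    (good_splitU (qm 140)
    (good_of_check
    (T 3187671 48680582 7846826 12842379 1663890 3718074 3718074 1193418 3980725 3980725 1790787
    3101732 3101732 55392078 13687658 13687658 24880216 15906763)
    ((((((((((((((((((((((((((((root.setHiD (qm 2048)).setHiD (qm 1024)).setHiU (qm 512)).setLoA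
    (qm 2048)).setHiD (qm 512)).setHiU (qm 256)).setLoA (qm 3072)).setLoD (qm 256)).setLoU (qm
    128)).setLoW (qm 128)).setHiW (qm 192)).setHiD (qm 384)).setHiW (qm 160)).setHiU (qm
    192)).setHiD (qm 320)).setHiW (qm 144)).setHiU (qm 160)).setHiD (qm 288)).setHiA (qm
    3584)).setHiU (qm 144)).setHiA (qm 3328)).setLoW (qm 136)).setLoD (qm 272)).setHiW (qm
    140)).setLoA (qm 3200)).setHiA (qm 3264)).setHiD (qm 280)).setHiU (qm 140))
    (by decide +kernel))
    (good_of_check
    (R .u5 2441006 5925005 3086923 5021696 13194719 3419 3101727 11863286 6830047 (-195560)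
    3101727 3145730 6312764 (-177880) 3057096 3101732 3101732 7743670)
    ((((((((((((((((((((((((((((root.setHiD (qm 2048)).setHiD (qm 1024)).setHiU (qm 512)).setLoA
    (qm 2048)).setHiD (qm 512)).setHiU (qm 256)).setLoA (qm 3072)).setLoD (qm 256)).setLoU (qm
    128)).setLoW (qm 128)).setHiW (qm 192)).setHiD (qm 384)).setHiW (qm 160)).setHiU (qm
    192)).setHiD (qm 320)).setHiW (qm 144)).setHiU (qm 160)).setHiD (qm 288)).setHiA (qm
    3584)).setHiU (qm 144)).setHiA (qm 3328)).setLoW (qm 136)).setLoD (qm 272)).setHiW (qm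
    140)).setLoA (qm 3200)).setHiA (qm 3264)).setHiD (qm 280)).setLoU (qm 140))
    (by decide +kernel)))
    (good_of_check
    (R .u5 2436840 5847757 3086923 5013504 13207227 6445 3057096 11863286 6644536 (-188260)
    3057096 3145730 6385767 (-179668) 3057096 3101732 3101732 7777046)
    (((((((((((((((((((((((((((root.setHiD (qm 2048)).setHiD (qm 1024)).setHiU (qm 512)).setLoA
    (qm 2048)).setHiD (qm 512)).setHiU (qm 256)).setLoA (qm 3072)).setLoD (qm 256)).setLoU (qm
    128)).setLoW (qm 128)).setHiW (qm 192)).setHiD (qm 384)).setHiW (qm 160)).setHiU (qm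
    192)).setHiD (qm 320)).setHiW (qm 144)).setHiU (qm 160)).setHiD (qm 288)).setHiA (qm
    3584)).setHiU (qm 144)).setHiA (qm 3328)).setLoW (qm 136)).setLoD (qm 272)).setHiW (qm
    140)).setLoA (qm 3200)).setHiA (qm 3264)).setLoD (qm 280))
    (by decide +kernel)))
    (good_splitA (qm 3296)
    (good_of_check
    (T 3187671 47387256 7561391 12970167 1665961 3722702 3665570 1196480 3987480 4035511 1816189
    3145730 3101732 55292141 13751783 13405776 24891262 15893797)
    (((((((((((((((((((((((((((root.setHiD (qm 2048)).setHiD (qm 1024)).setHiU (qm 512)).setLoA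
    (qm 2048)).setHiD (qm 512)).setHiU (qm 256)).setLoA (qm 3072)).setLoD (qm 256)).setLoU (qm
    128)).setLoW (qm 128)).setHiW (qm 192)).setHiD (qm 384)).setHiW (qm 160)).setHiU (qm
    192)).setHiD (qm 320)).setHiW (qm 144)).setHiU (qm 160)).setHiD (qm 288)).setHiA (qm
    3584)).setHiU (qm 144)).setHiA (qm 3328)).setLoW (qm 136)).setLoD (qm 272)).setHiW (qm
    140)).setLoA (qm 3200)).setLoA (qm 3264)).setHiA (qm 3296))
    (by decide +kernel))
    (good_of_check
    (T 3187671 46644070 7414554 13033592 1639833 3664318 3608082 1201218 4046406 4092504 1816189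
    3145730 3101732 55060305 13449566 13121002 24902303 15893797)
    (((((((((((((((((((((((((((root.setHiD (qm 2048)).setHiD (qm 1024)).setHiU (qm 512)).setLoA
    (qm 2048)).setHiD (qm 512)).setHiU (qm 256)).setLoA (qm 3072)).setLoD (qm 256)).setLoU (qm
    128)).setLoW (qm 128)).setHiW (qm 192)).setHiD (qm 384)).setHiW (qm 160)).setHiU (qm
    192)).setHiD (qm 320)).setHiW (qm 144)).setHiU (qm 160)).setHiD (qm 288)).setHiA (qm
    3584)).setHiU (qm 144)).setHiA (qm 3328)).setLoW (qm 136)).setLoD (qm 272)).setHiW (qm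
    140)).setLoA (qm 3200)).setLoA (qm 3264)).setLoA (qm 3296))
    (by decide +kernel)))))
    (good_splitD (qm 280)
    (good_splitD (qm 276)
    (good_of_check
    (R .u5 2447750 5778123 2965819 5024427 13194035 (-7509) 3101727 11863286 6712035 (-192653)
    3101727 3145730 6712035 (-192653) 3101727 3145730 3057101 7521087)
    ((((((((((((((((((((((((((root.setHiD (qm 2048)).setHiD (qm 1024)).setHiU (qm 512)).setLoA (qm
    2048)).setHiD (qm 512)).setHiU (qm 256)).setLoA (qm 3072)).setLoD (qm 256)).setLoU (qm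
    128)).setLoW (qm 128)).setHiW (qm 192)).setHiD (qm 384)).setHiW (qm 160)).setHiU (qm
    192)).setHiD (qm 320)).setHiW (qm 144)).setHiU (qm 160)).setHiD (qm 288)).setHiA (qm
    3584)).setHiU (qm 144)).setHiA (qm 3328)).setLoW (qm 136)).setLoD (qm 272)).setLoW (qm
    140)).setHiD (qm 280)).setHiD (qm 276))
    (by decide +kernel))
    (good_of_check
    (R .u5 2451917 5721523 2965819 5018965 13189859 (-13022) 3101727 11863286 6639467 (-190857)
    3101727 3145730 6639467 (-190857) 3101727 3145730 3101732 7656680)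
    ((((((((((((((((((((((((((root.setHiD (qm 2048)).setHiD (qm 1024)).setHiU (qm 512)).setLoA (qm
    2048)).setHiD (qm 512)).setHiU (qm 256)).setLoA (qm 3072)).setLoD (qm 256)).setLoU (qm
    128)).setLoW (qm 128)).setHiW (qm 192)).setHiD (qm 384)).setHiW (qm 160)).setHiU (qm
    192)).setHiD (qm 320)).setHiW (qm 144)).setHiU (qm 160)).setHiD (qm 288)).setHiA (qm
    3584)).setHiU (qm 144)).setHiA (qm 3328)).setLoW (qm 136)).setLoD (qm 272)).setLoW (qm
    140)).setHiD (qm 280)).setLoD (qm 276))
    (by decide +kernel)))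
    (good_of_check
    (R .u5 2458660 5627864 2965819 5010773 13183026 (-21908) 3101727 11863286 6522619 (-187953)
    3101727 3145730 6522619 (-187953) 3101727 3145730 3145730 7767191)
    (((((((((((((((((((((((((root.setHiD (qm 2048)).setHiD (qm 1024)).setHiU (qm 512)).setLoA (qm
    2048)).setHiD (qm 512)).setHiU (qm 256)).setLoA (qm 3072)).setLoD (qm 256)).setLoU (qm
    128)).setLoW (qm 128)).setHiW (qm 192)).setHiD (qm 384)).setHiW (qm 160)).setHiU (qm
    192)).setHiD (qm 320)).setHiW (qm 144)).setHiU (qm 160)).setHiD (qm 288)).setHiA (qm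
    3584)).setHiU (qm 144)).setHiA (qm 3328)).setLoW (qm 136)).setLoD (qm 272)).setLoW (qm
    140)).setLoD (qm 280))
    (by decide +kernel))))))
    (good_splitA (qm 3456)
    (good_splitA (qm 3392)
    (good_of_check
    (T 3187671 45909508 7264749 13096709 1614009 3606612 3606612 1205891 4103593 4103593 1816189
    3145730 3145730 54832939 13164986 13164986 24924369 15919718)
    (((((((((((((((((((((((root.setHiD (qm 2048)).setHiD (qm 1024)).setHiU (qm 512)).setLoA (qm
    2048)).setHiD (qm 512)).setHiU (qm 256)).setLoA (qm 3072)).setLoD (qm 256)).setLoU (qm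
    128)).setLoW (qm 128)).setHiW (qm 192)).setHiD (qm 384)).setHiW (qm 160)).setHiU (qm
    192)).setHiD (qm 320)).setHiW (qm 144)).setHiU (qm 160)).setHiD (qm 288)).setHiA (qm
    3584)).setHiU (qm 144)).setLoA (qm 3328)).setHiA (qm 3456)).setHiA (qm 3392))
    (by decide +kernel))
    (good_of_check
    (T 3187671 44463844 6955468 13222039 1563185 3493042 3493042 1215055 4213196 4213196 1816189
    3145730 3145730 54390741 12642445 12642445 24946417 15919718)
    (((((((((((((((((((((((root.setHiD (qm 2048)).setHiD (qm 1024)).setHiU (qm 512)).setLoA (qm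
    2048)).setHiD (qm 512)).setHiU (qm 256)).setLoA (qm 3072)).setLoD (qm 256)).setLoU (qm
    128)).setLoW (qm 128)).setHiW (qm 192)).setHiD (qm 384)).setHiW (qm 160)).setHiU (qm
    192)).setHiD (qm 320)).setHiW (qm 144)).setHiU (qm 160)).setHiD (qm 288)).setHiA (qm
    3584)).setHiU (qm 144)).setLoA (qm 3328)).setHiA (qm 3456)).setLoA (qm 3392))
    (by decide +kernel)))
    (good_of_check
    (T 3187671 43045228 6631778 13346192 1513311 3381596 3381596 1223990 4317107 4317107 1816189
    3145730 3145730 53964231 12173269 12173269 24990453 15919718)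
    ((((((((((((((((((((((root.setHiD (qm 2048)).setHiD (qm 1024)).setHiU (qm 512)).setLoA (qm
    2048)).setHiD (qm 512)).setHiU (qm 256)).setLoA (qm 3072)).setLoD (qm 256)).setLoU (qm
    128)).setLoW (qm 128)).setHiW (qm 192)).setHiD (qm 384)).setHiW (qm 160)).setHiU (qm
    192)).setHiD (qm 320)).setHiW (qm 144)).setHiU (qm 160)).setHiD (qm 288)).setHiA (qm
    3584)).setHiU (qm 144)).setLoA (qm 3328)).setLoA (qm 3456))
    (by decide +kernel))))
    (good_splitA (qm 3328)
    (good_splitD (qm 272)
    (good_splitW (qm 136)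
    (good_splitA (qm 3200)
    (good_splitW (qm 132)
    (good_of_check
    (R .u5 2430092 6196835 3203451 5024427 13215512 14966 3145726 11863286 8212596 (-242108)
    3145726 3315891 5409531 (-146751) 2965818 3011808 3011808 7484412)
    (((((((((((((((((((((((((root.setHiD (qm 2048)).setHiD (qm 1024)).setHiU (qm 512)).setLoA (qm
    2048)).setHiD (qm 512)).setHiU (qm 256)).setLoA (qm 3072)).setLoD (qm 256)).setLoU (qm
    128)).setLoW (qm 128)).setHiW (qm 192)).setHiD (qm 384)).setHiW (qm 160)).setHiU (qm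
    192)).setHiD (qm 320)).setHiW (qm 144)).setHiU (qm 160)).setHiD (qm 288)).setHiA (qm
    3584)).setLoU (qm 144)).setHiA (qm 3328)).setHiD (qm 272)).setHiW (qm 136)).setHiA (qm
    3200)).setHiW (qm 132))
    (by decide +kernel))
    (good_splitD (qm 264)
    (good_of_check
    (R .u5 2430097 6196836 3203451 5029888 13211447 16177 3145726 11863286 8212496 (-242105)
    3145726 3315891 5966465 (-164700) 3011803 3057101 3011808 7484356)
    ((((((((((((((((((((((((((root.setHiD (qm 2048)).setHiD (qm 1024)).setHiU (qm 512)).setLoA (qm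
    2048)).setHiD (qm 512)).setHiU (qm 256)).setLoA (qm 3072)).setLoD (qm 256)).setLoU (qm
    128)).setLoW (qm 128)).setHiW (qm 192)).setHiD (qm 384)).setHiW (qm 160)).setHiU (qm
    192)).setHiD (qm 320)).setHiW (qm 144)).setHiU (qm 160)).setHiD (qm 288)).setHiA (qm
    3584)).setLoU (qm 144)).setHiA (qm 3328)).setHiD (qm 272)).setHiW (qm 136)).setHiA (qm
    3200)).setLoW (qm 132)).setHiD (qm 264))
    (by decide +kernel))
    (good_of_check
    (R .u5 2430097 6196835 3203451 5018965 13219517 13760 3145726 11863286 8212496 (-242105)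
    3145726 3315891 5966465 (-164700) 3011803 3057101 3057101 7660811)
    ((((((((((((((((((((((((((root.setHiD (qm 2048)).setHiD (qm 1024)).setHiU (qm 512)).setLoA (qm
    2048)).setHiD (qm 512)).setHiU (qm 256)).setLoA (qm 3072)).setLoD (qm 256)).setLoU (qm
    128)).setLoW (qm 128)).setHiW (qm 192)).setHiD (qm 384)).setHiW (qm 160)).setHiU (qm
    192)).setHiD (qm 320)).setHiW (qm 144)).setHiU (qm 160)).setHiD (qm 288)).setHiA (qm
    3584)).setLoU (qm 144)).setHiA (qm 3328)).setHiD (qm 272)).setHiW (qm 136)).setHiA (qm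
    3200)).setLoW (qm 132)).setLoD (qm 264))
    (by decide +kernel))))
    (good_splitU (qm 152)
    (good_splitA (qm 3264)
    (good_splitD (qm 264)
    (good_of_check
    (T 3187671 48607268 7846826 12842379 1645561 3872459 3638049 1195588 3847644 4050360 1782239
    3231931 3057101 55265386 14696309 13228084 24880216 15919718)
    (((((((((((((((((((((((((((root.setHiD (qm 2048)).setHiD (qm 1024)).setHiU (qm 512)).setLoA
    (qm 2048)).setHiD (qm 512)).setHiU (qm 256)).setLoA (qm 3072)).setLoD (qm 256)).setLoU (qm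
    128)).setLoW (qm 128)).setHiW (qm 192)).setHiD (qm 384)).setHiW (qm 160)).setHiU (qm
    192)).setHiD (qm 320)).setHiW (qm 144)).setHiU (qm 160)).setHiD (qm 288)).setHiA (qm
    3584)).setLoU (qm 144)).setHiA (qm 3328)).setHiD (qm 272)).setHiW (qm 136)).setLoA (qm
    3200)).setHiU (qm 152)).setHiA (qm 3264)).setHiD (qm 264))
    (by decide +kernel))
    (good_of_check
    (R .u5 2432673 6162663 3086923 5024427 13210491 12264 3145726 11863286 7711966 (-224999)
    3145726 3231931 5643049 (-154364) 2965818 3057101 3057101 7639920)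
    (((((((((((((((((((((((((((root.setHiD (qm 2048)).setHiD (qm 1024)).setHiU (qm 512)).setLoA
    (qm 2048)).setHiD (qm 512)).setHiU (qm 256)).setLoA (qm 3072)).setLoD (qm 256)).setLoU (qm
    128)).setLoW (qm 128)).setHiW (qm 192)).setHiD (qm 384)).setHiW (qm 160)).setHiU (qm
    192)).setHiD (qm 320)).setHiW (qm 144)).setHiU (qm 160)).setHiD (qm 288)).setHiA (qm
    3584)).setLoU (qm 144)).setHiA (qm 3328)).setHiD (qm 272)).setHiW (qm 136)).setLoA (qm
    3200)).setHiU (qm 152)).setHiA (qm 3264)).setLoD (qm 264))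
    (by decide +kernel)))
    (good_of_check
    (T 3187671 47244092 7561391 12970167 1630170 3794615 3566779 1200769 3931051 4121766 1799294
    3231931 3057101 55047576 14238275 12876057 24902303 15911083)
    ((((((((((((((((((((((((((root.setHiD (qm 2048)).setHiD (qm 1024)).setHiU (qm 512)).setLoA (qm
    2048)).setHiD (qm 512)).setHiU (qm 256)).setLoA (qm 3072)).setLoD (qm 256)).setLoU (qm
    128)).setLoW (qm 128)).setHiW (qm 192)).setHiD (qm 384)).setHiW (qm 160)).setHiU (qm
    192)).setHiD (qm 320)).setHiW (qm 144)).setHiU (qm 160)).setHiD (qm 288)).setHiA (qm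
    3584)).setLoU (qm 144)).setHiA (qm 3328)).setHiD (qm 272)).setHiW (qm 136)).setLoA (qm
    3200)).setHiU (qm 152)).setLoA (qm 3264))
    (by decide +kernel)))
    (good_splitW (qm 132)
    (good_of_check
    (R .u5 2451917 6105270 2965819 5018965 13190904 (-13301) 3231926 11863286 8288206 (-250604)
    3231926 3315891 5035581 (-137638) 2965818 3011808 3011808 7314356)
    ((((((((((((((((((((((((((root.setHiD (qm 2048)).setHiD (qm 1024)).setHiU (qm 512)).setLoA (qm
    2048)).setHiD (qm 512)).setHiU (qm 256)).setLoA (qm 3072)).setLoD (qm 256)).setLoU (qm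
    128)).setLoW (qm 128)).setHiW (qm 192)).setHiD (qm 384)).setHiW (qm 160)).setHiU (qm
    192)).setHiD (qm 320)).setHiW (qm 144)).setHiU (qm 160)).setHiD (qm 288)).setHiA (qm
    3584)).setLoU (qm 144)).setHiA (qm 3328)).setHiD (qm 272)).setHiW (qm 136)).setLoA (qm
    3200)).setLoU (qm 152)).setHiW (qm 132))
    (by decide +kernel))
    (good_of_check
    (R .t5n 2753710 5323875 2965819 5018965 13268999 (-43278) 3171832 11847055 5203901 (-109575)
    3171832 3257346 1465892 22242 2947224 2993499 3057101 8761228)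
    ((((((((((((((((((((((((((root.setHiD (qm 2048)).setHiD (qm 1024)).setHiU (qm 512)).setLoA (qm
    2048)).setHiD (qm 512)).setHiU (qm 256)).setLoA (qm 3072)).setLoD (qm 256)).setLoU (qm
    128)).setLoW (qm 128)).setHiW (qm 192)).setHiD (qm 384)).setHiW (qm 160)).setHiU (qm
    192)).setHiD (qm 320)).setHiW (qm 144)).setHiU (qm 160)).setHiD (qm 288)).setHiA (qm
    3584)).setLoU (qm 144)).setHiA (qm 3328)).setHiD (qm 272)).setHiW (qm 136)).setLoA (qm
    3200)).setLoU (qm 152)).setLoW (qm 132))
    (by decide +kernel)))))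
    (good_splitD (qm 264)
    (good_of_check
    (R .t5n 2740219 5222026 2965819 5029888 13286940 (-29074) 3089295 11848447 4956915 (-101980)
    3089295 3262405 2948776 (-31382) 2998998 3089300 2965823 8496335)
    ((((((((((((((((((((((((root.setHiD (qm 2048)).setHiD (qm 1024)).setHiU (qm 512)).setLoA (qm
    2048)).setHiD (qm 512)).setHiU (qm 256)).setLoA (qm 3072)).setLoD (qm 256)).setLoU (qm
    128)).setLoW (qm 128)).setHiW (qm 192)).setHiD (qm 384)).setHiW (qm 160)).setHiU (qm
    192)).setHiD (qm 320)).setHiW (qm 144)).setHiU (qm 160)).setHiD (qm 288)).setHiA (qm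
    3584)).setLoU (qm 144)).setHiA (qm 3328)).setHiD (qm 272)).setLoW (qm 136)).setHiD (qm 264))
    (by decide +kernel))
    (good_splitD (qm 268)
    (good_of_check
    (R .u5 2447750 5912767 2965819 5021696 13195687 (-7988) 3145726 11863286 7903815 (-234551)
    3145726 3315891 6453632 (-183568) 3057096 3145730 3011808 7346925)
    (((((((((((((((((((((((((root.setHiD (qm 2048)).setHiD (qm 1024)).setHiU (qm 512)).setLoA (qm
    2048)).setHiD (qm 512)).setHiU (qm 256)).setLoA (qm 3072)).setLoD (qm 256)).setLoU (qm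
    128)).setLoW (qm 128)).setHiW (qm 192)).setHiD (qm 384)).setHiW (qm 160)).setHiU (qm
    192)).setHiD (qm 320)).setHiW (qm 144)).setHiU (qm 160)).setHiD (qm 288)).setHiA (qm
    3584)).setLoU (qm 144)).setHiA (qm 3328)).setHiD (qm 272)).setLoW (qm 136)).setLoD (qm
    264)).setHiD (qm 268))
    (by decide +kernel))
    (good_of_check
    (R .u5 2451917 5855368 2965819 5016235 13191906 (-13622) 3145726 11863286 7831491 (-232764)
    3145726 3315891 6381229 (-181778) 3057096 3145730 3057101 7488281)
    (((((((((((((((((((((((((root.setHiD (qm 2048)).setHiD (qm 1024)).setHiU (qm 512)).setLoA (qm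
    2048)).setHiD (qm 512)).setHiU (qm 256)).setLoA (qm 3072)).setLoD (qm 256)).setLoU (qm
    128)).setLoW (qm 128)).setHiW (qm 192)).setHiD (qm 384)).setHiW (qm 160)).setHiU (qm
    192)).setHiD (qm 320)).setHiW (qm 144)).setHiU (qm 160)).setHiD (qm 288)).setHiA (qm
    3584)).setLoU (qm 144)).setHiA (qm 3328)).setHiD (qm 272)).setLoW (qm 136)).setLoD (qm
    264)).setLoD (qm 268))
    (by decide +kernel)))))
    (good_splitW (qm 136)
    (good_of_check
    (R .u5 2447751 5912754 2965819 5002581 13209159 (-12014) 3145726 11863286 7903800 (-234551)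
    3145726 3315891 5382815 (-148014) 2965818 3057101 3057101 7521076)
    (((((((((((((((((((((((root.setHiD (qm 2048)).setHiD (qm 1024)).setHiU (qm 512)).setLoA (qm
    2048)).setHiD (qm 512)).setHiU (qm 256)).setLoA (qm 3072)).setLoD (qm 256)).setLoU (qm
    128)).setLoW (qm 128)).setHiW (qm 192)).setHiD (qm 384)).setHiW (qm 160)).setHiU (qm
    192)).setHiD (qm 320)).setHiW (qm 144)).setHiU (qm 160)).setHiD (qm 288)).setHiA (qm
    3584)).setLoU (qm 144)).setHiA (qm 3328)).setLoD (qm 272)).setHiW (qm 136))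
    (by decide +kernel))
    (good_splitU (qm 152)
    (good_splitD (qm 280)
    (good_splitW (qm 140)
    (good_of_check
    (R .u5 2454493 5821160 2965819 5013504 13188763 (-16856) 3145726 11863286 7330028 (-215597)
    3145726 3231931 6078500 (-172102) 3057096 3101732 3101732 7636110)
    ((((((((((((((((((((((((((root.setHiD (qm 2048)).setHiD (qm 1024)).setHiU (qm 512)).setLoA (qm
    2048)).setHiD (qm 512)).setHiU (qm 256)).setLoA (qm 3072)).setLoD (qm 256)).setLoU (qm
    128)).setLoW (qm 128)).setHiW (qm 192)).setHiD (qm 384)).setHiW (qm 160)).setHiU (qm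
    192)).setHiD (qm 320)).setHiW (qm 144)).setHiU (qm 160)).setHiD (qm 288)).setHiA (qm
    3584)).setLoU (qm 144)).setHiA (qm 3328)).setLoD (qm 272)).setLoW (qm 136)).setHiU (qm
    152)).setHiD (qm 280)).setHiW (qm 140))
    (by decide +kernel))
    (good_of_check
    (R .u5 2458660 5763773 2965819 5013504 13181096 (-21316) 3145726 11863286 7257800 (-213799)
    3145726 3231931 6522619 (-187953) 3101727 3145730 3101732 7603308)
    ((((((((((((((((((((((((((root.setHiD (qm 2048)).setHiD (qm 1024)).setHiU (qm 512)).setLoA (qm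
    2048)).setHiD (qm 512)).setHiU (qm 256)).setLoA (qm 3072)).setLoD (qm 256)).setLoU (qm
    128)).setLoW (qm 128)).setHiW (qm 192)).setHiD (qm 384)).setHiW (qm 160)).setHiU (qm
    192)).setHiD (qm 320)).setHiW (qm 144)).setHiU (qm 160)).setHiD (qm 288)).setHiA (qm
    3584)).setLoU (qm 144)).setHiA (qm 3328)).setLoD (qm 272)).setLoW (qm 136)).setHiU (qm
    152)).setHiD (qm 280)).setLoW (qm 140))
    (by decide +kernel)))
    (good_of_check
    (R .u5 2461236 5728291 2965819 5002581 13183821 (-26298) 3145726 11863286 7213287 (-212689)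
    3145726 3231931 6220369 (-177781) 3057096 3145730 3145730 7747840)
    (((((((((((((((((((((((((root.setHiD (qm 2048)).setHiD (qm 1024)).setHiU (qm 512)).setLoA (qm
    2048)).setHiD (qm 512)).setHiU (qm 256)).setLoA (qm 3072)).setLoD (qm 256)).setLoU (qm
    128)).setLoW (qm 128)).setHiW (qm 192)).setHiD (qm 384)).setHiW (qm 160)).setHiU (qm
    192)).setHiD (qm 320)).setHiW (qm 144)).setHiU (qm 160)).setHiD (qm 288)).setHiA (qm
    3584)).setLoU (qm 144)).setHiA (qm 3328)).setLoD (qm 272)).setLoW (qm 136)).setHiU (qm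
    152)).setLoD (qm 280))
    (by decide +kernel)))
    (good_of_check
    (R .u5 2469573 5817781 2965819 4997120 13185959 (-40520) 3231926 11863286 7985085 (-243057)
    3231926 3315891 6077685 (-174212) 3057096 3145730 3145730 7682368)
    ((((((((((((((((((((((((root.setHiD (qm 2048)).setHiD (qm 1024)).setHiU (qm 512)).setLoA (qm
    2048)).setHiD (qm 512)).setHiU (qm 256)).setLoA (qm 3072)).setLoD (qm 256)).setLoU (qm
    128)).setLoW (qm 128)).setHiW (qm 192)).setHiD (qm 384)).setHiW (qm 160)).setHiU (qm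
    192)).setHiD (qm 320)).setHiW (qm 144)).setHiU (qm 160)).setHiD (qm 288)).setHiA (qm
    3584)).setLoU (qm 144)).setHiA (qm 3328)).setLoD (qm 272)).setLoW (qm 136)).setLoU (qm 152))
    (by decide +kernel)))))
    (good_splitA (qm 3456)
    (good_splitD (qm 272)
    (good_splitU (qm 152)
    (good_of_check
    (T 3187671 45770808 7264749 13096709 1579334 3676282 3565917 1210047 4052326 4142510 1799294
    3231931 3145730 54594829 13606675 12976073 24946417 15911083)
    ((((((((((((((((((((((((root.setHiD (qm 2048)).setHiD (qm 1024)).setHiU (qm 512)).setLoA (qm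
    2048)).setHiD (qm 512)).setHiU (qm 256)).setLoA (qm 3072)).setLoD (qm 256)).setLoU (qm
    128)).setLoW (qm 128)).setHiW (qm 192)).setHiD (qm 384)).setHiW (qm 160)).setHiU (qm
    192)).setHiD (qm 320)).setHiW (qm 144)).setHiU (qm 160)).setHiD (qm 288)).setHiA (qm
    3584)).setLoU (qm 144)).setLoA (qm 3328)).setHiA (qm 3456)).setHiD (qm 272)).setHiU (qm 152))
    (by decide +kernel))
    (good_splitW (qm 136)
    (good_splitA (qm 3392)
    (good_of_check
    (T 3187671 45909508 7264749 13096709 1614009 3828012 3495912 1205891 3914347 4190974 1816189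
    3315891 3057101 54832939 14502999 12547169 24924369 15893797)
    ((((((((((((((((((((((((((root.setHiD (qm 2048)).setHiD (qm 1024)).setHiU (qm 512)).setLoA (qm
    2048)).setHiD (qm 512)).setHiU (qm 256)).setLoA (qm 3072)).setLoD (qm 256)).setLoU (qm
    128)).setLoW (qm 128)).setHiW (qm 192)).setHiD (qm 384)).setHiW (qm 160)).setHiU (qm
    192)).setHiD (qm 320)).setHiW (qm 144)).setHiU (qm 160)).setHiD (qm 288)).setHiA (qm
    3584)).setLoU (qm 144)).setLoA (qm 3328)).setHiA (qm 3456)).setHiD (qm 272)).setLoU (qm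
    152)).setHiW (qm 136)).setHiA (qm 3392))
    (by decide +kernel))
    (good_of_check
    (T 3187671 44463844 6955468 13222039 1563185 3707470 3385828 1215055 4039070 4293878 1816189
    3315891 3057101 54390741 13847700 12079406 24946417 15893797)
    ((((((((((((((((((((((((((root.setHiD (qm 2048)).setHiD (qm 1024)).setHiU (qm 512)).setLoA (qm
    2048)).setHiD (qm 512)).setHiU (qm 256)).setLoA (qm 3072)).setLoD (qm 256)).setLoU (qm
    128)).setLoW (qm 128)).setHiW (qm 192)).setHiD (qm 384)).setHiW (qm 160)).setHiU (qm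
    192)).setHiD (qm 320)).setHiW (qm 144)).setHiU (qm 160)).setHiD (qm 288)).setHiA (qm
    3584)).setLoU (qm 144)).setLoA (qm 3328)).setHiA (qm 3456)).setHiD (qm 272)).setLoU (qm
    152)).setHiW (qm 136)).setLoA (qm 3392))
    (by decide +kernel)))
    (good_splitA (qm 3392)
    (good_of_check
    (R .t5n 2764622 5200857 2839556 5018965 13251200 (-54056) 3173564 11847519 5055424 (-107057)
    3173564 3259033 2408129 (-11493) 2995330 3085739 3057101 8678954)
    ((((((((((((((((((((((((((root.setHiD (qm 2048)).setHiD (qm 1024)).setHiU (qm 512)).setLoA (qm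
    2048)).setHiD (qm 512)).setHiU (qm 256)).setLoA (qm 3072)).setLoD (qm 256)).setLoU (qm
    128)).setLoW (qm 128)).setHiW (qm 192)).setHiD (qm 384)).setHiW (qm 160)).setHiU (qm
    192)).setHiD (qm 320)).setHiW (qm 144)).setHiU (qm 160)).setHiD (qm 288)).setHiA (qm
    3584)).setLoU (qm 144)).setLoA (qm 3328)).setHiA (qm 3456)).setHiD (qm 272)).setLoU (qm
    152)).setLoW (qm 136)).setHiA (qm 3392))
    (by decide +kernel))
    (good_of_check
    (T 3187671 44463844 6955468 13222039 1563185 3707470 3493042 1215055 4039070 4213196 1816189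
    3315891 3145730 54390741 13847700 12642445 24946417 15893797)
    ((((((((((((((((((((((((((root.setHiD (qm 2048)).setHiD (qm 1024)).setHiU (qm 512)).setLoA (qm
    2048)).setHiD (qm 512)).setHiU (qm 256)).setLoA (qm 3072)).setLoD (qm 256)).setLoU (qm
    128)).setLoW (qm 128)).setHiW (qm 192)).setHiD (qm 384)).setHiW (qm 160)).setHiU (qm
    192)).setHiD (qm 320)).setHiW (qm 144)).setHiU (qm 160)).setHiD (qm 288)).setHiA (qm
    3584)).setLoU (qm 144)).setLoA (qm 3328)).setHiA (qm 3456)).setHiD (qm 272)).setLoU (qm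
    152)).setLoW (qm 136)).setLoA (qm 3392))
    (by decide +kernel)))))
    (good_splitW (qm 136)
    (good_splitA (qm 3392)
    (good_splitU (qm 152)
    (good_of_check
    (T 3187671 46049050 7264749 13096709 1648894 3758590 3536517 1201670 3969851 4153144 1832929
    3231931 3057101 55069412 14031887 12725476 24924369 15876493)
    ((((((((((((((((((((((((((root.setHiD (qm 2048)).setHiD (qm 1024)).setHiU (qm 512)).setLoA (qm
    2048)).setHiD (qm 512)).setHiU (qm 256)).setLoA (qm 3072)).setLoD (qm 256)).setLoU (qm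
    128)).setLoW (qm 128)).setHiW (qm 192)).setHiD (qm 384)).setHiW (qm 160)).setHiU (qm
    192)).setHiD (qm 320)).setHiW (qm 144)).setHiU (qm 160)).setHiD (qm 288)).setHiA (qm
    3584)).setLoU (qm 144)).setLoA (qm 3328)).setHiA (qm 3456)).setLoD (qm 272)).setHiW (qm
    136)).setHiA (qm 3392)).setHiU (qm 152))
    (by decide +kernel))
    (good_of_check
    (R .u5 2465406 5873101 2839556 4997120 13194019 (-36198) 3231926 11863286 8056302 (-244841)
    3231926 3315891 5083967 (-140638) 2965818 3057101 3057101 7383808)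
    ((((((((((((((((((((((((((root.setHiD (qm 2048)).setHiD (qm 1024)).setHiU (qm 512)).setLoA (qm
    2048)).setHiD (qm 512)).setHiU (qm 256)).setLoA (qm 3072)).setLoD (qm 256)).setLoU (qm
    128)).setLoW (qm 128)).setHiW (qm 192)).setHiD (qm 384)).setHiW (qm 160)).setHiU (qm
    192)).setHiD (qm 320)).setHiW (qm 144)).setHiU (qm 160)).setHiD (qm 288)).setHiA (qm
    3584)).setLoU (qm 144)).setLoA (qm 3328)).setHiA (qm 3456)).setLoD (qm 272)).setHiW (qm
    136)).setHiA (qm 3392)).setLoU (qm 152))
    (by decide +kernel)))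
    (good_of_check
    (T 3187671 44734965 6955468 13222039 1630965 3788325 3464721 1206810 3956588 4222050 1849517
    3315891 3057101 54849705 14276377 12403288 24946417 15867834)
    (((((((((((((((((((((((((root.setHiD (qm 2048)).setHiD (qm 1024)).setHiU (qm 512)).setLoA (qm
    2048)).setHiD (qm 512)).setHiU (qm 256)).setLoA (qm 3072)).setLoD (qm 256)).setLoU (qm
    128)).setLoW (qm 128)).setHiW (qm 192)).setHiD (qm 384)).setHiW (qm 160)).setHiU (qm
    192)).setHiD (qm 320)).setHiW (qm 144)).setHiU (qm 160)).setHiD (qm 288)).setHiA (qm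
    3584)).setLoU (qm 144)).setLoA (qm 3328)).setHiA (qm 3456)).setLoD (qm 272)).setHiW (qm
    136)).setLoA (qm 3392))
    (by decide +kernel)))
    (good_splitU (qm 152)
    (good_splitA (qm 3392)
    (good_splitD (qm 280)
    (good_splitA (qm 3360)
    (good_of_check
    (T 3187671 45909508 7264749 13096709 1614009 3717312 3606612 1205891 4011495 4103593 1816189
    3231931 3145730 54832939 13814929 13164986 24913339 15885148)
    ((((((((((((((((((((((((((((root.setHiD (qm 2048)).setHiD (qm 1024)).setHiU (qm 512)).setLoA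
    (qm 2048)).setHiD (qm 512)).setHiU (qm 256)).setLoA (qm 3072)).setLoD (qm 256)).setLoU (qm
    128)).setLoW (qm 128)).setHiW (qm 192)).setHiD (qm 384)).setHiW (qm 160)).setHiU (qm
    192)).setHiD (qm 320)).setHiW (qm 144)).setHiU (qm 160)).setHiD (qm 288)).setHiA (qm
    3584)).setLoU (qm 144)).setLoA (qm 3328)).setHiA (qm 3456)).setLoD (qm 272)).setLoW (qm
    136)).setHiU (qm 152)).setHiA (qm 3392)).setHiD (qm 280)).setHiA (qm 3360))
    (by decide +kernel))
    (good_of_check
    (T 3187671 45182972 7111790 13159523 1588466 3658483 3549535 1210503 4070772 4159155 1816189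
    3231931 3145730 54609786 13514013 12896421 24924369 15885148)
    ((((((((((((((((((((((((((((root.setHiD (qm 2048)).setHiD (qm 1024)).setHiU (qm 512)).setLoA
    (qm 2048)).setHiD (qm 512)).setHiU (qm 256)).setLoA (qm 3072)).setLoD (qm 256)).setLoU (qm
    128)).setLoW (qm 128)).setHiW (qm 192)).setHiD (qm 384)).setHiW (qm 160)).setHiU (qm
    192)).setHiD (qm 320)).setHiW (qm 144)).setHiU (qm 160)).setHiD (qm 288)).setHiA (qm
    3584)).setLoU (qm 144)).setLoA (qm 3328)).setHiA (qm 3456)).setLoD (qm 272)).setLoW (qm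
    136)).setHiU (qm 152)).setHiA (qm 3392)).setHiD (qm 280)).setLoA (qm 3360))
    (by decide +kernel)))
    (good_splitA (qm 3360)
    (good_of_check
    (R .u5 2465402 5670901 2903374 5002581 13176081 (-30723) 3145726 11863286 7141465 (-210891)
    3145726 3231931 6148917 (-175997) 3057096 3145730 3145730 7715064)
    ((((((((((((((((((((((((((((root.setHiD (qm 2048)).setHiD (qm 1024)).setHiU (qm 512)).setLoA
    (qm 2048)).setHiD (qm 512)).setHiU (qm 256)).setLoA (qm 3072)).setLoD (qm 256)).setLoU (qm
    128)).setLoW (qm 128)).setHiW (qm 192)).setHiD (qm 384)).setHiW (qm 160)).setHiU (qm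
    192)).setHiD (qm 320)).setHiW (qm 144)).setHiU (qm 160)).setHiD (qm 288)).setHiA (qm
    3584)).setLoU (qm 144)).setLoA (qm 3328)).setHiA (qm 3456)).setLoD (qm 272)).setLoW (qm
    136)).setHiU (qm 152)).setHiA (qm 3392)).setLoD (qm 280)).setHiA (qm 3360))
    (by decide +kernel))
    (good_of_check
    (T 3187671 45320306 7111790 13159523 1622800 3699109 3589830 1206348 4030501 4120739 1832929
    3231931 3145730 54843091 13717448 13081288 24924369 15867834)
    ((((((((((((((((((((((((((((root.setHiD (qm 2048)).setHiD (qm 1024)).setHiU (qm 512)).setLoA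
    (qm 2048)).setHiD (qm 512)).setHiU (qm 256)).setLoA (qm 3072)).setLoD (qm 256)).setLoU (qm
    128)).setLoW (qm 128)).setHiW (qm 192)).setHiD (qm 384)).setHiW (qm 160)).setHiU (qm
    192)).setHiD (qm 320)).setHiW (qm 144)).setHiU (qm 160)).setHiD (qm 288)).setHiA (qm
    3584)).setLoU (qm 144)).setLoA (qm 3328)).setHiA (qm 3456)).setLoD (qm 272)).setLoW (qm
    136)).setHiU (qm 152)).setHiA (qm 3392)).setLoD (qm 280)).setLoA (qm 3360))
    (by decide +kernel))))
    (good_of_check
    (T 3187671 44598993 6955468 13222039 1596972 3640235 3532695 1210964 4089380 4175971 1832929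
    3231931 3145730 54621004 13421418 12816638 24946417 15876493)
    ((((((((((((((((((((((((((root.setHiD (qm 2048)).setHiD (qm 1024)).setHiU (qm 512)).setLoA (qm
    2048)).setHiD (qm 512)).setHiU (qm 256)).setLoA (qm 3072)).setLoD (qm 256)).setLoU (qm
    128)).setLoW (qm 128)).setHiW (qm 192)).setHiD (qm 384)).setHiW (qm 160)).setHiU (qm
    192)).setHiD (qm 320)).setHiW (qm 144)).setHiU (qm 160)).setHiD (qm 288)).setHiA (qm
    3584)).setLoU (qm 144)).setLoA (qm 3328)).setHiA (qm 3456)).setLoD (qm 272)).setLoW (qm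
    136)).setHiU (qm 152)).setLoA (qm 3392))
    (by decide +kernel)))
    (good_splitD (qm 280)
    (good_splitW (qm 140)
    (good_of_check
    (R .u5 2478891 5690733 2707410 5002581 13165034 (-49301) 3231926 11863286 7826520 (-239061)
    3231926 3315891 5662812 (-161706) 3057096 3101732 3101732 7447740)
    (((((((((((((((((((((((((((root.setHiD (qm 2048)).setHiD (qm 1024)).setHiU (qm 512)).setLoA
    (qm 2048)).setHiD (qm 512)).setHiU (qm 256)).setLoA (qm 3072)).setLoD (qm 256)).setLoU (qm
    128)).setLoW (qm 128)).setHiW (qm 192)).setHiD (qm 384)).setHiW (qm 160)).setHiU (qm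
    192)).setHiD (qm 320)).setHiW (qm 144)).setHiU (qm 160)).setHiD (qm 288)).setHiA (qm
    3584)).setLoU (qm 144)).setLoA (qm 3328)).setHiA (qm 3456)).setLoD (qm 272)).setLoW (qm
    136)).setLoU (qm 152)).setHiD (qm 280)).setHiW (qm 140))
    (by decide +kernel))
    (good_of_check
    (R .u5 2483058 5633320 2707410 5002581 13157508 (-53764) 3231926 11863286 7755934 (-237272)
    3231926 3315891 6105923 (-177475) 3101727 3145730 3101732 7415724)
    (((((((((((((((((((((((((((root.setHiD (qm 2048)).setHiD (qm 1024)).setHiU (qm 512)).setLoA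
    (qm 2048)).setHiD (qm 512)).setHiU (qm 256)).setLoA (qm 3072)).setLoD (qm 256)).setLoU (qm
    128)).setLoW (qm 128)).setHiW (qm 192)).setHiD (qm 384)).setHiW (qm 160)).setHiU (qm
    192)).setHiD (qm 320)).setHiW (qm 144)).setHiU (qm 160)).setHiD (qm 288)).setHiA (qm
    3584)).setLoU (qm 144)).setLoA (qm 3328)).setHiA (qm 3456)).setLoD (qm 272)).setLoW (qm
    136)).setLoU (qm 152)).setHiD (qm 280)).setLoW (qm 140))
    (by decide +kernel)))
    (good_of_check
    (R .u5 2487225 5576729 2707410 4991659 13157035 (-60319) 3231926 11863286 7685563 (-235482)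
    3231926 3315891 5779514 (-166683) 3057096 3145730 3145730 7545095)
    ((((((((((((((((((((((((((root.setHiD (qm 2048)).setHiD (qm 1024)).setHiU (qm 512)).setLoA (qm
    2048)).setHiD (qm 512)).setHiU (qm 256)).setLoA (qm 3072)).setLoD (qm 256)).setLoU (qm
    128)).setLoW (qm 128)).setHiW (qm 192)).setHiD (qm 384)).setHiW (qm 160)).setHiU (qm
    192)).setHiD (qm 320)).setHiW (qm 144)).setHiU (qm 160)).setHiD (qm 288)).setHiA (qm
    3584)).setLoU (qm 144)).setLoA (qm 3328)).setHiA (qm 3456)).setLoD (qm 272)).setLoW (qm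
    136)).setLoU (qm 152)).setLoD (qm 280))
    (by decide +kernel))))))
    (good_splitA (qm 3520)
    (good_of_check
    (T 3187671 43307699 6631778 13346192 1578929 3667459 3458606 1215997 4079582 4246483 1849517
    3315891 3145730 54411362 13643625 12489452 24968444 15885148)
    (((((((((((((((((((((((root.setHiD (qm 2048)).setHiD (qm 1024)).setHiU (qm 512)).setLoA (qm
    2048)).setHiD (qm 512)).setHiU (qm 256)).setLoA (qm 3072)).setLoD (qm 256)).setLoU (qm
    128)).setLoW (qm 128)).setHiW (qm 192)).setHiD (qm 384)).setHiW (qm 160)).setHiU (qm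
    192)).setHiD (qm 320)).setHiW (qm 144)).setHiU (qm 160)).setHiD (qm 288)).setHiA (qm
    3584)).setLoU (qm 144)).setLoA (qm 3328)).setLoA (qm 3456)).setHiA (qm 3520))
    (by decide +kernel))
    (good_of_check
    (T 3187671 41902124 6291457 13469201 1527684 3548429 3346355 1224961 4195920 4349554 1849517
    3315891 3145730 53988223 13080147 12031732 24990453 15885148)
    (((((((((((((((((((((((root.setHiD (qm 2048)).setHiD (qm 1024)).setHiU (qm 512)).setLoA (qm
    2048)).setHiD (qm 512)).setHiU (qm 256)).setLoA (qm 3072)).setLoD (qm 256)).setLoU (qm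
    128)).setLoW (qm 128)).setHiW (qm 192)).setHiD (qm 384)).setHiW (qm 160)).setHiU (qm
    192)).setHiD (qm 320)).setHiW (qm 144)).setHiU (qm 160)).setHiD (qm 288)).setHiA (qm
    3584)).setLoU (qm 144)).setLoA (qm 3328)).setLoA (qm 3456)).setLoA (qm 3520))
    (by decide +kernel))))))
    (good_splitA (qm 3840)
    (good_of_check
    (T 3523215 40511974 5931643 13591097 1477002 3480168 3279851 1363591 4163239 4307822 1849517
    3315891 3145730 47975781 13235141 12214197 25078293 15902442)
    ((((((((((((((((((((root.setHiD (qm 2048)).setHiD (qm 1024)).setHiU (qm 512)).setLoA (qm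
    2048)).setHiD (qm 512)).setHiU (qm 256)).setLoA (qm 3072)).setLoD (qm 256)).setLoU (qm
    128)).setLoW (qm 128)).setHiW (qm 192)).setHiD (qm 384)).setHiW (qm 160)).setHiU (qm
    192)).setHiD (qm 320)).setHiW (qm 144)).setHiU (qm 160)).setHiD (qm 288)).setLoA (qm
    3584)).setHiA (qm 3840))
    (by decide +kernel))
    (good_of_check
    (T 3523215 34918437 4194305 14068122 1273071 2999658 2826999 1400622 4566825 4668805 1849517
    3315891 3145730 46524145 11484728 10753988 25165824 15902442)
    ((((((((((((((((((((root.setHiD (qm 2048)).setHiD (qm 1024)).setHiU (qm 512)).setLoA (qm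
    2048)).setHiD (qm 512)).setHiU (qm 256)).setLoA (qm 3072)).setLoD (qm 256)).setLoU (qm
    128)).setLoW (qm 128)).setHiW (qm 192)).setHiD (qm 384)).setHiW (qm 160)).setHiU (qm
    192)).setHiD (qm 320)).setHiW (qm 144)).setHiU (qm 160)).setHiD (qm 288)).setLoA (qm
    3584)).setLoA (qm 3840))
    (by decide +kernel))))

end Vale.Agent.P226.Cert
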