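import Vale.Agent.P226.CertBox
import Vale.Agent.P226.CertSound

/-! Part 22 of the cover (P226). -/

namespace Vale.Agent.P226.Cert

set_option maxHeartbeats 4000000 in
/-- One subtree of the cover. -/
theorem sub42_good : BoxGood
    ((((((((((((((((((root.setHiD (qm 2048)).setHiD (qm 1024)).setHiU (qm 512)).setLoA (qm
    2048)).setHiD (qm 512)).setHiU (qm 256)).setLoA (qm 3072)).setLoD (qm 256)).setLoU (qm
    128)).setLoW (qm 128)).setHiW (qm 192)).setHiD (qm 384)).setHiW (qm 160)).setHiU (qm
    192)).setHiD (qm 320)).setHiW (qm 144)).setHiU (qm 160)).setLoD (qm 288)) :=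
    (good_splitW (qm 136)
    (good_splitU (qm 144)
    (good_splitA (qm 3584)
    (good_splitD (qm 304)
    (good_splitA (qm 3328)
    (good_splitW (qm 132)
    (good_splitW (qm 130)
    (good_of_check
    (R .u5 2430097 5586897 2965819 5002581 13243017 6531 2965818 11863286 6225712 (-172257)
    2965818 3145730 5267936 (-142327) 2965818 2988904 2988904 7395575)
    (((((((((((((((((((((((((root.setHiD (qm 2048)).setHiD (qm 1024)).setHiU (qm 512)).setLoA (qm
    2048)).setHiD (qm 512)).setHiU (qm 256)).setLoA (qm 3072)).setLoD (qm 256)).setLoU (qm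
    128)).setLoW (qm 128)).setHiW (qm 192)).setHiD (qm 384)).setHiW (qm 160)).setHiU (qm
    192)).setHiD (qm 320)).setHiW (qm 144)).setHiU (qm 160)).setLoD (qm 288)).setHiW (qm
    136)).setHiU (qm 144)).setHiA (qm 3584)).setHiD (qm 304)).setHiA (qm 3328)).setHiW (qm
    132)).setHiW (qm 130))
    (by decide +kernel))
    (good_of_check
    (R .u5 2436839 5569164 2965819 5001216 13230845 (-807) 2988899 11863286 6244168 (-174184)
    2988899 3145730 5433931 (-148469) 2988899 3011808 3011808 7431824)
    (((((((((((((((((((((((((root.setHiD (qm 2048)).setHiD (qm 1024)).setHiU (qm 512)).setLoA (qm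
    2048)).setHiD (qm 512)).setHiU (qm 256)).setLoA (qm 3072)).setLoD (qm 256)).setLoU (qm
    128)).setLoW (qm 128)).setHiW (qm 192)).setHiD (qm 384)).setHiW (qm 160)).setHiU (qm
    192)).setHiD (qm 320)).setHiW (qm 144)).setHiU (qm 160)).setLoD (qm 288)).setHiW (qm
    136)).setHiU (qm 144)).setHiA (qm 3584)).setHiD (qm 304)).setHiA (qm 3328)).setHiW (qm
    132)).setLoW (qm 130))
    (by decide +kernel)))
    (good_of_check
    (R .u5 2441009 5585603 2965819 4999851 13223804 (-5480) 3011803 11863286 6306248 (-177146)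
    3011803 3145730 5776010 (-160058) 3011803 3057101 3057101 7573420)
    ((((((((((((((((((((((((root.setHiD (qm 2048)).setHiD (qm 1024)).setHiU (qm 512)).setLoA (qm
    2048)).setHiD (qm 512)).setHiU (qm 256)).setLoA (qm 3072)).setLoD (qm 256)).setLoU (qm
    128)).setLoW (qm 128)).setHiW (qm 192)).setHiD (qm 384)).setHiW (qm 160)).setHiU (qm
    192)).setHiD (qm 320)).setHiW (qm 144)).setHiU (qm 160)).setLoD (qm 288)).setHiW (qm
    136)).setHiU (qm 144)).setHiA (qm 3584)).setHiD (qm 304)).setHiA (qm 3328)).setLoW (qm 132))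
    (by decide +kernel)))
    (good_splitA (qm 3456)
    (good_splitA (qm 3392)
    (good_of_check
    (T 3187671 46189444 7264749 13096709 1683993 3688746 3577371 1197382 4023481 4114595 1849517
    3145730 3057101 55304538 13566040 12910818 24924369 15867834)
    (((((((((((((((((((((((((root.setHiD (qm 2048)).setHiD (qm 1024)).setHiU (qm 512)).setLoA (qm
    2048)).setHiD (qm 512)).setHiU (qm 256)).setLoA (qm 3072)).setLoD (qm 256)).setLoU (qm
    128)).setLoW (qm 128)).setHiW (qm 192)).setHiD (qm 384)).setHiW (qm 160)).setHiU (qm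
    192)).setHiD (qm 320)).setHiW (qm 144)).setHiU (qm 160)).setLoD (qm 288)).setHiW (qm
    136)).setHiU (qm 144)).setHiA (qm 3584)).setHiD (qm 304)).setLoA (qm 3328)).setHiA (qm
    3456)).setHiA (qm 3392))
    (by decide +kernel))
    (good_of_check
    (T 3187671 44734965 6955468 13222039 1630965 3572589 3464721 1206810 4138059 4222050 1849517
    3145730 3057101 54849705 12997488 12403288 24946417 15867834)
    (((((((((((((((((((((((((root.setHiD (qm 2048)).setHiD (qm 1024)).setHiU (qm 512)).setLoA (qm
    2048)).setHiD (qm 512)).setHiU (qm 256)).setLoA (qm 3072)).setLoD (qm 256)).setLoU (qm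
    128)).setLoW (qm 128)).setHiW (qm 192)).setHiD (qm 384)).setHiW (qm 160)).setHiU (qm
    192)).setHiD (qm 320)).setHiW (qm 144)).setHiU (qm 160)).setLoD (qm 288)).setHiW (qm
    136)).setHiU (qm 144)).setHiA (qm 3584)).setHiD (qm 304)).setLoA (qm 3328)).setHiA (qm
    3456)).setLoA (qm 3392))
    (by decide +kernel)))
    (good_of_check
    (T 3187671 43307699 6631778 13346192 1578929 3458606 3354180 1215997 4246483 4323990 1849517
    3145730 3057101 54411362 12489452 11947131 24990453 15867834)
    ((((((((((((((((((((((((root.setHiD (qm 2048)).setHiD (qm 1024)).setHiU (qm 512)).setLoA (qm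
    2048)).setHiD (qm 512)).setHiU (qm 256)).setLoA (qm 3072)).setLoD (qm 256)).setLoU (qm
    128)).setLoW (qm 128)).setHiW (qm 192)).setHiD (qm 384)).setHiW (qm 160)).setHiU (qm
    192)).setHiD (qm 320)).setHiW (qm 144)).setHiU (qm 160)).setLoD (qm 288)).setHiW (qm
    136)).setHiU (qm 144)).setHiA (qm 3584)).setHiD (qm 304)).setLoA (qm 3328)).setLoA (qm 3456))
    (by decide +kernel))))
    (good_splitW (qm 132)
    (good_splitW (qm 130)
    (good_splitU (qm 136)
    (good_splitW (qm 129)
    (good_of_check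
    (R .u5 2465402 4993211 2421581 4986197 13211323 (-41434) 2965818 11863286 5084039 (-140640)
    2965818 3057101 4600696 (-125535) 2965818 2977386 2977386 7079524)
    ((((((((((((((((((((((((((root.setHiD (qm 2048)).setHiD (qm 1024)).setHiU (qm 512)).setLoA (qm
    2048)).setHiD (qm 512)).setHiU (qm 256)).setLoA (qm 3072)).setLoD (qm 256)).setLoU (qm
    128)).setLoW (qm 128)).setHiW (qm 192)).setHiD (qm 384)).setHiW (qm 160)).setHiU (qm
    192)).setHiD (qm 320)).setHiW (qm 144)).setHiU (qm 160)).setLoD (qm 288)).setHiW (qm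
    136)).setHiU (qm 144)).setHiA (qm 3584)).setLoD (qm 304)).setHiW (qm 132)).setHiW (qm
    130)).setHiU (qm 136)).setHiW (qm 129))
    (by decide +kernel))
    (good_of_check
    (R .u5 2465406 5036255 2421581 4985515 13210646 (-41233) 2977381 11863286 5153016 (-142930)
    2977381 3057101 4740469 (-129938) 2977381 2988904 2988904 7122971)
    ((((((((((((((((((((((((((root.setHiD (qm 2048)).setHiD (qm 1024)).setHiU (qm 512)).setLoA (qm
    2048)).setHiD (qm 512)).setHiU (qm 256)).setLoA (qm 3072)).setLoD (qm 256)).setLoU (qm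
    128)).setLoW (qm 128)).setHiW (qm 192)).setHiD (qm 384)).setHiW (qm 160)).setHiU (qm
    192)).setHiD (qm 320)).setHiW (qm 144)).setHiU (qm 160)).setLoD (qm 288)).setHiW (qm
    136)).setHiU (qm 144)).setHiA (qm 3584)).setLoD (qm 304)).setHiW (qm 132)).setHiW (qm
    130)).setHiU (qm 136)).setLoW (qm 129))
    (by decide +kernel)))
    (good_of_check
    (R .u5 2478891 5122332 2421581 4975275 13188410 (-56325) 3057096 11863286 5919610 (-170233)
    3057096 3145730 4449733 (-122230) 2965818 2988904 2988904 7022438)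
    (((((((((((((((((((((((((root.setHiD (qm 2048)).setHiD (qm 1024)).setHiU (qm 512)).setLoA (qm
    2048)).setHiD (qm 512)).setHiU (qm 256)).setLoA (qm 3072)).setLoD (qm 256)).setLoU (qm
    128)).setLoW (qm 128)).setHiW (qm 192)).setHiD (qm 384)).setHiW (qm 160)).setHiU (qm
    192)).setHiD (qm 320)).setHiW (qm 144)).setHiU (qm 160)).setLoD (qm 288)).setHiW (qm
    136)).setHiU (qm 144)).setHiA (qm 3584)).setLoD (qm 304)).setHiW (qm 132)).setHiW (qm
    130)).setLoU (qm 136))
    (by decide +kernel)))
    (good_of_check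
    (R .u5 2472148 4978863 2421581 4979371 13201718 (-49451) 2988899 11863286 5637428 (-159175)
    2988899 3145730 4836551 (-133756) 2988899 3011808 3011808 7160019)
    ((((((((((((((((((((((((root.setHiD (qm 2048)).setHiD (qm 1024)).setHiU (qm 512)).setLoA (qm
    2048)).setHiD (qm 512)).setHiU (qm 256)).setLoA (qm 3072)).setLoD (qm 256)).setLoU (qm
    128)).setLoW (qm 128)).setHiW (qm 192)).setHiD (qm 384)).setHiW (qm 160)).setHiU (qm
    192)).setHiD (qm 320)).setHiW (qm 144)).setHiU (qm 160)).setLoD (qm 288)).setHiW (qm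
    136)).setHiU (qm 144)).setHiA (qm 3584)).setLoD (qm 304)).setHiW (qm 132)).setLoW (qm 130))
    (by decide +kernel)))
    (good_splitW (qm 134)
    (good_of_check
    (R .u5 2476316 5000782 2421581 4978005 13193601 (-53742) 3011803 11863286 5700567 (-162100)
    3011803 3145730 5040734 (-140836) 3011803 3034539 3034539 7214856)
    ((((((((((((((((((((((((root.setHiD (qm 2048)).setHiD (qm 1024)).setHiU (qm 512)).setLoA (qm
    2048)).setHiD (qm 512)).setHiU (qm 256)).setLoA (qm 3072)).setLoD (qm 256)).setLoU (qm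
    128)).setLoW (qm 128)).setHiW (qm 192)).setHiD (qm 384)).setHiW (qm 160)).setHiU (qm
    192)).setHiD (qm 320)).setHiW (qm 144)).setHiU (qm 160)).setLoD (qm 288)).setHiW (qm
    136)).setHiU (qm 144)).setHiA (qm 3584)).setLoD (qm 304)).setLoW (qm 132)).setHiW (qm 134))
    (by decide +kernel))
    (good_of_check
    (R .u5 2483058 4984322 2421581 4976640 13180916 (-60807) 3034534 11863286 5719089 (-163875)
    3034534 3145730 5197775 (-146820) 3034534 3057101 3057101 7249002)
    ((((((((((((((((((((((((root.setHiD (qm 2048)).setHiD (qm 1024)).setHiU (qm 512)).setLoA (qm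
    2048)).setHiD (qm 512)).setHiU (qm 256)).setLoA (qm 3072)).setLoD (qm 256)).setLoU (qm
    128)).setLoW (qm 128)).setHiW (qm 192)).setHiD (qm 384)).setHiW (qm 160)).setHiU (qm
    192)).setHiD (qm 320)).setHiW (qm 144)).setHiU (qm 160)).setLoD (qm 288)).setHiW (qm
    136)).setHiU (qm 144)).setHiA (qm 3584)).setLoD (qm 304)).setLoW (qm 132)).setLoW (qm 134))
    (by decide +kernel)))))
    (good_splitA (qm 3840)
    (good_of_check
    (T 3523215 40760514 5931643 13591097 1539136 3353046 3252273 1355042 4243553 4313480 1882254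
    3145730 3057101 48427583 12502815 11993069 25078293 15850502)
    ((((((((((((((((((((((root.setHiD (qm 2048)).setHiD (qm 1024)).setHiU (qm 512)).setLoA (qm
    2048)).setHiD (qm 512)).setHiU (qm 256)).setLoA (qm 3072)).setLoD (qm 256)).setLoU (qm
    128)).setLoW (qm 128)).setHiW (qm 192)).setHiD (qm 384)).setHiW (qm 160)).setHiU (qm
    192)).setHiD (qm 320)).setHiW (qm 144)).setHiU (qm 160)).setLoD (qm 288)).setHiW (qm
    136)).setHiU (qm 144)).setLoA (qm 3584)).setHiA (qm 3840))
    (by decide +kernel))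
    (good_of_check
    (T 3523215 35132661 4194305 14068122 1326626 2890087 2803229 1393063 4618356 4667907 1882254
    3145730 3057101 46935782 10942859 10570319 25165824 15850502)
    ((((((((((((((((((((((root.setHiD (qm 2048)).setHiD (qm 1024)).setHiU (qm 512)).setLoA (qm
    2048)).setHiD (qm 512)).setHiU (qm 256)).setLoA (qm 3072)).setLoD (qm 256)).setLoU (qm
    128)).setLoW (qm 128)).setHiW (qm 192)).setHiD (qm 384)).setHiW (qm 160)).setHiU (qm
    192)).setHiD (qm 320)).setHiW (qm 144)).setHiU (qm 160)).setLoD (qm 288)).setHiW (qm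
    136)).setHiU (qm 144)).setLoA (qm 3584)).setLoA (qm 3840))
    (by decide +kernel))))
    (good_splitD (qm 304)
    (good_splitA (qm 3584)
    (good_splitW (qm 132)
    (good_of_check
    (R .u5 2483058 5286185 2421581 4980736 13193291 (-64542) 3145726 11863286 7297870 (-219379)
    3145726 3315891 4519854 (-124842) 2965818 3011808 3011808 7078156)
    (((((((((((((((((((((((root.setHiD (qm 2048)).setHiD (qm 1024)).setHiU (qm 512)).setLoA (qm
    2048)).setHiD (qm 512)).setHiU (qm 256)).setLoA (qm 3072)).setLoD (qm 256)).setLoU (qm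
    128)).setLoW (qm 128)).setHiW (qm 192)).setHiD (qm 384)).setHiW (qm 160)).setHiU (qm
    192)).setHiD (qm 320)).setHiW (qm 144)).setHiU (qm 160)).setLoD (qm 288)).setHiW (qm
    136)).setLoU (qm 144)).setHiD (qm 304)).setHiA (qm 3584)).setHiW (qm 132))
    (by decide +kernel))
    (good_splitW (qm 134)
    (good_of_check
    (R .u5 2487225 5225412 2421581 4980736 13186232 (-69140) 3145726 11863286 7227397 (-217585)
    3145726 3315891 4860871 (-136312) 3011803 3034539 3034539 7133024)
    ((((((((((((((((((((((((root.setHiD (qm 2048)).setHiD (qm 1024)).setHiU (qm 512)).setLoA (qm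
    2048)).setHiD (qm 512)).setHiU (qm 256)).setLoA (qm 3072)).setLoD (qm 256)).setLoU (qm
    128)).setLoW (qm 128)).setHiW (qm 192)).setHiD (qm 384)).setHiW (qm 160)).setHiU (qm
    192)).setHiD (qm 320)).setHiW (qm 144)).setHiU (qm 160)).setLoD (qm 288)).setHiW (qm
    136)).setLoU (qm 144)).setHiD (qm 304)).setHiA (qm 3584)).setLoW (qm 132)).setHiW (qm 134))
    (by decide +kernel))
    (good_of_check
    (R .u5 2489812 5187839 2421581 4980736 13181811 (-71979) 3145726 11863286 7183766 (-216471)
    3145726 3315891 5086173 (-143998) 3034534 3057101 3057101 7198731)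
    ((((((((((((((((((((((((root.setHiD (qm 2048)).setHiD (qm 1024)).setHiU (qm 512)).setLoA (qm
    2048)).setHiD (qm 512)).setHiU (qm 256)).setLoA (qm 3072)).setLoD (qm 256)).setLoU (qm
    128)).setLoW (qm 128)).setHiW (qm 192)).setHiD (qm 384)).setHiW (qm 160)).setHiU (qm
    192)).setHiD (qm 320)).setHiW (qm 144)).setHiU (qm 160)).setLoD (qm 288)).setHiW (qm
    136)).setLoU (qm 144)).setHiD (qm 304)).setHiA (qm 3584)).setLoW (qm 132)).setLoW (qm 134))
    (by decide +kernel))))
    (good_splitA (qm 3840)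
    (good_of_check
    (T 3187671 40760514 5931643 13591097 1539136 3504827 3209974 1225990 4236435 4451791 1882254
    3315891 3057101 53996881 12891460 11407688 25078293 15833150)
    (((((((((((((((((((((((root.setHiD (qm 2048)).setHiD (qm 1024)).setHiU (qm 512)).setLoA (qm
    2048)).setHiD (qm 512)).setHiU (qm 256)).setLoA (qm 3072)).setLoD (qm 256)).setLoU (qm
    128)).setLoW (qm 128)).setHiW (qm 192)).setHiD (qm 384)).setHiW (qm 160)).setHiU (qm
    192)).setHiD (qm 320)).setHiW (qm 144)).setHiU (qm 160)).setLoD (qm 288)).setHiW (qm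
    136)).setLoU (qm 144)).setHiD (qm 304)).setLoA (qm 3584)).setHiA (qm 3840))
    (by decide +kernel))
    (good_of_check
    (T 3523215 35132661 4194305 14068122 1326626 3063805 2803229 1393063 4512959 4667907 1882254
    3315891 3057101 46935782 11699031 10570319 25165824 15833150)
    (((((((((((((((((((((((root.setHiD (qm 2048)).setHiD (qm 1024)).setHiU (qm 512)).setLoA (qm
    2048)).setHiD (qm 512)).setHiU (qm 256)).setLoA (qm 3072)).setLoD (qm 256)).setLoU (qm
    128)).setLoW (qm 128)).setHiW (qm 192)).setHiD (qm 384)).setHiW (qm 160)).setHiU (qm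
    192)).setHiD (qm 320)).setHiW (qm 144)).setHiU (qm 160)).setLoD (qm 288)).setHiW (qm
    136)).setLoU (qm 144)).setHiD (qm 304)).setLoA (qm 3584)).setLoA (qm 3840))
    (by decide +kernel))))
    (good_of_check
    (R .u5 2515801 0 0 4958891 13176201 (-111870) 3145726 11863286 6750336 (-205280) 3145726
    3315891 4267364 (-120022) 2965818 3057101 3057101 7006740)
    (((((((((((((((((((((root.setHiD (qm 2048)).setHiD (qm 1024)).setHiU (qm 512)).setLoA (qm
    2048)).setHiD (qm 512)).setHiU (qm 256)).setLoA (qm 3072)).setLoD (qm 256)).setLoU (qm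
    128)).setLoW (qm 128)).setHiW (qm 192)).setHiD (qm 384)).setHiW (qm 160)).setHiU (qm
    192)).setHiD (qm 320)).setHiW (qm 144)).setHiU (qm 160)).setLoD (qm 288)).setHiW (qm
    136)).setLoU (qm 144)).setLoD (qm 304))
    (by decide +kernel))))
    (good_splitD (qm 304)
    (good_splitU (qm 148)
    (good_splitA (qm 3584)
    (good_splitA (qm 3328)
    (good_splitW (qm 140)
    (good_of_check
    (R .u5 2454493 5543851 2965819 4994389 13201886 (-20803) 3057096 11863286 6588277 (-189028)
    3057096 3189122 6078500 (-172102) 3057096 3101732 3101732 7636110)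
    ((((((((((((((((((((((((root.setHiD (qm 2048)).setHiD (qm 1024)).setHiU (qm 512)).setLoA (qm
    2048)).setHiD (qm 512)).setHiU (qm 256)).setLoA (qm 3072)).setLoD (qm 256)).setLoU (qm
    128)).setLoW (qm 128)).setHiW (qm 192)).setHiD (qm 384)).setHiW (qm 160)).setHiU (qm
    192)).setHiD (qm 320)).setHiW (qm 144)).setHiU (qm 160)).setLoD (qm 288)).setLoW (qm
    136)).setHiD (qm 304)).setHiU (qm 148)).setHiA (qm 3584)).setHiA (qm 3328)).setHiW (qm 140))
    (by decide +kernel))
    (good_of_check
    (R .u5 2465402 5534980 2965819 4991659 13183016 (-32802) 3101727 11863286 6654727 (-193537)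
    3101727 3189122 6406515 (-185053) 3101727 3145730 3145730 7715064)
    ((((((((((((((((((((((((root.setHiD (qm 2048)).setHiD (qm 1024)).setHiU (qm 512)).setLoA (qm
    2048)).setHiD (qm 512)).setHiU (qm 256)).setLoA (qm 3072)).setLoD (qm 256)).setLoU (qm
    128)).setLoW (qm 128)).setHiW (qm 192)).setHiD (qm 384)).setHiW (qm 160)).setHiU (qm
    192)).setHiD (qm 320)).setHiW (qm 144)).setHiU (qm 160)).setLoD (qm 288)).setLoW (qm
    136)).setHiD (qm 304)).setHiU (qm 148)).setHiA (qm 3584)).setHiA (qm 3328)).setLoW (qm 140))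
    (by decide +kernel)))
    (good_splitA (qm 3456)
    (good_splitW (qm 140)
    (good_splitA (qm 3392)
    (good_splitU (qm 142)
    (good_of_check
    (T 3187671 46154265 7264749 13096709 1675198 3650601 3622779 1198461 4056778 4079584 1845384
    3123809 3101732 55245838 13348388 13184819 24924369 15861337)
    (((((((((((((((((((((((((((root.setHiD (qm 2048)).setHiD (qm 1024)).setHiU (qm 512)).setLoA
    (qm 2048)).setHiD (qm 512)).setHiU (qm 256)).setLoA (qm 3072)).setLoD (qm 256)).setLoU (qm
    128)).setLoW (qm 128)).setHiW (qm 192)).setHiD (qm 384)).setHiW (qm 160)).setHiU (qm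
    192)).setHiD (qm 320)).setHiW (qm 144)).setHiU (qm 160)).setLoD (qm 288)).setLoW (qm
    136)).setHiD (qm 304)).setHiU (qm 148)).setHiA (qm 3584)).setLoA (qm 3328)).setHiA (qm
    3456)).setHiW (qm 140)).setHiA (qm 3392)).setHiU (qm 142))
    (by decide +kernel))
    (good_of_check
    (R .u5 2469573 5479642 2839556 4990293 13193108 (-42688) 3123804 11863286 6708005 (-196252)
    3123804 3189122 5820318 (-165667) 3057096 3101732 3101732 7519035)
    (((((((((((((((((((((((((((root.setHiD (qm 2048)).setHiD (qm 1024)).setHiU (qm 512)).setLoA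
    (qm 2048)).setHiD (qm 512)).setHiU (qm 256)).setLoA (qm 3072)).setLoD (qm 256)).setLoU (qm
    128)).setLoW (qm 128)).setHiW (qm 192)).setHiD (qm 384)).setHiW (qm 160)).setHiU (qm
    192)).setHiD (qm 320)).setHiW (qm 144)).setHiU (qm 160)).setLoD (qm 288)).setLoW (qm
    136)).setHiD (qm 304)).setHiU (qm 148)).setHiA (qm 3584)).setLoA (qm 3328)).setHiA (qm
    3456)).setHiW (qm 140)).setHiA (qm 3392)).setLoU (qm 142))
    (by decide +kernel)))
    (good_of_check
    (T 3187671 44803263 6955468 13222039 1648039 3646644 3538611 1204710 4074757 4161802 1857755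
    3189122 3101732 54963496 13402484 12785927 24946417 15854837)
    ((((((((((((((((((((((((((root.setHiD (qm 2048)).setHiD (qm 1024)).setHiU (qm 512)).setLoA (qm
    2048)).setHiD (qm 512)).setHiU (qm 256)).setLoA (qm 3072)).setLoD (qm 256)).setLoU (qm
    128)).setLoW (qm 128)).setHiW (qm 192)).setHiD (qm 384)).setHiW (qm 160)).setHiU (qm
    192)).setHiD (qm 320)).setHiW (qm 144)).setHiU (qm 160)).setLoD (qm 288)).setLoW (qm
    136)).setHiD (qm 304)).setHiU (qm 148)).setHiA (qm 3584)).setLoA (qm 3328)).setHiA (qm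
    3456)).setHiW (qm 140)).setLoA (qm 3392))
    (by decide +kernel)))
    (good_splitD (qm 296)
    (good_splitA (qm 3392)
    (good_of_check
    (R .u5 2469573 5476237 2839556 4997120 13171831 (-36206) 3101727 11863286 6583165 (-191741)
    3101727 3189122 6335053 (-183261) 3101727 3145730 3145730 7682368)
    (((((((((((((((((((((((((((root.setHiD (qm 2048)).setHiD (qm 1024)).setHiU (qm 512)).setLoA
    (qm 2048)).setHiD (qm 512)).setHiU (qm 256)).setLoA (qm 3072)).setLoD (qm 256)).setLoU (qm
    128)).setLoW (qm 128)).setHiW (qm 192)).setHiD (qm 384)).setHiW (qm 160)).setHiU (qm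
    192)).setHiD (qm 320)).setHiW (qm 144)).setHiU (qm 160)).setLoD (qm 288)).setLoW (qm
    136)).setHiD (qm 304)).setHiU (qm 148)).setHiA (qm 3584)).setLoA (qm 3328)).setHiA (qm
    3456)).setLoW (qm 140)).setHiD (qm 296)).setHiA (qm 3392))
    (by decide +kernel))
    (good_of_check
    (T 3187671 44666875 6955468 13222039 1613942 3606463 3552611 1208895 4113920 4157103 1841241
    3189122 3145730 54735531 13209256 12906204 24946417 15859170)
    (((((((((((((((((((((((((((root.setHiD (qm 2048)).setHiD (qm 1024)).setHiU (qm 512)).setLoA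
    (qm 2048)).setHiD (qm 512)).setHiU (qm 256)).setLoA (qm 3072)).setLoD (qm 256)).setLoU (qm
    128)).setLoW (qm 128)).setHiW (qm 192)).setHiD (qm 384)).setHiW (qm 160)).setHiU (qm
    192)).setHiD (qm 320)).setHiW (qm 144)).setHiU (qm 160)).setLoD (qm 288)).setLoW (qm
    136)).setHiD (qm 304)).setHiU (qm 148)).setHiA (qm 3584)).setLoA (qm 3328)).setHiA (qm
    3456)).setLoW (qm 140)).setHiD (qm 296)).setLoA (qm 3392))
    (by decide +kernel)))
    (good_of_check
    (R .u5 2483058 5216533 2707410 4986197 13171883 (-58095) 3101727 11863286 6353629 (-185941)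
    3101727 3189122 6105937 (-177475) 3101727 3145730 3145730 7577184)
    ((((((((((((((((((((((((((root.setHiD (qm 2048)).setHiD (qm 1024)).setHiU (qm 512)).setLoA (qm
    2048)).setHiD (qm 512)).setHiU (qm 256)).setLoA (qm 3072)).setLoD (qm 256)).setLoU (qm
    128)).setLoW (qm 128)).setHiW (qm 192)).setHiD (qm 384)).setHiW (qm 160)).setHiU (qm
    192)).setHiD (qm 320)).setHiW (qm 144)).setHiU (qm 160)).setLoD (qm 288)).setLoW (qm
    136)).setHiD (qm 304)).setHiU (qm 148)).setHiA (qm 3584)).setLoA (qm 3328)).setHiA (qm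
    3456)).setLoW (qm 140)).setLoD (qm 296))
    (by decide +kernel))))
    (good_of_check
    (T 3187671 43373817 6631778 13346192 1595459 3530299 3478006 1213961 4187840 4228436 1857755
    3189122 3145730 54522136 12854913 12572078 24990453 15854837)
    ((((((((((((((((((((((((root.setHiD (qm 2048)).setHiD (qm 1024)).setHiU (qm 512)).setLoA (qm
    2048)).setHiD (qm 512)).setHiU (qm 256)).setLoA (qm 3072)).setLoD (qm 256)).setLoU (qm
    128)).setLoW (qm 128)).setHiW (qm 192)).setHiD (qm 384)).setHiW (qm 160)).setHiU (qm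
    192)).setHiD (qm 320)).setHiW (qm 144)).setHiU (qm 160)).setLoD (qm 288)).setLoW (qm
    136)).setHiD (qm 304)).setHiU (qm 148)).setHiA (qm 3584)).setLoA (qm 3328)).setLoA (qm 3456))
    (by decide +kernel))))
    (good_splitA (qm 3840)
    (good_of_check
    (T 3523215 40573824 5931643 13591097 1492464 3348221 3298066 1361475 4256736 4291950 1857755
    3189122 3145730 48089398 12536409 12284606 25078293 15854837)
    (((((((((((((((((((((((root.setHiD (qm 2048)).setHiD (qm 1024)).setHiU (qm 512)).setLoA (qm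
    2048)).setHiD (qm 512)).setHiU (qm 256)).setLoA (qm 3072)).setLoD (qm 256)).setLoU (qm
    128)).setLoW (qm 128)).setHiW (qm 192)).setHiD (qm 384)).setHiW (qm 160)).setHiU (qm
    192)).setHiD (qm 320)).setHiW (qm 144)).setHiU (qm 160)).setLoD (qm 288)).setLoW (qm
    136)).setHiD (qm 304)).setHiU (qm 148)).setLoA (qm 3584)).setHiA (qm 3840))
    (by decide +kernel))
    (good_of_check
    (T 3523215 34971748 4194305 14068122 1286398 2885929 2842699 1398749 4631393 4656318 1857755
    3189122 3145730 46627913 10983085 10800309 25165824 15854837)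
    (((((((((((((((((((((((root.setHiD (qm 2048)).setHiD (qm 1024)).setHiU (qm 512)).setLoA (qm
    2048)).setHiD (qm 512)).setHiU (qm 256)).setLoA (qm 3072)).setLoD (qm 256)).setLoU (qm
    128)).setLoW (qm 128)).setHiW (qm 192)).setHiD (qm 384)).setHiW (qm 160)).setHiU (qm
    192)).setHiD (qm 320)).setHiW (qm 144)).setHiU (qm 160)).setLoD (qm 288)).setLoW (qm
    136)).setHiD (qm 304)).setHiU (qm 148)).setLoA (qm 3584)).setLoA (qm 3840))
    (by decide +kernel))))
    (good_splitA (qm 3584)
    (good_splitW (qm 140)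
    (good_of_check
    (R .u5 2498145 5216533 2421581 4978005 13165723 (-80542) 3189117 11863286 7275978 (-221952)
    3189117 3315891 5342404 (-153567) 3057096 3101732 3101732 7301874)
    (((((((((((((((((((((((root.setHiD (qm 2048)).setHiD (qm 1024)).setHiU (qm 512)).setLoA (qm
    2048)).setHiD (qm 512)).setHiU (qm 256)).setLoA (qm 3072)).setLoD (qm 256)).setLoU (qm
    128)).setLoW (qm 128)).setHiW (qm 192)).setHiD (qm 384)).setHiW (qm 160)).setHiU (qm
    192)).setHiD (qm 320)).setHiW (qm 144)).setHiU (qm 160)).setLoD (qm 288)).setLoW (qm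
    136)).setHiD (qm 304)).setLoU (qm 148)).setHiA (qm 3584)).setHiW (qm 140))
    (by decide +kernel))
    (good_splitD (qm 296)
    (good_splitW (qm 142)
    (good_of_check
    (R .u5 2500720 5181066 2421581 4983467 13157502 (-82220) 3189117 11863286 7232894 (-220842)
    3189117 3315891 5684814 (-165633) 3101727 3123809 3123809 7362860)
    (((((((((((((((((((((((((root.setHiD (qm 2048)).setHiD (qm 1024)).setHiU (qm 512)).setLoA (qm
    2048)).setHiD (qm 512)).setHiU (qm 256)).setLoA (qm 3072)).setLoD (qm 256)).setLoU (qm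
    128)).setLoW (qm 128)).setHiW (qm 192)).setHiD (qm 384)).setHiW (qm 160)).setHiU (qm
    192)).setHiD (qm 320)).setHiW (qm 144)).setHiU (qm 160)).setLoD (qm 288)).setLoW (qm
    136)).setHiD (qm 304)).setLoU (qm 148)).setHiA (qm 3584)).setLoW (qm 140)).setHiD (qm
    296)).setHiW (qm 142))
    (by decide +kernel))
    (good_of_check
    (R .u5 2504888 5122348 2421581 4983467 13150026 (-86664) 3189117 11863286 7163349 (-219046)
    3189117 3315891 5866865 (-172560) 3123804 3145730 3145730 7411257)
    (((((((((((((((((((((((((root.setHiD (qm 2048)).setHiD (qm 1024)).setHiU (qm 512)).setLoA (qm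
    2048)).setHiD (qm 512)).setHiU (qm 256)).setLoA (qm 3072)).setLoD (qm 256)).setLoU (qm
    128)).setLoW (qm 128)).setHiW (qm 192)).setHiD (qm 384)).setHiW (qm 160)).setHiU (qm
    192)).setHiD (qm 320)).setHiW (qm 144)).setHiU (qm 160)).setLoD (qm 288)).setLoW (qm
    136)).setHiD (qm 304)).setLoU (qm 148)).setHiA (qm 3584)).setLoW (qm 140)).setHiD (qm
    296)).setLoW (qm 142))
    (by decide +kernel)))
    (good_of_check
    (R .u5 2507463 5084786 2421581 4972544 13152352 (-91468) 3189117 11863286 7120487 (-217936)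
    3189117 3315891 5698960 (-167054) 3101727 3145730 3145730 7392807)
    ((((((((((((((((((((((((root.setHiD (qm 2048)).setHiD (qm 1024)).setHiU (qm 512)).setLoA (qm
    2048)).setHiD (qm 512)).setHiU (qm 256)).setLoA (qm 3072)).setLoD (qm 256)).setLoU (qm
    128)).setLoW (qm 128)).setHiW (qm 192)).setHiD (qm 384)).setHiW (qm 160)).setHiU (qm
    192)).setHiD (qm 320)).setHiW (qm 144)).setHiU (qm 160)).setLoD (qm 288)).setLoW (qm
    136)).setHiD (qm 304)).setLoU (qm 148)).setHiA (qm 3584)).setLoW (qm 140)).setLoD (qm 296))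
    (by decide +kernel))))
    (good_splitA (qm 3840)
    (good_splitA (qm 3712)
    (good_of_check
    (T 3187671 40760514 5931643 13591097 1539136 3504827 3308258 1225990 4236435 4383265 1882254
    3315891 3145730 53996881 12891460 11887098 25034411 15828810)
    ((((((((((((((((((((((((root.setHiD (qm 2048)).setHiD (qm 1024)).setHiU (qm 512)).setLoA (qm
    2048)).setHiD (qm 512)).setHiU (qm 256)).setLoA (qm 3072)).setLoD (qm 256)).setLoU (qm
    128)).setLoW (qm 128)).setHiW (qm 192)).setHiD (qm 384)).setHiW (qm 160)).setHiU (qm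
    192)).setHiD (qm 320)).setHiW (qm 144)).setHiU (qm 160)).setLoD (qm 288)).setLoW (qm
    136)).setHiD (qm 304)).setLoU (qm 148)).setLoA (qm 3584)).setHiA (qm 3840)).setHiA (qm 3712))
    (by decide +kernel))
    (good_of_check
    (T 3523215 37977764 5136954 13831666 1434059 3311918 3124132 1374349 4310135 4436548 1882254
    3315891 3145730 47662164 12557760 11663392 25078293 15828810)
    ((((((((((((((((((((((((root.setHiD (qm 2048)).setHiD (qm 1024)).setHiU (qm 512)).setLoA (qm
    2048)).setHiD (qm 512)).setHiU (qm 256)).setLoA (qm 3072)).setLoD (qm 256)).setLoU (qm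
    128)).setLoW (qm 128)).setHiW (qm 192)).setHiD (qm 384)).setHiW (qm 160)).setHiU (qm
    192)).setHiD (qm 320)).setHiW (qm 144)).setHiU (qm 160)).setLoD (qm 288)).setLoW (qm
    136)).setHiD (qm 304)).setLoU (qm 148)).setLoA (qm 3584)).setHiA (qm 3840)).setLoA (qm 3712))
    (by decide +kernel)))
    (good_of_check
    (T 3523215 35132661 4194305 14068122 1326626 3063805 2890087 1393063 4512959 4618356 1882254
    3315891 3145730 46935782 11699031 10942859 25165824 15828810)
    (((((((((((((((((((((((root.setHiD (qm 2048)).setHiD (qm 1024)).setHiU (qm 512)).setLoA (qm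
    2048)).setHiD (qm 512)).setHiU (qm 256)).setLoA (qm 3072)).setLoD (qm 256)).setLoU (qm
    128)).setLoW (qm 128)).setHiW (qm 192)).setHiD (qm 384)).setHiW (qm 160)).setHiU (qm
    192)).setHiD (qm 320)).setHiW (qm 144)).setHiU (qm 160)).setLoD (qm 288)).setLoW (qm
    136)).setHiD (qm 304)).setLoU (qm 148)).setLoA (qm 3584)).setLoA (qm 3840))
    (by decide +kernel)))))
    (good_splitU (qm 148)
    (good_splitW (qm 140)
    (good_splitA (qm 3584)
    (good_of_check
    (R .u5 2489812 4966586 2421581 4972544 13169930 (-68376) 3057096 11863286 5986573 (-173894)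
    3057096 3189122 5480243 (-157082) 3057096 3101732 3101732 7363861)
    (((((((((((((((((((((((root.setHiD (qm 2048)).setHiD (qm 1024)).setHiU (qm 512)).setLoA (qm
    2048)).setHiD (qm 512)).setHiU (qm 256)).setLoA (qm 3072)).setLoD (qm 256)).setLoU (qm
    128)).setLoW (qm 128)).setHiW (qm 192)).setHiD (qm 384)).setHiW (qm 160)).setHiU (qm
    192)).setHiD (qm 320)).setHiW (qm 144)).setHiU (qm 160)).setLoD (qm 288)).setLoW (qm
    136)).setLoD (qm 304)).setHiU (qm 148)).setHiW (qm 140)).setHiA (qm 3584))
    (by decide +kernel))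
    (good_splitA (qm 3840)
    (good_of_check
    (T 3523215 40823126 5931643 13591097 1554790 3421950 3321022 1352867 4190599 4262858 1890350
    3189122 3101732 48539581 12841944 12318249 25078293 15820124)
    ((((((((((((((((((((((((root.setHiD (qm 2048)).setHiD (qm 1024)).setHiU (qm 512)).setLoA (qm
    2048)).setHiD (qm 512)).setHiU (qm 256)).setLoA (qm 3072)).setLoD (qm 256)).setLoU (qm
    128)).setLoW (qm 128)).setHiW (qm 192)).setHiD (qm 384)).setHiW (qm 160)).setHiU (qm
    192)).setHiD (qm 320)).setHiW (qm 144)).setHiU (qm 160)).setLoD (qm 288)).setLoW (qm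
    136)).setLoD (qm 304)).setHiU (qm 148)).setHiW (qm 140)).setLoA (qm 3584)).setHiA (qm 3840))
    (by decide +kernel))
    (good_of_check
    (T 3523215 35186628 4194305 14068122 1340118 2949477 2862485 1391146 4579769 4630769 1890350
    3189122 3101732 47037295 11180571 10803505 25165824 15820124)
    ((((((((((((((((((((((((root.setHiD (qm 2048)).setHiD (qm 1024)).setHiU (qm 512)).setLoA (qm
    2048)).setHiD (qm 512)).setHiU (qm 256)).setLoA (qm 3072)).setLoD (qm 256)).setLoU (qm
    128)).setLoW (qm 128)).setHiW (qm 192)).setHiD (qm 384)).setHiW (qm 160)).setHiU (qm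
    192)).setHiD (qm 320)).setHiW (qm 144)).setHiU (qm 160)).setLoD (qm 288)).setLoW (qm
    136)).setLoD (qm 304)).setHiU (qm 148)).setHiW (qm 140)).setLoA (qm 3584)).setLoA (qm 3840))
    (by decide +kernel))))
    (good_splitA (qm 3584)
    (good_of_check
    (R .u5 2500720 4878413 2421581 4969813 13171985 (-86541) 3101727 11863286 6057318 (-178365)
    3101727 3189122 5810394 (-169926) 3101727 3145730 3145730 7442804)
    (((((((((((((((((((((((root.setHiD (qm 2048)).setHiD (qm 1024)).setHiU (qm 512)).setLoA (qm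
    2048)).setHiD (qm 512)).setHiU (qm 256)).setLoA (qm 3072)).setLoD (qm 256)).setLoU (qm
    128)).setLoW (qm 128)).setHiW (qm 192)).setHiD (qm 384)).setHiW (qm 160)).setHiU (qm
    192)).setHiD (qm 320)).setHiW (qm 144)).setHiU (qm 160)).setLoD (qm 288)).setLoW (qm
    136)).setLoD (qm 304)).setHiU (qm 148)).setLoW (qm 140)).setHiA (qm 3584))
    (by decide +kernel))
    (good_splitA (qm 3840)
    (good_of_check
    (T 3187671 40823126 5931643 13591097 1554790 3375847 3326630 1224023 4330965 4366753 1890350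
    3189122 3145730 54100371 12205383 11957637 25078293 15815780)
    ((((((((((((((((((((((((root.setHiD (qm 2048)).setHiD (qm 1024)).setHiU (qm 512)).setLoA (qm
    2048)).setHiD (qm 512)).setHiU (qm 256)).setLoA (qm 3072)).setLoD (qm 256)).setLoU (qm
    128)).setLoW (qm 128)).setHiW (qm 192)).setHiD (qm 384)).setHiW (qm 160)).setHiU (qm
    192)).setHiD (qm 320)).setHiW (qm 144)).setHiU (qm 160)).setLoD (qm 288)).setLoW (qm
    136)).setLoD (qm 304)).setHiU (qm 148)).setLoW (qm 140)).setLoA (qm 3584)).setHiA (qm 3840))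
    (by decide +kernel))
    (good_of_check
    (T 3523215 35186628 4194305 14068122 1340118 2949477 2905981 1391146 4579769 4605531 1890350
    3189122 3145730 47037295 11180571 10991614 25165824 15815780)
    ((((((((((((((((((((((((root.setHiD (qm 2048)).setHiD (qm 1024)).setHiU (qm 512)).setLoA (qm
    2048)).setHiD (qm 512)).setHiU (qm 256)).setLoA (qm 3072)).setLoD (qm 256)).setLoU (qm
    128)).setLoW (qm 128)).setHiW (qm 192)).setHiD (qm 384)).setHiW (qm 160)).setHiU (qm
    192)).setHiD (qm 320)).setHiW (qm 144)).setHiU (qm 160)).setLoD (qm 288)).setLoW (qm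
    136)).setLoD (qm 304)).setHiU (qm 148)).setLoW (qm 140)).setLoA (qm 3584)).setLoA (qm 3840))
    (by decide +kernel)))))
    (good_of_check
    (R .u5 2529286 0 0 4956160 13139717 (-122507) 3189117 11863286 6760738 (-208528) 3189117
    3315891 5091380 (-148935) 3057096 3145730 3145730 7230887)
    (((((((((((((((((((((root.setHiD (qm 2048)).setHiD (qm 1024)).setHiU (qm 512)).setLoA (qm
    2048)).setHiD (qm 512)).setHiU (qm 256)).setLoA (qm 3072)).setLoD (qm 256)).setLoU (qm
    128)).setLoW (qm 128)).setHiW (qm 192)).setHiD (qm 384)).setHiW (qm 160)).setHiU (qm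
    192)).setHiD (qm 320)).setHiW (qm 144)).setHiU (qm 160)).setLoD (qm 288)).setLoW (qm
    136)).setLoD (qm 304)).setLoU (qm 148))
    (by decide +kernel)))))

set_option maxHeartbeats 4000000 in
/-- One subtree of the cover. -/
theorem sub43_good : BoxGood
    (((((((((((((((((root.setHiD (qm 2048)).setHiD (qm 1024)).setHiU (qm 512)).setLoA (qm
    2048)).setHiD (qm 512)).setHiU (qm 256)).setLoA (qm 3072)).setLoD (qm 256)).setLoU (qm
    128)).setLoW (qm 128)).setHiW (qm 192)).setHiD (qm 384)).setHiW (qm 160)).setHiU (qm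
    192)).setHiD (qm 320)).setHiW (qm 144)).setLoU (qm 160)) :=
    (good_splitD (qm 288)
    (good_splitD (qm 272)
    (good_splitW (qm 136)
    (good_splitU (qm 176)
    (good_splitW (qm 132)
    (good_splitD (qm 264)
    (good_splitA (qm 3584)
    (good_splitD (qm 260)
    (good_of_check
    (R .t5n 2795777 4966613 2421581 5010773 13246713 (-98653) 3260715 11847983 6258367 (-160403)
    3260715 3425172 237751 56437 2904004 2950957 3011808 8272077)
    (((((((((((((((((((((((((root.setHiD (qm 2048)).setHiD (qm 1024)).setHiU (qm 512)).setLoA (qm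
    2048)).setHiD (qm 512)).setHiU (qm 256)).setLoA (qm 3072)).setLoD (qm 256)).setLoU (qm
    128)).setLoW (qm 128)).setHiW (qm 192)).setHiD (qm 384)).setHiW (qm 160)).setHiU (qm
    192)).setHiD (qm 320)).setHiW (qm 144)).setLoU (qm 160)).setHiD (qm 288)).setHiD (qm
    272)).setHiW (qm 136)).setHiU (qm 176)).setHiW (qm 132)).setHiD (qm 264)).setHiA (qm
    3584)).setHiD (qm 260))
    (by decide +kernel))
    (good_of_check
    (R .t5n 2799943 4892760 2421581 5005312 13242645 (-103418) 3259028 11847519 6144003 (-155056)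
    3259028 3423567 123066 61848 2902110 2949093 3011808 8242207)
    (((((((((((((((((((((((((root.setHiD (qm 2048)).setHiD (qm 1024)).setHiU (qm 512)).setLoA (qm
    2048)).setHiD (qm 512)).setHiU (qm 256)).setLoA (qm 3072)).setLoD (qm 256)).setLoU (qm
    128)).setLoW (qm 128)).setHiW (qm 192)).setHiD (qm 384)).setHiW (qm 160)).setHiU (qm
    192)).setHiD (qm 320)).setHiW (qm 144)).setLoU (qm 160)).setHiD (qm 288)).setHiD (qm
    272)).setHiW (qm 136)).setHiU (qm 176)).setHiW (qm 132)).setHiD (qm 264)).setHiA (qm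
    3584)).setLoD (qm 260))
    (by decide +kernel)))
    (good_splitA (qm 3840)
    (good_of_check
    (T 3523215 40388837 5931643 13591097 1446217 3643002 3093806 1367778 4041426 4437305 1832929
    3477736 3011808 47747189 14148490 11365344 25078293 15876493)
    (((((((((((((((((((((((((root.setHiD (qm 2048)).setHiD (qm 1024)).setHiU (qm 512)).setLoA (qm
    2048)).setHiD (qm 512)).setHiU (qm 256)).setLoA (qm 3072)).setLoD (qm 256)).setLoU (qm
    128)).setLoW (qm 128)).setHiW (qm 192)).setHiD (qm 384)).setHiW (qm 160)).setHiU (qm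
    192)).setHiD (qm 320)).setHiW (qm 144)).setLoU (qm 160)).setHiD (qm 288)).setHiD (qm
    272)).setHiW (qm 136)).setHiU (qm 176)).setHiW (qm 132)).setHiD (qm 264)).setLoA (qm
    3584)).setHiA (qm 3840))
    (by decide +kernel))
    (good_of_check
    (T 3523215 34812302 4194305 14068122 1246537 3140009 2666642 1404336 4484449 4763555 1832929
    3477736 3011808 46314707 12120345 10130403 25165824 15876493)
    (((((((((((((((((((((((((root.setHiD (qm 2048)).setHiD (qm 1024)).setHiU (qm 512)).setLoA (qm
    2048)).setHiD (qm 512)).setHiU (qm 256)).setLoA (qm 3072)).setLoD (qm 256)).setLoU (qm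
    128)).setLoW (qm 128)).setHiW (qm 192)).setHiD (qm 384)).setHiW (qm 160)).setHiU (qm
    192)).setHiD (qm 320)).setHiW (qm 144)).setLoU (qm 160)).setHiD (qm 288)).setHiD (qm
    272)).setHiW (qm 136)).setHiU (qm 176)).setHiW (qm 132)).setHiD (qm 264)).setLoA (qm
    3584)).setLoA (qm 3840))
    (by decide +kernel))))
    (good_splitA (qm 3584)
    (good_splitW (qm 130)
    (good_of_check
    (R .t5n 2799944 4853904 2421581 4997120 13246534 (-104407) 3255653 11846591 6059037 (-148734)
    3255653 3420354 (-152804) 74299 2898319 2921938 2988904 8152313)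
    (((((((((((((((((((((((((root.setHiD (qm 2048)).setHiD (qm 1024)).setHiU (qm 512)).setLoA (qm
    2048)).setHiD (qm 512)).setHiU (qm 256)).setLoA (qm 3072)).setLoD (qm 256)).setLoU (qm
    128)).setLoW (qm 128)).setHiW (qm 192)).setHiD (qm 384)).setHiW (qm 160)).setHiU (qm
    192)).setHiD (qm 320)).setHiW (qm 144)).setLoU (qm 160)).setHiD (qm 288)).setHiD (qm
    272)).setHiW (qm 136)).setHiU (qm 176)).setHiW (qm 132)).setLoD (qm 264)).setHiA (qm
    3584)).setHiW (qm 130))
    (by decide +kernel))
    (good_of_check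
    (R .t5n 2804110 4807416 2421581 4997120 13240224 (-108627) 3256497 11846823 6008364 (-148109)
    3256497 3421157 141421 63917 2922874 2946296 3011808 8212454)
    (((((((((((((((((((((((((root.setHiD (qm 2048)).setHiD (qm 1024)).setHiU (qm 512)).setLoA (qm
    2048)).setHiD (qm 512)).setHiU (qm 256)).setLoA (qm 3072)).setLoD (qm 256)).setLoU (qm
    128)).setLoW (qm 128)).setHiW (qm 192)).setHiD (qm 384)).setHiW (qm 160)).setHiU (qm
    192)).setHiD (qm 320)).setHiW (qm 144)).setLoU (qm 160)).setHiD (qm 288)).setHiD (qm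
    272)).setHiW (qm 136)).setHiU (qm 176)).setHiW (qm 132)).setLoD (qm 264)).setHiA (qm
    3584)).setLoW (qm 130))
    (by decide +kernel)))
    (good_splitA (qm 3840)
    (good_of_check
    (T 3187671 40511974 5931643 13591097 1477002 3626077 3088809 1233725 4151551 4545954 1849517
    3477736 3011808 53578824 13603089 10931660 25078293 15859170)
    (((((((((((((((((((((((((root.setHiD (qm 2048)).setHiD (qm 1024)).setHiU (qm 512)).setLoA (qm
    2048)).setHiD (qm 512)).setHiU (qm 256)).setLoA (qm 3072)).setLoD (qm 256)).setLoU (qm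
    128)).setLoW (qm 128)).setHiW (qm 192)).setHiD (qm 384)).setHiW (qm 160)).setHiU (qm
    192)).setHiD (qm 320)).setHiW (qm 144)).setLoU (qm 160)).setHiD (qm 288)).setHiD (qm
    272)).setHiW (qm 136)).setHiU (qm 176)).setHiW (qm 132)).setLoD (qm 264)).setLoA (qm
    3584)).setHiA (qm 3840))
    (by decide +kernel))
    (good_of_check
    (T 3523215 34918437 4194305 14068122 1273071 3172316 2697505 1400622 4456258 4739988 1849517
    3477736 3011808 46524145 12237007 10213109 25165824 15859170)
    (((((((((((((((((((((((((root.setHiD (qm 2048)).setHiD (qm 1024)).setHiU (qm 512)).setLoA (qm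
    2048)).setHiD (qm 512)).setHiU (qm 256)).setLoA (qm 3072)).setLoD (qm 256)).setLoU (qm
    128)).setLoW (qm 128)).setHiW (qm 192)).setHiD (qm 384)).setHiW (qm 160)).setHiU (qm
    192)).setHiD (qm 320)).setHiW (qm 144)).setLoU (qm 160)).setHiD (qm 288)).setHiD (qm
    272)).setHiW (qm 136)).setHiU (qm 176)).setHiW (qm 132)).setLoD (qm 264)).setLoA (qm
    3584)).setLoA (qm 3840))
    (by decide +kernel)))))
    (good_splitD (qm 264)
    (good_splitD (qm 260)
    (good_splitD (qm 258)
    (good_of_check
    (R .t5n 2828512 0 0 5012139 13227268 (-140557) 3263243 11848679 5759873 (-147835) 3263243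
    3427579 509842 43928 2953745 2999920 2942562 7771541)
    (((((((((((((((((((((((((root.setHiD (qm 2048)).setHiD (qm 1024)).setHiU (qm 512)).setLoA (qm
    2048)).setHiD (qm 512)).setHiU (qm 256)).setLoA (qm 3072)).setLoD (qm 256)).setLoU (qm
    128)).setLoW (qm 128)).setHiW (qm 192)).setHiD (qm 384)).setHiW (qm 160)).setHiU (qm
    192)).setHiD (qm 320)).setHiW (qm 144)).setLoU (qm 160)).setHiD (qm 288)).setHiD (qm
    272)).setHiW (qm 136)).setHiU (qm 176)).setLoW (qm 132)).setHiD (qm 264)).setHiD (qm
    260)).setHiD (qm 258))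
    (by decide +kernel))
    (good_splitD (qm 259)
    (good_of_check
    (R .t5n 2828513 0 0 5010091 13227219 (-140522) 3262822 11848563 5749292 (-147044) 3262822
    3427178 496054 44838 2953280 2999461 2954215 7817076)
    ((((((((((((((((((((((((((root.setHiD (qm 2048)).setHiD (qm 1024)).setHiU (qm 512)).setLoA (qm
    2048)).setHiD (qm 512)).setHiU (qm 256)).setLoA (qm 3072)).setLoD (qm 256)).setLoU (qm
    128)).setLoW (qm 128)).setHiW (qm 192)).setHiD (qm 384)).setHiW (qm 160)).setHiU (qm
    192)).setHiD (qm 320)).setHiW (qm 144)).setLoU (qm 160)).setHiD (qm 288)).setHiD (qm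
    272)).setHiW (qm 136)).setHiU (qm 176)).setLoW (qm 132)).setHiD (qm 264)).setHiD (qm
    260)).setLoD (qm 258)).setHiD (qm 259))
    (by decide +kernel))
    (good_of_check
    (R .t5n 2828513 0 0 5008725 13227172 (-140486) 3262400 11848447 5738719 (-146253) 3262400
    3426777 482275 45748 2952814 2999003 2965823 7862344)
    ((((((((((((((((((((((((((root.setHiD (qm 2048)).setHiD (qm 1024)).setHiU (qm 512)).setLoA (qm
    2048)).setHiD (qm 512)).setHiU (qm 256)).setLoA (qm 3072)).setLoD (qm 256)).setLoU (qm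
    128)).setLoW (qm 128)).setHiW (qm 192)).setHiD (qm 384)).setHiW (qm 160)).setHiU (qm
    192)).setHiD (qm 320)).setHiW (qm 144)).setLoU (qm 160)).setHiD (qm 288)).setHiD (qm
    272)).setHiW (qm 136)).setHiU (qm 176)).setLoW (qm 132)).setHiD (qm 264)).setHiD (qm
    260)).setLoD (qm 258)).setLoD (qm 259))
    (by decide +kernel))))
    (good_splitA (qm 3584)
    (good_of_check
    (R .t5n 2804110 4855202 2421581 5005312 13236793 (-107820) 3260715 11847983 6114417 (-156007)
    3260715 3425172 781827 38631 2950952 2997169 3011808 8212454)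
    (((((((((((((((((((((((((root.setHiD (qm 2048)).setHiD (qm 1024)).setHiU (qm 512)).setLoA (qm
    2048)).setHiD (qm 512)).setHiU (qm 256)).setLoA (qm 3072)).setLoD (qm 256)).setLoU (qm
    128)).setLoW (qm 128)).setHiW (qm 192)).setHiD (qm 384)).setHiW (qm 160)).setHiU (qm
    192)).setHiD (qm 320)).setHiW (qm 144)).setLoU (qm 160)).setHiD (qm 288)).setHiD (qm
    272)).setHiW (qm 136)).setHiU (qm 176)).setLoW (qm 132)).setHiD (qm 264)).setLoD (qm
    260)).setHiA (qm 3584))
    (by decide +kernel))
    (good_splitA (qm 3840)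
    (good_of_check
    (T 3187671 40388837 5931643 13591097 1446217 3588760 3101819 1237514 4188640 4544435 1832929
    3477736 3057101 53366986 13425910 11037728 25078293 15872164)
    ((((((((((((((((((((((((((root.setHiD (qm 2048)).setHiD (qm 1024)).setHiU (qm 512)).setLoA (qm
    2048)).setHiD (qm 512)).setHiU (qm 256)).setLoA (qm 3072)).setLoD (qm 256)).setLoU (qm
    128)).setLoW (qm 128)).setHiW (qm 192)).setHiD (qm 384)).setHiW (qm 160)).setHiU (qm
    192)).setHiD (qm 320)).setHiW (qm 144)).setLoU (qm 160)).setHiD (qm 288)).setHiD (qm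
    272)).setHiW (qm 136)).setHiU (qm 176)).setLoW (qm 132)).setHiD (qm 264)).setLoD (qm
    260)).setLoA (qm 3584)).setHiA (qm 3840))
    (by decide +kernel))
    (good_of_check
    (T 3523215 34812302 4194305 14068122 1246537 3140009 2709675 1404336 4484449 4740696 1832929
    3477736 3057101 46314707 12120345 10307720 25165824 15872164)
    ((((((((((((((((((((((((((root.setHiD (qm 2048)).setHiD (qm 1024)).setHiU (qm 512)).setLoA (qm
    2048)).setHiD (qm 512)).setHiU (qm 256)).setLoA (qm 3072)).setLoD (qm 256)).setLoU (qm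
    128)).setLoW (qm 128)).setHiW (qm 192)).setHiD (qm 384)).setHiW (qm 160)).setHiU (qm
    192)).setHiD (qm 320)).setHiW (qm 144)).setLoU (qm 160)).setHiD (qm 288)).setHiD (qm
    272)).setHiW (qm 136)).setHiU (qm 176)).setLoW (qm 132)).setHiD (qm 264)).setLoD (qm
    260)).setLoA (qm 3584)).setLoA (qm 3840))
    (by decide +kernel)))))
    (good_splitA (qm 3584)
    (good_of_check
    (R .t5n 2806688 4782108 2421581 4997120 13236472 (-111298) 3257341 11847055 5985196 (-148326)
    3257341 3421961 630446 47150 2947224 2993499 3057101 8370014)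
    ((((((((((((((((((((((((root.setHiD (qm 2048)).setHiD (qm 1024)).setHiU (qm 512)).setLoA (qm
    2048)).setHiD (qm 512)).setHiU (qm 256)).setLoA (qm 3072)).setLoD (qm 256)).setLoU (qm
    128)).setLoW (qm 128)).setHiW (qm 192)).setHiD (qm 384)).setHiW (qm 160)).setHiU (qm
    192)).setHiD (qm 320)).setHiW (qm 144)).setLoU (qm 160)).setHiD (qm 288)).setHiD (qm
    272)).setHiW (qm 136)).setHiU (qm 176)).setLoW (qm 132)).setLoD (qm 264)).setHiA (qm 3584))
    (by decide +kernel))
    (good_splitA (qm 3840)
    (good_of_check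
    (T 3187671 40511974 5931643 13591097 1477002 3626077 3137652 1233725 4151551 4514037 1849517
    3477736 3057101 53578824 13603089 11157241 25078293 15859170)
    (((((((((((((((((((((((((root.setHiD (qm 2048)).setHiD (qm 1024)).setHiU (qm 512)).setLoA (qm
    2048)).setHiD (qm 512)).setHiU (qm 256)).setLoA (qm 3072)).setLoD (qm 256)).setLoU (qm
    128)).setLoW (qm 128)).setHiW (qm 192)).setHiD (qm 384)).setHiW (qm 160)).setHiU (qm
    192)).setHiD (qm 320)).setHiW (qm 144)).setLoU (qm 160)).setHiD (qm 288)).setHiD (qm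
    272)).setHiW (qm 136)).setHiU (qm 176)).setLoW (qm 132)).setLoD (qm 264)).setLoA (qm
    3584)).setHiA (qm 3840))
    (by decide +kernel))
    (good_of_check
    (T 3523215 34918437 4194305 14068122 1273071 3172316 2740670 1400622 4456258 4716750 1849517
    3477736 3057101 46524145 12237007 10393086 25165824 15859170)
    (((((((((((((((((((((((((root.setHiD (qm 2048)).setHiD (qm 1024)).setHiU (qm 512)).setLoA (qm
    2048)).setHiD (qm 512)).setHiU (qm 256)).setLoA (qm 3072)).setLoD (qm 256)).setLoU (qm
    128)).setLoW (qm 128)).setHiW (qm 192)).setHiD (qm 384)).setHiW (qm 160)).setHiU (qm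
    192)).setHiD (qm 320)).setHiW (qm 144)).setLoU (qm 160)).setHiD (qm 288)).setHiD (qm
    272)).setHiW (qm 136)).setHiU (qm 176)).setLoW (qm 132)).setLoD (qm 264)).setLoA (qm
    3584)).setLoA (qm 3840))
    (by decide +kernel))))))
    (good_splitD (qm 264)
    (good_of_check
    (R .t5n 2857079 0 0 4986197 13201998 (-173974) 3423562 11847519 7164039 (-210306) 3423562
    3580548 (-289405) 74074 2902110 2995335 3057101 8016491)
    ((((((((((((((((((((((root.setHiD (qm 2048)).setHiD (qm 1024)).setHiU (qm 512)).setLoA (qm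
    2048)).setHiD (qm 512)).setHiU (qm 256)).setLoA (qm 3072)).setLoD (qm 256)).setLoU (qm
    128)).setLoW (qm 128)).setHiW (qm 192)).setHiD (qm 384)).setHiW (qm 160)).setHiU (qm
    192)).setHiD (qm 320)).setHiW (qm 144)).setLoU (qm 160)).setHiD (qm 288)).setHiD (qm
    272)).setHiW (qm 136)).setLoU (qm 176)).setHiD (qm 264))
    (by decide +kernel))
    (good_of_check
    (R .t5n 2863821 0 0 4975275 13191278 (-180280) 3420349 11846591 6981931 (-200969) 3420349
    3577476 (-469204) 83542 2898319 2991662 3057101 7970512)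
    ((((((((((((((((((((((root.setHiD (qm 2048)).setHiD (qm 1024)).setHiU (qm 512)).setLoA (qm
    2048)).setHiD (qm 512)).setHiU (qm 256)).setLoA (qm 3072)).setLoD (qm 256)).setLoU (qm
    128)).setLoW (qm 128)).setHiW (qm 192)).setHiD (qm 384)).setHiW (qm 160)).setHiU (qm
    192)).setHiD (qm 320)).setHiW (qm 144)).setLoU (qm 160)).setHiD (qm 288)).setHiD (qm
    272)).setHiW (qm 136)).setLoU (qm 176)).setLoD (qm 264))
    (by decide +kernel))))
    (good_splitD (qm 264)
    (good_of_check
    (R .t5n 2832679 0 0 4997120 13220924 (-144645) 3262400 11848447 6650837 (-182440) 3262400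
    3583617 1399656 15132 2998998 3089300 2965823 7833807)
    (((((((((((((((((((((root.setHiD (qm 2048)).setHiD (qm 1024)).setHiU (qm 512)).setLoA (qm
    2048)).setHiD (qm 512)).setHiU (qm 256)).setLoA (qm 3072)).setLoD (qm 256)).setLoU (qm
    128)).setLoW (qm 128)).setHiW (qm 192)).setHiD (qm 384)).setHiW (qm 160)).setHiU (qm
    192)).setHiD (qm 320)).setHiW (qm 144)).setLoU (qm 160)).setHiD (qm 288)).setHiD (qm
    272)).setLoW (qm 136)).setHiD (qm 264))
    (by decide +kernel))
    (good_splitD (qm 268)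
    (good_of_check
    (R .t5n 2835257 0 0 4988928 13216863 (-147070) 3260715 11847983 6568732 (-178055) 3260715
    3582083 1305970 19966 2997164 3087520 3011808 7993943)
    ((((((((((((((((((((((root.setHiD (qm 2048)).setHiD (qm 1024)).setHiU (qm 512)).setLoA (qm
    2048)).setHiD (qm 512)).setHiU (qm 256)).setLoA (qm 3072)).setLoD (qm 256)).setLoU (qm
    128)).setLoW (qm 128)).setHiW (qm 192)).setHiD (qm 384)).setHiW (qm 160)).setHiU (qm
    192)).setHiD (qm 320)).setHiW (qm 144)).setLoU (qm 160)).setHiD (qm 288)).setHiD (qm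
    272)).setLoW (qm 136)).setLoD (qm 264)).setHiD (qm 268))
    (by decide +kernel))
    (good_of_check
    (R .t5n 2839424 0 0 4983467 13210405 (-151071) 3259028 11847519 6460113 (-172829) 3259028
    3580548 1188312 25550 2995330 3085739 3057101 8138353)
    ((((((((((((((((((((((root.setHiD (qm 2048)).setHiD (qm 1024)).setHiU (qm 512)).setLoA (qm
    2048)).setHiD (qm 512)).setHiU (qm 256)).setLoA (qm 3072)).setLoD (qm 256)).setLoU (qm
    128)).setLoW (qm 128)).setHiW (qm 192)).setHiD (qm 384)).setHiW (qm 160)).setHiU (qm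
    192)).setHiD (qm 320)).setHiW (qm 144)).setLoU (qm 160)).setHiD (qm 288)).setHiD (qm
    272)).setLoW (qm 136)).setLoD (qm 264)).setLoD (qm 268))
    (by decide +kernel)))))
    (good_splitW (qm 136)
    (good_splitU (qm 176)
    (good_splitA (qm 3584)
    (good_splitW (qm 132)
    (good_of_check
    (R .u5 2498145 5617680 2421581 4980736 13158420 (-78334) 3315886 11863286 8731452 (-278806)
    3315886 3477736 4277793 (-118744) 2965818 3011808 3011808 6967279)
    (((((((((((((((((((((((root.setHiD (qm 2048)).setHiD (qm 1024)).setHiU (qm 512)).setLoA (qm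
    2048)).setHiD (qm 512)).setHiU (qm 256)).setLoA (qm 3072)).setLoD (qm 256)).setLoU (qm
    128)).setLoW (qm 128)).setHiW (qm 192)).setHiD (qm 384)).setHiW (qm 160)).setHiU (qm
    192)).setHiD (qm 320)).setHiW (qm 144)).setLoU (qm 160)).setHiD (qm 288)).setLoD (qm
    272)).setHiW (qm 136)).setHiU (qm 176)).setHiA (qm 3584)).setHiW (qm 132))
    (by decide +kernel))
    (good_of_check
    (R .u5 2504888 5526050 2421581 4980736 13146016 (-85433) 3315886 11863286 8620680 (-275973)
    3315886 3477736 4707659 (-133328) 3011803 3057101 3057101 7086590)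
    (((((((((((((((((((((((root.setHiD (qm 2048)).setHiD (qm 1024)).setHiU (qm 512)).setLoA (qm
    2048)).setHiD (qm 512)).setHiU (qm 256)).setLoA (qm 3072)).setLoD (qm 256)).setLoU (qm
    128)).setLoW (qm 128)).setHiW (qm 192)).setHiD (qm 384)).setHiW (qm 160)).setHiU (qm
    192)).setHiD (qm 320)).setHiW (qm 144)).setLoU (qm 160)).setHiD (qm 288)).setLoD (qm
    272)).setHiW (qm 136)).setHiU (qm 176)).setHiA (qm 3584)).setLoW (qm 132))
    (by decide +kernel)))
    (good_splitA (qm 3840)
    (good_splitA (qm 3712)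
    (good_of_check
    (T 3187671 40760514 5931643 13591097 1539136 3701396 3209974 1225990 4075379 4451791 1882254
    3477736 3057101 53996881 13977183 11407688 25034411 15833150)
    ((((((((((((((((((((((((root.setHiD (qm 2048)).setHiD (qm 1024)).setHiU (qm 512)).setLoA (qm
    2048)).setHiD (qm 512)).setHiU (qm 256)).setLoA (qm 3072)).setLoD (qm 256)).setLoU (qm
    128)).setLoW (qm 128)).setHiW (qm 192)).setHiD (qm 384)).setHiW (qm 160)).setHiU (qm
    192)).setHiD (qm 320)).setHiW (qm 144)).setLoU (qm 160)).setHiD (qm 288)).setLoD (qm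
    272)).setHiW (qm 136)).setHiU (qm 176)).setLoA (qm 3584)).setHiA (qm 3840)).setHiA (qm 3712))
    (by decide +kernel))
    (good_of_check
    (T 3523215 37977764 5136954 13831666 1434059 3499703 3030239 1374349 4172176 4495733 1882254
    3477736 3057101 47662164 13504166 11230081 25078293 15833150)
    ((((((((((((((((((((((((root.setHiD (qm 2048)).setHiD (qm 1024)).setHiU (qm 512)).setLoA (qm
    2048)).setHiD (qm 512)).setHiU (qm 256)).setLoA (qm 3072)).setLoD (qm 256)).setLoU (qm
    128)).setLoW (qm 128)).setHiW (qm 192)).setHiD (qm 384)).setHiW (qm 160)).setHiU (qm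
    192)).setHiD (qm 320)).setHiW (qm 144)).setLoU (qm 160)).setHiD (qm 288)).setLoD (qm
    272)).setHiW (qm 136)).setHiU (qm 176)).setLoA (qm 3584)).setHiA (qm 3840)).setLoA (qm 3712))
    (by decide +kernel)))
    (good_of_check
    (T 3523215 35132661 4194305 14068122 1326626 3237523 2803229 1393063 4398662 4667907 1882254
    3477736 3057101 46935782 12480230 10570319 25165824 15833150)
    (((((((((((((((((((((((root.setHiD (qm 2048)).setHiD (qm 1024)).setHiU (qm 512)).setLoA (qm
    2048)).setHiD (qm 512)).setHiU (qm 256)).setLoA (qm 3072)).setLoD (qm 256)).setLoU (qm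
    128)).setLoW (qm 128)).setHiW (qm 192)).setHiD (qm 384)).setHiW (qm 160)).setHiU (qm
    192)).setHiD (qm 320)).setHiW (qm 144)).setLoU (qm 160)).setHiD (qm 288)).setLoD (qm
    272)).setHiW (qm 136)).setHiU (qm 176)).setLoA (qm 3584)).setLoA (qm 3840))
    (by decide +kernel))))
    (good_of_check
    (R .t5n 2867989 0 0 4958891 13184006 (-183727) 3413914 11844735 6767730 (-186970) 3413914
    3571324 (-718815) 99135 2890722 2984302 3057101 7942239)
    (((((((((((((((((((((root.setHiD (qm 2048)).setHiD (qm 1024)).setHiU (qm 512)).setLoA (qm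
    2048)).setHiD (qm 512)).setHiU (qm 256)).setLoA (qm 3072)).setLoD (qm 256)).setLoU (qm
    128)).setLoW (qm 128)).setHiW (qm 192)).setHiD (qm 384)).setHiW (qm 160)).setHiU (qm
    192)).setHiD (qm 320)).setHiW (qm 144)).setLoU (qm 160)).setHiD (qm 288)).setLoD (qm
    272)).setHiW (qm 136)).setLoU (qm 176))
    (by decide +kernel)))
    (good_splitU (qm 176)
    (good_splitW (qm 140)
    (good_splitD (qm 280)
    (good_splitD (qm 276)
    (good_splitW (qm 138)
    (good_of_check
    (R .t5n 2843590 0 0 4988928 13203936 (-155061) 3257341 11847055 5355669 (-128689) 3257341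
    3421961 583960 47307 2993494 3016368 3079497 8194251)
    (((((((((((((((((((((((((root.setHiD (qm 2048)).setHiD (qm 1024)).setHiU (qm 512)).setLoA (qm
    2048)).setHiD (qm 512)).setHiU (qm 256)).setLoA (qm 3072)).setLoD (qm 256)).setLoU (qm
    128)).setLoW (qm 128)).setHiW (qm 192)).setHiD (qm 384)).setHiW (qm 160)).setHiU (qm
    192)).setHiD (qm 320)).setHiW (qm 144)).setLoU (qm 160)).setHiD (qm 288)).setLoD (qm
    272)).setLoW (qm 136)).setHiU (qm 176)).setHiW (qm 140)).setHiD (qm 280)).setHiD (qm
    276)).setHiW (qm 138))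
    (by decide +kernel))
    (good_of_check
    (R .t5n 2846166 0 0 4988928 13200152 (-157689) 3258185 11847287 5333534 (-128912) 3258185
    3422764 895968 35795 3017274 3039969 3079497 8176307)
    (((((((((((((((((((((((((root.setHiD (qm 2048)).setHiD (qm 1024)).setHiU (qm 512)).setLoA (qm
    2048)).setHiD (qm 512)).setHiU (qm 256)).setLoA (qm 3072)).setLoD (qm 256)).setLoU (qm
    128)).setLoW (qm 128)).setHiW (qm 192)).setHiD (qm 384)).setHiW (qm 160)).setHiU (qm
    192)).setHiD (qm 320)).setHiW (qm 144)).setLoU (qm 160)).setHiD (qm 288)).setLoD (qm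
    272)).setLoW (qm 136)).setHiU (qm 176)).setHiW (qm 140)).setHiD (qm 280)).setHiD (qm
    276)).setLoW (qm 138))
    (by decide +kernel)))
    (good_splitW (qm 138)
    (good_of_check
    (R .t5n 2846166 0 0 4983467 13199857 (-157468) 3255653 11846591 5269506 (-124112) 3255653
    3420354 492933 52082 2991657 3014545 3079497 8176307)
    (((((((((((((((((((((((((root.setHiD (qm 2048)).setHiD (qm 1024)).setHiU (qm 512)).setLoA (qm
    2048)).setHiD (qm 512)).setHiU (qm 256)).setLoA (qm 3072)).setLoD (qm 256)).setLoU (qm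
    128)).setLoW (qm 128)).setHiW (qm 192)).setHiD (qm 384)).setHiW (qm 160)).setHiU (qm
    192)).setHiD (qm 320)).setHiW (qm 144)).setLoU (qm 160)).setHiD (qm 288)).setLoD (qm
    272)).setLoW (qm 136)).setHiU (qm 176)).setHiW (qm 140)).setHiD (qm 280)).setLoD (qm
    276)).setHiW (qm 138))
    (by decide +kernel))
    (good_of_check
    (R .t5n 2850333 0 0 4983467 13193665 (-161666) 3256497 11846823 5220686 (-123486) 3256497
    3421157 780765 41328 3015451 3038160 3101732 8230949)
    (((((((((((((((((((((((((root.setHiD (qm 2048)).setHiD (qm 1024)).setHiU (qm 512)).setLoA (qm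
    2048)).setHiD (qm 512)).setHiU (qm 256)).setLoA (qm 3072)).setLoD (qm 256)).setLoU (qm
    128)).setLoW (qm 128)).setHiW (qm 192)).setHiD (qm 384)).setHiW (qm 160)).setHiU (qm
    192)).setHiD (qm 320)).setHiW (qm 144)).setLoU (qm 160)).setHiD (qm 288)).setLoD (qm
    272)).setLoW (qm 136)).setHiU (qm 176)).setHiW (qm 140)).setHiD (qm 280)).setLoD (qm
    276)).setLoW (qm 138))
    (by decide +kernel))))
    (good_splitD (qm 284)
    (good_splitW (qm 138)
    (good_of_check
    (R .t5n 2846166 0 0 4978005 13199660 (-157320) 3253964 11846127 5226696 (-120903) 3253964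
    3418746 438622 55720 2989818 3012720 3079497 8176307)
    (((((((((((((((((((((((((root.setHiD (qm 2048)).setHiD (qm 1024)).setHiU (qm 512)).setLoA (qm
    2048)).setHiD (qm 512)).setHiU (qm 256)).setLoA (qm 3072)).setLoD (qm 256)).setLoU (qm
    128)).setLoW (qm 128)).setHiW (qm 192)).setHiD (qm 384)).setHiW (qm 160)).setHiU (qm
    192)).setHiD (qm 320)).setHiW (qm 144)).setLoU (qm 160)).setHiD (qm 288)).setLoD (qm
    272)).setLoW (qm 136)).setHiU (qm 176)).setHiW (qm 140)).setLoD (qm 280)).setHiD (qm
    284)).setHiW (qm 138))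
    (by decide +kernel))
    (good_of_check
    (R .t5n 2850333 0 0 4978005 13193466 (-161517) 3254808 11846359 5177916 (-120278) 3254808
    3419550 726936 44951 3013628 3036350 3101732 8230949)
    (((((((((((((((((((((((((root.setHiD (qm 2048)).setHiD (qm 1024)).setHiU (qm 512)).setLoA (qm
    2048)).setHiD (qm 512)).setHiU (qm 256)).setLoA (qm 3072)).setLoD (qm 256)).setLoU (qm
    128)).setLoW (qm 128)).setHiW (qm 192)).setHiD (qm 384)).setHiW (qm 160)).setHiU (qm
    192)).setHiD (qm 320)).setHiW (qm 144)).setLoU (qm 160)).setHiD (qm 288)).setLoD (qm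
    272)).setLoW (qm 136)).setHiU (qm 176)).setHiW (qm 140)).setLoD (qm 280)).setHiD (qm
    284)).setLoW (qm 138))
    (by decide +kernel)))
    (good_of_check
    (R .t5n 2850333 0 0 4972544 13193168 (-161295) 3252274 11845663 5113574 (-115452) 3252274
    3417138 485978 55868 2987979 3033633 3101732 8230949)
    ((((((((((((((((((((((((root.setHiD (qm 2048)).setHiD (qm 1024)).setHiU (qm 512)).setLoA (qm
    2048)).setHiD (qm 512)).setHiU (qm 256)).setLoA (qm 3072)).setLoD (qm 256)).setLoU (qm
    128)).setLoW (qm 128)).setHiW (qm 192)).setHiD (qm 384)).setHiW (qm 160)).setHiU (qm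
    192)).setHiD (qm 320)).setHiW (qm 144)).setLoU (qm 160)).setHiD (qm 288)).setLoD (qm
    272)).setLoW (qm 136)).setHiU (qm 176)).setHiW (qm 140)).setLoD (qm 280)).setLoD (qm 284))
    (by decide +kernel))))
    (good_splitD (qm 280)
    (good_of_check
    (R .t5n 2846166 0 0 4986197 13200054 (-157616) 3257341 11847055 5312216 (-127314) 3257341
    3421961 1357368 20913 3039059 3083957 3101732 8260045)
    (((((((((((((((((((((((root.setHiD (qm 2048)).setHiD (qm 1024)).setHiU (qm 512)).setLoA (qm
    2048)).setHiD (qm 512)).setHiU (qm 256)).setLoA (qm 3072)).setLoD (qm 256)).setLoU (qm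
    128)).setLoW (qm 128)).setHiW (qm 192)).setHiD (qm 384)).setHiW (qm 160)).setHiU (qm
    192)).setHiD (qm 320)).setHiW (qm 144)).setLoU (qm 160)).setHiD (qm 288)).setLoD (qm
    272)).setLoW (qm 136)).setHiU (qm 176)).setLoW (qm 140)).setHiD (qm 280))
    (by decide +kernel))
    (good_of_check
    (R .t5n 2852909 0 0 4975275 13189474 (-163989) 3253964 11846127 5113201 (-117291) 3253964
    3418746 1147702 31354 3035439 3080390 3145730 8377027)
    (((((((((((((((((((((((root.setHiD (qm 2048)).setHiD (qm 1024)).setHiU (qm 512)).setLoA (qm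
    2048)).setHiD (qm 512)).setHiU (qm 256)).setLoA (qm 3072)).setLoD (qm 256)).setLoU (qm
    128)).setLoW (qm 128)).setHiW (qm 192)).setHiD (qm 384)).setHiW (qm 160)).setHiU (qm
    192)).setHiD (qm 320)).setHiW (qm 144)).setLoU (qm 160)).setHiD (qm 288)).setLoD (qm
    272)).setLoW (qm 136)).setHiU (qm 176)).setLoW (qm 140)).setLoD (qm 280))
    (by decide +kernel))))
    (good_of_check
    (R .t5n 2874730 0 0 4958891 13174146 (-190624) 3417133 11845663 6732171 (-189409) 3417133
    3574401 461166 56100 2987979 3078604 3145730 8225302)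
    (((((((((((((((((((((root.setHiD (qm 2048)).setHiD (qm 1024)).setHiU (qm 512)).setLoA (qm
    2048)).setHiD (qm 512)).setHiU (qm 256)).setLoA (qm 3072)).setLoD (qm 256)).setLoU (qm
    128)).setLoW (qm 128)).setHiW (qm 192)).setHiD (qm 384)).setHiW (qm 160)).setHiU (qm
    192)).setHiD (qm 320)).setHiW (qm 144)).setLoU (qm 160)).setHiD (qm 288)).setLoD (qm
    272)).setLoW (qm 136)).setLoU (qm 176))
    (by decide +kernel)))))
    (good_splitW (qm 136)
    (good_of_check
    (R .u5 2529285 0 0 4937045 13170374 (-131551) 3315886 11863286 8937185 (-293546) 3315886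
    3632376 4058394 (-114637) 2965818 3057101 3057101 6910064)
    (((((((((((((((((((root.setHiD (qm 2048)).setHiD (qm 1024)).setHiU (qm 512)).setLoA (qm
    2048)).setHiD (qm 512)).setHiU (qm 256)).setLoA (qm 3072)).setLoD (qm 256)).setLoU (qm
    128)).setLoW (qm 128)).setHiW (qm 192)).setHiD (qm 384)).setHiW (qm 160)).setHiU (qm
    192)).setHiD (qm 320)).setHiW (qm 144)).setLoU (qm 160)).setLoD (qm 288)).setHiW (qm 136))
    (by decide +kernel))
    (good_splitW (qm 140)
    (good_of_check
    (R .u5 2536030 0 0 4937045 13158594 (-138757) 3315886 11863286 8830100 (-290749) 3315886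
    3632376 4732495 (-137767) 3057096 3101732 3101732 7023536)
    ((((((((((((((((((((root.setHiD (qm 2048)).setHiD (qm 1024)).setHiU (qm 512)).setLoA (qm
    2048)).setHiD (qm 512)).setHiU (qm 256)).setLoA (qm 3072)).setLoD (qm 256)).setLoU (qm
    128)).setLoW (qm 128)).setHiW (qm 192)).setHiD (qm 384)).setHiW (qm 160)).setHiU (qm
    192)).setHiD (qm 320)).setHiW (qm 144)).setLoU (qm 160)).setLoD (qm 288)).setLoW (qm
    136)).setHiW (qm 140))
    (by decide +kernel))
    (good_splitW (qm 142)
    (good_of_check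
    (R .u5 2540197 0 0 4937045 13151303 (-143196) 3315886 11863286 8764122 (-289017) 3315886
    3632376 5045384 (-148979) 3101727 3123809 3123809 7072874)
    (((((((((((((((((((((root.setHiD (qm 2048)).setHiD (qm 1024)).setHiU (qm 512)).setLoA (qm
    2048)).setHiD (qm 512)).setHiU (qm 256)).setLoA (qm 3072)).setLoD (qm 256)).setLoU (qm
    128)).setLoW (qm 128)).setHiW (qm 192)).setHiD (qm 384)).setHiW (qm 160)).setHiU (qm
    192)).setHiD (qm 320)).setHiW (qm 144)).setLoU (qm 160)).setLoD (qm 288)).setLoW (qm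
    136)).setLoW (qm 140)).setHiW (qm 142))
    (by decide +kernel))
    (good_of_check
    (R .u5 2544364 0 0 4937045 13144003 (-147625) 3315886 11863286 8698301 (-287283) 3315886
    3632376 5226981 (-155816) 3123804 3145730 3145730 7121473)
    (((((((((((((((((((((root.setHiD (qm 2048)).setHiD (qm 1024)).setHiU (qm 512)).setLoA (qm
    2048)).setHiD (qm 512)).setHiU (qm 256)).setLoA (qm 3072)).setLoD (qm 256)).setLoU (qm
    128)).setLoW (qm 128)).setHiW (qm 192)).setHiD (qm 384)).setHiW (qm 160)).setHiU (qm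
    192)).setHiD (qm 320)).setHiW (qm 144)).setLoU (qm 160)).setLoD (qm 288)).setLoW (qm
    136)).setLoW (qm 140)).setLoW (qm 142))
    (by decide +kernel))))))

end Vale.Agent.P226.Cert
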