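import Vale.Agent.P226.CertBox
import Vale.Agent.P226.CertSound

/-! Part 23 of the cover (P226). -/

namespace Vale.Agent.P226.Cert

set_option maxHeartbeats 4000000 in
/-- One subtree of the cover. -/
theorem sub44_good : BoxGood
    ((((((((((((((((root.setHiD (qm 2048)).setHiD (qm 1024)).setHiU (qm 512)).setLoA (qm
    2048)).setHiD (qm 512)).setHiU (qm 256)).setLoA (qm 3072)).setLoD (qm 256)).setLoU (qm
    128)).setLoW (qm 128)).setHiW (qm 192)).setHiD (qm 384)).setHiW (qm 160)).setHiU (qm
    192)).setHiD (qm 320)).setLoW (qm 144)) :=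
    (good_splitD (qm 288)
    (good_splitU (qm 168)
    (good_splitD (qm 272)
    (good_splitD (qm 264)
    (good_splitD (qm 260)
    (good_of_check
    (R .t5n 2806688 0 0 5027157 13241457 (-113351) 3094629 11849839 4519006 (-97717) 3094629
    3350527 3924248 (-76808) 3094629 3267457 2823380 7445316)
    (((((((((((((((((((((root.setHiD (qm 2048)).setHiD (qm 1024)).setHiU (qm 512)).setLoA (qm
    2048)).setHiD (qm 512)).setHiU (qm 256)).setLoA (qm 3072)).setLoD (qm 256)).setLoU (qm
    128)).setLoW (qm 128)).setHiW (qm 192)).setHiD (qm 384)).setHiW (qm 160)).setHiU (qm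
    192)).setHiD (qm 320)).setLoW (qm 144)).setHiD (qm 288)).setHiU (qm 168)).setHiD (qm
    272)).setHiD (qm 264)).setHiD (qm 260))
    (by decide +kernel))
    (good_of_check
    (R .t5n 2810854 0 0 5021696 13235135 (-117431) 3092852 11849375 4399677 (-92162) 3092852
    3348886 3803176 (-71192) 3092852 3265774 2871646 7611197)
    (((((((((((((((((((((root.setHiD (qm 2048)).setHiD (qm 1024)).setHiU (qm 512)).setLoA (qm
    2048)).setHiD (qm 512)).setHiU (qm 256)).setLoA (qm 3072)).setLoD (qm 256)).setLoU (qm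
    128)).setLoW (qm 128)).setHiW (qm 192)).setHiD (qm 384)).setHiW (qm 160)).setHiU (qm
    192)).setHiD (qm 320)).setLoW (qm 144)).setHiD (qm 288)).setHiU (qm 168)).setHiD (qm
    272)).setHiD (qm 264)).setLoD (qm 260))
    (by decide +kernel)))
    (good_splitD (qm 268)
    (good_splitD (qm 266)
    (good_of_check
    (R .t5n 2815022 0 0 5017600 13228881 (-121572) 3091963 11849143 4304240 (-88279) 3091963
    3348065 3706965 (-67281) 3091963 3264932 2895478 7677842)
    ((((((((((((((((((((((root.setHiD (qm 2048)).setHiD (qm 1024)).setHiU (qm 512)).setLoA (qm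
    2048)).setHiD (qm 512)).setHiU (qm 256)).setLoA (qm 3072)).setLoD (qm 256)).setLoU (qm
    128)).setLoW (qm 128)).setHiW (qm 192)).setHiD (qm 384)).setHiW (qm 160)).setHiU (qm
    192)).setHiD (qm 320)).setLoW (qm 144)).setHiD (qm 288)).setHiU (qm 168)).setHiD (qm
    272)).setLoD (qm 264)).setHiD (qm 268)).setHiD (qm 266))
    (by decide +kernel))
    (good_of_check
    (R .t5n 2815022 0 0 5014869 13228801 (-121505) 3091074 11848911 4280491 (-86598) 3091074
    3347244 3682306 (-65568) 3091074 3264090 2919115 7771569)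
    ((((((((((((((((((((((root.setHiD (qm 2048)).setHiD (qm 1024)).setHiU (qm 512)).setLoA (qm
    2048)).setHiD (qm 512)).setHiU (qm 256)).setLoA (qm 3072)).setLoD (qm 256)).setLoU (qm
    128)).setLoW (qm 128)).setHiW (qm 192)).setHiD (qm 384)).setHiW (qm 160)).setHiU (qm
    192)).setHiD (qm 320)).setLoW (qm 144)).setHiD (qm 288)).setHiU (qm 168)).setHiD (qm
    272)).setLoD (qm 264)).setHiD (qm 268)).setLoD (qm 266))
    (by decide +kernel)))
    (good_splitD (qm 270)
    (good_splitD (qm 269)
    (good_of_check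
    (R .t5n 2817597 0 0 5012821 13224940 (-124066) 3090630 11848795 4224421 (-84393) 3090630
    3346833 3625893 (-63351) 3090630 3263669 2930862 7800287)
    (((((((((((((((((((((((root.setHiD (qm 2048)).setHiD (qm 1024)).setHiU (qm 512)).setLoA (qm
    2048)).setHiD (qm 512)).setHiU (qm 256)).setLoA (qm 3072)).setLoD (qm 256)).setLoU (qm
    128)).setLoW (qm 128)).setHiW (qm 192)).setHiD (qm 384)).setHiW (qm 160)).setHiU (qm
    192)).setHiD (qm 320)).setLoW (qm 144)).setHiD (qm 288)).setHiU (qm 168)).setHiD (qm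
    272)).setLoD (qm 264)).setLoD (qm 268)).setHiD (qm 270)).setHiD (qm 269))
    (by decide +kernel))
    (good_of_check
    (R .t5n 2817597 0 0 5011456 13224899 (-124033) 3090185 11848679 4212531 (-83551) 3090185
    3346422 3613551 (-62493) 3090185 3263248 2942562 7846370)
    (((((((((((((((((((((((root.setHiD (qm 2048)).setHiD (qm 1024)).setHiU (qm 512)).setLoA (qm
    2048)).setHiD (qm 512)).setHiU (qm 256)).setLoA (qm 3072)).setLoD (qm 256)).setLoU (qm
    128)).setLoW (qm 128)).setHiW (qm 192)).setHiD (qm 384)).setHiW (qm 160)).setHiU (qm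
    192)).setHiD (qm 320)).setLoW (qm 144)).setHiD (qm 288)).setHiU (qm 168)).setHiD (qm
    272)).setLoD (qm 264)).setLoD (qm 268)).setHiD (qm 270)).setLoD (qm 269))
    (by decide +kernel)))
    (good_splitA (qm 3584)
    (good_of_check
    (R .t5n 2789034 4461724 2421581 5009408 13245087 (-88369) 3089295 11848447 4683919 (-97025)
    3089295 3345601 4083501 (-75917) 3089295 3262405 2965823 8138815)
    (((((((((((((((((((((((root.setHiD (qm 2048)).setHiD (qm 1024)).setHiU (qm 512)).setLoA (qm
    2048)).setHiD (qm 512)).setHiU (qm 256)).setLoA (qm 3072)).setLoD (qm 256)).setLoU (qm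
    128)).setLoW (qm 128)).setHiW (qm 192)).setHiD (qm 384)).setHiW (qm 160)).setHiU (qm
    192)).setHiD (qm 320)).setLoW (qm 144)).setHiD (qm 288)).setHiU (qm 168)).setHiD (qm
    272)).setLoD (qm 264)).setLoD (qm 268)).setLoD (qm 270)).setHiA (qm 3584))
    (by decide +kernel))
    (good_splitA (qm 3840)
    (good_of_check
    (R .t5n 2815022 3980616 1712316 5009408 13235659 (-123469) 3089295 11848447 4232911 (-83230)
    3089295 3345601 3632907 (-62136) 3089295 3262405 2965823 7955582)
    ((((((((((((((((((((((((root.setHiD (qm 2048)).setHiD (qm 1024)).setHiU (qm 512)).setLoA (qm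
    2048)).setHiD (qm 512)).setHiU (qm 256)).setLoA (qm 3072)).setLoD (qm 256)).setLoU (qm
    128)).setLoW (qm 128)).setHiW (qm 192)).setHiD (qm 384)).setHiW (qm 160)).setHiU (qm
    192)).setHiD (qm 320)).setLoW (qm 144)).setHiD (qm 288)).setHiU (qm 168)).setHiD (qm
    272)).setLoD (qm 264)).setLoD (qm 268)).setLoD (qm 270)).setLoA (qm 3584)).setHiA (qm 3840))
    (by decide +kernel))
    (good_of_check
    (T 3523215 34812302 4194305 14068122 1246537 3053942 2967876 1404336 4539922 4593210 1832929
    3397777 3315891 46314707 11747849 11381748 25165824 15878657)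
    ((((((((((((((((((((((((root.setHiD (qm 2048)).setHiD (qm 1024)).setHiU (qm 512)).setLoA (qm
    2048)).setHiD (qm 512)).setHiU (qm 256)).setLoA (qm 3072)).setLoD (qm 256)).setLoU (qm
    128)).setLoW (qm 128)).setHiW (qm 192)).setHiD (qm 384)).setHiW (qm 160)).setHiU (qm
    192)).setHiD (qm 320)).setLoW (qm 144)).setHiD (qm 288)).setHiU (qm 168)).setHiD (qm
    272)).setLoD (qm 264)).setLoD (qm 268)).setLoD (qm 270)).setLoA (qm 3584)).setLoA (qm 3840))
    (by decide +kernel)))))))
    (good_splitW (qm 152)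
    (good_splitU (qm 156)
    (good_splitD (qm 280)
    (good_splitW (qm 148)
    (good_splitA (qm 3584)
    (good_splitD (qm 276)
    (good_of_check
    (R .t5n 2789034 4440602 2421581 5013504 13242424 (-87489) 3087515 11847983 3720202 (-61463)
    3087515 3218294 3069650 (-38593) 3087515 3131718 3011808 8320691)
    (((((((((((((((((((((((((root.setHiD (qm 2048)).setHiD (qm 1024)).setHiU (qm 512)).setLoA (qm
    2048)).setHiD (qm 512)).setHiU (qm 256)).setLoA (qm 3072)).setLoD (qm 256)).setLoU (qm
    128)).setLoW (qm 128)).setHiW (qm 192)).setHiD (qm 384)).setHiW (qm 160)).setHiU (qm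
    192)).setHiD (qm 320)).setLoW (qm 144)).setHiD (qm 288)).setHiU (qm 168)).setLoD (qm
    272)).setHiW (qm 152)).setHiU (qm 156)).setHiD (qm 280)).setHiW (qm 148)).setHiA (qm
    3584)).setHiD (qm 276))
    (by decide +kernel))
    (good_of_check
    (R .t5n 2793202 4362085 2421581 5008043 13238148 (-92205) 3085734 11847519 3596683 (-55780)
    3085734 3216585 2944964 (-32868) 3085734 3129962 3057101 8467655)
    (((((((((((((((((((((((((root.setHiD (qm 2048)).setHiD (qm 1024)).setHiU (qm 512)).setLoA (qm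
    2048)).setHiD (qm 512)).setHiU (qm 256)).setLoA (qm 3072)).setLoD (qm 256)).setLoU (qm
    128)).setLoW (qm 128)).setHiW (qm 192)).setHiD (qm 384)).setHiW (qm 160)).setHiU (qm
    192)).setHiD (qm 320)).setLoW (qm 144)).setHiD (qm 288)).setHiU (qm 168)).setLoD (qm
    272)).setHiW (qm 152)).setHiU (qm 156)).setHiD (qm 280)).setHiW (qm 148)).setHiA (qm
    3584)).setLoD (qm 276))
    (by decide +kernel)))
    (good_splitA (qm 3840)
    (good_of_check
    (T 3523215 40327549 5931643 13591097 1430895 3375090 3275388 1369851 4250449 4320738 1824578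
    3274180 3189122 47632089 12742708 12250264 25078293 15880821)
    (((((((((((((((((((((((((root.setHiD (qm 2048)).setHiD (qm 1024)).setHiU (qm 512)).setLoA (qm
    2048)).setHiD (qm 512)).setHiU (qm 256)).setLoA (qm 3072)).setLoD (qm 256)).setLoU (qm
    128)).setLoW (qm 128)).setHiW (qm 192)).setHiD (qm 384)).setHiW (qm 160)).setHiU (qm
    192)).setHiD (qm 320)).setLoW (qm 144)).setHiD (qm 288)).setHiU (qm 168)).setLoD (qm
    272)).setHiW (qm 152)).setHiU (qm 156)).setHiD (qm 280)).setHiW (qm 148)).setLoA (qm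
    3584)).setHiA (qm 3840))
    (by decide +kernel))
    (good_of_check
    (T 3523215 34759476 4194305 14068122 1233330 2909088 2823152 1406177 4631908 4681652 1824578
    3274180 3189122 46208996 11151694 10795478 25165824 15880821)
    (((((((((((((((((((((((((root.setHiD (qm 2048)).setHiD (qm 1024)).setHiU (qm 512)).setLoA (qm
    2048)).setHiD (qm 512)).setHiU (qm 256)).setLoA (qm 3072)).setLoD (qm 256)).setLoU (qm
    128)).setLoW (qm 128)).setHiW (qm 192)).setHiD (qm 384)).setHiW (qm 160)).setHiU (qm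
    192)).setHiD (qm 320)).setLoW (qm 144)).setHiD (qm 288)).setHiU (qm 168)).setLoD (qm
    272)).setHiW (qm 152)).setHiU (qm 156)).setHiD (qm 280)).setHiW (qm 148)).setLoA (qm
    3584)).setLoA (qm 3840))
    (by decide +kernel))))
    (good_of_check
    (R .t5n 2832679 0 0 5008043 13189029 (-135012) 3131713 11847983 3292860 (-50654) 3131713
    3218294 2978183 (-39284) 3131713 3175301 3011808 8011772)
    (((((((((((((((((((((((root.setHiD (qm 2048)).setHiD (qm 1024)).setHiU (qm 512)).setLoA (qm
    2048)).setHiD (qm 512)).setHiU (qm 256)).setLoA (qm 3072)).setLoD (qm 256)).setLoU (qm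
    128)).setLoW (qm 128)).setHiW (qm 192)).setHiD (qm 384)).setHiW (qm 160)).setHiU (qm
    192)).setHiD (qm 320)).setLoW (qm 144)).setHiD (qm 288)).setHiU (qm 168)).setLoD (qm
    272)).setHiW (qm 152)).setHiU (qm 156)).setHiD (qm 280)).setLoW (qm 148))
    (by decide +kernel)))
    (good_splitW (qm 148)
    (good_splitU (qm 150)
    (good_splitA (qm 3584)
    (good_splitD (qm 284)
    (good_splitD (qm 282)
    (good_of_check
    (R .t5n 2795777 4316865 2421581 5008043 13233555 (-94541) 3084843 11847287 3039952 (-35571)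
    3084843 3150969 2874291 (-29747) 3084843 3129084 3079497 8535703)
    (((((((((((((((((((((((((((root.setHiD (qm 2048)).setHiD (qm 1024)).setHiU (qm 512)).setLoA
    (qm 2048)).setHiD (qm 512)).setHiU (qm 256)).setLoA (qm 3072)).setLoD (qm 256)).setLoU (qm
    128)).setLoW (qm 128)).setHiW (qm 192)).setHiD (qm 384)).setHiW (qm 160)).setHiU (qm
    192)).setHiD (qm 320)).setLoW (qm 144)).setHiD (qm 288)).setHiU (qm 168)).setLoD (qm
    272)).setHiW (qm 152)).setHiU (qm 156)).setLoD (qm 280)).setHiW (qm 148)).setHiU (qm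
    150)).setHiA (qm 3584)).setHiD (qm 284)).setHiD (qm 282))
    (by decide +kernel))
    (good_of_check
    (R .t5n 2799943 4249297 2421581 5005312 13227899 (-98875) 3083952 11847055 2942137 (-31615)
    3083952 3150097 2776523 (-25792) 3083952 3128205 3101732 8590878)
    (((((((((((((((((((((((((((root.setHiD (qm 2048)).setHiD (qm 1024)).setHiU (qm 512)).setLoA
    (qm 2048)).setHiD (qm 512)).setHiU (qm 256)).setLoA (qm 3072)).setLoD (qm 256)).setLoU (qm
    128)).setLoW (qm 128)).setHiW (qm 192)).setHiD (qm 384)).setHiW (qm 160)).setHiU (qm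
    192)).setHiD (qm 320)).setLoW (qm 144)).setHiD (qm 288)).setHiU (qm 168)).setLoD (qm
    272)).setHiW (qm 152)).setHiU (qm 156)).setLoD (qm 280)).setHiW (qm 148)).setHiU (qm
    150)).setHiA (qm 3584)).setHiD (qm 284)).setLoD (qm 282))
    (by decide +kernel)))
    (good_splitA (qm 3328)
    (good_of_check
    (R .u5 2469573 5615587 2965819 5001216 13168700 (-35250) 3145726 11863286 6951350 (-204927)
    3145726 3210598 6831276 (-200706) 3145726 3189122 3145730 7682368)
    (((((((((((((((((((((((((((root.setHiD (qm 2048)).setHiD (qm 1024)).setHiU (qm 512)).setLoA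
    (qm 2048)).setHiD (qm 512)).setHiU (qm 256)).setLoA (qm 3072)).setLoD (qm 256)).setLoU (qm
    128)).setLoW (qm 128)).setHiW (qm 192)).setHiD (qm 384)).setHiW (qm 160)).setHiU (qm
    192)).setHiD (qm 320)).setLoW (qm 144)).setHiD (qm 288)).setHiU (qm 168)).setLoD (qm
    272)).setHiW (qm 152)).setHiU (qm 156)).setLoD (qm 280)).setHiW (qm 148)).setHiU (qm
    150)).setHiA (qm 3584)).setLoD (qm 284)).setHiA (qm 3328))
    (by decide +kernel))
    (good_splitA (qm 3456)
    (good_of_check
    (R .u5 2483058 5361462 2707410 5001216 13160917 (-54815) 3145726 11863286 6721339 (-199110)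
    3145726 3210598 6601322 (-194891) 3145726 3189122 3145730 7577184)
    ((((((((((((((((((((((((((((root.setHiD (qm 2048)).setHiD (qm 1024)).setHiU (qm 512)).setLoA
    (qm 2048)).setHiD (qm 512)).setHiU (qm 256)).setLoA (qm 3072)).setLoD (qm 256)).setLoU (qm
    128)).setLoW (qm 128)).setHiW (qm 192)).setHiD (qm 384)).setHiW (qm 160)).setHiU (qm
    192)).setHiD (qm 320)).setLoW (qm 144)).setHiD (qm 288)).setHiU (qm 168)).setLoD (qm
    272)).setHiW (qm 152)).setHiU (qm 156)).setLoD (qm 280)).setHiW (qm 148)).setHiU (qm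
    150)).setHiA (qm 3584)).setLoD (qm 284)).setLoA (qm 3328)).setHiA (qm 3456))
    (by decide +kernel))
    (good_of_check
    (T 3187671 43143281 6631778 13346192 1537825 3488388 3462381 1221020 4231717 4251688 1828758
    3210598 3189122 54132755 12696458 12559372 24990453 15865669)
    ((((((((((((((((((((((((((((root.setHiD (qm 2048)).setHiD (qm 1024)).setHiU (qm 512)).setLoA
    (qm 2048)).setHiD (qm 512)).setHiU (qm 256)).setLoA (qm 3072)).setLoD (qm 256)).setLoU (qm
    128)).setLoW (qm 128)).setHiW (qm 192)).setHiD (qm 384)).setHiW (qm 160)).setHiU (qm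
    192)).setHiD (qm 320)).setLoW (qm 144)).setHiD (qm 288)).setHiU (qm 168)).setLoD (qm
    272)).setHiW (qm 152)).setHiU (qm 156)).setLoD (qm 280)).setHiW (qm 148)).setHiU (qm
    150)).setHiA (qm 3584)).setLoD (qm 284)).setLoA (qm 3328)).setLoA (qm 3456))
    (by decide +kernel)))))
    (good_splitA (qm 3840)
    (good_of_check
    (T 3523215 40358170 5931643 13591097 1438551 3309389 3284445 1368816 4295503 4312850 1828758
    3210598 3189122 47689715 12407386 12285037 25078293 15869999)
    ((((((((((((((((((((((((((root.setHiD (qm 2048)).setHiD (qm 1024)).setHiU (qm 512)).setLoA (qm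
    2048)).setHiD (qm 512)).setHiU (qm 256)).setLoA (qm 3072)).setLoD (qm 256)).setLoU (qm
    128)).setLoW (qm 128)).setHiW (qm 192)).setHiD (qm 384)).setHiW (qm 160)).setHiU (qm
    192)).setHiD (qm 320)).setLoW (qm 144)).setHiD (qm 288)).setHiU (qm 168)).setLoD (qm
    272)).setHiW (qm 152)).setHiU (qm 156)).setLoD (qm 280)).setHiW (qm 148)).setHiU (qm
    150)).setLoA (qm 3584)).setHiA (qm 3840))
    (by decide +kernel))
    (good_of_check
    (T 3523215 34785869 4194305 14068122 1239928 2852458 2830957 1405258 4663145 4675443 1828758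
    3210598 3189122 46261929 10907517 10818411 25165824 15869999)
    ((((((((((((((((((((((((((root.setHiD (qm 2048)).setHiD (qm 1024)).setHiU (qm 512)).setLoA (qm
    2048)).setHiD (qm 512)).setHiU (qm 256)).setLoA (qm 3072)).setLoD (qm 256)).setLoU (qm
    128)).setLoW (qm 128)).setHiW (qm 192)).setHiD (qm 384)).setHiW (qm 160)).setHiU (qm
    192)).setHiD (qm 320)).setLoW (qm 144)).setHiD (qm 288)).setHiU (qm 168)).setLoD (qm
    272)).setHiW (qm 152)).setHiU (qm 156)).setLoD (qm 280)).setHiW (qm 148)).setHiU (qm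
    150)).setLoA (qm 3584)).setLoA (qm 3840))
    (by decide +kernel))))
    (good_splitD (qm 284)
    (good_splitD (qm 282)
    (good_of_check
    (R .t5n 2839423 0 0 4999851 13243121 (-160745) 3150964 11847287 3263502 (-47949) 3150964
    3215731 2144073 (-7191) 3084843 3129084 3079497 8223375)
    ((((((((((((((((((((((((((root.setHiD (qm 2048)).setHiD (qm 1024)).setHiU (qm 512)).setLoA (qm
    2048)).setHiD (qm 512)).setHiU (qm 256)).setLoA (qm 3072)).setLoD (qm 256)).setLoU (qm
    128)).setLoW (qm 128)).setHiW (qm 192)).setHiD (qm 384)).setHiW (qm 160)).setHiU (qm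
    192)).setHiD (qm 320)).setLoW (qm 144)).setHiD (qm 288)).setHiU (qm 168)).setLoD (qm
    272)).setHiW (qm 152)).setHiU (qm 156)).setLoD (qm 280)).setHiW (qm 148)).setLoU (qm
    150)).setHiD (qm 284)).setHiD (qm 282))
    (by decide +kernel))
    (good_splitD (qm 283)
    (good_of_check
    (R .t5n 2839424 0 0 4997803 13243073 (-160710) 3150528 11847171 3251200 (-47087) 3150528
    3215303 2131057 (-6304) 3084398 3128645 3090635 8265498)
    (((((((((((((((((((((((((((root.setHiD (qm 2048)).setHiD (qm 1024)).setHiU (qm 512)).setLoA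
    (qm 2048)).setHiD (qm 512)).setHiU (qm 256)).setLoA (qm 3072)).setLoD (qm 256)).setLoU (qm
    128)).setLoW (qm 128)).setHiW (qm 192)).setHiD (qm 384)).setHiW (qm 160)).setHiU (qm
    192)).setHiD (qm 320)).setLoW (qm 144)).setHiD (qm 288)).setHiU (qm 168)).setLoD (qm
    272)).setHiW (qm 152)).setHiU (qm 156)).setLoD (qm 280)).setHiW (qm 148)).setLoU (qm
    150)).setHiD (qm 284)).setLoD (qm 282)).setHiD (qm 283))
    (by decide +kernel))
    (good_of_check
    (R .t5n 2839424 0 0 4996437 13243027 (-160674) 3150092 11847055 3238904 (-46225) 3150092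
    3214876 2118047 (-5416) 3083952 3128205 3101732 8307373)
    (((((((((((((((((((((((((((root.setHiD (qm 2048)).setHiD (qm 1024)).setHiU (qm 512)).setLoA
    (qm 2048)).setHiD (qm 512)).setHiU (qm 256)).setLoA (qm 3072)).setLoD (qm 256)).setLoU (qm
    128)).setLoW (qm 128)).setHiW (qm 192)).setHiD (qm 384)).setHiW (qm 160)).setHiU (qm
    192)).setHiD (qm 320)).setLoW (qm 144)).setHiD (qm 288)).setHiU (qm 168)).setLoD (qm
    272)).setHiW (qm 152)).setHiU (qm 156)).setLoD (qm 280)).setHiW (qm 148)).setLoU (qm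
    150)).setHiD (qm 284)).setLoD (qm 282)).setLoD (qm 283))
    (by decide +kernel))))
    (good_splitU (qm 153)
    (good_splitW (qm 146)
    (good_splitD (qm 286)
    (good_splitD (qm 285)
    (good_splitA (qm 3584)
    (good_of_check
    (R .u5 2504888 5193318 2421581 4997120 13140414 (-83800) 3210593 11863286 6885344 (-209143)
    3210593 3242545 6113603 (-181234) 3145726 3167501 3112790 7291841)
    ((((((((((((((((((((((((((((((root.setHiD (qm 2048)).setHiD (qm 1024)).setHiU (qm 512)).setLoA
    (qm 2048)).setHiD (qm 512)).setHiU (qm 256)).setLoA (qm 3072)).setLoD (qm 256)).setLoU (qm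
    128)).setLoW (qm 128)).setHiW (qm 192)).setHiD (qm 384)).setHiW (qm 160)).setHiU (qm
    192)).setHiD (qm 320)).setLoW (qm 144)).setHiD (qm 288)).setHiU (qm 168)).setLoD (qm
    272)).setHiW (qm 152)).setHiU (qm 156)).setLoD (qm 280)).setHiW (qm 148)).setLoU (qm
    150)).setLoD (qm 284)).setHiU (qm 153)).setHiW (qm 146)).setHiD (qm 286)).setHiD (qm
    285)).setHiA (qm 3584))
    (by decide +kernel))
    (good_splitA (qm 3840)
    (good_of_check
    (T 3523215 40358170 5931643 13591097 1438551 3346806 3259500 1368816 4269101 4329997 1828758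
    3242545 3167501 47689715 12592717 12163598 25078293 15859170)
    (((((((((((((((((((((((((((((((root.setHiD (qm 2048)).setHiD (qm 1024)).setHiU (qm
    512)).setLoA (qm 2048)).setHiD (qm 512)).setHiU (qm 256)).setLoA (qm 3072)).setLoD (qm
    256)).setLoU (qm 128)).setLoW (qm 128)).setHiW (qm 192)).setHiD (qm 384)).setHiW (qm
    160)).setHiU (qm 192)).setHiD (qm 320)).setLoW (qm 144)).setHiD (qm 288)).setHiU (qm
    168)).setLoD (qm 272)).setHiW (qm 152)).setHiU (qm 156)).setLoD (qm 280)).setHiW (qm
    148)).setLoU (qm 150)).setLoD (qm 284)).setHiU (qm 153)).setHiW (qm 146)).setHiD (qm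
    286)).setHiD (qm 285)).setLoA (qm 3584)).setHiA (qm 3840))
    (by decide +kernel))
    (good_of_check
    (T 3523215 34785869 4194305 14068122 1239928 2884708 2809457 1405258 4644464 4687614 1828758
    3242545 3167501 46261929 11041544 10729488 25165824 15859170)
    (((((((((((((((((((((((((((((((root.setHiD (qm 2048)).setHiD (qm 1024)).setHiU (qm
    512)).setLoA (qm 2048)).setHiD (qm 512)).setHiU (qm 256)).setLoA (qm 3072)).setLoD (qm
    256)).setLoU (qm 128)).setLoW (qm 128)).setHiW (qm 192)).setHiD (qm 384)).setHiW (qm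
    160)).setHiU (qm 192)).setHiD (qm 320)).setLoW (qm 144)).setHiD (qm 288)).setHiU (qm
    168)).setLoD (qm 272)).setHiW (qm 152)).setHiU (qm 156)).setLoD (qm 280)).setHiW (qm
    148)).setLoU (qm 150)).setLoD (qm 284)).setHiU (qm 153)).setHiW (qm 146)).setHiD (qm
    286)).setHiD (qm 285)).setLoA (qm 3584)).setLoA (qm 3840))
    (by decide +kernel))))
    (good_splitA (qm 3584)
    (good_of_check
    (R .u5 2504888 5193318 2421581 4995755 13141259 (-84051) 3210593 11863286 6885344 (-209143)
    3210593 3242545 6113603 (-181234) 3145726 3167501 3123809 7331415)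
    ((((((((((((((((((((((((((((((root.setHiD (qm 2048)).setHiD (qm 1024)).setHiU (qm 512)).setLoA
    (qm 2048)).setHiD (qm 512)).setHiU (qm 256)).setLoA (qm 3072)).setLoD (qm 256)).setLoU (qm
    128)).setLoW (qm 128)).setHiW (qm 192)).setHiD (qm 384)).setHiW (qm 160)).setHiU (qm
    192)).setHiD (qm 320)).setLoW (qm 144)).setHiD (qm 288)).setHiU (qm 168)).setLoD (qm
    272)).setHiW (qm 152)).setHiU (qm 156)).setLoD (qm 280)).setHiW (qm 148)).setLoU (qm
    150)).setLoD (qm 284)).setHiU (qm 153)).setHiW (qm 146)).setHiD (qm 286)).setLoD (qm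
    285)).setHiA (qm 3584))
    (by decide +kernel))
    (good_splitA (qm 3840)
    (good_of_check
    (T 3523215 40373498 5931643 13591097 1442383 3351363 3264024 1368298 4265044 4326081 1830845
    3242545 3167501 47718447 12611094 12180745 25078293 15857004)
    (((((((((((((((((((((((((((((((root.setHiD (qm 2048)).setHiD (qm 1024)).setHiU (qm
    512)).setLoA (qm 2048)).setHiD (qm 512)).setHiU (qm 256)).setLoA (qm 3072)).setLoD (qm
    256)).setLoU (qm 128)).setLoW (qm 128)).setHiW (qm 192)).setHiD (qm 384)).setHiW (qm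
    160)).setHiU (qm 192)).setHiD (qm 320)).setLoW (qm 144)).setHiD (qm 288)).setHiU (qm
    168)).setLoD (qm 272)).setHiW (qm 152)).setHiU (qm 156)).setLoD (qm 280)).setHiW (qm
    148)).setLoU (qm 150)).setLoD (qm 284)).setHiU (qm 153)).setHiW (qm 146)).setHiD (qm
    286)).setLoD (qm 285)).setLoA (qm 3584)).setHiA (qm 3840))
    (by decide +kernel))
    (good_of_check
    (T 3523215 34799081 4194305 14068122 1243231 2888636 2813356 1404797 4641288 4684527 1830845
    3242545 3167501 46288353 11053522 10740830 25165824 15857004)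
    (((((((((((((((((((((((((((((((root.setHiD (qm 2048)).setHiD (qm 1024)).setHiU (qm
    512)).setLoA (qm 2048)).setHiD (qm 512)).setHiU (qm 256)).setLoA (qm 3072)).setLoD (qm
    256)).setLoU (qm 128)).setLoW (qm 128)).setHiW (qm 192)).setHiD (qm 384)).setHiW (qm
    160)).setHiU (qm 192)).setHiD (qm 320)).setLoW (qm 144)).setHiD (qm 288)).setHiU (qm
    168)).setLoD (qm 272)).setHiW (qm 152)).setHiU (qm 156)).setLoD (qm 280)).setHiW (qm
    148)).setLoU (qm 150)).setLoD (qm 284)).setHiU (qm 153)).setHiW (qm 146)).setHiD (qm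
    286)).setLoD (qm 285)).setLoA (qm 3584)).setLoA (qm 3840))
    (by decide +kernel)))))
    (good_splitA (qm 3584)
    (good_of_check
    (R .u5 2504888 5193318 2421581 4993707 13142527 (-84429) 3210593 11863286 6885344 (-209143)
    3210593 3242545 6113603 (-181234) 3145726 3167501 3145730 7411257)
    (((((((((((((((((((((((((((((root.setHiD (qm 2048)).setHiD (qm 1024)).setHiU (qm 512)).setLoA
    (qm 2048)).setHiD (qm 512)).setHiU (qm 256)).setLoA (qm 3072)).setLoD (qm 256)).setLoU (qm
    128)).setLoW (qm 128)).setHiW (qm 192)).setHiD (qm 384)).setHiW (qm 160)).setHiU (qm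
    192)).setHiD (qm 320)).setLoW (qm 144)).setHiD (qm 288)).setHiU (qm 168)).setLoD (qm
    272)).setHiW (qm 152)).setHiU (qm 156)).setLoD (qm 280)).setHiW (qm 148)).setLoU (qm
    150)).setLoD (qm 284)).setHiU (qm 153)).setHiW (qm 146)).setLoD (qm 286)).setHiA (qm 3584))
    (by decide +kernel))
    (good_splitA (qm 3840)
    (good_of_check
    (T 3523215 40404188 5931643 13591097 1450055 3360486 3273081 1367258 4256907 4318225 1835010
    3242545 3167501 47775859 12648065 12215246 25078293 15853753)
    ((((((((((((((((((((((((((((((root.setHiD (qm 2048)).setHiD (qm 1024)).setHiU (qm 512)).setLoA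
    (qm 2048)).setHiD (qm 512)).setHiU (qm 256)).setLoA (qm 3072)).setLoD (qm 256)).setLoU (qm
    128)).setLoW (qm 128)).setHiW (qm 192)).setHiD (qm 384)).setHiW (qm 160)).setHiU (qm
    192)).setHiD (qm 320)).setLoW (qm 144)).setHiD (qm 288)).setHiU (qm 168)).setLoD (qm
    272)).setHiW (qm 152)).setHiU (qm 156)).setLoD (qm 280)).setHiW (qm 148)).setLoU (qm
    150)).setLoD (qm 284)).setHiU (qm 153)).setHiW (qm 146)).setLoD (qm 286)).setLoA (qm
    3584)).setHiA (qm 3840))
    (by decide +kernel))
    (good_of_check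
    (T 3523215 34825534 4194305 14068122 1249845 2896501 2821164 1403874 4634919 4678336 1835010
    3242545 3167501 46341030 11077595 10763627 25165824 15853753)
    ((((((((((((((((((((((((((((((root.setHiD (qm 2048)).setHiD (qm 1024)).setHiU (qm 512)).setLoA
    (qm 2048)).setHiD (qm 512)).setHiU (qm 256)).setLoA (qm 3072)).setLoD (qm 256)).setLoU (qm
    128)).setLoW (qm 128)).setHiW (qm 192)).setHiD (qm 384)).setHiW (qm 160)).setHiU (qm
    192)).setHiD (qm 320)).setLoW (qm 144)).setHiD (qm 288)).setHiU (qm 168)).setLoD (qm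
    272)).setHiW (qm 152)).setHiU (qm 156)).setLoD (qm 280)).setHiW (qm 148)).setLoU (qm
    150)).setLoD (qm 284)).setHiU (qm 153)).setHiW (qm 146)).setLoD (qm 286)).setLoA (qm
    3584)).setLoA (qm 3840))
    (by decide +kernel)))))
    (good_of_check
    (R .t5n 2843590 0 0 4995072 13236591 (-164718) 3149219 11846823 2909336 (-33688) 3149219
    3181787 2187443 (-7410) 3105270 3127327 3123809 8360939)
    (((((((((((((((((((((((((((root.setHiD (qm 2048)).setHiD (qm 1024)).setHiU (qm 512)).setLoA
    (qm 2048)).setHiD (qm 512)).setHiU (qm 256)).setLoA (qm 3072)).setLoD (qm 256)).setLoU (qm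
    128)).setLoW (qm 128)).setHiW (qm 192)).setHiD (qm 384)).setHiW (qm 160)).setHiU (qm
    192)).setHiD (qm 320)).setLoW (qm 144)).setHiD (qm 288)).setHiU (qm 168)).setLoD (qm
    272)).setHiW (qm 152)).setHiU (qm 156)).setLoD (qm 280)).setHiW (qm 148)).setLoU (qm
    150)).setLoD (qm 284)).setHiU (qm 153)).setLoW (qm 146))
    (by decide +kernel)))
    (good_of_check
    (R .t5n 2846166 0 0 4990976 13222634 (-164242) 3180918 11846591 3311951 (-48167) 3180918
    3213165 1957139 1555 3082169 3126448 3145730 8424563)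
    ((((((((((((((((((((((((((root.setHiD (qm 2048)).setHiD (qm 1024)).setHiU (qm 512)).setLoA (qm
    2048)).setHiD (qm 512)).setHiU (qm 256)).setLoA (qm 3072)).setLoD (qm 256)).setLoU (qm
    128)).setLoW (qm 128)).setHiW (qm 192)).setHiD (qm 384)).setHiW (qm 160)).setHiU (qm
    192)).setHiD (qm 320)).setLoW (qm 144)).setHiD (qm 288)).setHiU (qm 168)).setLoD (qm
    272)).setHiW (qm 152)).setHiU (qm 156)).setLoD (qm 280)).setHiW (qm 148)).setLoU (qm
    150)).setLoD (qm 284)).setLoU (qm 153))
    (by decide +kernel)))))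
    (good_splitD (qm 284)
    (good_of_check
    (R .t5n 2839423 0 0 4999851 13178825 (-141619) 3129957 11847519 3129941 (-43648) 3129957
    3216585 2815143 (-32273) 3129957 3173569 3057101 8138360)
    ((((((((((((((((((((((((root.setHiD (qm 2048)).setHiD (qm 1024)).setHiU (qm 512)).setLoA (qm
    2048)).setHiD (qm 512)).setHiU (qm 256)).setLoA (qm 3072)).setLoD (qm 256)).setLoU (qm
    128)).setLoW (qm 128)).setHiW (qm 192)).setHiD (qm 384)).setHiW (qm 160)).setHiU (qm
    192)).setHiD (qm 320)).setLoW (qm 144)).setHiD (qm 288)).setHiU (qm 168)).setLoD (qm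
    272)).setHiW (qm 152)).setHiU (qm 156)).setLoD (qm 280)).setLoW (qm 148)).setHiD (qm 284))
    (by decide +kernel))
    (good_of_check
    (R .t5n 2843590 0 0 4994389 13243378 (-166770) 3128200 11847055 3010748 (-37995) 3128200
    3214876 2695605 (-26608) 3128200 3171837 3101732 8278091)
    ((((((((((((((((((((((((root.setHiD (qm 2048)).setHiD (qm 1024)).setHiU (qm 512)).setLoA (qm
    2048)).setHiD (qm 512)).setHiU (qm 256)).setLoA (qm 3072)).setLoD (qm 256)).setLoU (qm
    128)).setLoW (qm 128)).setHiW (qm 192)).setHiD (qm 384)).setHiW (qm 160)).setHiU (qm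
    192)).setHiD (qm 320)).setLoW (qm 144)).setHiD (qm 288)).setHiU (qm 168)).setLoD (qm
    272)).setHiW (qm 152)).setHiU (qm 156)).setLoD (qm 280)).setLoW (qm 148)).setLoD (qm 284))
    (by decide +kernel)))))
    (good_splitD (qm 280)
    (good_of_check
    (R .t5n 2843590 0 0 4994389 13217089 (-159066) 3216580 11847519 4565303 (-98777) 3216580
    3342313 2424241 (-18161) 3085734 3173569 3057101 8109406)
    ((((((((((((((((((((((root.setHiD (qm 2048)).setHiD (qm 1024)).setHiU (qm 512)).setLoA (qm
    2048)).setHiD (qm 512)).setHiU (qm 256)).setLoA (qm 3072)).setLoD (qm 256)).setLoU (qm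
    128)).setLoW (qm 128)).setHiW (qm 192)).setHiD (qm 384)).setHiW (qm 160)).setHiU (qm
    192)).setHiD (qm 320)).setLoW (qm 144)).setHiD (qm 288)).setHiU (qm 168)).setLoD (qm
    272)).setHiW (qm 152)).setLoU (qm 156)).setHiD (qm 280))
    (by decide +kernel))
    (good_of_check
    (R .t5n 2850333 0 0 4983467 13206486 (-165438) 3213160 11846591 4360815 (-88558) 3213160
    3339022 2212264 (-7658) 3082169 3170103 3145730 8395150)
    ((((((((((((((((((((((root.setHiD (qm 2048)).setHiD (qm 1024)).setHiU (qm 512)).setLoA (qm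
    2048)).setHiD (qm 512)).setHiU (qm 256)).setLoA (qm 3072)).setLoD (qm 256)).setLoU (qm
    128)).setLoW (qm 128)).setHiW (qm 192)).setHiD (qm 384)).setHiW (qm 160)).setHiU (qm
    192)).setHiD (qm 320)).setLoW (qm 144)).setHiD (qm 288)).setHiU (qm 168)).setLoD (qm
    272)).setHiW (qm 152)).setLoU (qm 156)).setLoD (qm 280))
    (by decide +kernel))))
    (good_of_check
    (R .t5n 2846166 0 0 4991659 13226316 (-165513) 3173564 11847519 4224107 (-85192) 3173564
    3342313 3636072 (-63370) 3173564 3259033 3057101 8091566)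
    ((((((((((((((((((((root.setHiD (qm 2048)).setHiD (qm 1024)).setHiU (qm 512)).setLoA (qm
    2048)).setHiD (qm 512)).setHiU (qm 256)).setLoA (qm 3072)).setLoD (qm 256)).setLoU (qm
    128)).setLoW (qm 128)).setHiW (qm 192)).setHiD (qm 384)).setHiW (qm 160)).setHiU (qm
    192)).setHiD (qm 320)).setLoW (qm 144)).setHiD (qm 288)).setHiU (qm 168)).setLoD (qm
    272)).setLoW (qm 152))
    (by decide +kernel))))
    (good_of_check
    (R .t5n 2857075 0 0 4975275 13226904 (-181162) 3339017 11846591 6605246 (-181650) 3339017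
    3577476 2730782 (-26269) 3082169 3255658 3145730 8347813)
    ((((((((((((((((((root.setHiD (qm 2048)).setHiD (qm 1024)).setHiU (qm 512)).setLoA (qm
    2048)).setHiD (qm 512)).setHiU (qm 256)).setLoA (qm 3072)).setLoD (qm 256)).setLoU (qm
    128)).setLoW (qm 128)).setHiW (qm 192)).setHiD (qm 384)).setHiW (qm 160)).setHiU (qm
    192)).setHiD (qm 320)).setLoW (qm 144)).setHiD (qm 288)).setLoU (qm 168))
    (by decide +kernel)))
    (good_splitU (qm 168)
    (good_splitW (qm 152)
    (good_splitD (qm 304)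
    (good_splitU (qm 156)
    (good_splitW (qm 148)
    (good_splitA (qm 3584)
    (good_splitA (qm 3328)
    (good_of_check
    (R .u5 2476316 5456419 2965819 4983467 13184504 (-50985) 3145726 11863286 7186607 (-214344)
    3145726 3274180 6715952 (-197797) 3145726 3189122 3189122 7788569)
    ((((((((((((((((((((((((root.setHiD (qm 2048)).setHiD (qm 1024)).setHiU (qm 512)).setLoA (qm
    2048)).setHiD (qm 512)).setHiU (qm 256)).setLoA (qm 3072)).setLoD (qm 256)).setLoU (qm
    128)).setLoW (qm 128)).setHiW (qm 192)).setHiD (qm 384)).setHiW (qm 160)).setHiU (qm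
    192)).setHiD (qm 320)).setLoW (qm 144)).setLoD (qm 288)).setHiU (qm 168)).setHiW (qm
    152)).setHiD (qm 304)).setHiU (qm 156)).setHiW (qm 148)).setHiA (qm 3584)).setHiA (qm 3328))
    (by decide +kernel))
    (good_splitD (qm 296)
    (good_splitU (qm 150)
    (good_splitA (qm 3456)
    (good_of_check
    (R .u5 2487225 5304714 2707410 4993024 13158149 (-60685) 3145726 11863286 6650791 (-197314)
    3145726 3210598 6530806 (-193095) 3145726 3189122 3189122 7703572)
    (((((((((((((((((((((((((((root.setHiD (qm 2048)).setHiD (qm 1024)).setHiU (qm 512)).setLoA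
    (qm 2048)).setHiD (qm 512)).setHiU (qm 256)).setLoA (qm 3072)).setLoD (qm 256)).setLoU (qm
    128)).setLoW (qm 128)).setHiW (qm 192)).setHiD (qm 384)).setHiW (qm 160)).setHiU (qm
    192)).setHiD (qm 320)).setLoW (qm 144)).setLoD (qm 288)).setHiU (qm 168)).setHiW (qm
    152)).setHiD (qm 304)).setHiU (qm 156)).setHiW (qm 148)).setHiA (qm 3584)).setLoA (qm
    3328)).setHiD (qm 296)).setHiU (qm 150)).setHiA (qm 3456))
    (by decide +kernel))
    (good_of_check
    (T 3187671 43274715 6631778 13346192 1570683 3527188 3501102 1217009 4195079 4215448 1845384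
    3210598 3189122 54355849 12866735 12725949 24990453 15852669)
    (((((((((((((((((((((((((((root.setHiD (qm 2048)).setHiD (qm 1024)).setHiU (qm 512)).setLoA
    (qm 2048)).setHiD (qm 512)).setHiU (qm 256)).setLoA (qm 3072)).setLoD (qm 256)).setLoU (qm
    128)).setLoW (qm 128)).setHiW (qm 192)).setHiD (qm 384)).setHiW (qm 160)).setHiU (qm
    192)).setHiD (qm 320)).setLoW (qm 144)).setLoD (qm 288)).setHiU (qm 168)).setHiW (qm
    152)).setHiD (qm 304)).setHiU (qm 156)).setHiW (qm 148)).setHiA (qm 3584)).setLoA (qm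
    3328)).setHiD (qm 296)).setHiU (qm 150)).setLoA (qm 3456))
    (by decide +kernel)))
    (good_of_check
    (R .u5 2507463 5157821 2421581 4984832 13143241 (-88756) 3210593 11863286 7012640 (-214265)
    3210593 3274180 6192089 (-184391) 3145726 3189122 3189122 7547983)
    ((((((((((((((((((((((((((root.setHiD (qm 2048)).setHiD (qm 1024)).setHiU (qm 512)).setLoA (qm
    2048)).setHiD (qm 512)).setHiU (qm 256)).setLoA (qm 3072)).setLoD (qm 256)).setLoU (qm
    128)).setLoW (qm 128)).setHiW (qm 192)).setHiD (qm 384)).setHiW (qm 160)).setHiU (qm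
    192)).setHiD (qm 320)).setLoW (qm 144)).setLoD (qm 288)).setHiU (qm 168)).setHiW (qm
    152)).setHiD (qm 304)).setHiU (qm 156)).setHiW (qm 148)).setHiA (qm 3584)).setLoA (qm
    3328)).setHiD (qm 296)).setLoU (qm 150))
    (by decide +kernel)))
    (good_splitW (qm 146)
    (good_of_check
    (R .u5 2504888 4973384 2421581 4978005 13156449 (-88584) 3145726 11863286 6705081 (-202028)
    3145726 3274180 6113603 (-181234) 3145726 3167501 3167501 7490419)
    ((((((((((((((((((((((((((root.setHiD (qm 2048)).setHiD (qm 1024)).setHiU (qm 512)).setLoA (qm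
    2048)).setHiD (qm 512)).setHiU (qm 256)).setLoA (qm 3072)).setLoD (qm 256)).setLoU (qm
    128)).setLoW (qm 128)).setHiW (qm 192)).setHiD (qm 384)).setHiW (qm 160)).setHiU (qm
    192)).setHiD (qm 320)).setLoW (qm 144)).setLoD (qm 288)).setHiU (qm 168)).setHiW (qm
    152)).setHiD (qm 304)).setHiU (qm 156)).setHiW (qm 148)).setHiA (qm 3584)).setLoA (qm
    3328)).setLoD (qm 296)).setHiW (qm 146))
    (by decide +kernel))
    (good_of_check
    (R .u5 2511630 4952267 2421581 4976640 13143768 (-95577) 3167496 11863286 6711336 (-203627)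
    3167496 3274180 6244242 (-186978) 3167496 3189122 3189122 7517625)
    ((((((((((((((((((((((((((root.setHiD (qm 2048)).setHiD (qm 1024)).setHiU (qm 512)).setLoA (qm
    2048)).setHiD (qm 512)).setHiU (qm 256)).setLoA (qm 3072)).setLoD (qm 256)).setLoU (qm
    128)).setLoW (qm 128)).setHiW (qm 192)).setHiD (qm 384)).setHiW (qm 160)).setHiU (qm
    192)).setHiD (qm 320)).setLoW (qm 144)).setLoD (qm 288)).setHiU (qm 168)).setHiW (qm
    152)).setHiD (qm 304)).setHiU (qm 156)).setHiW (qm 148)).setHiA (qm 3584)).setLoA (qm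
    3328)).setLoD (qm 296)).setLoW (qm 146))
    (by decide +kernel)))))
    (good_splitA (qm 3840)
    (good_splitA (qm 3712)
    (good_of_check
    (T 3187671 40698093 5931643 13591097 1523531 3437145 3339011 1227944 4291808 4364516 1874123
    3274180 3189122 53892986 12555514 12059743 25034411 15837490)
    (((((((((((((((((((((((((root.setHiD (qm 2048)).setHiD (qm 1024)).setHiU (qm 512)).setLoA (qm
    2048)).setHiD (qm 512)).setHiU (qm 256)).setLoA (qm 3072)).setLoD (qm 256)).setLoU (qm
    128)).setLoW (qm 128)).setHiW (qm 192)).setHiD (qm 384)).setHiW (qm 160)).setHiU (qm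
    192)).setHiD (qm 320)).setLoW (qm 144)).setLoD (qm 288)).setHiU (qm 168)).setHiW (qm
    152)).setHiD (qm 304)).setHiU (qm 156)).setHiW (qm 148)).setLoA (qm 3584)).setHiA (qm
    3840)).setHiA (qm 3712))
    (by decide +kernel))
    (good_of_check
    (T 3523215 37919606 5136954 13831666 1419519 3247627 3153878 1376379 4358000 4420638 1874123
    3274180 3189122 47555170 12263773 11821482 25078293 15837490)
    (((((((((((((((((((((((((root.setHiD (qm 2048)).setHiD (qm 1024)).setHiU (qm 512)).setLoA (qm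
    2048)).setHiD (qm 512)).setHiU (qm 256)).setLoA (qm 3072)).setLoD (qm 256)).setLoU (qm
    128)).setLoW (qm 128)).setHiW (qm 192)).setHiD (qm 384)).setHiW (qm 160)).setHiU (qm
    192)).setHiD (qm 320)).setLoW (qm 144)).setLoD (qm 288)).setHiU (qm 168)).setHiW (qm
    152)).setHiD (qm 304)).setHiU (qm 156)).setHiW (qm 148)).setLoA (qm 3584)).setHiA (qm
    3840)).setLoA (qm 3712))
    (by decide +kernel)))
    (good_of_check
    (T 3523215 35078859 4194305 14068122 1313176 3004332 2917606 1394970 4553500 4605756 1874123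
    3274180 3189122 46833693 11455179 11080543 25165824 15837490)
    ((((((((((((((((((((((((root.setHiD (qm 2048)).setHiD (qm 1024)).setHiU (qm 512)).setLoA (qm
    2048)).setHiD (qm 512)).setHiU (qm 256)).setLoA (qm 3072)).setLoD (qm 256)).setLoU (qm
    128)).setLoW (qm 128)).setHiW (qm 192)).setHiD (qm 384)).setHiW (qm 160)).setHiU (qm
    192)).setHiD (qm 320)).setLoW (qm 144)).setLoD (qm 288)).setHiU (qm 168)).setHiW (qm
    152)).setHiD (qm 304)).setHiU (qm 156)).setHiW (qm 148)).setLoA (qm 3584)).setLoA (qm 3840))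
    (by decide +kernel))))
    (good_splitD (qm 296)
    (good_splitD (qm 292)
    (good_splitD (qm 290)
    (good_of_check
    (R .t5n 2846166 0 0 4990293 13239352 (-169237) 3127322 11846823 2943086 (-34909) 3127322
    3214021 2627853 (-23518) 3127322 3170970 3123809 8342794)
    (((((((((((((((((((((((((root.setHiD (qm 2048)).setHiD (qm 1024)).setHiU (qm 512)).setLoA (qm
    2048)).setHiD (qm 512)).setHiU (qm 256)).setLoA (qm 3072)).setLoD (qm 256)).setLoU (qm
    128)).setLoW (qm 128)).setHiW (qm 192)).setHiD (qm 384)).setHiW (qm 160)).setHiU (qm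
    192)).setHiD (qm 320)).setLoW (qm 144)).setLoD (qm 288)).setHiU (qm 168)).setHiW (qm
    152)).setHiD (qm 304)).setHiU (qm 156)).setLoW (qm 148)).setHiD (qm 296)).setHiD (qm
    292)).setHiD (qm 290))
    (by decide +kernel))
    (good_of_check
    (R .t5n 2846166 0 0 4987563 13239258 (-169164) 3126443 11846591 2918271 (-33173) 3126443
    3213165 2602621 (-21768) 3126443 3170103 3145730 8424563)
    (((((((((((((((((((((((((root.setHiD (qm 2048)).setHiD (qm 1024)).setHiU (qm 512)).setLoA (qm
    2048)).setHiD (qm 512)).setHiU (qm 256)).setLoA (qm 3072)).setLoD (qm 256)).setLoU (qm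
    128)).setLoW (qm 128)).setHiW (qm 192)).setHiD (qm 384)).setHiW (qm 160)).setHiU (qm
    192)).setHiD (qm 320)).setLoW (qm 144)).setLoD (qm 288)).setHiU (qm 168)).setHiW (qm
    152)).setHiD (qm 304)).setHiU (qm 156)).setLoW (qm 148)).setHiD (qm 296)).setHiD (qm
    292)).setLoD (qm 290))
    (by decide +kernel)))
    (good_splitD (qm 294)
    (good_splitD (qm 293)
    (good_of_check
    (R .t5n 2850333 0 0 4985515 13232839 (-173227) 3126003 11846475 2836786 (-30118) 3126003
    3212737 2521494 (-18726) 3126003 3169669 3156634 8435599)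
    ((((((((((((((((((((((((((root.setHiD (qm 2048)).setHiD (qm 1024)).setHiU (qm 512)).setLoA (qm
    2048)).setHiD (qm 512)).setHiU (qm 256)).setLoA (qm 3072)).setLoD (qm 256)).setLoU (qm
    128)).setLoW (qm 128)).setHiW (qm 192)).setHiD (qm 384)).setHiW (qm 160)).setHiU (qm
    192)).setHiD (qm 320)).setLoW (qm 144)).setLoD (qm 288)).setHiU (qm 168)).setHiW (qm
    152)).setHiD (qm 304)).setHiU (qm 156)).setLoW (qm 148)).setHiD (qm 296)).setLoD (qm
    292)).setHiD (qm 294)).setHiD (qm 293))
    (by decide +kernel))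
    (good_splitA (qm 3584)
    (good_of_check
    (R .u5 2511634 5025297 2421581 4984149 13138021 (-93872) 3189117 11863286 6828037 (-208073)
    3189117 3274180 6598882 (-199793) 3189117 3231931 3167501 7439255)
    (((((((((((((((((((((((((((root.setHiD (qm 2048)).setHiD (qm 1024)).setHiU (qm 512)).setLoA
    (qm 2048)).setHiD (qm 512)).setHiU (qm 256)).setLoA (qm 3072)).setLoD (qm 256)).setLoU (qm
    128)).setLoW (qm 128)).setHiW (qm 192)).setHiD (qm 384)).setHiW (qm 160)).setHiU (qm
    192)).setHiD (qm 320)).setLoW (qm 144)).setLoD (qm 288)).setHiU (qm 168)).setHiW (qm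
    152)).setHiD (qm 304)).setHiU (qm 156)).setLoW (qm 148)).setHiD (qm 296)).setLoD (qm
    292)).setHiD (qm 294)).setLoD (qm 293)).setHiA (qm 3584))
    (by decide +kernel))
    (good_splitA (qm 3840)
    (good_of_check
    (R .t5n 2846166 3650026 1712316 4984149 13191748 (-154984) 3125563 11846359 2893429 (-31436)
    3125563 3212310 2577363 (-20016) 3125563 3169236 3167501 8505376)
    ((((((((((((((((((((((((((((root.setHiD (qm 2048)).setHiD (qm 1024)).setHiU (qm 512)).setLoA
    (qm 2048)).setHiD (qm 512)).setHiU (qm 256)).setLoA (qm 3072)).setLoD (qm 256)).setLoU (qm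
    128)).setLoW (qm 128)).setHiW (qm 192)).setHiD (qm 384)).setHiW (qm 160)).setHiU (qm
    192)).setHiD (qm 320)).setLoW (qm 144)).setLoD (qm 288)).setHiU (qm 168)).setHiW (qm
    152)).setHiD (qm 304)).setHiU (qm 156)).setLoW (qm 148)).setHiD (qm 296)).setLoD (qm
    292)).setHiD (qm 294)).setLoD (qm 293)).setLoA (qm 3584)).setHiA (qm 3840))
    (by decide +kernel))
    (good_of_check
    (T 3523215 34945072 4194305 14068122 1279729 2964435 2921238 1399687 4586558 4612414 1853641
    3274180 3231931 46576101 11325837 11141968 25165824 15838575)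
    ((((((((((((((((((((((((((((root.setHiD (qm 2048)).setHiD (qm 1024)).setHiU (qm 512)).setLoA
    (qm 2048)).setHiD (qm 512)).setHiU (qm 256)).setLoA (qm 3072)).setLoD (qm 256)).setLoU (qm
    128)).setLoW (qm 128)).setHiW (qm 192)).setHiD (qm 384)).setHiW (qm 160)).setHiU (qm
    192)).setHiD (qm 320)).setLoW (qm 144)).setLoD (qm 288)).setHiU (qm 168)).setHiW (qm
    152)).setHiD (qm 304)).setHiU (qm 156)).setLoW (qm 148)).setHiD (qm 296)).setLoD (qm
    292)).setHiD (qm 294)).setLoD (qm 293)).setLoA (qm 3584)).setLoA (qm 3840))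
    (by decide +kernel)))))
    (good_splitA (qm 3584)
    (good_of_check
    (R .u5 2515801 4967906 2421581 4982101 13131416 (-98553) 3189117 11863286 6759072 (-206276)
    3189117 3274180 6529947 (-197997) 3189117 3231931 3189122 7486188)
    ((((((((((((((((((((((((((root.setHiD (qm 2048)).setHiD (qm 1024)).setHiU (qm 512)).setLoA (qm
    2048)).setHiD (qm 512)).setHiU (qm 256)).setLoA (qm 3072)).setLoD (qm 256)).setLoU (qm
    128)).setLoW (qm 128)).setHiW (qm 192)).setHiD (qm 384)).setHiW (qm 160)).setHiU (qm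
    192)).setHiD (qm 320)).setLoW (qm 144)).setLoD (qm 288)).setHiU (qm 168)).setHiW (qm
    152)).setHiD (qm 304)).setHiU (qm 156)).setLoW (qm 148)).setHiD (qm 296)).setLoD (qm
    292)).setLoD (qm 294)).setHiA (qm 3584))
    (by decide +kernel))
    (good_splitA (qm 3840)
    (good_splitA (qm 3712)
    (good_of_check
    (T 3187671 40573824 5931643 13591097 1492464 3400235 3351317 1231811 4326156 4362245 1857755
    3274180 3231931 53684002 12402938 12158940 25034411 15835320)
    ((((((((((((((((((((((((((((root.setHiD (qm 2048)).setHiD (qm 1024)).setHiU (qm 512)).setLoA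
    (qm 2048)).setHiD (qm 512)).setHiU (qm 256)).setLoA (qm 3072)).setLoD (qm 256)).setLoU (qm
    128)).setLoW (qm 128)).setHiW (qm 192)).setHiD (qm 384)).setHiW (qm 160)).setHiU (qm
    192)).setHiD (qm 320)).setLoW (qm 144)).setLoD (qm 288)).setHiU (qm 168)).setHiW (qm
    152)).setHiD (qm 304)).setHiU (qm 156)).setLoW (qm 148)).setHiD (qm 296)).setLoD (qm
    292)).setLoD (qm 294)).setLoA (qm 3584)).setHiA (qm 3840)).setHiA (qm 3712))
    (by decide +kernel))
    (good_of_check
    (T 3523215 37803820 5136954 13831666 1390573 3213099 3166368 1380399 4388092 4419202 1857755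
    3274180 3231931 47339786 12134248 11916370 25078293 15835320)
    ((((((((((((((((((((((((((((root.setHiD (qm 2048)).setHiD (qm 1024)).setHiU (qm 512)).setLoA
    (qm 2048)).setHiD (qm 512)).setHiU (qm 256)).setLoA (qm 3072)).setLoD (qm 256)).setLoU (qm
    128)).setLoW (qm 128)).setHiW (qm 192)).setHiD (qm 384)).setHiW (qm 160)).setHiU (qm
    192)).setHiD (qm 320)).setLoW (qm 144)).setLoD (qm 288)).setHiU (qm 168)).setHiW (qm
    152)).setHiD (qm 304)).setHiU (qm 156)).setLoW (qm 148)).setHiD (qm 296)).setLoD (qm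
    292)).setLoD (qm 294)).setLoA (qm 3584)).setHiA (qm 3840)).setLoA (qm 3712))
    (by decide +kernel)))
    (good_of_check
    (T 3523215 34971748 4194305 14068122 1286398 2972390 2929160 1398749 4579992 4605954 1857755
    3274180 3231931 46627913 11351364 11166708 25165824 15835320)
    (((((((((((((((((((((((((((root.setHiD (qm 2048)).setHiD (qm 1024)).setHiU (qm 512)).setLoA
    (qm 2048)).setHiD (qm 512)).setHiU (qm 256)).setLoA (qm 3072)).setLoD (qm 256)).setLoU (qm
    128)).setLoW (qm 128)).setHiW (qm 192)).setHiD (qm 384)).setHiW (qm 160)).setHiU (qm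
    192)).setHiD (qm 320)).setLoW (qm 144)).setLoD (qm 288)).setHiU (qm 168)).setHiW (qm
    152)).setHiD (qm 304)).setHiU (qm 156)).setLoW (qm 148)).setHiD (qm 296)).setLoD (qm
    292)).setLoD (qm 294)).setLoA (qm 3584)).setLoA (qm 3840))
    (by decide +kernel))))))
    (good_splitA (qm 3584)
    (good_of_check
    (R .u5 2518376 4930325 2421581 4975275 13131125 (-102569) 3189117 11863286 6716561 (-205165)
    3189117 3274180 6487461 (-196887) 3189117 3231931 3231931 7617557)
    ((((((((((((((((((((((((root.setHiD (qm 2048)).setHiD (qm 1024)).setHiU (qm 512)).setLoA (qm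
    2048)).setHiD (qm 512)).setHiU (qm 256)).setLoA (qm 3072)).setLoD (qm 256)).setLoU (qm
    128)).setLoW (qm 128)).setHiW (qm 192)).setHiD (qm 384)).setHiW (qm 160)).setHiU (qm
    192)).setHiD (qm 320)).setLoW (qm 144)).setLoD (qm 288)).setHiU (qm 168)).setHiW (qm
    152)).setHiD (qm 304)).setHiU (qm 156)).setLoW (qm 148)).setLoD (qm 296)).setHiA (qm 3584))
    (by decide +kernel))
    (good_splitA (qm 3840)
    (good_splitA (qm 3712)
    (good_of_check
    (T 3187671 40698093 5931643 13591097 1523531 3437145 3388078 1227944 4291808 4328578 1874123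
    3274180 3231931 53892986 12555514 12305559 25034411 15824468)
    ((((((((((((((((((((((((((root.setHiD (qm 2048)).setHiD (qm 1024)).setHiU (qm 512)).setLoA (qm
    2048)).setHiD (qm 512)).setHiU (qm 256)).setLoA (qm 3072)).setLoD (qm 256)).setLoU (qm
    128)).setLoW (qm 128)).setHiW (qm 192)).setHiD (qm 384)).setHiW (qm 160)).setHiU (qm
    192)).setHiD (qm 320)).setLoW (qm 144)).setLoD (qm 288)).setHiU (qm 168)).setHiW (qm
    152)).setHiD (qm 304)).setHiU (qm 156)).setLoW (qm 148)).setLoD (qm 296)).setLoA (qm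
    3584)).setHiA (qm 3840)).setHiA (qm 3712))
    (by decide +kernel))
    (good_of_check
    (T 3523215 37919606 5136954 13831666 1419519 3247627 3200753 1376379 4358000 4389660 1874123
    3274180 3231931 47555170 12263773 12041336 25078293 15824468)
    ((((((((((((((((((((((((((root.setHiD (qm 2048)).setHiD (qm 1024)).setHiU (qm 512)).setLoA (qm
    2048)).setHiD (qm 512)).setHiU (qm 256)).setLoA (qm 3072)).setLoD (qm 256)).setLoU (qm
    128)).setLoW (qm 128)).setHiW (qm 192)).setHiD (qm 384)).setHiW (qm 160)).setHiU (qm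
    192)).setHiD (qm 320)).setLoW (qm 144)).setLoD (qm 288)).setHiU (qm 168)).setHiW (qm
    152)).setHiD (qm 304)).setHiU (qm 156)).setLoW (qm 148)).setLoD (qm 296)).setLoA (qm
    3584)).setHiA (qm 3840)).setLoA (qm 3712))
    (by decide +kernel)))
    (good_of_check
    (T 3523215 35078859 4194305 14068122 1313176 3004332 2960969 1394970 4553500 4579894 1874123
    3274180 3231931 46833693 11455179 11267296 25165824 15824468)
    (((((((((((((((((((((((((root.setHiD (qm 2048)).setHiD (qm 1024)).setHiU (qm 512)).setLoA (qm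
    2048)).setHiD (qm 512)).setHiU (qm 256)).setLoA (qm 3072)).setLoD (qm 256)).setLoU (qm
    128)).setLoW (qm 128)).setHiW (qm 192)).setHiD (qm 384)).setHiW (qm 160)).setHiU (qm
    192)).setHiD (qm 320)).setLoW (qm 144)).setLoD (qm 288)).setHiU (qm 168)).setHiW (qm
    152)).setHiD (qm 304)).setHiU (qm 156)).setLoW (qm 148)).setLoD (qm 296)).setLoA (qm
    3584)).setLoA (qm 3840))
    (by decide +kernel))))))
    (good_splitD (qm 296)
    (good_splitW (qm 148)
    (good_splitD (qm 292)
    (good_of_check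
    (R .t5n 2857075 0 0 4975275 13196051 (-171933) 3211449 11846127 4202021 (-81624) 3211449
    3337375 1731572 10597 3080385 3124689 3189122 8507700)
    ((((((((((((((((((((((((root.setHiD (qm 2048)).setHiD (qm 1024)).setHiU (qm 512)).setLoA (qm
    2048)).setHiD (qm 512)).setHiU (qm 256)).setLoA (qm 3072)).setLoD (qm 256)).setLoU (qm
    128)).setLoW (qm 128)).setHiW (qm 192)).setHiD (qm 384)).setHiW (qm 160)).setHiU (qm
    192)).setHiD (qm 320)).setLoW (qm 144)).setLoD (qm 288)).setHiU (qm 168)).setHiW (qm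
    152)).setHiD (qm 304)).setLoU (qm 156)).setHiD (qm 296)).setHiW (qm 148)).setHiD (qm 292))
    (by decide +kernel))
    (good_of_check
    (R .t5n 2857079 0 0 4969813 13195845 (-171787) 3209736 11845663 4156467 (-78297) 3209736
    3335727 1679577 14164 3078599 3122929 3189122 8507671)
    ((((((((((((((((((((((((root.setHiD (qm 2048)).setHiD (qm 1024)).setHiU (qm 512)).setLoA (qm
    2048)).setHiD (qm 512)).setHiU (qm 256)).setLoA (qm 3072)).setLoD (qm 256)).setLoU (qm
    128)).setLoW (qm 128)).setHiW (qm 192)).setHiD (qm 384)).setHiW (qm 160)).setHiU (qm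
    192)).setHiD (qm 320)).setLoW (qm 144)).setLoD (qm 288)).setHiU (qm 168)).setHiW (qm
    152)).setHiD (qm 304)).setLoU (qm 156)).setHiD (qm 296)).setHiW (qm 148)).setLoD (qm 292))
    (by decide +kernel)))
    (good_of_check
    (R .t5n 2861246 0 0 4972544 13189705 (-176031) 3211449 11846127 4132157 (-79385) 3211449
    3337375 2306075 (-10451) 3124684 3168368 3189122 8478267)
    (((((((((((((((((((((((root.setHiD (qm 2048)).setHiD (qm 1024)).setHiU (qm 512)).setLoA (qm
    2048)).setHiD (qm 512)).setHiU (qm 256)).setLoA (qm 3072)).setLoD (qm 256)).setLoU (qm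
    128)).setLoW (qm 128)).setHiW (qm 192)).setHiD (qm 384)).setHiW (qm 160)).setHiU (qm
    192)).setHiD (qm 320)).setLoW (qm 144)).setLoD (qm 288)).setHiU (qm 168)).setHiW (qm
    152)).setHiD (qm 304)).setLoU (qm 156)).setHiD (qm 296)).setLoW (qm 148))
    (by decide +kernel)))
    (good_splitW (qm 148)
    (good_of_check
    (R .u5 2544364 0 0 4961621 13088097 (-131080) 3274175 11863286 7380664 (-235404) 3274175
    3397777 5591119 (-168618) 3145726 3189122 3189122 7274893)
    (((((((((((((((((((((((root.setHiD (qm 2048)).setHiD (qm 1024)).setHiU (qm 512)).setLoA (qm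
    2048)).setHiD (qm 512)).setHiU (qm 256)).setLoA (qm 3072)).setLoD (qm 256)).setLoU (qm
    128)).setLoW (qm 128)).setHiW (qm 192)).setHiD (qm 384)).setHiW (qm 160)).setHiU (qm
    192)).setHiD (qm 320)).setLoW (qm 144)).setLoD (qm 288)).setHiU (qm 168)).setHiW (qm
    152)).setHiD (qm 304)).setLoU (qm 156)).setLoD (qm 296)).setHiW (qm 148))
    (by decide +kernel))
    (good_of_check
    (R .t5n 2867989 0 0 4961621 13179022 (-182339) 3208023 11845199 3928672 (-69101) 3208023
    3334078 2096900 49 3121163 3164896 3231931 8586376)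
    (((((((((((((((((((((((root.setHiD (qm 2048)).setHiD (qm 1024)).setHiU (qm 512)).setLoA (qm
    2048)).setHiD (qm 512)).setHiU (qm 256)).setLoA (qm 3072)).setLoD (qm 256)).setLoU (qm
    128)).setLoW (qm 128)).setHiW (qm 192)).setHiD (qm 384)).setHiW (qm 160)).setHiU (qm
    192)).setHiD (qm 320)).setLoW (qm 144)).setLoD (qm 288)).setHiU (qm 168)).setHiW (qm
    152)).setHiD (qm 304)).setLoU (qm 156)).setLoD (qm 296)).setLoW (qm 148))
    (by decide +kernel)))))
    (good_splitW (qm 148)
    (good_splitA (qm 3584)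
    (good_of_check
    (R .u5 2515801 4816283 2421581 4953429 13151430 (-104497) 3145726 11863286 7184989 (-220561)
    3145726 3397777 6054403 (-180814) 3145726 3189122 3189122 7486188)
    ((((((((((((((((((((((root.setHiD (qm 2048)).setHiD (qm 1024)).setHiU (qm 512)).setLoA (qm
    2048)).setHiD (qm 512)).setHiU (qm 256)).setLoA (qm 3072)).setLoD (qm 256)).setLoU (qm
    128)).setLoW (qm 128)).setHiW (qm 192)).setHiD (qm 384)).setHiW (qm 160)).setHiU (qm
    192)).setHiD (qm 320)).setLoW (qm 144)).setLoD (qm 288)).setHiU (qm 168)).setHiW (qm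
    152)).setLoD (qm 304)).setHiW (qm 148)).setHiA (qm 3584))
    (by decide +kernel))
    (good_splitA (qm 3840)
    (good_splitA (qm 3712)
    (good_splitW (qm 146)
    (good_of_check
    (R .u5 2522544 4620880 2097151 4953429 13164570 (-119152) 3145726 11863286 7074218 (-217666)
    3145726 3397777 5823011 (-173678) 3145726 3167501 3167501 7358534)
    (((((((((((((((((((((((((root.setHiD (qm 2048)).setHiD (qm 1024)).setHiU (qm 512)).setLoA (qm
    2048)).setHiD (qm 512)).setHiU (qm 256)).setLoA (qm 3072)).setLoD (qm 256)).setLoU (qm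
    128)).setLoW (qm 128)).setHiW (qm 192)).setHiD (qm 384)).setHiW (qm 160)).setHiU (qm
    192)).setHiD (qm 320)).setLoW (qm 144)).setLoD (qm 288)).setHiU (qm 168)).setHiW (qm
    152)).setLoD (qm 304)).setHiW (qm 148)).setLoA (qm 3584)).setHiA (qm 3840)).setHiA (qm
    3712)).setHiW (qm 146))
    (by decide +kernel))
    (good_of_check
    (R .u5 2529285 4603148 2097151 4952064 13151105 (-125872) 3167496 11863286 7077743 (-219434)
    3167496 3397777 5954687 (-179403) 3167496 3189122 3189122 7385045)
    (((((((((((((((((((((((((root.setHiD (qm 2048)).setHiD (qm 1024)).setHiU (qm 512)).setLoA (qm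
    2048)).setHiD (qm 512)).setHiU (qm 256)).setLoA (qm 3072)).setLoD (qm 256)).setLoU (qm
    128)).setLoW (qm 128)).setHiW (qm 192)).setHiD (qm 384)).setHiW (qm 160)).setHiU (qm
    192)).setHiD (qm 320)).setLoW (qm 144)).setLoD (qm 288)).setHiU (qm 168)).setHiW (qm
    152)).setLoD (qm 304)).setHiW (qm 148)).setLoA (qm 3584)).setHiA (qm 3840)).setHiA (qm
    3712)).setLoW (qm 146))
    (by decide +kernel)))
    (good_of_check
    (T 3187671 38330499 5136954 13831666 1522242 3463170 3232107 1232190 4286441 4455083 1930319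
    3397777 3189122 53776915 12823783 11678486 25078293 15789688)
    ((((((((((((((((((((((((root.setHiD (qm 2048)).setHiD (qm 1024)).setHiU (qm 512)).setLoA (qm
    2048)).setHiD (qm 512)).setHiU (qm 256)).setLoA (qm 3072)).setLoD (qm 256)).setLoU (qm
    128)).setLoW (qm 128)).setHiW (qm 192)).setHiD (qm 384)).setHiW (qm 160)).setHiU (qm
    192)).setHiD (qm 320)).setLoW (qm 144)).setLoD (qm 288)).setHiU (qm 168)).setHiW (qm
    152)).setLoD (qm 304)).setHiW (qm 148)).setLoA (qm 3584)).setHiA (qm 3840)).setLoA (qm 3712))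
    (by decide +kernel)))
    (good_of_check
    (T 3523215 35458971 4194305 14068122 1408204 3249183 3030020 1381388 4370406 4513223 1930319
    3397777 3189122 47537741 12452799 11442540 25165824 15789688)
    (((((((((((((((((((((((root.setHiD (qm 2048)).setHiD (qm 1024)).setHiU (qm 512)).setLoA (qm
    2048)).setHiD (qm 512)).setHiU (qm 256)).setLoA (qm 3072)).setLoD (qm 256)).setLoU (qm
    128)).setLoW (qm 128)).setHiW (qm 192)).setHiD (qm 384)).setHiW (qm 160)).setHiU (qm
    192)).setHiD (qm 320)).setLoW (qm 144)).setLoD (qm 288)).setHiU (qm 168)).setHiW (qm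
    152)).setLoD (qm 304)).setHiW (qm 148)).setLoA (qm 3584)).setLoA (qm 3840))
    (by decide +kernel))))
    (good_splitW (qm 150)
    (good_splitW (qm 149)
    (good_splitA (qm 3584)
    (good_of_check
    (R .u5 2525119 4836106 2421581 4950699 13132869 (-113799) 3189117 11863286 7258115 (-225832)
    3189117 3397777 6201187 (-187642) 3189117 3199878 3199878 7454205)
    ((((((((((((((((((((((((root.setHiD (qm 2048)).setHiD (qm 1024)).setHiU (qm 512)).setLoA (qm
    2048)).setHiD (qm 512)).setHiU (qm 256)).setLoA (qm 3072)).setLoD (qm 256)).setLoU (qm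
    128)).setLoW (qm 128)).setHiW (qm 192)).setHiD (qm 384)).setHiW (qm 160)).setHiU (qm
    192)).setHiD (qm 320)).setLoW (qm 144)).setLoD (qm 288)).setHiU (qm 168)).setHiW (qm
    152)).setLoD (qm 304)).setLoW (qm 148)).setHiW (qm 150)).setHiW (qm 149)).setHiA (qm 3584))
    (by decide +kernel))
    (good_splitA (qm 3840)
    (good_of_check
    (R .u5 2540197 4523301 1712316 4950699 13130353 (-137019) 3189117 11863286 7012790 (-219348)
    3189117 3397777 5956243 (-181172) 3189117 3199878 3199878 7343440)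
    (((((((((((((((((((((((((root.setHiD (qm 2048)).setHiD (qm 1024)).setHiU (qm 512)).setLoA (qm
    2048)).setHiD (qm 512)).setHiU (qm 256)).setLoA (qm 3072)).setLoD (qm 256)).setLoU (qm
    128)).setLoW (qm 128)).setHiW (qm 192)).setHiD (qm 384)).setHiW (qm 160)).setHiU (qm
    192)).setHiD (qm 320)).setLoW (qm 144)).setLoD (qm 288)).setHiU (qm 168)).setHiW (qm
    152)).setLoD (qm 304)).setLoW (qm 148)).setHiW (qm 150)).setHiW (qm 149)).setLoA (qm
    3584)).setHiA (qm 3840))
    (by decide +kernel))
    (good_of_check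
    (T 3523215 35458971 4194305 14068122 1408204 3249183 3040978 1381388 4370406 4506423 1930319
    3397777 3199878 47537741 12452799 11492062 25165824 15785336)
    (((((((((((((((((((((((((root.setHiD (qm 2048)).setHiD (qm 1024)).setHiU (qm 512)).setLoA (qm
    2048)).setHiD (qm 512)).setHiU (qm 256)).setLoA (qm 3072)).setLoD (qm 256)).setLoU (qm
    128)).setLoW (qm 128)).setHiW (qm 192)).setHiD (qm 384)).setHiW (qm 160)).setHiU (qm
    192)).setHiD (qm 320)).setLoW (qm 144)).setLoD (qm 288)).setHiU (qm 168)).setHiW (qm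
    152)).setLoD (qm 304)).setLoW (qm 148)).setHiW (qm 150)).setHiW (qm 149)).setLoA (qm
    3584)).setLoA (qm 3840))
    (by decide +kernel))))
    (good_of_check
    (R .u5 2544364 0 0 4950016 13110379 (-137700) 3199873 11863286 7001094 (-219836) 3199873
    3397777 6006482 (-183655) 3199873 3210598 3210598 7350660)
    (((((((((((((((((((((((root.setHiD (qm 2048)).setHiD (qm 1024)).setHiU (qm 512)).setLoA (qm
    2048)).setHiD (qm 512)).setHiU (qm 256)).setLoA (qm 3072)).setLoD (qm 256)).setLoU (qm
    128)).setLoW (qm 128)).setHiW (qm 192)).setHiD (qm 384)).setHiW (qm 160)).setHiU (qm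
    192)).setHiD (qm 320)).setLoW (qm 144)).setLoD (qm 288)).setHiU (qm 168)).setHiW (qm
    152)).setLoD (qm 304)).setLoW (qm 148)).setHiW (qm 150)).setLoW (qm 149))
    (by decide +kernel)))
    (good_splitW (qm 151)
    (good_of_check
    (R .u5 2546939 0 0 4949333 13102699 (-139494) 3210593 11863286 7014850 (-220994) 3210593
    3397777 6081366 (-186809) 3210593 3221282 3221282 7369207)
    (((((((((((((((((((((((root.setHiD (qm 2048)).setHiD (qm 1024)).setHiU (qm 512)).setLoA (qm
    2048)).setHiD (qm 512)).setHiU (qm 256)).setLoA (qm 3072)).setLoD (qm 256)).setLoU (qm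
    128)).setLoW (qm 128)).setHiW (qm 192)).setHiD (qm 384)).setHiW (qm 160)).setHiU (qm
    192)).setHiD (qm 320)).setLoW (qm 144)).setLoD (qm 288)).setHiU (qm 168)).setHiW (qm
    152)).setLoD (qm 304)).setLoW (qm 148)).setLoW (qm 150)).setHiW (qm 151))
    (by decide +kernel))
    (good_of_check
    (R .u5 2551112 0 0 4948651 13092265 (-142991) 3221277 11863286 7002672 (-221449) 3221277
    3397777 6129630 (-189264) 3221277 3231931 3231931 7374953)
    (((((((((((((((((((((((root.setHiD (qm 2048)).setHiD (qm 1024)).setHiU (qm 512)).setLoA (qm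
    2048)).setHiD (qm 512)).setHiU (qm 256)).setLoA (qm 3072)).setLoD (qm 256)).setLoU (qm
    128)).setLoW (qm 128)).setHiW (qm 192)).setHiD (qm 384)).setHiW (qm 160)).setHiU (qm
    192)).setHiD (qm 320)).setLoW (qm 144)).setLoD (qm 288)).setHiU (qm 168)).setHiW (qm
    152)).setLoD (qm 304)).setLoW (qm 148)).setLoW (qm 150)).setLoW (qm 151))
    (by decide +kernel))))))
    (good_splitD (qm 304)
    (good_splitD (qm 296)
    (good_of_check
    (R .t5n 2857079 0 0 4975275 13209303 (-175962) 3170098 11846591 3948543 (-72684) 3170098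
    3339022 3357778 (-50762) 3170098 3255658 3145730 8347785)
    (((((((((((((((((((((root.setHiD (qm 2048)).setHiD (qm 1024)).setHiU (qm 512)).setLoA (qm
    2048)).setHiD (qm 512)).setHiU (qm 256)).setLoA (qm 3072)).setLoD (qm 256)).setLoU (qm
    128)).setLoW (qm 128)).setHiW (qm 192)).setHiD (qm 384)).setHiW (qm 160)).setHiU (qm
    192)).setHiD (qm 320)).setLoW (qm 144)).setLoD (qm 288)).setHiU (qm 168)).setLoW (qm
    152)).setHiD (qm 304)).setHiD (qm 296))
    (by decide +kernel))
    (good_of_check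
    (R .t5n 2863821 0 0 4964352 13198604 (-182273) 3166628 11845663 3743604 (-62368) 3166628
    3335727 3150063 (-40342) 3166628 3252279 3231931 8615883)
    (((((((((((((((((((((root.setHiD (qm 2048)).setHiD (qm 1024)).setHiU (qm 512)).setLoA (qm
    2048)).setHiD (qm 512)).setHiU (qm 256)).setLoA (qm 3072)).setLoD (qm 256)).setLoU (qm
    128)).setLoW (qm 128)).setHiW (qm 192)).setHiD (qm 384)).setHiW (qm 160)).setHiU (qm
    192)).setHiD (qm 320)).setLoW (qm 144)).setLoD (qm 288)).setHiU (qm 168)).setLoW (qm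
    152)).setHiD (qm 304)).setLoD (qm 296))
    (by decide +kernel)))
    (good_splitW (qm 156)
    (good_splitW (qm 154)
    (good_of_check
    (R .u5 2551112 0 0 4947968 13089083 (-142046) 3231926 11863286 7057237 (-223687) 3231926
    3397777 6300451 (-195603) 3231926 3253124 3253124 7448207)
    ((((((((((((((((((((((root.setHiD (qm 2048)).setHiD (qm 1024)).setHiU (qm 512)).setLoA (qm
    2048)).setHiD (qm 512)).setHiU (qm 256)).setLoA (qm 3072)).setLoD (qm 256)).setLoU (qm
    128)).setLoW (qm 128)).setHiW (qm 192)).setHiD (qm 384)).setHiW (qm 160)).setHiU (qm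
    192)).setHiD (qm 320)).setLoW (qm 144)).setLoD (qm 288)).setHiU (qm 168)).setLoW (qm
    152)).setLoD (qm 304)).setHiW (qm 156)).setHiW (qm 154))
    (by decide +kernel))
    (good_of_check
    (R .u5 2557854 0 0 4946603 13139540 (-167539) 3253119 11863286 7057402 (-225218) 3253119
    3397777 6416840 (-201134) 3253119 3274180 3274180 7471251)
    ((((((((((((((((((((((root.setHiD (qm 2048)).setHiD (qm 1024)).setHiU (qm 512)).setLoA (qm
    2048)).setHiD (qm 512)).setHiU (qm 256)).setLoA (qm 3072)).setLoD (qm 256)).setLoU (qm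
    128)).setLoW (qm 128)).setHiW (qm 192)).setHiD (qm 384)).setHiW (qm 160)).setHiU (qm
    192)).setHiD (qm 320)).setLoW (qm 144)).setLoD (qm 288)).setHiU (qm 168)).setLoW (qm
    152)).setLoD (qm 304)).setHiW (qm 156)).setLoW (qm 154))
    (by decide +kernel)))
    (good_of_check
    (R .u5 2562021 0 0 4945237 13125708 (-170025) 3274175 11863286 7097709 (-227801) 3274175
    3397777 6678707 (-211843) 3274175 3315891 3315891 7582844)
    (((((((((((((((((((((root.setHiD (qm 2048)).setHiD (qm 1024)).setHiU (qm 512)).setLoA (qm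
    2048)).setHiD (qm 512)).setHiU (qm 256)).setLoA (qm 3072)).setLoD (qm 256)).setLoU (qm
    128)).setLoW (qm 128)).setHiW (qm 192)).setHiD (qm 384)).setHiW (qm 160)).setHiU (qm
    192)).setHiD (qm 320)).setLoW (qm 144)).setLoD (qm 288)).setHiU (qm 168)).setLoW (qm
    152)).setLoD (qm 304)).setLoW (qm 156))
    (by decide +kernel)))))
    (good_splitD (qm 304)
    (good_of_check
    (R .t5n 2881484 0 0 4942507 13188374 (-204290) 3332424 11844735 6053822 (-156700) 3332424
    3571324 2140860 251 3075026 3248896 3315891 8790258)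
    (((((((((((((((((((root.setHiD (qm 2048)).setHiD (qm 1024)).setHiU (qm 512)).setLoA (qm
    2048)).setHiD (qm 512)).setHiU (qm 256)).setLoA (qm 3072)).setLoD (qm 256)).setLoU (qm
    128)).setLoW (qm 128)).setHiW (qm 192)).setHiD (qm 384)).setHiW (qm 160)).setHiU (qm
    192)).setHiD (qm 320)).setLoW (qm 144)).setLoD (qm 288)).setLoU (qm 168)).setHiD (qm 304))
    (by decide +kernel))
    (good_of_check
    (R .u5 2568766 0 0 4920661 13143113 (-185668) 3397772 11863286 8687582 (-294498) 3397772
    3632376 5896181 (-182553) 3145726 3315891 3315891 7533463)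
    (((((((((((((((((((root.setHiD (qm 2048)).setHiD (qm 1024)).setHiU (qm 512)).setLoA (qm
    2048)).setHiD (qm 512)).setHiU (qm 256)).setLoA (qm 3072)).setLoD (qm 256)).setLoU (qm
    128)).setLoW (qm 128)).setHiW (qm 192)).setHiD (qm 384)).setHiW (qm 160)).setHiU (qm
    192)).setHiD (qm 320)).setLoW (qm 144)).setLoD (qm 288)).setLoU (qm 168)).setLoD (qm 304))
    (by decide +kernel)))))

set_option maxHeartbeats 4000000 in
/-- One subtree of the cover. -/
theorem sub45_good : BoxGood
    (((((((((((((((root.setHiD (qm 2048)).setHiD (qm 1024)).setHiU (qm 512)).setLoA (qm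
    2048)).setHiD (qm 512)).setHiU (qm 256)).setLoA (qm 3072)).setLoD (qm 256)).setLoU (qm
    128)).setLoW (qm 128)).setHiW (qm 192)).setHiD (qm 384)).setHiW (qm 160)).setHiU (qm
    192)).setLoD (qm 320)) :=
    (good_splitW (qm 144)
    (good_splitW (qm 136)
    (good_splitW (qm 132)
    (good_of_check
    (R .u5 2498145 0 0 4893355 13262168 (-108999) 2965818 11863286 7747198 (-227163) 2965818
    3632376 4277793 (-118744) 2965818 3011808 3011808 6967279)
    ((((((((((((((((((root.setHiD (qm 2048)).setHiD (qm 1024)).setHiU (qm 512)).setLoA (qm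
    2048)).setHiD (qm 512)).setHiU (qm 256)).setLoA (qm 3072)).setLoD (qm 256)).setLoU (qm
    128)).setLoW (qm 128)).setHiW (qm 192)).setHiD (qm 384)).setHiW (qm 160)).setHiU (qm
    192)).setLoD (qm 320)).setHiW (qm 144)).setHiW (qm 136)).setHiW (qm 132))
    (by decide +kernel))
    (good_of_check
    (R .u5 2507463 0 0 4890624 13231709 (-114924) 3011803 11863286 7826514 (-234112) 3011803
    3632376 4666331 (-132270) 3011803 3057101 3057101 7067215)
    ((((((((((((((((((root.setHiD (qm 2048)).setHiD (qm 1024)).setHiU (qm 512)).setLoA (qm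
    2048)).setHiD (qm 512)).setHiU (qm 256)).setLoA (qm 3072)).setLoD (qm 256)).setLoU (qm
    128)).setLoW (qm 128)).setHiW (qm 192)).setHiD (qm 384)).setHiW (qm 160)).setHiU (qm
    192)).setLoD (qm 320)).setHiW (qm 144)).setHiW (qm 136)).setLoW (qm 132))
    (by decide +kernel)))
    (good_of_check
    (R .u5 2522544 0 0 4887893 13191521 (-127086) 3057096 11863286 7808088 (-238371) 3057096
    3632376 5199508 (-151758) 3057096 3145730 3145730 7279801)
    (((((((((((((((((root.setHiD (qm 2048)).setHiD (qm 1024)).setHiU (qm 512)).setLoA (qm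
    2048)).setHiD (qm 512)).setHiU (qm 256)).setLoA (qm 3072)).setLoD (qm 256)).setLoU (qm
    128)).setLoW (qm 128)).setHiW (qm 192)).setHiD (qm 384)).setHiW (qm 160)).setHiU (qm
    192)).setLoD (qm 320)).setHiW (qm 144)).setLoW (qm 136))
    (by decide +kernel)))
    (good_splitW (qm 152)
    (good_of_check
    (R .u5 2540197 0 0 4882432 13204054 (-158615) 3145726 11863286 7960047 (-251326) 3145726
    3632376 5894604 (-178713) 3145726 3231931 3231931 7455384)
    (((((((((((((((((root.setHiD (qm 2048)).setHiD (qm 1024)).setHiU (qm 512)).setLoA (qm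
    2048)).setHiD (qm 512)).setHiU (qm 256)).setLoA (qm 3072)).setLoD (qm 256)).setLoU (qm
    128)).setLoW (qm 128)).setHiW (qm 192)).setHiD (qm 384)).setHiW (qm 160)).setHiU (qm
    192)).setLoD (qm 320)).setLoW (qm 144)).setHiW (qm 152))
    (by decide +kernel))
    (good_of_check
    (R .u5 2562021 0 0 4876971 13138636 (-173809) 3231926 11863286 8028464 (-261501) 3231926
    3632376 6458501 (-203241) 3231926 3315891 3315891 7582844)
    (((((((((((((((((root.setHiD (qm 2048)).setHiD (qm 1024)).setHiU (qm 512)).setLoA (qm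
    2048)).setHiD (qm 512)).setHiU (qm 256)).setLoA (qm 3072)).setLoD (qm 256)).setLoU (qm
    128)).setLoW (qm 128)).setHiW (qm 192)).setHiD (qm 384)).setHiW (qm 160)).setHiU (qm
    192)).setLoD (qm 320)).setLoW (qm 144)).setLoW (qm 152))
    (by decide +kernel))))

end Vale.Agent.P226.Cert
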