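import Vale.Agent.P226.CertBox
import Vale.Agent.P226.CertSound

/-! Part 24 of the cover (P226). -/

namespace Vale.Agent.P226.Cert

set_option maxHeartbeats 4000000 in
/-- One subtree of the cover. -/
theorem sub46_good : BoxGood
    ((((((((((((((root.setHiD (qm 2048)).setHiD (qm 1024)).setHiU (qm 512)).setLoA (qm
    2048)).setHiD (qm 512)).setHiU (qm 256)).setLoA (qm 3072)).setLoD (qm 256)).setLoU (qm
    128)).setLoW (qm 128)).setHiW (qm 192)).setHiD (qm 384)).setHiW (qm 160)).setLoU (qm 192)) :=
    (good_splitD (qm 320)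
    (good_splitD (qm 288)
    (good_splitW (qm 144)
    (good_splitW (qm 136)
    (good_of_check
    (R .t5n 2889818 0 0 4915200 13234017 (-229506) 3571319 11844735 9999401 (-343576) 3571319
    4141546 (-919184) 105378 2890722 2984302 3057101 7796046)
    ((((((((((((((((((root.setHiD (qm 2048)).setHiD (qm 1024)).setHiU (qm 512)).setLoA (qm
    2048)).setHiD (qm 512)).setHiU (qm 256)).setLoA (qm 3072)).setLoD (qm 256)).setLoU (qm
    128)).setLoW (qm 128)).setHiW (qm 192)).setHiD (qm 384)).setHiW (qm 160)).setLoU (qm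
    192)).setHiD (qm 320)).setHiD (qm 288)).setHiW (qm 144)).setHiW (qm 136))
    (by decide +kernel))
    (good_of_check
    (R .t5n 2892393 0 0 4915200 13230477 (-232310) 3574396 11845663 10014189 (-347379) 3574396
    4144200 222892 63685 2987979 3078604 3145730 8104806)
    ((((((((((((((((((root.setHiD (qm 2048)).setHiD (qm 1024)).setHiU (qm 512)).setLoA (qm
    2048)).setHiD (qm 512)).setHiU (qm 256)).setLoA (qm 3072)).setLoD (qm 256)).setLoU (qm
    128)).setLoW (qm 128)).setHiW (qm 192)).setHiD (qm 384)).setHiW (qm 160)).setLoU (qm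
    192)).setHiD (qm 320)).setHiD (qm 288)).setHiW (qm 144)).setLoW (qm 136))
    (by decide +kernel)))
    (good_of_check
    (R .t5n 2903303 0 0 4915200 13213720 (-243040) 3577471 11846591 9912370 (-347605) 3577471
    4146852 1997796 (-2681) 3082169 3255658 3145730 8031396)
    (((((((((((((((((root.setHiD (qm 2048)).setHiD (qm 1024)).setHiU (qm 512)).setLoA (qm
    2048)).setHiD (qm 512)).setHiU (qm 256)).setLoA (qm 3072)).setLoD (qm 256)).setLoU (qm
    128)).setLoW (qm 128)).setHiW (qm 192)).setHiD (qm 384)).setHiW (qm 160)).setLoU (qm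
    192)).setHiD (qm 320)).setHiD (qm 288)).setLoW (qm 144))
    (by decide +kernel)))
    (good_of_check
    (R .u5 2582251 0 0 4871509 13110756 (-197273) 3632371 11863286 11419820 (-426695) 3632371
    4194306 4730504 (-139508) 2965818 3315891 3315891 7436764)
    ((((((((((((((((root.setHiD (qm 2048)).setHiD (qm 1024)).setHiU (qm 512)).setLoA (qm
    2048)).setHiD (qm 512)).setHiU (qm 256)).setLoA (qm 3072)).setLoD (qm 256)).setLoU (qm
    128)).setLoW (qm 128)).setHiW (qm 192)).setHiD (qm 384)).setHiW (qm 160)).setLoU (qm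
    192)).setHiD (qm 320)).setLoD (qm 288))
    (by decide +kernel)))
    (good_of_check
    (R .u5 2599921 0 0 4805973 13143061 (-234018) 3632371 11863286 11179333 (-420675) 3632371
    4194306 4468089 (-132389) 2965818 3315891 3315891 7310553)
    (((((((((((((((root.setHiD (qm 2048)).setHiD (qm 1024)).setHiU (qm 512)).setLoA (qm
    2048)).setHiD (qm 512)).setHiU (qm 256)).setLoA (qm 3072)).setLoD (qm 256)).setLoU (qm
    128)).setLoW (qm 128)).setHiW (qm 192)).setHiD (qm 384)).setHiW (qm 160)).setLoU (qm
    192)).setLoD (qm 320))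
    (by decide +kernel)))

set_option maxHeartbeats 4000000 in
/-- One subtree of the cover. -/
theorem sub47_good : BoxGood
    (((((((((((((root.setHiD (qm 2048)).setHiD (qm 1024)).setHiU (qm 512)).setLoA (qm
    2048)).setHiD (qm 512)).setHiU (qm 256)).setLoA (qm 3072)).setLoD (qm 256)).setLoU (qm
    128)).setLoW (qm 128)).setHiW (qm 192)).setHiD (qm 384)).setLoW (qm 160)) :=
    (good_splitD (qm 320)
    (good_splitD (qm 288)
    (good_of_check
    (R .t5n 2861246 0 0 4937045 13247314 (-193503) 3262400 11848447 9126581 (-282756) 3262400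
    4152152 6177810 (-167570) 3262400 3583617 2965823 7641325)
    (((((((((((((((root.setHiD (qm 2048)).setHiD (qm 1024)).setHiU (qm 512)).setLoA (qm
    2048)).setHiD (qm 512)).setHiU (qm 256)).setLoA (qm 3072)).setLoD (qm 256)).setLoU (qm
    128)).setLoW (qm 128)).setHiW (qm 192)).setHiD (qm 384)).setLoW (qm 160)).setHiD (qm
    320)).setHiD (qm 288))
    (by decide +kernel))
    (good_of_check
    (R .t5n 2881484 0 0 4893355 13214088 (-211858) 3248891 11844735 8587208 (-251559) 3248891
    4141546 5528921 (-132095) 3248891 3571324 3315891 8790258)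
    (((((((((((((((root.setHiD (qm 2048)).setHiD (qm 1024)).setHiU (qm 512)).setLoA (qm
    2048)).setHiD (qm 512)).setHiU (qm 256)).setLoA (qm 3072)).setLoD (qm 256)).setLoU (qm
    128)).setLoW (qm 128)).setHiW (qm 192)).setHiD (qm 384)).setLoW (qm 160)).setHiD (qm
    320)).setLoD (qm 288))
    (by decide +kernel)))
    (good_splitW (qm 176)
    (good_of_check
    (R .u5 2586417 0 0 4827819 13136780 (-211312) 3315886 11863286 10256089 (-356103) 3315886
    4194306 7315814 (-241248) 3315886 3477736 3477736 7933944)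
    (((((((((((((((root.setHiD (qm 2048)).setHiD (qm 1024)).setHiU (qm 512)).setLoA (qm
    2048)).setHiD (qm 512)).setHiU (qm 256)).setLoA (qm 3072)).setLoD (qm 256)).setLoU (qm
    128)).setLoW (qm 128)).setHiW (qm 192)).setHiD (qm 384)).setLoW (qm 160)).setLoD (qm
    320)).setHiW (qm 176))
    (by decide +kernel))
    (good_of_check
    (R .u5 2628490 0 0 4816896 13075061 (-258371) 3477731 11863286 10260948 (-377458) 3477731
    4194306 8134069 (-286069) 3477731 3632376 3632376 8105201)
    (((((((((((((((root.setHiD (qm 2048)).setHiD (qm 1024)).setHiU (qm 512)).setLoA (qm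
    2048)).setHiD (qm 512)).setHiU (qm 256)).setLoA (qm 3072)).setLoD (qm 256)).setLoU (qm
    128)).setLoW (qm 128)).setHiW (qm 192)).setHiD (qm 384)).setLoW (qm 160)).setLoD (qm
    320)).setLoW (qm 176))
    (by decide +kernel))))

set_option maxHeartbeats 4000000 in
/-- One subtree of the cover. -/
theorem sub48_good : BoxGood
    ((((((((((((root.setHiD (qm 2048)).setHiD (qm 1024)).setHiU (qm 512)).setLoA (qm 2048)).setHiD
    (qm 512)).setHiU (qm 256)).setLoA (qm 3072)).setLoD (qm 256)).setLoU (qm 128)).setLoW (qm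
    128)).setHiW (qm 192)).setLoD (qm 384)) :=
    (good_splitW (qm 160)
    (good_of_check
    (R .u5 2546939 0 0 4718592 13319618 (-202238) 2965818 11863286 9434149 (-284027) 2965818
    4194306 5272521 (-153976) 2965818 3315891 3315891 7694153)
    (((((((((((((root.setHiD (qm 2048)).setHiD (qm 1024)).setHiU (qm 512)).setLoA (qm
    2048)).setHiD (qm 512)).setHiU (qm 256)).setLoA (qm 3072)).setLoD (qm 256)).setLoU (qm
    128)).setLoW (qm 128)).setHiW (qm 192)).setLoD (qm 384)).setHiW (qm 160))
    (by decide +kernel))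
    (good_of_check
    (R .u5 2621741 0 0 4696747 13203933 (-284711) 3315886 11863286 9756968 (-342652) 3315886
    4194306 7503384 (-254621) 3315886 3632376 3632376 8153493)
    (((((((((((((root.setHiD (qm 2048)).setHiD (qm 1024)).setHiU (qm 512)).setLoA (qm
    2048)).setHiD (qm 512)).setHiU (qm 256)).setLoA (qm 3072)).setLoD (qm 256)).setLoU (qm
    128)).setLoW (qm 128)).setHiW (qm 192)).setLoD (qm 384)).setLoW (qm 160))
    (by decide +kernel)))

set_option maxHeartbeats 4000000 in
/-- One subtree of the cover. -/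
theorem sub49_good : BoxGood
    (((((((((((root.setHiD (qm 2048)).setHiD (qm 1024)).setHiU (qm 512)).setLoA (qm 2048)).setHiD
    (qm 512)).setHiU (qm 256)).setLoA (qm 3072)).setLoD (qm 256)).setLoU (qm 128)).setLoW (qm
    128)).setLoW (qm 192)) :=
    (good_splitD (qm 384)
    (good_of_check
    (R .t5n 2953718 0 0 4849664 13129519 (-288096) 3558982 11841021 8896993 (-295091) 3558982
    4130913 8896993 (-295091) 3558982 4130913 3632376 9334709)
    ((((((((((((root.setHiD (qm 2048)).setHiD (qm 1024)).setHiU (qm 512)).setLoA (qm 2048)).setHiD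
    (qm 512)).setHiU (qm 256)).setLoA (qm 3072)).setLoD (qm 256)).setLoU (qm 128)).setLoW (qm
    128)).setLoW (qm 192)).setHiD (qm 384))
    (by decide +kernel))
    (good_of_check
    (R .u5 2731886 0 0 4674901 13012415 (-395974) 3632371 11863286 9418762 (-372246) 3632371
    4194306 9418762 (-372246) 3632371 4194306 4194306 8876423)
    ((((((((((((root.setHiD (qm 2048)).setHiD (qm 1024)).setHiU (qm 512)).setLoA (qm 2048)).setHiD
    (qm 512)).setHiU (qm 256)).setLoA (qm 3072)).setLoD (qm 256)).setLoU (qm 128)).setLoW (qm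
    128)).setLoW (qm 192)).setLoD (qm 384))
    (by decide +kernel)))

end Vale.Agent.P226.Cert
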