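import Vale.Agent.P226.CertBox
import Vale.Agent.P226.CertSound

/-! Part 25 of the cover (P226). -/

namespace Vale.Agent.P226.Cert

set_option maxHeartbeats 4000000 in
/-- One subtree of the cover. -/
theorem sub50_good : BoxGood
    ((((((root.setHiD (qm 2048)).setHiD (qm 1024)).setHiU (qm 512)).setLoA (qm 2048)).setHiD (qm
    512)).setLoU (qm 256)) :=
    (good_splitW (qm 256)
    (good_splitA (qm 3072)
    (good_splitD (qm 256)
    (good_splitU (qm 384)
    (good_splitW (qm 128)
    (good_splitD (qm 128)
    (good_splitD (qm 64)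
    (good_of_check
    (R .t4n 3466865 5586897 3424633 5111808 13009430 (-336396) 4161404 11851695 13003906 (-663755)
    4161404 5110130 0 0 0 0 2097154 5410324)
    (((((((((((((root.setHiD (qm 2048)).setHiD (qm 1024)).setHiU (qm 512)).setLoA (qm
    2048)).setHiD (qm 512)).setLoU (qm 256)).setHiW (qm 256)).setHiA (qm 3072)).setHiD (qm
    256)).setHiU (qm 384)).setHiW (qm 128)).setHiD (qm 128)).setHiD (qm 64))
    (by decide +kernel))
    (good_of_check
    (R .t4n 3510512 4732299 3424633 5024427 13007637 (-388143) 4128245 11840093 12211458 (-604153)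
    4128245 5083163 0 0 0 0 2965823 8204679)
    (((((((((((((root.setHiD (qm 2048)).setHiD (qm 1024)).setHiU (qm 512)).setLoA (qm
    2048)).setHiD (qm 512)).setLoU (qm 256)).setHiW (qm 256)).setHiA (qm 3072)).setHiD (qm
    256)).setHiU (qm 384)).setHiW (qm 128)).setHiD (qm 128)).setLoD (qm 64))
    (by decide +kernel)))
    (good_of_check
    (R .t4n 3560907 3147252 3424633 4893355 13029615 (-452026) 4061115 11816854 10905947 (-484597)
    4061115 5028796 0 0 0 0 2965823 7960805)
    ((((((((((((root.setHiD (qm 2048)).setHiD (qm 1024)).setHiU (qm 512)).setLoA (qm 2048)).setHiD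
    (qm 512)).setLoU (qm 256)).setHiW (qm 256)).setHiA (qm 3072)).setHiD (qm 256)).setHiU (qm
    384)).setHiW (qm 128)).setLoD (qm 128))
    (by decide +kernel)))
    (good_splitD (qm 192)
    (good_of_check
    (R .t4n 3563482 3734040 3424633 4937045 12973242 (-440550) 4094818 11828479 11280768 (-535367)
    4094818 5056053 0 0 0 0 3632376 9755914)
    ((((((((((((root.setHiD (qm 2048)).setHiD (qm 1024)).setHiU (qm 512)).setLoA (qm 2048)).setHiD
    (qm 512)).setLoU (qm 256)).setHiW (qm 256)).setHiA (qm 3072)).setHiD (qm 256)).setHiU (qm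
    384)).setLoW (qm 128)).setHiD (qm 192))
    (by decide +kernel))
    (good_of_check
    (R .t5n 3001967 4987709 3424633 4849664 13046595 (-332359) 4152147 11848447 13044149 (-588236)
    4152147 5102594 5311343 (-104935) 2905897 4152152 2965823 6769530)
    ((((((((((((root.setHiD (qm 2048)).setHiD (qm 1024)).setHiU (qm 512)).setLoA (qm 2048)).setHiD
    (qm 512)).setLoU (qm 256)).setHiW (qm 256)).setHiA (qm 3072)).setHiD (qm 256)).setHiU (qm
    384)).setLoW (qm 128)).setLoD (qm 192))
    (by decide +kernel))))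
    (good_splitW (qm 128)
    (good_splitD (qm 128)
    (good_of_check
    (R .t4n 3860553 3619240 3424633 4893355 12633882 (-694468) 5083158 11840093 12641522 (-836961)
    5083158 5885121 0 0 0 0 2965823 6679839)
    ((((((((((((root.setHiD (qm 2048)).setHiD (qm 1024)).setHiU (qm 512)).setLoA (qm 2048)).setHiD
    (qm 512)).setLoU (qm 256)).setHiW (qm 256)).setHiA (qm 3072)).setHiD (qm 256)).setLoU (qm
    384)).setHiW (qm 128)).setHiD (qm 128))
    (by decide +kernel))
    (good_of_check
    (R .t4n 3849641 2805712 3424633 4718592 12753948 (-711183) 5028791 11816854 12342250 (-771234)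
    5028791 5838227 0 0 0 0 2965823 6721565)
    ((((((((((((root.setHiD (qm 2048)).setHiD (qm 1024)).setHiU (qm 512)).setLoA (qm 2048)).setHiD
    (qm 512)).setLoU (qm 256)).setHiW (qm 256)).setHiA (qm 3072)).setHiD (qm 256)).setLoU (qm
    384)).setHiW (qm 128)).setLoD (qm 128))
    (by decide +kernel)))
    (good_of_check
    (R .t4n 3867296 2630893 3424633 4718592 12724501 (-722785) 5028791 11816854 12222048 (-768182)
    5028791 5838227 0 0 0 0 4194306 9477994)
    (((((((((((root.setHiD (qm 2048)).setHiD (qm 1024)).setHiU (qm 512)).setLoA (qm 2048)).setHiD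
    (qm 512)).setLoU (qm 256)).setHiW (qm 256)).setHiA (qm 3072)).setHiD (qm 256)).setLoU (qm
    384)).setLoW (qm 128))
    (by decide +kernel))))
    (good_splitU (qm 384)
    (good_splitW (qm 128)
    (good_of_check
    (R .t4n 3660115 1692 3424633 4631211 12838562 (-504376) 3923410 11770239 7919679 (-197024)
    3923410 4918260 0 0 0 0 2965823 7505210)
    (((((((((((root.setHiD (qm 2048)).setHiD (qm 1024)).setHiU (qm 512)).setLoA (qm 2048)).setHiD
    (qm 512)).setLoU (qm 256)).setHiW (qm 256)).setHiA (qm 3072)).setLoD (qm 256)).setHiU (qm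
    384)).setHiW (qm 128))
    (by decide +kernel))
    (good_splitW (qm 192)
    (good_splitD (qm 384)
    (good_of_check
    (R .t4n 3706344 1692 3424633 4718592 12885589 (-578133) 3992856 11793569 8374523 (-296278)
    3992856 4973835 0 0 0 0 3632376 9048881)
    (((((((((((((root.setHiD (qm 2048)).setHiD (qm 1024)).setHiU (qm 512)).setLoA (qm
    2048)).setHiD (qm 512)).setLoU (qm 256)).setHiW (qm 256)).setHiA (qm 3072)).setLoD (qm
    256)).setHiU (qm 384)).setLoW (qm 128)).setHiW (qm 192)).setHiD (qm 384))
    (by decide +kernel))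
    (good_of_check
    (R .t4n 3660116 1692 3424633 4543829 12838574 (-504381) 3923410 11770239 7919662 (-197023)
    3923410 4918260 0 0 0 0 3632376 9270467)
    (((((((((((((root.setHiD (qm 2048)).setHiD (qm 1024)).setHiU (qm 512)).setLoA (qm
    2048)).setHiD (qm 512)).setLoU (qm 256)).setHiW (qm 256)).setHiA (qm 3072)).setLoD (qm
    256)).setHiU (qm 384)).setLoW (qm 128)).setHiW (qm 192)).setLoD (qm 384))
    (by decide +kernel)))
    (good_splitD (qm 384)
    (good_of_check
    (R .t5n 3033108 4162980 3424633 4718592 13103869 (-389910) 4130908 11841021 12536754 (-553681)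
    4130908 5085326 7796691 (-257427) 3558982 4130913 3632376 8794464)
    (((((((((((((root.setHiD (qm 2048)).setHiD (qm 1024)).setHiU (qm 512)).setLoA (qm
    2048)).setHiD (qm 512)).setLoU (qm 256)).setHiW (qm 256)).setHiA (qm 3072)).setLoD (qm
    256)).setHiU (qm 384)).setLoW (qm 128)).setLoW (qm 192)).setHiD (qm 384))
    (by decide +kernel))
    (good_of_check
    (R .u5 2799944 3199138 3424633 4543829 12971457 (-483418) 4194302 11863286 12261826 (-577930)
    4194302 5136955 8540160 (-345326) 3632371 4194306 4194306 8419629)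
    (((((((((((((root.setHiD (qm 2048)).setHiD (qm 1024)).setHiU (qm 512)).setLoA (qm
    2048)).setHiD (qm 512)).setLoU (qm 256)).setHiW (qm 256)).setHiA (qm 3072)).setLoD (qm
    256)).setHiU (qm 384)).setLoW (qm 128)).setLoW (qm 192)).setLoD (qm 384))
    (by decide +kernel)))))
    (good_of_check
    (R .t4n 3932765 0 3424633 4456448 12666985 (-766462) 4918255 11770239 10917443 (-602443)
    4918255 5743290 0 0 0 0 4194306 9191878)
    ((((((((((root.setHiD (qm 2048)).setHiD (qm 1024)).setHiU (qm 512)).setLoA (qm 2048)).setHiD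
    (qm 512)).setLoU (qm 256)).setHiW (qm 256)).setHiA (qm 3072)).setLoD (qm 256)).setLoU (qm
    384))
    (by decide +kernel))))
    (good_splitD (qm 256)
    (good_splitU (qm 384)
    (good_splitW (qm 128)
    (good_splitD (qm 128)
    (good_splitD (qm 64)
    (good_splitD (qm 32)
    (good_splitD (qm 16)
    (good_splitD (qm 8)
    (good_splitU (qm 320)
    (good_splitD (qm 4)
    (good_splitD (qm 2)
    (good_splitD (qm 1)
    (good_splitA (qm 3584)
    (good_of_check
    (R .t4n 3517254 5383224 2421581 5198507 12897801 (-367044) 4193789 11863105 11749219 (-624633)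
    4193789 4688919 0 0 0 0 262146 115289)
    (((((((((((((((((((((root.setHiD (qm 2048)).setHiD (qm 1024)).setHiU (qm 512)).setLoA (qm
    2048)).setHiD (qm 512)).setLoU (qm 256)).setHiW (qm 256)).setLoA (qm 3072)).setHiD (qm
    256)).setHiU (qm 384)).setHiW (qm 128)).setHiD (qm 128)).setHiD (qm 64)).setHiD (qm
    32)).setHiD (qm 16)).setHiD (qm 8)).setHiU (qm 320)).setHiD (qm 4)).setHiD (qm 2)).setHiD (qm
    1)).setHiA (qm 3584))
    (by decide +kernel))
    (good_splitA (qm 3840)
    (good_of_check
    (R .t4n 3563482 4814190 1712316 5198507 12863995 (-414149) 4193789 11863105 11221752 (-606072)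
    4193789 4688919 0 0 0 0 262146 110697)
    ((((((((((((((((((((((root.setHiD (qm 2048)).setHiD (qm 1024)).setHiU (qm 512)).setLoA (qm
    2048)).setHiD (qm 512)).setLoU (qm 256)).setHiW (qm 256)).setLoA (qm 3072)).setHiD (qm
    256)).setHiU (qm 384)).setHiW (qm 128)).setHiD (qm 128)).setHiD (qm 64)).setHiD (qm
    32)).setHiD (qm 16)).setHiD (qm 8)).setHiU (qm 320)).setHiD (qm 4)).setHiD (qm 2)).setHiD (qm
    1)).setLoA (qm 3584)).setHiA (qm 3840))
    (by decide +kernel))
    (good_splitU (qm 288)
    (good_splitU (qm 272)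
    (good_splitA (qm 3968)
    (good_of_check
    (R .t4n 3574396 4703575 1210790 5231275 12831614 (-417583) 4193789 11863105 9754648 (-517630)
    4193789 4322895 0 0 0 0 262146 108253)
    (((((((((((((((((((((((((root.setHiD (qm 2048)).setHiD (qm 1024)).setHiU (qm 512)).setLoA (qm
    2048)).setHiD (qm 512)).setLoU (qm 256)).setHiW (qm 256)).setLoA (qm 3072)).setHiD (qm
    256)).setHiU (qm 384)).setHiW (qm 128)).setHiD (qm 128)).setHiD (qm 64)).setHiD (qm
    32)).setHiD (qm 16)).setHiD (qm 8)).setHiU (qm 320)).setHiD (qm 4)).setHiD (qm 2)).setHiD (qm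
    1)).setLoA (qm 3584)).setLoA (qm 3840)).setHiU (qm 288)).setHiU (qm 272)).setHiA (qm 3968))
    (by decide +kernel))
    (good_splitA (qm 4032)
    (good_of_check
    (T 3523215 29823551 2965822 14300669 662586 3169513 671805 1487256 4642286 5593807 1443779
    4323392 262146 40406154 12739663 785436 25143972 16226481)
    ((((((((((((((((((((((((((root.setHiD (qm 2048)).setHiD (qm 1024)).setHiU (qm 512)).setLoA (qm
    2048)).setHiD (qm 512)).setLoU (qm 256)).setHiW (qm 256)).setLoA (qm 3072)).setHiD (qm
    256)).setHiU (qm 384)).setHiW (qm 128)).setHiD (qm 128)).setHiD (qm 64)).setHiD (qm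
    32)).setHiD (qm 16)).setHiD (qm 8)).setHiU (qm 320)).setHiD (qm 4)).setHiD (qm 2)).setHiD (qm
    1)).setLoA (qm 3584)).setLoA (qm 3840)).setHiU (qm 288)).setHiU (qm 272)).setLoA (qm
    3968)).setHiA (qm 4032))
    (by decide +kernel))
    (good_of_check
    (T 3523215 28058791 2097153 14415535 623379 2981963 632053 1494437 4785866 5620947 1443779
    4323392 262146 40139889 12204067 777880 25165824 16226481)
    ((((((((((((((((((((((((((root.setHiD (qm 2048)).setHiD (qm 1024)).setHiU (qm 512)).setLoA (qm
    2048)).setHiD (qm 512)).setLoU (qm 256)).setHiW (qm 256)).setLoA (qm 3072)).setHiD (qm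
    256)).setHiU (qm 384)).setHiW (qm 128)).setHiD (qm 128)).setHiD (qm 64)).setHiD (qm
    32)).setHiD (qm 16)).setHiD (qm 8)).setHiU (qm 320)).setHiD (qm 4)).setHiD (qm 2)).setHiD (qm
    1)).setLoA (qm 3584)).setLoA (qm 3840)).setHiU (qm 288)).setHiU (qm 272)).setLoA (qm
    3968)).setLoA (qm 4032))
    (by decide +kernel))))
    (good_of_check
    (R .t4n 3624807 0 0 5209429 12780405 (-463698) 4322890 11863105 10159910 (-561411) 4322890
    4448251 0 0 0 0 262146 105493)
    ((((((((((((((((((((((((root.setHiD (qm 2048)).setHiD (qm 1024)).setHiU (qm 512)).setLoA (qm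
    2048)).setHiD (qm 512)).setLoU (qm 256)).setHiW (qm 256)).setLoA (qm 3072)).setHiD (qm
    256)).setHiU (qm 384)).setHiW (qm 128)).setHiD (qm 128)).setHiD (qm 64)).setHiD (qm
    32)).setHiD (qm 16)).setHiD (qm 8)).setHiU (qm 320)).setHiD (qm 4)).setHiD (qm 2)).setHiD (qm
    1)).setLoA (qm 3584)).setLoA (qm 3840)).setHiU (qm 288)).setLoU (qm 272))
    (by decide +kernel)))
    (good_of_check
    (R .t4n 3662692 0 0 5176661 12751006 (-500809) 4448246 11863105 10988545 (-633378) 4448246
    4688919 0 0 0 0 262146 100693)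
    (((((((((((((((((((((((root.setHiD (qm 2048)).setHiD (qm 1024)).setHiU (qm 512)).setLoA (qm
    2048)).setHiD (qm 512)).setLoU (qm 256)).setHiW (qm 256)).setLoA (qm 3072)).setHiD (qm
    256)).setHiU (qm 384)).setHiW (qm 128)).setHiD (qm 128)).setHiD (qm 64)).setHiD (qm
    32)).setHiD (qm 16)).setHiD (qm 8)).setHiU (qm 320)).setHiD (qm 4)).setHiD (qm 2)).setHiD (qm
    1)).setLoA (qm 3584)).setLoA (qm 3840)).setLoU (qm 288))
    (by decide +kernel)))))
    (good_of_check
    (R .t4n 3581137 0 0 5197141 12872936 (-438692) 4193277 11862924 11011680 (-597801) 4193277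
    4688461 0 0 0 0 370730 212430)
    ((((((((((((((((((((root.setHiD (qm 2048)).setHiD (qm 1024)).setHiU (qm 512)).setLoA (qm
    2048)).setHiD (qm 512)).setLoU (qm 256)).setHiW (qm 256)).setLoA (qm 3072)).setHiD (qm
    256)).setHiU (qm 384)).setHiW (qm 128)).setHiD (qm 128)).setHiD (qm 64)).setHiD (qm
    32)).setHiD (qm 16)).setHiD (qm 8)).setHiU (qm 320)).setHiD (qm 4)).setHiD (qm 2)).setLoD (qm
    1))
    (by decide +kernel)))
    (good_of_check
    (R .t4n 3581137 0 0 5195093 12872714 (-438555) 4192253 11862562 10998060 (-596202) 4192253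
    4687545 0 0 0 0 524290 415451)
    (((((((((((((((((((root.setHiD (qm 2048)).setHiD (qm 1024)).setHiU (qm 512)).setLoA (qm
    2048)).setHiD (qm 512)).setLoU (qm 256)).setHiW (qm 256)).setLoA (qm 3072)).setHiD (qm
    256)).setHiU (qm 384)).setHiW (qm 128)).setHiD (qm 128)).setHiD (qm 64)).setHiD (qm
    32)).setHiD (qm 16)).setHiD (qm 8)).setHiU (qm 320)).setHiD (qm 4)).setLoD (qm 2))
    (by decide +kernel)))
    (good_of_check
    (R .t4n 3578562 0 0 5190997 12875479 (-436101) 4190203 11861837 11000544 (-594110) 4190203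
    4685712 0 0 0 0 741458 813318)
    ((((((((((((((((((root.setHiD (qm 2048)).setHiD (qm 1024)).setHiU (qm 512)).setLoA (qm
    2048)).setHiD (qm 512)).setLoU (qm 256)).setHiW (qm 256)).setLoA (qm 3072)).setHiD (qm
    256)).setHiU (qm 384)).setHiW (qm 128)).setHiD (qm 128)).setHiD (qm 64)).setHiD (qm
    32)).setHiD (qm 16)).setHiD (qm 8)).setHiU (qm 320)).setLoD (qm 4))
    (by decide +kernel)))
    (good_of_check
    (R .t4n 3728602 0 0 5106347 12749197 (-579376) 4685707 11861837 12077630 (-744356) 4685707
    5133609 0 0 0 0 741458 723041)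
    (((((((((((((((((root.setHiD (qm 2048)).setHiD (qm 1024)).setHiU (qm 512)).setLoA (qm
    2048)).setHiD (qm 512)).setLoU (qm 256)).setHiW (qm 256)).setLoA (qm 3072)).setHiD (qm
    256)).setHiU (qm 384)).setHiW (qm 128)).setHiD (qm 128)).setHiD (qm 64)).setHiD (qm
    32)).setHiD (qm 16)).setHiD (qm 8)).setLoU (qm 320))
    (by decide +kernel)))
    (good_of_check
    (R .t4n 3578562 0 0 5139115 12874588 (-435553) 4186101 11860389 12148514 (-662857) 4186101
    5130262 0 0 0 0 1048578 1558704)
    ((((((((((((((((root.setHiD (qm 2048)).setHiD (qm 1024)).setHiU (qm 512)).setLoA (qm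
    2048)).setHiD (qm 512)).setLoU (qm 256)).setHiW (qm 256)).setLoA (qm 3072)).setHiD (qm
    256)).setHiU (qm 384)).setHiW (qm 128)).setHiD (qm 128)).setHiD (qm 64)).setHiD (qm
    32)).setHiD (qm 16)).setLoD (qm 8))
    (by decide +kernel)))
    (good_of_check
    (R .t4n 3578562 0 0 5122731 12930969 (-452265) 4177885 11857492 12060128 (-651292) 4177885
    5123560 0 0 0 0 1482913 2882209)
    (((((((((((((((root.setHiD (qm 2048)).setHiD (qm 1024)).setHiU (qm 512)).setLoA (qm
    2048)).setHiD (qm 512)).setLoU (qm 256)).setHiW (qm 256)).setLoA (qm 3072)).setHiD (qm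
    256)).setHiU (qm 384)).setHiW (qm 128)).setHiD (qm 128)).setHiD (qm 64)).setHiD (qm
    32)).setLoD (qm 16))
    (by decide +kernel)))
    (good_of_check
    (R .t4n 3581137 0 0 5089963 12923907 (-452148) 4161404 11851695 11854108 (-626899) 4161404
    5110130 0 0 0 0 2097154 4995051)
    ((((((((((((((root.setHiD (qm 2048)).setHiD (qm 1024)).setHiU (qm 512)).setLoA (qm
    2048)).setHiD (qm 512)).setLoU (qm 256)).setHiW (qm 256)).setLoA (qm 3072)).setHiD (qm
    256)).setHiU (qm 384)).setHiW (qm 128)).setHiD (qm 128)).setHiD (qm 64)).setLoD (qm 32))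
    (by decide +kernel)))
    (good_of_check
    (R .t4n 3598791 0 0 5024427 12950669 (-479425) 4128245 11840093 11297559 (-571566) 4128245
    5083163 0 0 0 0 2965823 7783196)
    (((((((((((((root.setHiD (qm 2048)).setHiD (qm 1024)).setHiU (qm 512)).setLoA (qm
    2048)).setHiD (qm 512)).setLoU (qm 256)).setHiW (qm 256)).setLoA (qm 3072)).setHiD (qm
    256)).setHiU (qm 384)).setHiW (qm 128)).setHiD (qm 128)).setLoD (qm 64))
    (by decide +kernel)))
    (good_of_check
    (R .t4n 3609700 0 0 4893355 13031571 (-511492) 4061115 11816854 10375440 (-462874) 4061115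
    5028796 0 0 0 0 2965823 7733055)
    ((((((((((((root.setHiD (qm 2048)).setHiD (qm 1024)).setHiU (qm 512)).setLoA (qm 2048)).setHiD
    (qm 512)).setLoU (qm 256)).setHiW (qm 256)).setLoA (qm 3072)).setHiD (qm 256)).setHiU (qm
    384)).setHiW (qm 128)).setLoD (qm 128))
    (by decide +kernel)))
    (good_splitD (qm 192)
    (good_of_check
    (R .t4n 3635718 0 0 4937045 12948793 (-520951) 4094818 11828479 10508144 (-504550) 4094818
    5056053 0 0 0 0 3632376 9390687)
    ((((((((((((root.setHiD (qm 2048)).setHiD (qm 1024)).setHiU (qm 512)).setLoA (qm 2048)).setHiD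
    (qm 512)).setLoU (qm 256)).setHiW (qm 256)).setLoA (qm 3072)).setHiD (qm 256)).setHiU (qm
    384)).setLoW (qm 128)).setHiD (qm 192))
    (by decide +kernel))
    (good_of_check
    (R .t5n 3011289 0 0 4849664 13098869 (-360479) 4152147 11848447 12953317 (-586220) 4152147
    5102594 5194163 (-101273) 2905897 4152152 2965823 6715975)
    ((((((((((((root.setHiD (qm 2048)).setHiD (qm 1024)).setHiU (qm 512)).setLoA (qm 2048)).setHiD
    (qm 512)).setLoU (qm 256)).setHiW (qm 256)).setLoA (qm 3072)).setHiD (qm 256)).setHiU (qm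
    384)).setLoW (qm 128)).setLoD (qm 192))
    (by decide +kernel))))
    (good_splitW (qm 128)
    (good_splitD (qm 128)
    (good_of_check
    (R .t4n 3842899 0 0 4893355 12710716 (-696903) 5083158 11840093 12758187 (-839345) 5083158
    5885121 0 0 0 0 2965823 6748648)
    ((((((((((((root.setHiD (qm 2048)).setHiD (qm 1024)).setHiU (qm 512)).setLoA (qm 2048)).setHiD
    (qm 512)).setLoU (qm 256)).setHiW (qm 256)).setLoA (qm 3072)).setHiD (qm 256)).setLoU (qm
    384)).setHiW (qm 128)).setHiD (qm 128))
    (by decide +kernel))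
    (good_of_check
    (R .t4n 3871463 0 0 4718592 12767940 (-739811) 5028791 11816854 12193603 (-767437) 5028791
    5838227 0 0 0 0 2965823 6638411)
    ((((((((((((root.setHiD (qm 2048)).setHiD (qm 1024)).setHiU (qm 512)).setLoA (qm 2048)).setHiD
    (qm 512)).setLoU (qm 256)).setHiW (qm 256)).setLoA (qm 3072)).setHiD (qm 256)).setLoU (qm
    384)).setHiW (qm 128)).setLoD (qm 128))
    (by decide +kernel)))
    (good_of_check
    (R .t4n 3886541 0 0 4718592 12743962 (-749984) 5028791 11816854 12090401 (-764657) 5028791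
    5838227 0 0 0 0 4194306 9392822)
    (((((((((((root.setHiD (qm 2048)).setHiD (qm 1024)).setHiU (qm 512)).setLoA (qm 2048)).setHiD
    (qm 512)).setLoU (qm 256)).setHiW (qm 256)).setLoA (qm 3072)).setHiD (qm 256)).setLoU (qm
    384)).setLoW (qm 128))
    (by decide +kernel))))
    (good_splitU (qm 384)
    (good_splitW (qm 128)
    (good_of_check
    (R .t4n 3660115 0 0 4631211 12838890 (-504474) 3923410 11770239 7919679 (-197024) 3923410
    4918260 0 0 0 0 2965823 7505210)
    (((((((((((root.setHiD (qm 2048)).setHiD (qm 1024)).setHiU (qm 512)).setLoA (qm 2048)).setHiD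
    (qm 512)).setLoU (qm 256)).setHiW (qm 256)).setLoA (qm 3072)).setLoD (qm 256)).setHiU (qm
    384)).setHiW (qm 128))
    (by decide +kernel))
    (good_splitW (qm 192)
    (good_splitD (qm 384)
    (good_of_check
    (R .t4n 3706344 0 0 4718592 12885948 (-578236) 3992856 11793569 8374523 (-296278) 3992856
    4973835 0 0 0 0 3632376 9048881)
    (((((((((((((root.setHiD (qm 2048)).setHiD (qm 1024)).setHiU (qm 512)).setLoA (qm
    2048)).setHiD (qm 512)).setLoU (qm 256)).setHiW (qm 256)).setLoA (qm 3072)).setLoD (qm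
    256)).setHiU (qm 384)).setLoW (qm 128)).setHiW (qm 192)).setHiD (qm 384))
    (by decide +kernel))
    (good_of_check
    (R .t4n 3660116 0 0 4543829 12838884 (-504474) 3923410 11770239 7919662 (-197023) 3923410
    4918260 0 0 0 0 3632376 9270467)
    (((((((((((((root.setHiD (qm 2048)).setHiD (qm 1024)).setHiU (qm 512)).setLoA (qm
    2048)).setHiD (qm 512)).setLoU (qm 256)).setHiW (qm 256)).setLoA (qm 3072)).setLoD (qm
    256)).setHiU (qm 384)).setLoW (qm 128)).setHiW (qm 192)).setLoD (qm 384))
    (by decide +kernel)))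
    (good_splitD (qm 384)
    (good_of_check
    (R .t5n 3050770 0 0 4718592 13082198 (-407730) 4130908 11841021 12362653 (-549293) 4130908
    5085326 7554527 (-248786) 3558982 4130913 3632376 8679204)
    (((((((((((((root.setHiD (qm 2048)).setHiD (qm 1024)).setHiU (qm 512)).setLoA (qm
    2048)).setHiD (qm 512)).setLoU (qm 256)).setHiW (qm 256)).setLoA (qm 3072)).setLoD (qm
    256)).setHiU (qm 384)).setLoW (qm 128)).setLoW (qm 192)).setHiD (qm 384))
    (by decide +kernel))
    (good_of_check
    (R .u5 2804110 0 0 4543829 12960030 (-486268) 4194302 11863286 12220600 (-576987) 4194302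
    5136955 8487128 (-343645) 3632371 4194306 4194306 8392413)
    (((((((((((((root.setHiD (qm 2048)).setHiD (qm 1024)).setHiU (qm 512)).setLoA (qm
    2048)).setHiD (qm 512)).setLoU (qm 256)).setHiW (qm 256)).setLoA (qm 3072)).setLoD (qm
    256)).setHiU (qm 384)).setLoW (qm 128)).setLoW (qm 192)).setLoD (qm 384))
    (by decide +kernel)))))
    (good_of_check
    (R .t4n 3932765 0 0 4456448 12666985 (-766462) 4918255 11770239 10917443 (-602443) 4918255
    5743290 0 0 0 0 4194306 9191878)
    ((((((((((root.setHiD (qm 2048)).setHiD (qm 1024)).setHiU (qm 512)).setLoA (qm 2048)).setHiD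
    (qm 512)).setLoU (qm 256)).setHiW (qm 256)).setLoA (qm 3072)).setLoD (qm 256)).setLoU (qm
    384))
    (by decide +kernel)))))
    (good_splitA (qm 3072)
    (good_splitU (qm 384)
    (good_of_check
    (R .t5n 3158313 2081543 3424633 4631211 12947927 (-511038) 4109559 11833590 11079225 (-489180)
    4109559 5067999 11079225 (-489180) 4109559 5067999 4194306 9551553)
    (((((((((root.setHiD (qm 2048)).setHiD (qm 1024)).setHiU (qm 512)).setLoA (qm 2048)).setHiD
    (qm 512)).setLoU (qm 256)).setLoW (qm 256)).setHiA (qm 3072)).setHiU (qm 384))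
    (by decide +kernel))
    (good_splitW (qm 384)
    (good_of_check
    (R .t5n 3307912 0 3424633 4456448 12793882 (-659285) 5067994 11833590 12651708 (-723668)
    5067994 5872028 9585783 (-436238) 4109559 5067999 4194306 8648085)
    ((((((((((root.setHiD (qm 2048)).setHiD (qm 1024)).setHiU (qm 512)).setLoA (qm 2048)).setHiD
    (qm 512)).setLoU (qm 256)).setLoW (qm 256)).setHiA (qm 3072)).setLoU (qm 384)).setHiW (qm
    384))
    (by decide +kernel))
    (good_of_check
    (R .t5n 3439877 0 3424633 4369067 12615674 (-776650) 5102589 11848447 11970780 (-749585)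
    5102589 5901911 11970780 (-749585) 5102589 5901911 2965823 4711859)
    ((((((((((root.setHiD (qm 2048)).setHiD (qm 1024)).setHiU (qm 512)).setLoA (qm 2048)).setHiD
    (qm 512)).setLoU (qm 256)).setLoW (qm 256)).setHiA (qm 3072)).setLoU (qm 384)).setLoW (qm
    384))
    (by decide +kernel))))
    (good_splitU (qm 384)
    (good_of_check
    (R .t5n 3158313 0 0 4631211 12988919 (-522367) 4109559 11833590 11079225 (-489180) 4109559
    5067999 11079225 (-489180) 4109559 5067999 4194306 9551553)
    (((((((((root.setHiD (qm 2048)).setHiD (qm 1024)).setHiU (qm 512)).setLoA (qm 2048)).setHiD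
    (qm 512)).setLoU (qm 256)).setLoW (qm 256)).setLoA (qm 3072)).setHiU (qm 384))
    (by decide +kernel))
    (good_splitW (qm 384)
    (good_of_check
    (R .t5n 3307912 0 0 4456448 12793882 (-659285) 5067994 11833590 12651708 (-723668) 5067994
    5872028 9585783 (-436238) 4109559 5067999 4194306 8648085)
    ((((((((((root.setHiD (qm 2048)).setHiD (qm 1024)).setHiU (qm 512)).setLoA (qm 2048)).setHiD
    (qm 512)).setLoU (qm 256)).setLoW (qm 256)).setLoA (qm 3072)).setLoU (qm 384)).setHiW (qm
    384))
    (by decide +kernel))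
    (good_of_check
    (R .t5n 3439877 0 0 4369067 12615674 (-776650) 5102589 11848447 11970780 (-749585) 5102589
    5901911 11970780 (-749585) 5102589 5901911 2965823 4711859)
    ((((((((((root.setHiD (qm 2048)).setHiD (qm 1024)).setHiU (qm 512)).setLoA (qm 2048)).setHiD
    (qm 512)).setLoU (qm 256)).setLoW (qm 256)).setLoA (qm 3072)).setLoU (qm 384)).setLoW (qm
    384))
    (by decide +kernel))))))

set_option maxHeartbeats 4000000 in
/-- One subtree of the cover. -/
theorem sub51_good : BoxGood
    (((((root.setHiD (qm 2048)).setHiD (qm 1024)).setHiU (qm 512)).setLoA (qm 2048)).setLoD (qm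
    512)) :=
    (good_splitU (qm 256)
    (good_splitA (qm 3072)
    (good_splitD (qm 768)
    (good_splitU (qm 128)
    (good_splitW (qm 64)
    (good_of_check
    (R .u5 2447750 1692 3424633 4631211 13168166 199 0 11863286 645020 43 0 2965823 0 42 0 2097154
    2097154 3604128)
    ((((((((((root.setHiD (qm 2048)).setHiD (qm 1024)).setHiU (qm 512)).setLoA (qm 2048)).setLoD
    (qm 512)).setHiU (qm 256)).setHiA (qm 3072)).setHiD (qm 768)).setHiU (qm 128)).setHiW (qm 64))
    (by decide +kernel))
    (good_of_check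
    (R .u5 2599906 1692 3424633 4587520 13038381 (-203537) 2097150 11863286 460640 (-7155) 2097150
    2965823 460640 (-7155) 2097150 2965823 2965823 6098534)
    ((((((((((root.setHiD (qm 2048)).setHiD (qm 1024)).setHiU (qm 512)).setLoA (qm 2048)).setLoD
    (qm 512)).setHiU (qm 256)).setHiA (qm 3072)).setHiD (qm 768)).setHiU (qm 128)).setLoW (qm 64))
    (by decide +kernel)))
    (good_splitW (qm 128)
    (good_of_check
    (R .u5 2650310 0 3424633 4456448 13394163 (-379216) 2965818 11863286 7957166 (-243984) 2965818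
    4194306 148298 43 0 2965823 2965823 5782624)
    ((((((((((root.setHiD (qm 2048)).setHiD (qm 1024)).setHiU (qm 512)).setLoA (qm 2048)).setLoD
    (qm 512)).setHiU (qm 256)).setHiA (qm 3072)).setHiD (qm 768)).setLoU (qm 128)).setHiW (qm
    128))
    (by decide +kernel))
    (good_splitU (qm 192)
    (good_of_check
    (R .u5 2628490 1271397 3424633 4500139 13370932 (-340665) 2965818 11863286 5729285 (-173344)
    2965818 3632376 5729285 (-173344) 2965818 3632376 3632376 8105201)
    (((((((((((root.setHiD (qm 2048)).setHiD (qm 1024)).setHiU (qm 512)).setLoA (qm 2048)).setLoD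
    (qm 512)).setHiU (qm 256)).setHiA (qm 3072)).setHiD (qm 768)).setLoU (qm 128)).setLoW (qm
    128)).setHiU (qm 192))
    (by decide +kernel))
    (good_of_check
    (R .u5 2718399 0 3424633 4412757 13276965 (-447733) 3632371 11863286 9595459 (-377444) 3632371
    4194306 7039419 (-217691) 2965818 4194306 4194306 8970552)
    (((((((((((root.setHiD (qm 2048)).setHiD (qm 1024)).setHiU (qm 512)).setLoA (qm 2048)).setLoD
    (qm 512)).setHiU (qm 256)).setHiA (qm 3072)).setHiD (qm 768)).setLoU (qm 128)).setLoW (qm
    128)).setLoU (qm 192))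
    (by decide +kernel)))))
    (good_splitU (qm 128)
    (good_of_check
    (R .u5 2529286 0 3424633 4281685 12744124 56 0 11863286 388663 43 0 2965823 388663 43 0
    2965823 2965823 6572483)
    (((((((((root.setHiD (qm 2048)).setHiD (qm 1024)).setHiU (qm 512)).setLoA (qm 2048)).setLoD
    (qm 512)).setHiU (qm 256)).setHiA (qm 3072)).setLoD (qm 768)).setHiU (qm 128))
    (by decide +kernel))
    (good_splitW (qm 128)
    (good_of_check
    (R .u5 2714232 0 3424633 4106923 13152746 (-408616) 2965818 11863286 7094210 (-219289) 2965818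
    4194306 75607 43 0 2965823 2965823 5408508)
    ((((((((((root.setHiD (qm 2048)).setHiD (qm 1024)).setHiU (qm 512)).setLoA (qm 2048)).setLoD
    (qm 512)).setHiU (qm 256)).setHiA (qm 3072)).setLoD (qm 768)).setLoU (qm 128)).setHiW (qm
    128))
    (by decide +kernel))
    (good_of_check
    (R .u5 2714232 0 3424633 4106923 13152746 (-408616) 2965818 11863286 7094210 (-219289) 2965818
    4194306 7094210 (-219289) 2965818 4194306 4194306 8999571)
    ((((((((((root.setHiD (qm 2048)).setHiD (qm 1024)).setHiU (qm 512)).setLoA (qm 2048)).setLoD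
    (qm 512)).setHiU (qm 256)).setHiA (qm 3072)).setLoD (qm 768)).setLoU (qm 128)).setLoW (qm
    128))
    (by decide +kernel)))))
    (good_splitD (qm 768)
    (good_splitU (qm 128)
    (good_splitW (qm 64)
    (good_of_check
    (R .u5 2447750 0 0 4631211 13168584 71 0 11863286 645020 43 0 2965823 0 42 0 2097154 2097154
    3604128)
    ((((((((((root.setHiD (qm 2048)).setHiD (qm 1024)).setHiU (qm 512)).setLoA (qm 2048)).setLoD
    (qm 512)).setHiU (qm 256)).setLoA (qm 3072)).setHiD (qm 768)).setHiU (qm 128)).setHiW (qm 64))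
    (by decide +kernel))
    (good_of_check
    (R .u5 2599906 0 0 4587520 13038785 (-203657) 2097150 11863286 460640 (-7155) 2097150 2965823
    460640 (-7155) 2097150 2965823 2965823 6098534)
    ((((((((((root.setHiD (qm 2048)).setHiD (qm 1024)).setHiU (qm 512)).setLoA (qm 2048)).setLoD
    (qm 512)).setHiU (qm 256)).setLoA (qm 3072)).setHiD (qm 768)).setHiU (qm 128)).setLoW (qm 64))
    (by decide +kernel)))
    (good_splitW (qm 128)
    (good_of_check
    (R .u5 2650310 0 0 4456448 13394163 (-379216) 2965818 11863286 7957166 (-243984) 2965818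
    4194306 148298 43 0 2965823 2965823 5782624)
    ((((((((((root.setHiD (qm 2048)).setHiD (qm 1024)).setHiU (qm 512)).setLoA (qm 2048)).setLoD
    (qm 512)).setHiU (qm 256)).setLoA (qm 3072)).setHiD (qm 768)).setLoU (qm 128)).setHiW (qm
    128))
    (by decide +kernel))
    (good_splitU (qm 192)
    (good_of_check
    (R .u5 2628490 0 0 4500139 13371460 (-340807) 2965818 11863286 5729285 (-173344) 2965818
    3632376 5729285 (-173344) 2965818 3632376 3632376 8105201)
    (((((((((((root.setHiD (qm 2048)).setHiD (qm 1024)).setHiU (qm 512)).setLoA (qm 2048)).setLoD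
    (qm 512)).setHiU (qm 256)).setLoA (qm 3072)).setHiD (qm 768)).setLoU (qm 128)).setLoW (qm
    128)).setHiU (qm 192))
    (by decide +kernel))
    (good_of_check
    (R .u5 2718399 0 0 4412757 13276965 (-447733) 3632371 11863286 9595459 (-377444) 3632371
    4194306 7039419 (-217691) 2965818 4194306 4194306 8970552)
    (((((((((((root.setHiD (qm 2048)).setHiD (qm 1024)).setHiU (qm 512)).setLoA (qm 2048)).setLoD
    (qm 512)).setHiU (qm 256)).setLoA (qm 3072)).setHiD (qm 768)).setLoU (qm 128)).setLoW (qm
    128)).setLoU (qm 192))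
    (by decide +kernel)))))
    (good_splitU (qm 128)
    (good_of_check
    (R .u5 2529286 0 0 4281685 12744124 56 0 11863286 388663 43 0 2965823 388663 43 0 2965823
    2965823 6572483)
    (((((((((root.setHiD (qm 2048)).setHiD (qm 1024)).setHiU (qm 512)).setLoA (qm 2048)).setLoD
    (qm 512)).setHiU (qm 256)).setLoA (qm 3072)).setLoD (qm 768)).setHiU (qm 128))
    (by decide +kernel))
    (good_splitW (qm 128)
    (good_of_check
    (R .u5 2714232 0 0 4106923 13152746 (-408616) 2965818 11863286 7094210 (-219289) 2965818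
    4194306 75607 43 0 2965823 2965823 5408508)
    ((((((((((root.setHiD (qm 2048)).setHiD (qm 1024)).setHiU (qm 512)).setLoA (qm 2048)).setLoD
    (qm 512)).setHiU (qm 256)).setLoA (qm 3072)).setLoD (qm 768)).setLoU (qm 128)).setHiW (qm
    128))
    (by decide +kernel))
    (good_of_check
    (R .u5 2714232 0 0 4106923 13152746 (-408616) 2965818 11863286 7094210 (-219289) 2965818
    4194306 7094210 (-219289) 2965818 4194306 4194306 8999571)
    ((((((((((root.setHiD (qm 2048)).setHiD (qm 1024)).setHiU (qm 512)).setLoA (qm 2048)).setLoD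
    (qm 512)).setHiU (qm 256)).setLoA (qm 3072)).setLoD (qm 768)).setLoU (qm 128)).setLoW (qm
    128))
    (by decide +kernel))))))
    (good_splitW (qm 256)
    (good_of_check
    (R .u4 3339054 0 0 4019541 12821104 (-713826) 4194302 11863286 11520825 (-632571) 4194302
    5931644 0 0 0 0 4194306 8472524)
    (((((((root.setHiD (qm 2048)).setHiD (qm 1024)).setHiU (qm 512)).setLoA (qm 2048)).setLoD (qm
    512)).setLoU (qm 256)).setHiW (qm 256))
    (by decide +kernel))
    (good_splitA (qm 3072)
    (good_splitD (qm 768)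
    (good_splitU (qm 384)
    (good_of_check
    (R .u5 2903307 0 3424633 4281685 12933663 (-617186) 4194302 11863286 11242937 (-552112)
    4194302 5136955 11242937 (-552112) 4194302 5136955 5136955 9608249)
    ((((((((((root.setHiD (qm 2048)).setHiD (qm 1024)).setHiU (qm 512)).setLoA (qm 2048)).setLoD
    (qm 512)).setLoU (qm 256)).setLoW (qm 256)).setHiA (qm 3072)).setHiD (qm 768)).setHiU (qm
    384))
    (by decide +kernel))
    (good_of_check
    (R .u5 3022198 0 3424633 4106923 12773551 (-733168) 5136950 11863286 12485264 (-741765)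
    5136950 5931644 11285312 (-591771) 4194302 5931644 5931644 9987400)
    ((((((((((root.setHiD (qm 2048)).setHiD (qm 1024)).setHiU (qm 512)).setLoA (qm 2048)).setLoD
    (qm 512)).setLoU (qm 256)).setLoW (qm 256)).setHiA (qm 3072)).setHiD (qm 768)).setLoU (qm
    384))
    (by decide +kernel)))
    (good_of_check
    (R .u5 2991603 0 3424633 3844779 12680492 (-670067) 4194302 11863286 11540996 (-598868)
    4194302 5931644 11540996 (-598868) 4194302 5931644 5931644 10157638)
    (((((((((root.setHiD (qm 2048)).setHiD (qm 1024)).setHiU (qm 512)).setLoA (qm 2048)).setLoD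
    (qm 512)).setLoU (qm 256)).setLoW (qm 256)).setHiA (qm 3072)).setLoD (qm 768))
    (by decide +kernel)))
    (good_splitD (qm 768)
    (good_splitU (qm 384)
    (good_of_check
    (R .u5 2903307 0 0 4281685 12933663 (-617186) 4194302 11863286 11242937 (-552112) 4194302
    5136955 11242937 (-552112) 4194302 5136955 5136955 9608249)
    ((((((((((root.setHiD (qm 2048)).setHiD (qm 1024)).setHiU (qm 512)).setLoA (qm 2048)).setLoD
    (qm 512)).setLoU (qm 256)).setLoW (qm 256)).setLoA (qm 3072)).setHiD (qm 768)).setHiU (qm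
    384))
    (by decide +kernel))
    (good_of_check
    (R .u5 3022198 0 0 4106923 12773551 (-733168) 5136950 11863286 12485264 (-741765) 5136950
    5931644 11285312 (-591771) 4194302 5931644 5931644 9987400)
    ((((((((((root.setHiD (qm 2048)).setHiD (qm 1024)).setHiU (qm 512)).setLoA (qm 2048)).setLoD
    (qm 512)).setLoU (qm 256)).setLoW (qm 256)).setLoA (qm 3072)).setHiD (qm 768)).setLoU (qm
    384))
    (by decide +kernel)))
    (good_of_check
    (R .u5 2991603 0 0 3844779 12680492 (-670067) 4194302 11863286 11540996 (-598868) 4194302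
    5931644 11540996 (-598868) 4194302 5931644 5931644 10157638)
    (((((((((root.setHiD (qm 2048)).setHiD (qm 1024)).setHiU (qm 512)).setLoA (qm 2048)).setLoD
    (qm 512)).setLoU (qm 256)).setLoW (qm 256)).setLoA (qm 3072)).setLoD (qm 768))
    (by decide +kernel))))))

end Vale.Agent.P226.Cert
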