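import Vale.Agent.P226.CertBox
import Vale.Agent.P226.CertSound

/-! Part 26 of the cover (P226). -/

namespace Vale.Agent.P226.Cert

set_option maxHeartbeats 4000000 in
/-- One subtree of the cover. -/
theorem sub52_good : BoxGood
    (((root.setHiD (qm 2048)).setHiD (qm 1024)).setLoU (qm 512)) :=
    (good_splitA (qm 2048)
    (good_splitW (qm 410)
    (good_splitD (qm 512)
    (good_splitU (qm 768)
    (good_splitA (qm 1024)
    (good_splitW (qm 205)
    (good_splitD (qm 256)
    (good_splitU (qm 640)
    (good_of_check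
    (R .t4n 3928614 4234953 5931640 4631211 12629135 (-763207) 5838222 11816854 13223517 (-934123)
    5838222 6548358 0 0 0 0 3753333 8332329)
    (((((((((((root.setHiD (qm 2048)).setHiD (qm 1024)).setLoU (qm 512)).setHiA (qm 2048)).setHiW
    (qm 410)).setHiD (qm 512)).setHiU (qm 768)).setHiA (qm 1024)).setHiW (qm 205)).setHiD (qm
    256)).setHiU (qm 640))
    (by decide +kernel))
    (good_of_check
    Tree.full
    (((((((((((root.setHiD (qm 2048)).setHiD (qm 1024)).setLoU (qm 512)).setHiA (qm 2048)).setHiW
    (qm 410)).setHiD (qm 512)).setHiU (qm 768)).setHiA (qm 1024)).setHiW (qm 205)).setHiD (qm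
    256)).setLoU (qm 640))
    (by decide +kernel)))
    (good_of_check
    (R .t4n 4053834 243504 5931640 4194304 12641413 (-887906) 5743285 11770239 12496968 (-873664)
    5743285 7111791 0 0 0 0 3753333 7828421)
    ((((((((((root.setHiD (qm 2048)).setHiD (qm 1024)).setLoU (qm 512)).setHiA (qm 2048)).setHiW
    (qm 410)).setHiD (qm 512)).setHiU (qm 768)).setHiA (qm 1024)).setHiW (qm 205)).setLoD (qm
    256))
    (by decide +kernel)))
    (good_splitU (qm 640)
    (good_of_check
    (R .t5n 3264267 4437216 5931640 4316501 12949311 (-644323) 5860074 11827666 13691818 (-814785)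
    5860074 6567848 8820795 (-310841) 3639176 5227919 4593136 9831357)
    ((((((((((root.setHiD (qm 2048)).setHiD (qm 1024)).setLoU (qm 512)).setHiA (qm 2048)).setHiW
    (qm 410)).setHiD (qm 512)).setHiU (qm 768)).setHiA (qm 1024)).setLoW (qm 205)).setHiU (qm
    640))
    (by decide +kernel))
    (good_of_check
    Tree.full
    ((((((((((root.setHiD (qm 2048)).setHiD (qm 1024)).setLoU (qm 512)).setHiA (qm 2048)).setHiW
    (qm 410)).setHiD (qm 512)).setHiU (qm 768)).setHiA (qm 1024)).setLoW (qm 205)).setLoU (qm
    640))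
    (by decide +kernel))))
    (good_splitW (qm 205)
    (good_splitD (qm 256)
    (good_splitU (qm 640)
    (good_splitD (qm 128)
    (good_of_check
    (R .t4n 3979001 4170784 4843164 4718592 12546076 (-802313) 5885116 11840093 13192156 (-984902)
    5885116 6590200 0 0 0 0 2965823 6244489)
    ((((((((((((root.setHiD (qm 2048)).setHiD (qm 1024)).setLoU (qm 512)).setHiA (qm 2048)).setHiW
    (qm 410)).setHiD (qm 512)).setHiU (qm 768)).setLoA (qm 1024)).setHiW (qm 205)).setHiD (qm
    256)).setHiU (qm 640)).setHiD (qm 128))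
    (by decide +kernel))
    (good_of_check
    (R .t4n 4067318 2639777 4843164 4543829 12468993 (-871102) 5838222 11816854 12564288 (-939160)
    5838222 6548358 0 0 0 0 3753333 7776656)
    ((((((((((((root.setHiD (qm 2048)).setHiD (qm 1024)).setLoU (qm 512)).setHiA (qm 2048)).setHiW
    (qm 410)).setHiD (qm 512)).setHiU (qm 768)).setLoA (qm 1024)).setHiW (qm 205)).setHiD (qm
    256)).setHiU (qm 640)).setLoD (qm 128))
    (by decide +kernel)))
    (good_of_check
    Tree.full
    (((((((((((root.setHiD (qm 2048)).setHiD (qm 1024)).setLoU (qm 512)).setHiA (qm 2048)).setHiW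
    (qm 410)).setHiD (qm 512)).setHiU (qm 768)).setLoA (qm 1024)).setHiW (qm 205)).setHiD (qm
    256)).setLoU (qm 640))
    (by decide +kernel)))
    (good_of_check
    (R .t4n 4060577 0 4843164 4194304 12648460 (-896554) 5743285 11770239 12467636 (-873956)
    5743285 7111791 0 0 0 0 3753333 7802091)
    ((((((((((root.setHiD (qm 2048)).setHiD (qm 1024)).setLoU (qm 512)).setHiA (qm 2048)).setHiW
    (qm 410)).setHiD (qm 512)).setHiU (qm 768)).setLoA (qm 1024)).setHiW (qm 205)).setLoD (qm
    256))
    (by decide +kernel)))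
    (good_splitU (qm 640)
    (good_splitW (qm 308)
    (good_of_check
    (R .t4n 4038754 748835 4843164 4316501 12620973 (-867141) 5743285 11770239 12243922 (-833121)
    5743285 6463859 0 0 0 0 4600611 9431972)
    (((((((((((root.setHiD (qm 2048)).setHiD (qm 1024)).setLoU (qm 512)).setHiA (qm 2048)).setHiW
    (qm 410)).setHiD (qm 512)).setHiU (qm 768)).setLoA (qm 1024)).setLoW (qm 205)).setHiU (qm
    640)).setHiW (qm 308))
    (by decide +kernel))
    (good_of_check
    (R .t4n 4113541 1692 4843164 4246187 12467487 (-904456) 5743285 11770239 11865235 (-829203)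
    5743285 6463859 0 0 0 0 5308014 10076267)
    (((((((((((root.setHiD (qm 2048)).setHiD (qm 1024)).setLoU (qm 512)).setHiA (qm 2048)).setHiW
    (qm 410)).setHiD (qm 512)).setHiU (qm 768)).setLoA (qm 1024)).setLoW (qm 205)).setHiU (qm
    640)).setLoW (qm 308))
    (by decide +kernel)))
    (good_of_check
    Tree.full
    ((((((((((root.setHiD (qm 2048)).setHiD (qm 1024)).setLoU (qm 512)).setHiA (qm 2048)).setHiW
    (qm 410)).setHiD (qm 512)).setHiU (qm 768)).setLoA (qm 1024)).setLoW (qm 205)).setLoU (qm
    640))
    (by decide +kernel)))))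
    (good_of_check
    Tree.full
    (((((((root.setHiD (qm 2048)).setHiD (qm 1024)).setLoU (qm 512)).setHiA (qm 2048)).setHiW (qm
    410)).setHiD (qm 512)).setLoU (qm 768))
    (by decide +kernel)))
    (good_splitA (qm 1024)
    (good_splitW (qm 205)
    (good_of_check
    (R .t4n 3985744 0 5931640 3582635 12354223 (-707728) 5548540 11676451 12215249 (-690362)
    5548540 7561392 0 0 0 0 3753333 8097915)
    ((((((((root.setHiD (qm 2048)).setHiD (qm 1024)).setLoU (qm 512)).setHiA (qm 2048)).setHiW (qm
    410)).setLoD (qm 512)).setHiA (qm 1024)).setHiW (qm 205))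
    (by decide +kernel))
    (good_of_check
    (R .u5 3068427 0 5931640 3582635 12912108 (-821418) 5931639 11863286 13043007 (-848161)
    5931639 7846827 8921220 (-417433) 3753328 5308014 5308014 8913590)
    ((((((((root.setHiD (qm 2048)).setHiD (qm 1024)).setLoU (qm 512)).setHiA (qm 2048)).setHiW (qm
    410)).setLoD (qm 512)).setHiA (qm 1024)).setLoW (qm 205))
    (by decide +kernel)))
    (good_splitW (qm 205)
    (good_of_check
    (R .t4n 3985744 0 4843164 3582635 12354223 (-707728) 5548540 11676451 12215249 (-690362)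
    5548540 7561392 0 0 0 0 3753333 8097915)
    ((((((((root.setHiD (qm 2048)).setHiD (qm 1024)).setLoU (qm 512)).setHiA (qm 2048)).setHiW (qm
    410)).setLoD (qm 512)).setLoA (qm 1024)).setHiW (qm 205))
    (by decide +kernel))
    (good_of_check
    (R .u5 3068427 0 4843164 3582635 12912108 (-821418) 5931639 11863286 13043007 (-848161)
    5931639 7846827 8921220 (-417433) 3753328 5308014 5308014 8913590)
    ((((((((root.setHiD (qm 2048)).setHiD (qm 1024)).setLoU (qm 512)).setHiA (qm 2048)).setHiW (qm
    410)).setLoD (qm 512)).setLoA (qm 1024)).setLoW (qm 205))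
    (by decide +kernel)))))
    (good_of_check
    (R .t5n 3471032 0 4843164 3634859 12647885 (-799208) 5787624 11791938 12645667 (-798932)
    5787624 7850942 12233670 (-719586) 5146573 7389674 6495675 11690953)
    (((((root.setHiD (qm 2048)).setHiD (qm 1024)).setLoU (qm 512)).setHiA (qm 2048)).setLoW (qm
    410))
    (by decide +kernel)))
    (good_splitW (qm 410)
    (good_splitD (qm 512)
    (good_splitU (qm 768)
    (good_splitA (qm 3072)
    (good_splitW (qm 205)
    (good_splitD (qm 256)
    (good_splitU (qm 640)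
    (good_splitD (qm 128)
    (good_of_check
    (R .t4n 4060577 3120625 3424633 4718592 12463964 (-869398) 5885116 11840093 12810624 (-988923)
    5885116 6590200 0 0 0 0 2965823 5965631)
    ((((((((((((root.setHiD (qm 2048)).setHiD (qm 1024)).setLoU (qm 512)).setLoA (qm 2048)).setHiW
    (qm 410)).setHiD (qm 512)).setHiU (qm 768)).setHiA (qm 3072)).setHiW (qm 205)).setHiD (qm
    256)).setHiU (qm 640)).setHiD (qm 128))
    (by decide +kernel))
    (good_of_check
    (R .t4n 4067319 2125948 3424633 4543829 12539747 (-890871) 5838222 11816854 12564283 (-939160)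
    5838222 6548358 0 0 0 0 3753333 7776650)
    ((((((((((((root.setHiD (qm 2048)).setHiD (qm 1024)).setLoU (qm 512)).setLoA (qm 2048)).setHiW
    (qm 410)).setHiD (qm 512)).setHiU (qm 768)).setHiA (qm 3072)).setHiW (qm 205)).setHiD (qm
    256)).setHiU (qm 640)).setLoD (qm 128))
    (by decide +kernel)))
    (good_of_check
    Tree.full
    (((((((((((root.setHiD (qm 2048)).setHiD (qm 1024)).setLoU (qm 512)).setLoA (qm 2048)).setHiW
    (qm 410)).setHiD (qm 512)).setHiU (qm 768)).setHiA (qm 3072)).setHiW (qm 205)).setHiD (qm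
    256)).setLoU (qm 640))
    (by decide +kernel)))
    (good_of_check
    (R .t4n 4060577 0 3424633 4194304 12648460 (-896554) 5743285 11770239 12467636 (-873956)
    5743285 7111791 0 0 0 0 3753333 7802091)
    ((((((((((root.setHiD (qm 2048)).setHiD (qm 1024)).setLoU (qm 512)).setLoA (qm 2048)).setHiW
    (qm 410)).setHiD (qm 512)).setHiU (qm 768)).setHiA (qm 3072)).setHiW (qm 205)).setLoD (qm
    256))
    (by decide +kernel)))
    (good_splitU (qm 640)
    (good_splitW (qm 308)
    (good_of_check
    (R .t4n 4049663 0 3424633 4316501 12598081 (-872539) 5743285 11770239 12189114 (-832725)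
    5743285 6463859 0 0 0 0 4600611 9387325)
    (((((((((((root.setHiD (qm 2048)).setHiD (qm 1024)).setLoU (qm 512)).setLoA (qm 2048)).setHiW
    (qm 410)).setHiD (qm 512)).setHiU (qm 768)).setHiA (qm 3072)).setLoW (qm 205)).setHiU (qm
    640)).setHiW (qm 308))
    (by decide +kernel))
    (good_of_check
    (R .t4n 4113541 0 3424633 4246187 12467692 (-904509) 5743285 11770239 11865235 (-829203)
    5743285 6463859 0 0 0 0 5308014 10076267)
    (((((((((((root.setHiD (qm 2048)).setHiD (qm 1024)).setLoU (qm 512)).setLoA (qm 2048)).setHiW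
    (qm 410)).setHiD (qm 512)).setHiU (qm 768)).setHiA (qm 3072)).setLoW (qm 205)).setHiU (qm
    640)).setLoW (qm 308))
    (by decide +kernel)))
    (good_of_check
    Tree.full
    ((((((((((root.setHiD (qm 2048)).setHiD (qm 1024)).setLoU (qm 512)).setLoA (qm 2048)).setHiW
    (qm 410)).setHiD (qm 512)).setHiU (qm 768)).setHiA (qm 3072)).setLoW (qm 205)).setLoU (qm
    640))
    (by decide +kernel))))
    (good_splitW (qm 205)
    (good_splitD (qm 256)
    (good_splitU (qm 640)
    (good_splitD (qm 128)
    (good_of_check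
    (R .t4n 4078230 0 0 4718592 12461771 (-887957) 5885116 11840093 12727039 (-989367) 5885116
    6590200 0 0 0 0 2965823 5906403)
    ((((((((((((root.setHiD (qm 2048)).setHiD (qm 1024)).setLoU (qm 512)).setLoA (qm 2048)).setHiW
    (qm 410)).setHiD (qm 512)).setHiU (qm 768)).setLoA (qm 3072)).setHiW (qm 205)).setHiD (qm
    256)).setHiU (qm 640)).setHiD (qm 128))
    (by decide +kernel))
    (good_of_check
    (R .t4n 4063152 0 0 4543829 12544713 (-887790) 5838222 11816854 12584422 (-939147) 5838222
    6548358 0 0 0 0 3753333 7792649)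
    ((((((((((((root.setHiD (qm 2048)).setHiD (qm 1024)).setLoU (qm 512)).setLoA (qm 2048)).setHiW
    (qm 410)).setHiD (qm 512)).setHiU (qm 768)).setLoA (qm 3072)).setHiW (qm 205)).setHiD (qm
    256)).setHiU (qm 640)).setLoD (qm 128))
    (by decide +kernel)))
    (good_of_check
    Tree.full
    (((((((((((root.setHiD (qm 2048)).setHiD (qm 1024)).setLoU (qm 512)).setLoA (qm 2048)).setHiW
    (qm 410)).setHiD (qm 512)).setHiU (qm 768)).setLoA (qm 3072)).setHiW (qm 205)).setHiD (qm
    256)).setLoU (qm 640))
    (by decide +kernel)))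
    (good_of_check
    (R .t4n 4060577 0 0 4194304 12648460 (-896554) 5743285 11770239 12467636 (-873956) 5743285
    7111791 0 0 0 0 3753333 7802091)
    ((((((((((root.setHiD (qm 2048)).setHiD (qm 1024)).setLoU (qm 512)).setLoA (qm 2048)).setHiW
    (qm 410)).setHiD (qm 512)).setHiU (qm 768)).setLoA (qm 3072)).setHiW (qm 205)).setLoD (qm
    256))
    (by decide +kernel)))
    (good_splitU (qm 640)
    (good_splitW (qm 308)
    (good_of_check
    (R .t4n 4049663 0 0 4316501 12598081 (-872539) 5743285 11770239 12189114 (-832725) 5743285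
    6463859 0 0 0 0 4600611 9387325)
    (((((((((((root.setHiD (qm 2048)).setHiD (qm 1024)).setLoU (qm 512)).setLoA (qm 2048)).setHiW
    (qm 410)).setHiD (qm 512)).setHiU (qm 768)).setLoA (qm 3072)).setLoW (qm 205)).setHiU (qm
    640)).setHiW (qm 308))
    (by decide +kernel))
    (good_of_check
    (R .t4n 4113541 0 0 4246187 12467692 (-904509) 5743285 11770239 11865235 (-829203) 5743285
    6463859 0 0 0 0 5308014 10076267)
    (((((((((((root.setHiD (qm 2048)).setHiD (qm 1024)).setLoU (qm 512)).setLoA (qm 2048)).setHiW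
    (qm 410)).setHiD (qm 512)).setHiU (qm 768)).setLoA (qm 3072)).setLoW (qm 205)).setHiU (qm
    640)).setLoW (qm 308))
    (by decide +kernel)))
    (good_of_check
    Tree.full
    ((((((((((root.setHiD (qm 2048)).setHiD (qm 1024)).setLoU (qm 512)).setLoA (qm 2048)).setHiW
    (qm 410)).setHiD (qm 512)).setHiU (qm 768)).setLoA (qm 3072)).setLoW (qm 205)).setLoU (qm
    640))
    (by decide +kernel)))))
    (good_of_check
    Tree.full
    (((((((root.setHiD (qm 2048)).setHiD (qm 1024)).setLoU (qm 512)).setLoA (qm 2048)).setHiW (qm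
    410)).setHiD (qm 512)).setLoU (qm 768))
    (by decide +kernel)))
    (good_splitA (qm 3072)
    (good_splitW (qm 205)
    (good_of_check
    (R .t4n 3985744 0 3424633 3582635 12354223 (-707728) 5548540 11676451 12215249 (-690362)
    5548540 7561392 0 0 0 0 3753333 8097915)
    ((((((((root.setHiD (qm 2048)).setHiD (qm 1024)).setLoU (qm 512)).setLoA (qm 2048)).setHiW (qm
    410)).setLoD (qm 512)).setHiA (qm 3072)).setHiW (qm 205))
    (by decide +kernel))
    (good_of_check
    (R .u5 3068427 0 3424633 3582635 12912108 (-821418) 5931639 11863286 13043007 (-848161)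
    5931639 7846827 8921220 (-417433) 3753328 5308014 5308014 8913590)
    ((((((((root.setHiD (qm 2048)).setHiD (qm 1024)).setLoU (qm 512)).setLoA (qm 2048)).setHiW (qm
    410)).setLoD (qm 512)).setHiA (qm 3072)).setLoW (qm 205))
    (by decide +kernel)))
    (good_splitW (qm 205)
    (good_of_check
    (R .t4n 3985744 0 0 3582635 12354223 (-707728) 5548540 11676451 12215249 (-690362) 5548540
    7561392 0 0 0 0 3753333 8097915)
    ((((((((root.setHiD (qm 2048)).setHiD (qm 1024)).setLoU (qm 512)).setLoA (qm 2048)).setHiW (qm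
    410)).setLoD (qm 512)).setLoA (qm 3072)).setHiW (qm 205))
    (by decide +kernel))
    (good_of_check
    (R .u5 3068427 0 0 3582635 12912108 (-821418) 5931639 11863286 13043007 (-848161) 5931639
    7846827 8921220 (-417433) 3753328 5308014 5308014 8913590)
    ((((((((root.setHiD (qm 2048)).setHiD (qm 1024)).setLoU (qm 512)).setLoA (qm 2048)).setHiW (qm
    410)).setLoD (qm 512)).setLoA (qm 3072)).setLoW (qm 205))
    (by decide +kernel)))))
    (good_of_check
    (R .t5n 3471032 0 0 3634859 12647885 (-799208) 5787624 11791938 12645667 (-798932) 5787624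
    7850942 12233670 (-719586) 5146573 7389674 6495675 11690953)
    (((((root.setHiD (qm 2048)).setHiD (qm 1024)).setLoU (qm 512)).setLoA (qm 2048)).setLoW (qm
    410))
    (by decide +kernel))))

set_option maxHeartbeats 4000000 in
/-- One subtree of the cover. -/
theorem sub53_good : BoxGood
    ((root.setHiD (qm 2048)).setLoD (qm 1024)) :=
    (good_splitA (qm 2048)
    (good_splitU (qm 384)
    (good_splitD (qm 1536)
    (good_splitA (qm 1024)
    (good_splitU (qm 192)
    (good_splitD (qm 1280)
    (good_splitU (qm 96)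
    (good_of_check
    (R .u5 2500722 1692 5931640 3954005 12889390 165 0 11863286 2664 42 0 2568479 2664 42 0
    2568479 2568479 5218836)
    (((((((((root.setHiD (qm 2048)).setLoD (qm 1024)).setHiA (qm 2048)).setHiU (qm 384)).setHiD
    (qm 1536)).setHiA (qm 1024)).setHiU (qm 192)).setHiD (qm 1280)).setHiU (qm 96))
    (by decide +kernel))
    (good_of_check
    (R .u5 2707490 0 5931640 3822933 12806096 (-300089) 2568474 11863286 3194063 (-74818) 2568474
    3632376 1597031 43 0 3632376 3632376 7555431)
    (((((((((root.setHiD (qm 2048)).setLoD (qm 1024)).setHiA (qm 2048)).setHiU (qm 384)).setHiD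
    (qm 1536)).setHiA (qm 1024)).setHiU (qm 192)).setHiD (qm 1280)).setLoU (qm 96))
    (by decide +kernel)))
    (good_of_check
    (R .u5 2647734 0 5931640 3538944 12173998 62 0 11863286 1918545 43 0 3632376 1918545 43 0
    3632376 3632376 7967515)
    ((((((((root.setHiD (qm 2048)).setLoD (qm 1024)).setHiA (qm 2048)).setHiU (qm 384)).setHiD (qm
    1536)).setHiA (qm 1024)).setHiU (qm 192)).setLoD (qm 1280))
    (by decide +kernel)))
    (good_splitW (qm 192)
    (good_of_check
    (R .u5 2863821 0 5931640 3451563 12931794 (-562686) 3632371 11863286 10333245 (-440879)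
    3632371 5136955 926905 43 0 3632376 3632376 6581635)
    ((((((((root.setHiD (qm 2048)).setLoD (qm 1024)).setHiA (qm 2048)).setHiU (qm 384)).setHiD (qm
    1536)).setHiA (qm 1024)).setLoU (qm 192)).setHiW (qm 192))
    (by decide +kernel))
    (good_of_check
    (R .u5 2878909 0 5931640 3451563 12847283 (-561189) 3632371 11863286 10172192 (-435794)
    3632371 5136955 10172192 (-435794) 3632371 5136955 5136955 9758948)
    ((((((((root.setHiD (qm 2048)).setLoD (qm 1024)).setHiA (qm 2048)).setHiU (qm 384)).setHiD (qm
    1536)).setHiA (qm 1024)).setLoU (qm 192)).setLoW (qm 192))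
    (by decide +kernel))))
    (good_splitU (qm 192)
    (good_splitD (qm 1280)
    (good_splitU (qm 96)
    (good_of_check
    (R .u5 2500722 0 4843164 3954005 12889648 72 0 11863286 2664 42 0 2568479 2664 42 0 2568479
    2568479 5218836)
    (((((((((root.setHiD (qm 2048)).setLoD (qm 1024)).setHiA (qm 2048)).setHiU (qm 384)).setHiD
    (qm 1536)).setLoA (qm 1024)).setHiU (qm 192)).setHiD (qm 1280)).setHiU (qm 96))
    (by decide +kernel))
    (good_of_check
    (R .u5 2707490 0 4843164 3822933 12806096 (-300089) 2568474 11863286 3194063 (-74818) 2568474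
    3632376 1597031 43 0 3632376 3632376 7555431)
    (((((((((root.setHiD (qm 2048)).setLoD (qm 1024)).setHiA (qm 2048)).setHiU (qm 384)).setHiD
    (qm 1536)).setLoA (qm 1024)).setHiU (qm 192)).setHiD (qm 1280)).setLoU (qm 96))
    (by decide +kernel)))
    (good_of_check
    (R .u5 2647734 0 4843164 3538944 12173998 62 0 11863286 1918545 43 0 3632376 1918545 43 0
    3632376 3632376 7967515)
    ((((((((root.setHiD (qm 2048)).setLoD (qm 1024)).setHiA (qm 2048)).setHiU (qm 384)).setHiD (qm
    1536)).setLoA (qm 1024)).setHiU (qm 192)).setLoD (qm 1280))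
    (by decide +kernel)))
    (good_splitW (qm 192)
    (good_of_check
    (R .u5 2863821 0 4843164 3451563 12931794 (-562686) 3632371 11863286 10333245 (-440879)
    3632371 5136955 926905 43 0 3632376 3632376 6581635)
    ((((((((root.setHiD (qm 2048)).setLoD (qm 1024)).setHiA (qm 2048)).setHiU (qm 384)).setHiD (qm
    1536)).setLoA (qm 1024)).setLoU (qm 192)).setHiW (qm 192))
    (by decide +kernel))
    (good_of_check
    (R .u5 2878909 0 4843164 3451563 12847283 (-561189) 3632371 11863286 10172192 (-435794)
    3632371 5136955 10172192 (-435794) 3632371 5136955 5136955 9758948)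
    ((((((((root.setHiD (qm 2048)).setLoD (qm 1024)).setHiA (qm 2048)).setHiU (qm 384)).setHiD (qm
    1536)).setLoA (qm 1024)).setLoU (qm 192)).setLoW (qm 192))
    (by decide +kernel)))))
    (good_splitA (qm 1024)
    (good_splitU (qm 192)
    (good_of_check
    (R .u5 2700744 0 5931640 3014656 11935049 61 0 11863286 1631424 43 0 3632376 1631424 43 0
    3632376 3632376 7601442)
    (((((((root.setHiD (qm 2048)).setLoD (qm 1024)).setHiA (qm 2048)).setHiU (qm 384)).setLoD (qm
    1536)).setHiA (qm 1024)).setHiU (qm 192))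
    (by decide +kernel))
    (good_of_check
    (R .u5 2903303 0 5931640 2752512 12712667 (-558663) 3632371 11676451 9913097 (-427437) 3632371
    5136955 5353318 43 0 5136955 5136955 9608277)
    (((((((root.setHiD (qm 2048)).setLoD (qm 1024)).setHiA (qm 2048)).setHiU (qm 384)).setLoD (qm
    1536)).setHiA (qm 1024)).setLoU (qm 192))
    (by decide +kernel)))
    (good_splitU (qm 192)
    (good_of_check
    (R .u5 2700744 0 4843164 3014656 11935049 61 0 11863286 1631424 43 0 3632376 1631424 43 0
    3632376 3632376 7601442)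
    (((((((root.setHiD (qm 2048)).setLoD (qm 1024)).setHiA (qm 2048)).setHiU (qm 384)).setLoD (qm
    1536)).setLoA (qm 1024)).setHiU (qm 192))
    (by decide +kernel))
    (good_of_check
    (R .u5 2903303 0 4843164 2752512 12712667 (-558663) 3632371 11676451 9913097 (-427437) 3632371
    5136955 5353318 43 0 5136955 5136955 9608277)
    (((((((root.setHiD (qm 2048)).setLoD (qm 1024)).setHiA (qm 2048)).setHiU (qm 384)).setLoD (qm
    1536)).setLoA (qm 1024)).setLoU (qm 192))
    (by decide +kernel)))))
    (good_splitW (qm 384)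
    (good_of_check
    (R .u5 3094413 0 4843164 2708821 12682721 (-801196) 5136950 11486577 12604013 (-793818)
    5136950 7264750 4136161 43 0 5136955 5136955 8505236)
    (((((root.setHiD (qm 2048)).setLoD (qm 1024)).setHiA (qm 2048)).setLoU (qm 384)).setHiW (qm
    384))
    (by decide +kernel))
    (good_of_check
    (R .u5 3094443 0 4843164 2708821 12682579 (-801199) 5136950 11486577 12603848 (-793819)
    5136950 7264750 12603848 (-793819) 5136950 7264750 7264750 10713604)
    (((((root.setHiD (qm 2048)).setLoD (qm 1024)).setHiA (qm 2048)).setLoU (qm 384)).setLoW (qm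
    384))
    (by decide +kernel))))
    (good_splitU (qm 384)
    (good_splitD (qm 1536)
    (good_splitA (qm 3072)
    (good_splitU (qm 192)
    (good_splitD (qm 1280)
    (good_splitU (qm 96)
    (good_of_check
    (R .u5 2500722 0 3424633 3954005 12889648 72 0 11863286 2664 42 0 2568479 2664 42 0 2568479
    2568479 5218836)
    (((((((((root.setHiD (qm 2048)).setLoD (qm 1024)).setLoA (qm 2048)).setHiU (qm 384)).setHiD
    (qm 1536)).setHiA (qm 3072)).setHiU (qm 192)).setHiD (qm 1280)).setHiU (qm 96))
    (by decide +kernel))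
    (good_of_check
    (R .u5 2707490 0 3424633 3822933 12806096 (-300089) 2568474 11863286 3194063 (-74818) 2568474
    3632376 1597031 43 0 3632376 3632376 7555431)
    (((((((((root.setHiD (qm 2048)).setLoD (qm 1024)).setLoA (qm 2048)).setHiU (qm 384)).setHiD
    (qm 1536)).setHiA (qm 3072)).setHiU (qm 192)).setHiD (qm 1280)).setLoU (qm 96))
    (by decide +kernel)))
    (good_of_check
    (R .u5 2647734 0 3424633 3538944 12173998 62 0 11863286 1918545 43 0 3632376 1918545 43 0
    3632376 3632376 7967515)
    ((((((((root.setHiD (qm 2048)).setLoD (qm 1024)).setLoA (qm 2048)).setHiU (qm 384)).setHiD (qm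
    1536)).setHiA (qm 3072)).setHiU (qm 192)).setLoD (qm 1280))
    (by decide +kernel)))
    (good_splitW (qm 192)
    (good_of_check
    (R .u5 2863821 0 3424633 3451563 12931794 (-562686) 3632371 11863286 10333245 (-440879)
    3632371 5136955 926905 43 0 3632376 3632376 6581635)
    ((((((((root.setHiD (qm 2048)).setLoD (qm 1024)).setLoA (qm 2048)).setHiU (qm 384)).setHiD (qm
    1536)).setHiA (qm 3072)).setLoU (qm 192)).setHiW (qm 192))
    (by decide +kernel))
    (good_of_check
    (R .u5 2878909 0 3424633 3451563 12847283 (-561189) 3632371 11863286 10172192 (-435794)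
    3632371 5136955 10172192 (-435794) 3632371 5136955 5136955 9758948)
    ((((((((root.setHiD (qm 2048)).setLoD (qm 1024)).setLoA (qm 2048)).setHiU (qm 384)).setHiD (qm
    1536)).setHiA (qm 3072)).setLoU (qm 192)).setLoW (qm 192))
    (by decide +kernel))))
    (good_splitU (qm 192)
    (good_splitD (qm 1280)
    (good_splitU (qm 96)
    (good_of_check
    (R .u5 2500722 0 0 3954005 12889648 72 0 11863286 2664 42 0 2568479 2664 42 0 2568479 2568479
    5218836)
    (((((((((root.setHiD (qm 2048)).setLoD (qm 1024)).setLoA (qm 2048)).setHiU (qm 384)).setHiD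
    (qm 1536)).setLoA (qm 3072)).setHiU (qm 192)).setHiD (qm 1280)).setHiU (qm 96))
    (by decide +kernel))
    (good_of_check
    (R .u5 2707490 0 0 3822933 12806096 (-300089) 2568474 11863286 3194063 (-74818) 2568474
    3632376 1597031 43 0 3632376 3632376 7555431)
    (((((((((root.setHiD (qm 2048)).setLoD (qm 1024)).setLoA (qm 2048)).setHiU (qm 384)).setHiD
    (qm 1536)).setLoA (qm 3072)).setHiU (qm 192)).setHiD (qm 1280)).setLoU (qm 96))
    (by decide +kernel)))
    (good_of_check
    (R .u5 2647734 0 0 3538944 12173998 62 0 11863286 1918545 43 0 3632376 1918545 43 0 3632376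
    3632376 7967515)
    ((((((((root.setHiD (qm 2048)).setLoD (qm 1024)).setLoA (qm 2048)).setHiU (qm 384)).setHiD (qm
    1536)).setLoA (qm 3072)).setHiU (qm 192)).setLoD (qm 1280))
    (by decide +kernel)))
    (good_splitW (qm 192)
    (good_of_check
    (R .u5 2863821 0 0 3451563 12931794 (-562686) 3632371 11863286 10333245 (-440879) 3632371
    5136955 926905 43 0 3632376 3632376 6581635)
    ((((((((root.setHiD (qm 2048)).setLoD (qm 1024)).setLoA (qm 2048)).setHiU (qm 384)).setHiD (qm
    1536)).setLoA (qm 3072)).setLoU (qm 192)).setHiW (qm 192))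
    (by decide +kernel))
    (good_of_check
    (R .u5 2878909 0 0 3451563 12847283 (-561189) 3632371 11863286 10172192 (-435794) 3632371
    5136955 10172192 (-435794) 3632371 5136955 5136955 9758948)
    ((((((((root.setHiD (qm 2048)).setLoD (qm 1024)).setLoA (qm 2048)).setHiU (qm 384)).setHiD (qm
    1536)).setLoA (qm 3072)).setLoU (qm 192)).setLoW (qm 192))
    (by decide +kernel)))))
    (good_splitA (qm 3072)
    (good_splitU (qm 192)
    (good_of_check
    (R .u5 2700744 0 3424633 3014656 11935049 61 0 11863286 1631424 43 0 3632376 1631424 43 0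
    3632376 3632376 7601442)
    (((((((root.setHiD (qm 2048)).setLoD (qm 1024)).setLoA (qm 2048)).setHiU (qm 384)).setLoD (qm
    1536)).setHiA (qm 3072)).setHiU (qm 192))
    (by decide +kernel))
    (good_of_check
    (R .u5 2903303 0 3424633 2752512 12712667 (-558663) 3632371 11676451 9913097 (-427437) 3632371
    5136955 5353318 43 0 5136955 5136955 9608277)
    (((((((root.setHiD (qm 2048)).setLoD (qm 1024)).setLoA (qm 2048)).setHiU (qm 384)).setLoD (qm
    1536)).setHiA (qm 3072)).setLoU (qm 192))
    (by decide +kernel)))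
    (good_splitU (qm 192)
    (good_of_check
    (R .u5 2700744 0 0 3014656 11935049 61 0 11863286 1631424 43 0 3632376 1631424 43 0 3632376
    3632376 7601442)
    (((((((root.setHiD (qm 2048)).setLoD (qm 1024)).setLoA (qm 2048)).setHiU (qm 384)).setLoD (qm
    1536)).setLoA (qm 3072)).setHiU (qm 192))
    (by decide +kernel))
    (good_of_check
    (R .u5 2903303 0 0 2752512 12712667 (-558663) 3632371 11676451 9913097 (-427437) 3632371
    5136955 5353318 43 0 5136955 5136955 9608277)
    (((((((root.setHiD (qm 2048)).setLoD (qm 1024)).setLoA (qm 2048)).setHiU (qm 384)).setLoD (qm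
    1536)).setLoA (qm 3072)).setLoU (qm 192))
    (by decide +kernel)))))
    (good_splitW (qm 384)
    (good_of_check
    (R .u5 3094413 0 0 2708821 12682721 (-801196) 5136950 11486577 12604013 (-793818) 5136950
    7264750 4136161 43 0 5136955 5136955 8505236)
    (((((root.setHiD (qm 2048)).setLoD (qm 1024)).setLoA (qm 2048)).setLoU (qm 384)).setHiW (qm
    384))
    (by decide +kernel))
    (good_of_check
    (R .u5 3094443 0 0 2708821 12682579 (-801199) 5136950 11486577 12603848 (-793819) 5136950
    7264750 12603848 (-793819) 5136950 7264750 7264750 10713604)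
    (((((root.setHiD (qm 2048)).setLoD (qm 1024)).setLoA (qm 2048)).setLoU (qm 384)).setLoW (qm
    384))
    (by decide +kernel)))))

end Vale.Agent.P226.Cert
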