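import Vale.Agent.P226.CertBox
import Vale.Agent.P226.CertSound

/-! Part 27 of the cover (P226). -/

namespace Vale.Agent.P226.Cert

set_option maxHeartbeats 4000000 in
/-- One subtree of the cover. -/
theorem sub54_good : BoxGood
    (root.setLoD (qm 2048)) :=
    (good_splitD (qm 3072)
    (good_splitA (qm 2048)
    (good_splitD (qm 2560)
    (good_splitU (qm 256)
    (good_of_check
    (R .u5 2799944 0 4843164 2271915 11512252 42 0 11863286 3014260 43 0 4194306 3014260 43 0
    4194306 4194306 8419629)
    (((((root.setLoD (qm 2048)).setHiD (qm 3072)).setHiA (qm 2048)).setHiD (qm 2560)).setHiU (qm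
    256))
    (by decide +kernel))
    (good_of_check
    (R .u5 2984860 0 4843164 1922389 12715811 (-670277) 4194302 9378751 11597420 (-600378) 4194302
    5931644 6794053 43 0 5931644 5931644 10195490)
    (((((root.setLoD (qm 2048)).setHiD (qm 3072)).setHiA (qm 2048)).setHiD (qm 2560)).setLoU (qm
    256))
    (by decide +kernel)))
    (good_splitA (qm 1024)
    (good_splitU (qm 192)
    (good_of_check
    (R .u5 2828513 0 5931640 1616555 11383913 42 0 10273907 1057892 43 0 3632376 1057892 43 0
    3632376 3632376 6789442)
    ((((((root.setLoD (qm 2048)).setHiD (qm 3072)).setHiA (qm 2048)).setLoD (qm 2560)).setHiA (qm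
    1024)).setHiU (qm 192))
    (by decide +kernel))
    (good_of_check
    (R .u5 2967204 0 5931640 1354411 12272209 (-546837) 3632371 8122237 9242581 (-404824) 3632371
    5136955 4924004 43 0 5136955 5136955 9224364)
    ((((((root.setLoD (qm 2048)).setHiD (qm 3072)).setHiA (qm 2048)).setLoD (qm 2560)).setHiA (qm
    1024)).setLoU (qm 192))
    (by decide +kernel)))
    (good_splitU (qm 192)
    (good_of_check
    (R .u5 2828513 0 4843164 1616555 11383913 42 0 10273907 1057892 43 0 3632376 1057892 43 0
    3632376 3632376 6789442)
    ((((((root.setLoD (qm 2048)).setHiD (qm 3072)).setHiA (qm 2048)).setLoD (qm 2560)).setLoA (qm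
    1024)).setHiU (qm 192))
    (by decide +kernel))
    (good_of_check
    (R .u5 2967204 0 4843164 1354411 12272209 (-546837) 3632371 8122237 9242581 (-404824) 3632371
    5136955 4924004 43 0 5136955 5136955 9224364)
    ((((((root.setLoD (qm 2048)).setHiD (qm 3072)).setHiA (qm 2048)).setLoD (qm 2560)).setLoA (qm
    1024)).setLoU (qm 192))
    (by decide +kernel)))))
    (good_splitD (qm 2560)
    (good_splitU (qm 256)
    (good_of_check
    (R .u5 2799944 0 0 2271915 11512252 42 0 11863286 3014260 43 0 4194306 3014260 43 0 4194306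
    4194306 8419629)
    (((((root.setLoD (qm 2048)).setHiD (qm 3072)).setLoA (qm 2048)).setHiD (qm 2560)).setHiU (qm
    256))
    (by decide +kernel))
    (good_of_check
    (R .u5 2984860 0 0 1922389 12715811 (-670277) 4194302 9378751 11597420 (-600378) 4194302
    5931644 6794053 43 0 5931644 5931644 10195490)
    (((((root.setLoD (qm 2048)).setHiD (qm 3072)).setLoA (qm 2048)).setHiD (qm 2560)).setLoU (qm
    256))
    (by decide +kernel)))
    (good_splitA (qm 3072)
    (good_splitU (qm 192)
    (good_of_check
    (R .u5 2828513 0 3424633 1616555 11383913 42 0 10273907 1057892 43 0 3632376 1057892 43 0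
    3632376 3632376 6789442)
    ((((((root.setLoD (qm 2048)).setHiD (qm 3072)).setLoA (qm 2048)).setLoD (qm 2560)).setHiA (qm
    3072)).setHiU (qm 192))
    (by decide +kernel))
    (good_of_check
    (R .u5 2967204 0 3424633 1354411 12272209 (-546837) 3632371 8122237 9242581 (-404824) 3632371
    5136955 4924004 43 0 5136955 5136955 9224364)
    ((((((root.setLoD (qm 2048)).setHiD (qm 3072)).setLoA (qm 2048)).setLoD (qm 2560)).setHiA (qm
    3072)).setLoU (qm 192))
    (by decide +kernel)))
    (good_splitU (qm 192)
    (good_of_check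
    (R .u5 2828513 0 0 1616555 11383913 42 0 10273907 1057892 43 0 3632376 1057892 43 0 3632376
    3632376 6789442)
    ((((((root.setLoD (qm 2048)).setHiD (qm 3072)).setLoA (qm 2048)).setLoD (qm 2560)).setLoA (qm
    3072)).setHiU (qm 192))
    (by decide +kernel))
    (good_of_check
    (R .u5 2967204 0 0 1354411 12272209 (-546837) 3632371 8122237 9242581 (-404824) 3632371
    5136955 4924004 43 0 5136955 5136955 9224364)
    ((((((root.setLoD (qm 2048)).setHiD (qm 3072)).setLoA (qm 2048)).setLoD (qm 2560)).setLoA (qm
    3072)).setLoU (qm 192))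
    (by decide +kernel))))))
    (good_of_check
    (R .u5 3037275 0 0 524288 9762295 42 0 8388610 1748793 43 0 4194306 1748793 43 0 4194306
    4194306 7007188)
    ((root.setLoD (qm 2048)).setLoD (qm 3072))
    (by decide +kernel)))

end Vale.Agent.P226.Cert
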